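import Vale.Agent.P236K.Cert.F3

/-!
# P236K / P96 / A26 : tables of degree 26
-/

noncomputable section

namespace Vale.Agent.P236K.Cert.Pl.P96

/-- weights and block sizes -/
noncomputable def W26 : L2 := (.cons 39 250 (.cons 41 250 (.cons 43 250 (.cons 45 225 (.cons 47 225 (.cons 49 225 (.cons 51 225 (.cons 53 225 (.cons 55 225 (.cons 57 100 (.cons 72 50 (.cons 74 50 (.cons 76 50 (.cons 78 50 (.cons 80 50 (.cons 82 50 (.cons 83 50 (.cons 84 25 (.cons 85 25 (.cons 87 25 (.cons 89 25 (.cons 91 25 (.cons 93 25 (.cons 95 25 .nil))))))))))))))))))))))))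

/-- functionals which kill the image -/
noncomputable def Y26 : L3 := .nil

end Vale.Agent.P236K.Cert.Pl.P96
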