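import Vale.Agent.P236K.P96.B

/-!
# P236K / P96 / BC : the check of the box
-/

noncomputable section

namespace Vale.Agent.P236K.Cert.Pl.P96

theorem chk : B.chk = true := by decide +kernel

end Vale.Agent.P236K.Cert.Pl.P96
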