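import Vale.Agent.P236K.P96.B
import Vale.Agent.P236K.P96.A0
import Vale.Agent.P236K.P96.A1

/-!
# P236K / P96 / R0 : the check of degree 0
-/

noncomputable section

namespace Vale.Agent.P236K.Cert.Pl.P96

/-- rows given by data -/
noncomputable def D0 : List DL := [.nil,
  (.cons 2 0 0 0 0 (.cons 0 0 0 .nil) [] .nil),
  .nil,
  (.cons 2 0 0 0 0 (.cons 0 1 0 .nil) [] (.cons 1 0 0 0 0 (.cons 5 0 0 .nil) [] .nil)),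
  (.cons 0 0 1 0 0 (.cons 9 0 0 .nil) [1] .nil),
  (.cons 1 0 0 0 0 (.cons 5 0 0 .nil) [2] .nil),
  .nil,
  (.cons 1 0 0 0 0 (.cons 9 0 0 .nil) [2] .nil),
  .nil,
  (.cons 2 0 0 0 0 (.cons 0 2 0 .nil) [] (.cons 1 0 0 0 0 (.cons 9 0 0 .nil) [3] .nil)),
  (.cons 1 0 0 0 0 (.cons 10 0 0 .nil) [1, 1, 1] .nil),
  .nil,
  (.cons 0 0 3 0 0 (.cons 10 0 0 .nil) [1, 1] .nil),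
  (.cons 0 0 0 1 0 (.cons 7 0 0 .nil) [2] .nil),
  .nil,
  (.cons 1 0 0 0 0 (.cons 9 0 0 .nil) [2, 5] .nil),
  .nil,
  .nil,
  .nil,
  .nil,
  .nil,
  (.cons 1 0 0 0 0 (.cons 10 0 0 .nil) [2, 11, 0] .nil),
  .nil,
  .nil,
  .nil,
  .nil,
  .nil,
  (.cons 2 0 0 0 0 (.cons 0 3 0 .nil) [] (.cons 1 0 0 0 0 (.cons 10 0 0 .nil) [3, 2, 10] .nil)),
  (.cons 1 0 0 0 0 (.cons 11 0 0 .nil) [5, 0, 1, 0, 1, 0, 2, 2, 0] .nil),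
  .nil,
  (.cons 1 0 0 0 0 (.cons 11 0 0 .nil) [1, 1, 1, 0, 0, 0, 7, 1, 0, 0] .nil),
  .nil,
  .nil,
  .nil,
  .nil,
  .nil,
  (.cons 0 0 9 0 0 (.cons 11 0 0 .nil) [1, 1, 3, 1] .nil),
  .nil,
  .nil,
  (.cons 0 0 0 3 0 (.cons 9 0 0 .nil) [2, 19, 0, 11] .nil),
  (.cons 0 0 0 0 1 (.cons 5 0 0 .nil) [22] .nil),
  .nil,
  .nil,
  .nil,
  .nil,
  (.cons 1 0 0 0 0 (.cons 10 0 0 .nil) [2, 21, 1, 4, 1, 1, 1, 5, 2, 3] .nil),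
  .nil,
  .nil,
  .nil,
  .nil,
  .nil,
  .nil,
  .nil,
  .nil,
  .nil,
  .nil,
  .nil,
  .nil,
  .nil,
  .nil,
  .nil,
  .nil,
  .nil,
  (.cons 1 0 0 0 0 (.cons 11 0 0 .nil) [2, 28, 1, 0, 0, 3, 0, 3, 6, 3, 2, 2, 1, 1, 7, 3, 0, 4, 6, 1, 0, 2, 1] .nil),
  .nil,
  .nil,
  .nil,
  .nil,
  .nil,
  .nil,
  .nil,
  .nil,
  .nil,
  .nil,
  .nil,
  .nil,
  .nil,
  .nil,
  .nil,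
  .nil,
  .nil,
  (.cons 2 0 0 0 0 (.cons 0 4 0 .nil) [] (.cons 1 0 0 0 0 (.cons 11 0 0 .nil) [3, 4, 6, 1, 29, 0, 2, 0, 3, 28, 4, 1, 0, 4, 0, 1, 0, 0, 0, 5, 1, 9, 5, 7, 8, 0, 4, 3, 1, 7, 2, 1, 5, 0] .nil)),
  (.cons 1 0 0 0 0 (.cons 6 0 0 .nil) [13, 1, 0, 1, 2, 1, 0, 0, 0, 0, 0, 0, 0, 1, 9, 5, 14, 1, 0, 1, 0, 0, 1, 2, 2, 0, 0, 1, 0, 2, 0, 3, 0, 1, 0, 1, 1, 0, 1, 1, 1, 2, 0, 4, 4, 1, 1, 1, 1, 1, 1, 1, 0, 0, 2, 1, 0, 0, 0, 3, 2, 1, 2, 0, 6, 0, 1, 0, 0, 1] .nil),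
  .nil,
  (.cons 1 0 0 0 0 (.cons 9 0 0 .nil) [5, 0, 1, 0, 1, 1, 0, 0, 0, 0, 1, 1, 0, 4, 1, 14, 1, 4, 0, 1, 1, 1, 1, 0, 0, 1, 1, 1, 0, 3, 1, 1, 0, 3, 0, 3, 2, 0, 0, 6, 0, 3, 1, 3, 7, 1, 2, 0, 0, 0, 0, 13, 0, 1, 0, 0, 1, 5, 0, 1, 0, 3, 0, 4, 1, 0, 1, 0, 2, 0, 3] .nil),
  .nil,
  .nil,
  .nil,
  .nil,
  .nil,
  (.cons 1 0 0 0 0 (.cons 10 0 0 .nil) [0, 0, 1, 1, 2, 3, 1, 1, 0, 1, 13, 1, 8, 8, 3, 0, 0, 1, 0, 1, 0, 4, 0, 13, 3, 4, 3, 0, 0, 0, 0, 0, 1, 1, 7, 0, 0, 1, 0, 1, 1, 1, 1, 3, 1, 1, 5, 0, 4, 0, 4, 0, 9, 0, 2, 3, 2, 3, 2, 5, 7, 3, 0, 1, 6, 1, 1, 3, 3] .nil),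
  .nil,
  .nil,
  .nil,
  .nil,
  .nil,
  .nil]

theorem ok0 : run B sp W0 W1 G0 Y0 Y1 38 K0 D0 = true := by decide +kernel

end Vale.Agent.P236K.Cert.Pl.P96
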