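import Vale.Agent.P236K.P96.B
import Vale.Agent.P236K.P96.A1
import Vale.Agent.P236K.P96.A2

/-!
# P236K / P96 / R1 : the check of degree 1
-/

noncomputable section

namespace Vale.Agent.P236K.Cert.Pl.P96

/-- rows given by data -/
noncomputable def D1 : List DL := [.nil,
  .nil,
  .nil,
  (.cons 2 0 0 0 0 (.cons 0 0 1 .nil) [] .nil),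
  (.cons 1 0 0 0 0 (.cons 5 0 0 .nil) [] .nil),
  (.cons 2 0 0 0 0 (.cons 0 1 0 .nil) [] .nil),
  (.cons 1 0 0 0 0 (.cons 9 0 0 .nil) [0] .nil),
  (.cons 2 0 0 0 0 (.cons 0 2 1 .nil) [0] .nil),
  (.cons 1 0 0 0 0 (.cons 9 0 0 .nil) [0] .nil),
  (.cons 2 1 0 0 0 (.cons 0 3 1 .nil) [] .nil),
  (.cons 2 0 0 0 0 (.cons 0 4 0 .nil) [] (.cons 1 0 0 0 0 (.cons 9 0 0 .nil) [2, 0] .nil)),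
  .nil,
  (.cons 0 0 2 0 0 (.cons 9 0 0 .nil) [] (.cons 1 0 0 0 0 (.cons 10 0 0 .nil) [0, 0, 0] .nil)),
  .nil,
  (.cons 0 1 0 0 0 (.cons 10 0 0 .nil) [1] .nil),
  (.cons 2 1 0 0 0 (.cons 0 5 0 .nil) [8] (.cons 1 0 0 0 0 (.cons 5 0 0 .nil) [3, 5, 1] .nil)),
  (.cons 0 1 1 0 0 (.cons 10 0 0 .nil) [0, 1, 2] .nil),
  .nil,
  (.cons 1 0 0 0 0 (.cons 10 0 0 .nil) [0, 5, 1, 4] .nil),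
  .nil,
  .nil,
  (.cons 2 1 0 0 0 (.cons 0 6 1 .nil) [0, 7, 5] (.cons 1 0 0 0 0 (.cons 9 0 0 .nil) [2, 7, 5, 1] .nil)),
  .nil,
  (.cons 1 0 0 0 0 (.cons 10 0 0 .nil) [1, 0, 0, 2, 7, 1, 0, 0, 1] .nil),
  (.cons 1 0 0 0 0 (.cons 10 0 0 .nil) [0, 14, 2, 0, 1] .nil),
  (.cons 0 1 3 0 0 (.cons 10 0 0 .nil) [2, 4, 1, 6] .nil),
  .nil,
  (.cons 2 2 0 0 0 (.cons 0 7 1 .nil) [] .nil),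
  (.cons 2 0 0 0 0 (.cons 0 8 0 .nil) [3, 9, 12, 3] (.cons 1 0 0 0 0 (.cons 10 0 0 .nil) [4, 5, 4, 5, 3, 1, 2, 0] .nil)),
  .nil,
  (.cons 2 1 0 0 0 (.cons 0 9 0 .nil) [14, 3, 9] (.cons 1 0 0 0 0 (.cons 10 0 0 .nil) [2, 0, 11, 11, 1, 1, 1, 2] (.cons 1 0 0 0 0 (.cons 11 0 0 .nil) [6, 3, 1, 1, 1, 4, 1, 2, 2, 2, 3] .nil))),
  .nil,
  (.cons 1 0 0 0 0 (.cons 11 0 0 .nil) [0, 5, 3, 0, 1, 0, 3, 0, 1, 3, 0, 3, 0, 0, 2, 0, 1] .nil),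
  .nil,
  (.cons 1 0 0 0 0 (.cons 11 0 0 .nil) [0, 0, 1, 0, 3, 2, 3, 1, 4, 1, 3, 1, 2, 0, 1, 1, 0, 3, 0] .nil),
  .nil,
  (.cons 0 1 6 0 0 (.cons 10 0 0 .nil) [16] (.cons 1 0 0 0 0 (.cons 11 0 0 .nil) [0, 0, 1, 0, 7, 3, 1, 5, 9, 1, 1, 0, 3, 2, 7, 0] .nil)),
  (.cons 0 2 0 0 0 (.cons 11 0 0 .nil) [1] .nil),
  .nil,
  (.cons 0 1 0 2 0 (.cons 5 6 0 .nil) [3, 31, 2, 15, 3, 0, 2, 5] .nil),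
  .nil,
  .nil,
  (.cons 0 2 0 0 0 (.cons 11 0 0 .nil) [1] .nil),
  (.cons 0 2 1 0 0 (.cons 9 1 0 .nil) [17] .nil),
  (.cons 0 2 2 0 0 (.cons 5 0 0 .nil) [21, 2, 17] .nil),
  (.cons 2 2 0 0 0 (.cons 0 10 0 .nil) [8, 20, 8, 22, 6, 4] (.cons 1 0 0 0 0 (.cons 9 0 0 .nil) [5, 3, 1, 9, 3, 3, 1, 0, 5, 4, 10, 13, 0, 1, 1, 0, 2, 1, 2, 5, 0, 0, 1] .nil)),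
  (.cons 1 0 0 0 0 (.cons 10 0 0 .nil) [2, 5, 2, 4, 3, 3, 2, 1, 11, 2, 1, 1, 0, 0, 3, 0, 0, 1, 0, 1, 0, 0, 0, 0, 2, 2, 0, 2, 2, 3, 0] .nil),
  .nil,
  (.cons 0 2 3 0 0 (.cons 11 0 0 .nil) [0, 1, 4, 11] .nil),
  (.cons 0 1 9 0 0 (.cons 7 0 0 .nil) [10, 4, 9, 0, 0, 6, 6, 1] .nil),
  .nil,
  .nil,
  (.cons 0 2 0 1 0 (.cons 7 1 0 .nil) [5, 6, 2, 0, 11, 2, 0, 6, 4, 0, 5] .nil),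
  (.cons 0 2 1 1 0 (.cons 5 0 0 .nil) [102, 3, 28] .nil),
  (.cons 1 0 0 0 0 (.cons 11 0 0 .nil) [0, 5, 1, 23, 0, 1, 27, 0, 1, 4, 4, 0, 1, 3, 14, 6, 7, 0, 0, 0, 10, 8] .nil),
  .nil,
  .nil,
  .nil,
  .nil,
  .nil,
  .nil,
  (.cons 1 0 0 0 0 (.cons 8 0 0 .nil) [10, 53, 15, 6, 4, 1, 2, 1, 0, 2, 0, 0, 0, 3, 6, 1, 1, 0, 3, 5, 3, 1, 2, 4, 0, 1, 1, 11, 4, 0, 5, 1, 7, 7] .nil),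
  .nil,
  (.cons 2 2 0 0 0 (.cons 0 11 1 .nil) [4, 5, 1, 21, 2, 3, 0, 20, 2, 9, 15, 3, 0, 0, 1, 3, 4, 0, 3, 1, 3, 1, 1, 8, 5, 0, 0, 3, 0, 6, 1, 3, 0, 1, 4, 9, 0, 5, 8] (.cons 1 0 0 0 0 (.cons 10 0 0 .nil) [6, 5, 1, 21, 3, 2, 0, 20, 3, 9, 0, 3, 4, 1, 1, 4, 0, 1, 1, 0, 0, 0, 3, 0, 1, 5, 0, 1, 0, 0, 0, 10, 1, 3, 0, 7, 1, 11, 0, 9, 1, 5, 3, 0, 2, 0, 3, 0, 4] .nil)),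
  (.cons 1 0 0 0 0 (.cons 11 0 0 .nil) [2, 2, 13, 0, 5, 1, 5, 0, 1, 0, 1, 6, 13, 3, 2, 1, 0, 0, 0, 0, 1, 0, 1, 3, 0, 3, 3, 0, 0, 1, 3, 1, 0, 1, 0, 1, 4, 4, 1, 1, 3, 5, 0, 1, 0, 0, 1, 1, 0, 0, 3, 1, 4, 2, 2, 5, 0, 1, 0, 0, 3, 0, 2, 2, 1, 2, 1, 6, 0] .nil),
  .nil,
  .nil,
  .nil,
  .nil,
  (.cons 1 0 0 0 0 (.cons 11 0 0 .nil) [1, 2, 0, 0, 5, 3, 16, 4, 0, 6, 0, 7, 4, 0, 0, 2, 4, 3, 0, 1, 2, 0, 1, 0, 8, 5, 0, 3, 0, 1, 0, 0, 5, 1, 1, 1, 1, 0, 0, 5, 0, 1, 0, 1, 1, 7, 0, 4, 1, 1, 1, 1, 0, 1, 5, 0, 5, 1, 0, 3, 0, 0, 2, 13, 0, 1, 0, 1, 0, 8, 3, 7, 4, 2, 0, 1] .nil),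
  .nil,
  .nil,
  (.cons 1 0 0 0 0 (.cons 11 0 0 .nil) [0, 16, 27, 0, 22, 19, 4, 0, 0, 1, 1, 1, 8, 0, 1, 4, 7, 7, 3, 1, 1, 3, 2, 1, 5, 1, 4, 0, 1, 2, 7, 4, 4, 3, 6, 11, 2, 25, 13, 0, 5, 0, 1, 4, 3, 7] .nil),
  .nil,
  .nil,
  (.cons 0 2 9 0 0 (.cons 11 0 0 .nil) [6, 0, 1, 8, 17, 6, 6, 12, 9, 7] .nil),
  (.cons 0 2 10 0 0 (.cons 8 1 0 .nil) [32, 54] .nil),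
  .nil,
  .nil,
  (.cons 0 2 1 3 0 (.cons 8 0 0 .nil) [3, 14, 0, 1, 17, 1, 7, 8, 2, 6, 11, 1, 8, 4, 3, 37, 16, 1, 4, 0, 1, 1, 3, 0, 0, 0, 0, 0, 0, 0, 0, 0, 3, 0, 1, 37, 0, 1, 0, 1, 0, 3, 3, 0, 5, 0, 0, 1, 1, 3, 1, 0, 2, 3, 0, 7, 6] .nil),
  .nil,
  (.cons 2 3 0 0 0 (.cons 0 12 1 .nil) [] .nil),
  (.cons 2 0 0 0 0 (.cons 0 13 0 .nil) [44, 19, 127, 31, 2, 4, 20, 40, 6, 58, 0, 1, 1, 6, 11, 10, 3, 2] (.cons 1 0 0 0 0 (.cons 11 0 0 .nil) [3, 3, 0, 16, 11, 0, 2, 1, 2, 0, 0, 4, 3, 0, 21, 0, 1, 2, 2, 4, 2, 3, 6, 0, 5, 11, 0, 2, 0, 1, 2, 2, 1, 4, 1, 1, 0, 0, 6, 1, 0, 2, 3, 2, 1, 1, 3, 1, 2, 2, 0, 1, 1, 1, 3, 0, 3, 4, 1, 0, 3, 1, 2, 0, 1, 2, 1, 0, 2, 0, 1, 3, 0, 1, 1, 3, 0,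 2, 3, 3, 0, 1, 0, 1, 1, 0, 0, 6, 12, 0, 1, 0, 4, 3, 2, 0, 0, 0, 0, 3, 5, 0, 1, 0, 7, 1, 5, 7, 5, 0, 0, 10, 6] .nil)),
  .nil,
  (.cons 2 1 0 0 0 (.cons 0 14 1 .nil) [4, 5, 5, 26, 10, 1, 21, 9, 18, 45, 6, 2, 8, 1, 1, 5, 5, 6, 3, 6, 6, 0, 14, 38, 4, 6, 4, 1, 21, 1, 3, 1, 11, 10, 4, 1, 5, 3, 2, 1, 3, 0, 3, 2, 0, 3, 2, 3, 2, 2, 4, 2, 1, 1, 5, 3, 2, 3, 0, 2, 1, 1, 4] (.cons 1 0 0 0 0 (.cons 6 0 0 .nil) [7, 18, 12, 1, 0, 0, 0, 0, 8, 13, 1, 0, 0, 0, 0, 0, 8, 1, 16, 0, 5, 12, 25, 1, 1, 0, 0, 5, 3, 9, 2, 1, 1, 0, 1, 1, 1, 3, 0, 0, 7, 3, 4, 1, 1, 1, 4, 0, 5, 0, 0, 4, 1, 4, 3, 3, 1, 3, 0, 0, 5, 12, 0, 2, 1, 6, 0, 11, 1, 1, 1, 1, 1, 6, 1, 10, 0, 1, 1, 4, 6, 2, 0, 5, 0, 0, 1,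 1, 0, 0, 3, 2, 0, 3, 1, 2, 11, 1, 0, 1, 5] (.cons 1 0 0 0 0 (.cons 11 0 0 .nil) [5, 1, 4, 2, 7, 18, 0, 4, 3, 0, 1, 0, 1, 2, 3, 6, 0, 8, 19, 5, 3, 6, 0, 0, 0, 1, 15, 1, 0, 2, 3, 1, 1, 3, 0, 1, 1, 1, 0, 1, 0, 1, 1, 2, 0, 2, 1, 0, 5, 2, 0, 0, 0, 0, 3, 1, 0, 1, 1, 3, 4, 5, 0, 1, 0, 3, 0, 0, 1, 2, 3, 5, 1, 3, 3, 0, 2, 1, 1, 0, 1, 6, 4, 0, 2, 3, 3, 2, 5, 1, 7, 2, 2, 0, 0, 4, 0, 3, 0, 5, 0, 0, 1, 0, 1, 4, 0, 0, 3, 1, 1, 0, 5, 0, 1, 1, 1, 10, 3, 3, 0, 2, 1, 6] .nil))),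
  .nil,
  (.cons 1 0 0 0 0 (.cons 6 0 0 .nil) [0, 22, 1, 1, 0, 0, 5, 2, 1, 2, 3, 0, 1, 2, 0, 1, 0, 2, 0, 1, 5, 0, 0, 2, 3, 1, 0, 0, 15, 15, 1, 5, 1, 3, 0, 2, 2, 0, 1, 0, 4, 0, 4, 1, 2, 0, 2, 0, 1, 0, 1, 0, 0, 1, 0, 1, 1, 1, 2, 2, 0, 1, 0, 0, 1, 4, 0, 1, 0, 7, 4, 0, 0, 0, 3, 3, 0, 1, 1, 2, 0, 0, 4, 1, 0, 0, 0, 5, 2, 4, 0, 0, 0, 1, 0, 2, 1, 0, 1, 1, 1, 1, 0, 1, 5, 1, 5, 7, 1, 0, 1, 5, 2, 1, 1, 2, 1, 0, 0, 5, 1, 1, 4, 1, 1, 0, 0, 3, 0, 1, 0, 1, 2, 0, 2, 1, 2, 3, 1, 0, 0, 1, 4, 3, 0, 6, 3, 2, 1, 0, 1, 3, 1] .nil),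
  .nil,
  (.cons 1 0 0 0 0 (.cons 9 0 0 .nil) [0, 5, 1, 1, 0, 0, 2, 3, 1, 0, 0, 6, 1, 6, 1, 6, 0, 0, 2, 1, 1, 2, 1, 2, 5, 0, 4, 23, 1, 11, 3, 5, 0, 7, 0, 3, 6, 2, 0, 3, 0, 0, 2, 1, 0, 4, 5, 1, 1, 2, 1, 1, 0, 1, 2, 3, 1, 1, 2, 0, 1, 1, 3, 0, 1, 3, 1, 3, 3, 1, 0, 8, 0, 1, 6, 1, 1, 2, 0, 2, 2, 1, 0, 1, 2, 3, 1, 2, 0, 0, 1, 0, 0, 0, 3, 1, 1, 1, 1, 2, 1, 0, 1, 1, 1, 1, 3, 1, 3, 1, 1, 0, 1, 8, 0, 1, 0, 0, 1, 1, 4, 6, 3, 4, 3, 0, 0, 4, 0, 2, 1, 1, 0, 0, 1, 0, 0, 1, 2, 1, 9, 3, 3, 5, 1, 5, 0, 1, 3, 9, 1, 5] .nil),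
  .nil,
  (.cons 2 2 0 0 0 (.cons 0 15 1 .nil) [88, 15, 5, 84, 29, 1, 7, 1, 1, 4, 7, 6, 7, 8, 33, 4, 13, 13, 4, 9, 0, 10, 9, 47, 7, 5, 4, 3, 8, 6, 3, 0, 0, 3, 0, 33, 12, 11, 5] (.cons 1 0 0 0 0 (.cons 11 0 0 .nil) [2, 4, 5, 47, 1, 0, 1, 41, 12, 2, 0, 4, 1, 1, 3, 0, 2, 4, 1, 2, 0, 11, 3, 0, 3, 2, 6, 9, 0, 16, 5, 2, 16, 2, 6, 1, 1, 1, 0, 0, 1, 0, 0, 0, 0, 0, 3, 0, 3, 2, 1, 0, 1, 1, 3, 1, 3, 0, 0, 2, 8, 4, 3, 0, 2, 21, 2, 3, 0, 26, 2, 13, 7, 3, 7, 3, 1, 9, 0, 3, 7, 1, 11, 1, 13, 1, 0, 8, 6, 16] (.cons 1 0 0 0 0 (.cons 9 2 0 .nil) [5, 5, 3, 1, 3, 0, 2, 17, 14, 0, 1, 0, 6, 0, 1, 26, 0, 28, 5, 9, 0, 1, 2, 24, 2, 0, 1, 0, 1, 0, 1, 1, 0, 4, 0, 5, 1, 3, 3, 1, 1, 0, 2, 1, 11,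 0, 0, 1, 0, 3, 1, 1, 2, 4, 0, 0, 0, 1, 1, 1, 5, 4, 0, 0, 2, 3, 0, 3, 0, 0, 3, 0, 3, 1, 0, 1, 4, 0, 4, 0, 3, 0, 3, 7, 0, 1, 1, 2, 1, 1, 23, 0, 3, 2, 3, 1, 1, 5, 1, 0, 1, 1, 3, 1, 0, 0, 1, 1, 1, 6, 1, 0, 1, 1, 1, 0, 0, 1, 15, 1, 3, 1, 0, 0, 1, 0, 5, 1, 2, 0, 1, 1, 12, 1, 2] .nil))),
  (.cons 1 0 0 0 0 (.cons 10 0 0 .nil) [0, 0, 1, 0, 3, 3, 10, 15, 2, 3, 4, 0, 0, 0, 0, 3, 1, 1, 1, 1, 5, 5, 9, 0, 1, 0, 1, 0, 1, 0, 1, 4, 1, 0, 2, 0, 3, 1, 0, 5, 4, 3, 1, 1, 5, 0, 18, 0, 1, 11, 1, 0, 0, 3, 1, 1, 1, 0, 1, 2, 0, 1, 3, 3, 5, 1, 0, 1, 0, 0, 2, 4, 1, 0, 1, 2, 0, 0, 0, 0, 1, 0, 1, 3, 6, 3, 3, 0, 4, 0, 3, 0, 0, 0, 1, 0, 5, 1, 1, 0, 3, 0, 1, 2, 2, 0, 1, 0, 3, 0, 1, 4, 3, 1, 0, 1,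 3, 2, 0, 2, 0, 6, 0, 4, 0, 1, 1, 0, 5, 1, 0, 0, 0, 1, 2, 0, 0, 0, 3, 1, 6, 0, 1, 3, 1, 0, 0, 1, 4, 1, 0, 3, 4, 1, 2, 1, 11, 3, 0, 1, 1, 1, 4, 0, 1, 2, 1, 5, 4, 0, 0, 1, 1, 0, 0] .nil),
  .nil,
  .nil,
  .nil,
  .nil,
  (.cons 1 0 0 0 0 (.cons 9 0 0 .nil) [1, 4, 3, 0, 1, 0, 3, 0, 2, 0, 1, 23, 6, 1, 0, 0, 0, 3, 2, 2, 1, 1, 8, 2, 4, 9, 1, 0, 1, 11, 7, 1, 0, 0, 5, 0, 3, 0, 3, 7, 0, 1, 0, 2, 4, 11, 1, 0, 5, 1, 1, 1, 1, 1, 2, 1, 0, 0, 0, 1, 0, 1, 0, 0, 4, 3, 1, 1, 0, 0, 7, 0, 4, 1, 1, 1, 3, 1, 7, 5, 7, 4, 9, 0, 0, 1, 2, 1, 1, 3, 5, 1, 5, 2, 3, 3, 2, 3, 1, 3, 1, 0, 0, 0, 0, 2, 4, 1, 2, 0, 6, 3, 0, 3, 0, 4, 2, 2, 1, 1, 1, 0, 1, 1, 6, 9, 3, 1, 1, 2, 0, 1, 0, 2, 0, 4, 2, 0,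 1, 1, 1, 1, 2, 0, 1, 0, 3, 1, 1, 2, 1, 1, 1, 2, 0, 1, 0, 0, 0, 3, 3, 2, 5, 8, 5, 0, 3, 1, 0, 2, 1, 2, 1, 5, 3, 2, 3, 1, 3, 1, 1, 3, 2, 2, 1, 3, 1] .nil)]

theorem ok1 : run B sp W1 W2 G1 Y1 Y2 138 K1 D1 = true := by decide +kernel

end Vale.Agent.P236K.Cert.Pl.P96
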