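import Vale.Agent.P236K.P96.B
import Vale.Agent.P236K.P96.A10
import Vale.Agent.P236K.P96.A11

/-!
# P236K / P96 / R10 : the check of degree 10
-/

noncomputable section

namespace Vale.Agent.P236K.Cert.Pl.P96

/-- rows given by data -/
noncomputable def D10 : List DL := [.nil,
  .nil,
  .nil,
  .nil,
  .nil,
  .nil,
  .nil,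
  .nil,
  .nil,
  .nil,
  .nil,
  .nil,
  .nil,
  .nil,
  .nil,
  .nil,
  (.cons 2 0 0 0 0 (.cons 0 0 0 .nil) [] .nil),
  .nil,
  (.cons 2 0 0 0 0 (.cons 0 1 0 .nil) [] (.cons 1 0 0 0 0 (.cons 5 0 0 .nil) [] .nil)),
  (.cons 0 1 0 0 0 (.cons 9 0 0 .nil) [1] .nil),
  (.cons 2 1 0 0 0 (.cons 0 2 0 .nil) [] (.cons 1 0 0 0 0 (.cons 5 0 0 .nil) [4] .nil)),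
  .nil,
  (.cons 2 2 0 0 0 (.cons 0 3 0 .nil) [] (.cons 1 0 0 0 0 (.cons 9 0 0 .nil) [2, 2] .nil)),
  .nil,
  (.cons 2 0 0 0 0 (.cons 0 4 0 .nil) [] (.cons 1 0 0 0 0 (.cons 9 0 0 .nil) [2, 1, 1, 3] .nil)),
  (.cons 0 3 0 0 0 (.cons 10 0 0 .nil) [5] .nil),
  (.cons 1 0 0 0 0 (.cons 9 0 0 .nil) [3, 1, 2, 3] .nil),
  (.cons 0 1 0 0 0 (.cons 10 0 0 .nil) [1] (.cons 2 3 0 0 0 (.cons 0 5 1 .nil) [0, 7, 5] .nil)),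
  (.cons 0 4 0 0 0 (.cons 9 1 0 .nil) [6] (.cons 1 0 0 0 0 (.cons 9 0 0 .nil) [1, 7, 0, 1, 0, 0] .nil)),
  (.cons 2 4 0 0 0 (.cons 0 6 1 .nil) [9, 0, 6] .nil),
  (.cons 0 2 0 0 0 (.cons 9 1 0 .nil) [5] (.cons 1 0 0 0 0 (.cons 9 0 0 .nil) [8, 2, 1, 0] .nil)),
  (.cons 2 5 0 0 0 (.cons 0 7 1 .nil) [] .nil),
  (.cons 1 0 0 0 0 (.cons 9 0 0 .nil) [10, 3] .nil),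
  (.cons 2 3 0 0 0 (.cons 0 8 0 .nil) [12, 1, 8, 3] .nil),
  (.cons 0 6 0 0 0 (.cons 9 0 0 .nil) [] (.cons 1 0 0 0 0 (.cons 10 0 0 .nil) [1, 12, 1, 0, 7, 1, 2, 1, 0] .nil)),
  (.cons 2 1 0 0 0 (.cons 0 9 1 .nil) [1, 6, 4, 12, 1, 11] .nil),
  (.cons 0 4 0 0 0 (.cons 10 0 0 .nil) [2] (.cons 1 0 0 0 0 (.cons 10 1 0 .nil) [0, 2, 0, 2, 0, 0, 0, 3, 0, 10, 0, 2, 2, 0] .nil)),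
  (.cons 0 7 0 0 0 (.cons 9 0 0 .nil) [] .nil),
  (.cons 0 2 0 0 0 (.cons 10 1 0 .nil) [2] .nil),
  (.cons 0 5 0 0 0 (.cons 9 2 0 .nil) [12] .nil),
  .nil,
  (.cons 0 3 0 0 0 (.cons 9 0 0 .nil) [17] .nil),
  (.cons 0 6 0 0 0 (.cons 10 1 0 .nil) [1] .nil),
  .nil,
  (.cons 0 4 0 0 0 (.cons 10 0 0 .nil) [] .nil),
  (.cons 0 7 0 0 0 (.cons 9 0 0 .nil) [] .nil),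
  .nil,
  (.cons 0 5 0 0 0 (.cons 10 1 0 .nil) [2] .nil),
  (.cons 0 8 0 0 0 (.cons 9 0 0 .nil) [] .nil),
  (.cons 2 10 0 0 0 (.cons 0 10 0 .nil) [5, 1, 27, 5, 0, 10, 4, 2, 26, 1, 4] .nil),
  (.cons 0 6 0 0 0 (.cons 9 2 0 .nil) [20] .nil),
  (.cons 2 10 0 0 0 (.cons 0 11 0 .nil) [4, 26, 0, 0, 3, 0, 3, 1, 0, 5, 0, 10, 5, 3, 4, 0, 3, 1, 1, 0, 2, 13, 3, 9, 1] (.cons 1 0 0 0 0 (.cons 5 13 0 .nil) [6, 1, 10, 0, 0, 9, 9, 3, 5, 0, 14, 8, 4, 6, 1, 3, 11, 4, 10, 0] .nil)),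
  (.cons 0 11 0 0 0 (.cons 9 0 0 .nil) [31] .nil),
  (.cons 0 7 0 0 0 (.cons 10 0 0 .nil) [] (.cons 1 0 0 0 0 (.cons 5 0 0 .nil) [2, 0, 3, 12, 2, 11, 3, 4, 0, 1, 6, 3, 1, 0, 7, 6, 0, 1, 5, 3, 4, 8, 4, 0, 1, 12, 4, 1, 0] .nil)),
  (.cons 2 11 0 0 0 (.cons 0 12 0 .nil) [28, 7, 4, 6, 13, 11, 0, 17, 11, 1, 15, 3, 0, 3, 12] .nil),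
  (.cons 1 0 0 0 0 (.cons 9 0 0 .nil) [3, 1, 1, 0, 5, 4, 0, 2, 8, 1, 4, 1, 4, 3, 1, 1, 4, 0, 0, 0, 4, 4, 1, 4, 1, 1, 0, 5, 1, 5, 1, 3, 1, 1, 3, 3, 2, 3, 1, 1, 0, 1, 1, 3, 1, 1, 0, 1, 3, 0] .nil),
  (.cons 0 8 0 0 0 (.cons 9 0 0 .nil) [] (.cons 2 9 0 0 0 (.cons 0 13 0 .nil) [1, 20, 0, 7, 2, 0, 1, 3, 1, 2, 1, 3, 1, 5, 0, 2, 3, 0, 3, 0, 1, 0, 3, 0, 3, 4, 0, 2, 1, 1, 1, 1, 2, 2, 0, 1, 9, 0, 4, 6, 4, 3, 0, 0] .nil)),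
  (.cons 0 12 0 0 0 (.cons 5 0 0 .nil) [4] (.cons 1 0 0 0 0 (.cons 9 4 0 .nil) [1, 5, 1, 1, 2, 3, 1, 1, 14, 3, 1, 6, 5, 3, 10, 0, 3, 1, 0, 9, 5, 0, 1, 0, 1, 2, 4, 7, 2, 0, 1, 0, 0, 2, 8, 0, 0, 0, 4, 4, 0, 3, 0, 2, 2] .nil)),
  (.cons 2 7 0 0 0 (.cons 0 14 0 .nil) [8, 30, 13, 4, 1, 4, 0, 3, 2, 5, 2, 24, 1, 9, 2, 1, 0, 3, 9, 12, 1, 6, 2, 1, 1, 2] .nil),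
  (.cons 0 12 0 0 0 (.cons 9 1 0 .nil) [3] (.cons 1 0 0 0 0 (.cons 5 0 0 .nil) [5, 8, 15, 9, 2, 1, 1, 5, 0, 1, 0, 0, 1, 5, 13, 1, 1, 0, 2, 4, 0, 1, 3, 11, 0, 1, 1, 1, 0, 3, 0, 5, 5, 1, 2, 1, 0, 0, 5, 0, 1, 7, 3, 4, 8, 0] .nil)),
  (.cons 2 7 0 0 0 (.cons 0 16 1 .nil) [40, 4, 3, 5, 0, 3, 1, 1, 0, 4, 6, 1, 20, 0, 7, 3, 1, 0, 8, 1, 3, 1, 3, 5, 0, 2, 0, 0, 3, 2, 1, 7, 1, 4, 4, 1, 11, 4] (.cons 2 15 0 0 0 (.cons 0 15 0 .nil) [183] .nil)),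
  (.cons 1 0 0 0 0 (.cons 9 0 0 .nil) [9, 1, 0, 21, 8, 10, 5, 0, 0, 6, 2, 2, 5, 1, 2, 3, 8, 1, 7, 8, 0, 3, 0, 1, 3, 0, 8, 1, 2, 3, 2, 0, 6, 1, 5, 3, 4, 0, 1, 0, 7, 0, 2, 1, 1, 9, 1, 0, 1] .nil),
  (.cons 0 13 0 0 0 (.cons 5 22 0 .nil) [] (.cons 2 7 0 0 0 (.cons 0 18 1 .nil) [5, 1, 50, 0, 2, 5, 0, 4, 10, 0, 0, 1, 7, 0, 8, 1, 0, 7, 9, 4, 4, 1, 0, 1, 4, 8, 7, 0, 0, 1, 0, 1, 0, 2, 4, 1, 2, 20, 1, 6] (.cons 2 15 0 0 0 (.cons 0 17 0 .nil) [6, 0, 46, 3, 5, 6, 30, 0, 26, 10, 5, 1, 7, 11, 0, 5, 3, 5, 0, 1, 33, 1] (.cons 1 0 0 0 0 (.cons 5 23 0 .nil) [9, 1, 21, 25, 17, 31, 39, 1, 2, 1, 8, 22, 4, 3, 4, 1, 2, 20, 7] .nil)))),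
  (.cons 0 18 0 0 0 (.cons 9 0 0 .nil) [47] (.cons 1 0 0 0 0 (.cons 9 1 0 .nil) [4, 11, 4, 16, 1, 2, 7, 1, 1, 4, 0, 1, 1, 1, 0, 20, 0, 2, 2, 4, 4, 1, 1, 2, 1, 4, 1, 0, 3, 0, 2, 3, 4, 3, 0, 3, 2, 6, 3, 0, 3, 1, 0, 1, 8, 0, 1, 0, 1, 1, 1, 0, 1, 0, 1, 7, 1, 11, 5, 0, 1, 0, 0, 0] .nil)),
  (.cons 0 6 1 0 0 (.cons 9 0 0 .nil) [17, 29, 59] (.cons 2 12 0 0 0 (.cons 0 19 1 .nil) [52, 1, 6, 13, 0, 4, 0, 1, 13, 6, 7, 12, 1, 0, 7, 9, 4, 4, 2, 1, 2, 1, 0, 0, 0, 0, 7, 0, 4, 5, 0, 1, 0, 1, 0, 0, 0, 0, 0, 0, 4, 24, 4] (.cons 1 0 0 0 0 (.cons 5 0 0 .nil) [6, 0, 0, 4, 13, 6, 1, 22, 8, 3, 1, 0, 2, 1, 4, 0, 5, 12, 2, 10, 5, 9, 1, 6, 3, 1, 0, 0, 1, 0, 9,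 3, 3, 5, 0, 5, 1, 7, 0, 1, 0, 0, 0, 0, 10, 22, 8, 3] .nil))),
  (.cons 0 11 0 0 0 (.cons 9 1 0 .nil) [] (.cons 0 13 0 0 0 (.cons 10 0 0 .nil) [1, 47] .nil)),
  (.cons 0 14 0 0 0 (.cons 9 3 0 .nil) [27, 22] (.cons 2 6 0 0 0 (.cons 0 20 0 .nil) [15, 38, 0, 6, 5, 4, 6, 2, 1, 0, 3, 4, 1, 6, 10, 5, 5, 10, 13, 1, 0, 1, 2, 1, 4, 0, 2, 0, 3, 0, 0, 5, 3, 4, 2, 5, 3, 1, 2, 4, 0, 0, 1, 1, 2, 2, 1, 2, 6, 7, 6, 3, 7, 0, 0] (.cons 2 10 0 0 0 (.cons 0 21 1 .nil) [16, 0, 1, 6, 26, 1, 6, 0, 3, 2, 1, 15, 11, 3, 3, 11, 6, 15, 0, 10, 1, 0, 1, 3, 7, 4, 1, 0, 0, 1, 1, 4, 3, 0, 2, 8, 8, 5, 0, 1, 6, 4, 3, 7, 7, 12, 9] (.cons 1 0 0 0 0 (.cons 5 0 0 .nil) [10,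 2, 0, 1, 1, 1, 6, 12, 0, 16, 1, 3, 2, 5, 0, 0, 0, 0, 1, 3, 1, 7, 2, 6, 10, 4, 4, 2, 1, 3, 2, 4, 1, 4, 1, 7, 1, 1, 4, 0, 0, 0, 3, 0, 1, 0, 1, 2, 1, 6, 0, 0, 0, 1, 2, 0, 0, 1, 1, 0, 1, 3, 1, 0, 3, 0, 0, 4, 3, 1, 7, 5, 1, 2, 1, 2, 3, 1, 2] .nil)))),
  (.cons 0 17 0 0 0 (.cons 10 3 0 .nil) [58] (.cons 2 8 0 0 0 (.cons 0 22 0 .nil) [17, 32, 0, 17, 1, 2, 4, 7, 1, 14, 3, 4, 5, 3, 43, 3, 0, 5, 0, 7, 5, 3, 1, 7, 0, 0, 2, 1, 3, 1, 7, 4, 0, 5, 4, 4, 1, 0, 1, 3, 6, 4, 2, 5] .nil)),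
  (.cons 0 18 0 0 0 (.cons 5 4 0 .nil) [5, 42, 5] (.cons 2 11 0 0 0 (.cons 0 23 1 .nil) [18, 0, 9, 1, 28, 9, 2, 1, 1, 1, 3, 2, 1, 3, 0, 3, 18, 7, 8, 0, 1, 0, 0, 0, 0, 1, 0, 1, 0, 0, 0, 1, 0, 10, 0, 1, 2, 3, 0, 2, 1, 3, 1, 3, 3, 1, 1, 0, 0, 3, 0, 4, 3, 4, 1, 1, 3, 1, 9, 1, 0, 4, 9, 0, 17, 0, 0, 3, 5, 0, 1, 4, 5] (.cons 1 0 0 0 0 (.cons 9 5 0 .nil) [3, 8, 9, 11, 1, 0, 4, 17, 1, 4, 1, 0, 1, 5, 1, 7, 3, 1, 7, 2, 5, 1, 1, 3, 6, 0, 2, 3, 1, 2, 4, 7, 3, 1, 1, 5, 4, 1, 1, 1, 3, 1, 3, 1, 1, 1, 1, 1, 1, 0, 4, 3, 0, 0, 1, 0, 3, 0, 4, 0, 1, 1, 5, 0, 0, 3, 0, 0, 1, 2, 1, 2, 1, 0, 1, 1, 0, 1, 1, 3, 2, 11, 6, 1, 0, 0, 1, 1, 1, 0, 0, 1, 0, 1, 3, 0] .nil))),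
  (.cons 0 19 0 0 0 (.cons 10 4 0 .nil) [5, 2, 50] (.cons 2 0 0 0 0 (.cons 0 25 1 .nil) [13, 1, 7, 28, 10, 0, 4, 2, 8, 1, 5, 0, 2, 7, 3, 5, 9, 0, 0, 11, 1, 2, 11, 4, 0, 1, 0, 14, 1, 0, 1, 5, 2, 0, 1, 0, 1, 2, 3, 0, 1, 1, 3, 0, 1, 5, 2, 1, 3, 1, 1, 4, 1, 1, 0, 1, 1, 1, 4, 1, 1, 5, 0, 2, 3, 0, 1, 1, 0, 4, 0, 0, 8, 1, 1, 5, 1, 1, 1, 1, 8, 3, 3] (.cons 2 9 0 0 0 (.cons 0 24 0 .nil) [72, 5, 8, 6, 17, 2, 26, 43, 5, 0, 1, 4, 0, 1, 1, 0, 3, 3, 1, 1, 1, 1, 2, 1, 3, 2, 3, 3, 0, 2, 11, 0, 2, 4, 0, 2, 3, 2, 0, 1, 0, 2, 1, 2, 2, 0, 10, 0, 6, 0, 3, 1, 4, 0] (.cons 1 0 0 0 0 (.cons 10 3 0 .nil) [7, 1, 2, 2, 3, 0, 0, 7, 1, 0, 10, 2, 2, 10, 6, 2, 1, 0,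 7, 1, 0, 1, 1, 0, 7, 2, 1, 6, 0, 8, 3, 5, 0, 1, 13, 1, 0, 0, 4, 1, 0, 2, 0, 1, 0, 0, 4, 11, 2, 5, 1, 0, 0, 2, 1, 3, 1, 1, 0, 0, 0, 5, 0, 2, 0, 1, 0, 5, 3, 11, 0, 0, 0, 3, 1, 3, 0, 0, 1, 1, 1, 1, 4, 0, 7, 1, 1, 1, 4, 1, 0, 1, 2] .nil)))),
  (.cons 0 20 0 0 0 (.cons 9 1 0 .nil) [61] (.cons 1 0 0 0 0 (.cons 9 5 0 .nil) [1, 6, 1, 17, 1, 3, 2, 3, 5, 0, 10, 4, 0, 4, 2, 5, 2, 1, 2, 2, 0, 0, 0, 0, 1, 0, 1, 1, 0, 3, 0, 1, 1, 1, 3, 0, 4, 0, 2, 0, 0, 0, 1, 2, 2, 13, 1, 3, 0, 0, 2, 0, 5, 3, 6, 0, 1, 0, 1, 1, 2, 0, 0, 1, 0, 0, 7, 0, 0, 1, 1, 1, 0, 1, 3, 0, 4, 3, 2, 1, 0, 0, 1, 4, 1, 1, 0, 0, 0, 1, 1, 4, 1, 4, 1, 6, 1, 3, 0, 3, 3, 0, 0, 5, 1, 1, 0,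 0, 2, 0, 5, 0, 0] (.cons 1 0 0 0 0 (.cons 11 0 0 .nil) [9, 1, 19, 8, 7, 0, 12, 2, 0, 0, 3, 0, 3, 1, 0, 1, 4, 2, 2, 0, 1, 0, 9, 6, 0, 0, 0, 1, 0, 2, 2, 0, 3, 2, 3, 0, 1, 0, 0, 9, 1, 0, 2, 8, 4, 0, 1, 1, 0, 2, 3, 1, 3, 1, 1, 1, 0, 0, 0, 1, 2, 2, 3, 0, 0, 1, 6, 9, 1, 4, 1, 0, 0, 0, 5, 1, 0, 6, 3, 2, 0, 1, 0, 0, 1, 2, 1, 0, 3, 5, 0, 1, 2, 0, 1, 2, 1, 4, 1, 1, 7, 1] .nil))),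
  (.cons 2 1 0 0 0 (.cons 0 27 1 .nil) [10, 1, 54, 0, 0, 5, 4, 3, 9, 1, 1, 21, 3, 0, 7, 3, 0, 10, 0, 5, 3, 1, 4, 3, 1, 7, 1, 14, 3, 1, 2, 6, 1, 4, 1, 2, 0, 0, 6, 1, 0, 6, 0, 1, 4, 3, 2, 0, 5, 0, 5, 1, 6, 1, 1, 2, 2, 1, 2, 0, 1, 0, 8, 2, 5, 0, 8, 1, 13, 1, 5, 3, 7, 4] (.cons 2 12 0 0 0 (.cons 0 26 1 .nil) [15, 11, 18, 21, 0, 0, 0, 3, 1, 0, 1, 1, 1, 0, 2, 4, 3, 1, 2, 16, 1, 0, 3, 5, 1, 12, 1, 0, 6, 6, 2, 7, 2, 14, 4, 0, 0, 2, 2, 1, 0, 0, 1, 2, 0, 0, 3, 1, 0, 1, 0, 1, 0, 3, 0, 2, 4, 6, 3, 0, 9, 1, 1, 3, 4, 0, 0, 1, 0, 4, 0, 2, 8, 2, 3, 1, 26, 1, 4] .nil)),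
  (.cons 0 20 0 0 0 (.cons 9 2 0 .nil) [] (.cons 0 5 2 0 0 (.cons 9 6 0 .nil) [114, 6, 2, 3, 1, 24, 16, 4] (.cons 2 6 0 0 0 (.cons 0 28 1 .nil) [1, 19, 33, 3, 14, 2, 5, 1, 5, 4, 7, 3, 11, 2, 15, 0, 9, 10, 1, 5, 23, 1, 3, 6, 4, 2, 2, 5, 0, 9, 0, 6, 0, 2, 1, 1, 5, 0, 1, 0, 0, 1, 6, 0, 0, 0, 3, 0, 1, 1, 5, 8, 2, 1, 1, 2, 3, 1, 1, 2, 1, 0, 4, 0, 13, 3, 5, 4, 2, 8, 10, 1] (.cons 1 0 0 0 0 (.cons 9 4 0 .nil) [5, 12, 1, 13, 8, 3, 1, 2, 0, 1, 1, 0, 1, 0, 0, 4, 4, 0, 1, 3, 1, 0, 1, 1, 3, 0, 0, 1, 0, 1, 5, 4, 1, 1, 3, 0, 3, 6, 0, 2, 1, 9, 6, 0, 0, 2, 0, 3, 5, 1, 1, 0, 0, 0, 2, 0, 0, 1, 1, 1, 0, 0, 3, 1, 1, 1, 0, 4, 1, 0, 0, 1, 2, 0, 3, 2, 4, 2,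 0, 0, 0, 1, 1, 1, 3, 2, 0, 3, 0, 3, 0, 1, 0, 0, 0, 3, 1, 4, 0, 0, 1, 1, 0, 1, 0, 0, 3, 3, 0, 2, 3, 0, 1, 5, 0, 2, 0, 0, 8, 2, 5, 0, 0, 1, 1, 3, 4, 1, 2, 3, 3] (.cons 1 0 0 0 0 (.cons 11 1 0 .nil) [2, 8, 3, 0, 0, 2, 4, 1, 1, 20, 2, 1, 8, 3, 1, 1, 0, 1, 3, 6, 1, 0, 5, 0, 1, 0, 0, 1, 1, 1, 0, 1, 0, 6, 6, 0, 0, 2, 5, 8, 0, 1, 0, 2, 0, 2, 3, 3, 3, 2, 3, 0, 4, 3, 0, 1, 0, 1, 0, 3, 3, 3, 1, 1, 1, 0, 0, 1, 0, 1, 7, 2, 1, 0, 3, 0, 2, 1, 0, 1, 2, 3, 3, 0, 0, 2, 1, 1, 8, 0, 0, 0, 1, 0, 3, 1, 1, 0, 3, 0, 0, 0, 1, 3, 4, 2, 1, 0, 2, 0, 0, 1, 3, 0, 2, 1, 3, 0, 2, 1, 2, 6, 1, 5, 5] .nil))))),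
  (.cons 2 2 0 0 0 (.cons 0 30 1 .nil) [1, 0, 5, 3, 0, 1, 2, 15, 7, 0, 32, 0, 2, 0, 1, 1, 0, 1, 1, 4, 1, 2, 4, 2, 3, 4, 2, 2, 0, 3, 0, 1, 1, 1, 0, 3, 0, 1, 4, 3, 2, 5, 17, 1, 3, 2, 14, 6, 3, 1, 5, 1, 0, 3, 2, 5, 0, 5, 1, 0, 2, 0, 0, 2, 3, 0, 4, 5, 1, 4, 0, 3, 1, 3, 0, 1, 1, 2, 0, 3, 0, 0, 1, 2, 1, 1, 0, 1, 2, 0, 0, 0, 0, 5, 4, 1, 3, 5, 1, 0, 0, 1, 5, 0, 2, 1, 1, 3, 0, 3, 1, 1, 2, 3, 2, 1, 3] (.cons 2 13 0 0 0 (.cons 0 29 0 .nil) [3, 10, 0, 5, 14, 34, 3, 0, 1, 4, 0, 1, 1, 0, 1, 9, 3, 2, 0, 2, 0, 1, 10, 6, 0, 1, 3, 4, 2, 5, 1, 0, 0, 3, 6, 2, 4, 1, 1, 5, 1, 1, 14, 1, 5, 12, 2, 5, 0, 1, 1, 1, 0, 0, 1, 0, 3, 1, 2, 0, 0, 2, 1, 0, 1, 1, 1, 3,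 3, 0, 0, 1, 2, 0, 1, 0, 2, 1, 0, 2, 3, 0, 3, 0, 0, 2, 0, 2, 4, 1, 6, 0, 2, 1, 5, 1, 7, 1, 4, 0, 9, 1, 0, 3, 5, 1, 8, 3] .nil)),
  (.cons 0 14 0 0 0 (.cons 9 3 0 .nil) [3, 65] (.cons 0 18 0 0 0 (.cons 9 0 0 .nil) [1, 5, 62] (.cons 1 0 0 0 0 (.cons 10 0 0 .nil) [1, 0, 4, 7, 1, 0, 1, 3, 0, 26, 3, 1, 0, 1, 8, 1, 1, 2, 2, 2, 1, 1, 4, 3, 5, 1, 3, 1, 1, 0, 0, 0, 0, 2, 5, 2, 0, 1, 3, 1, 0, 4, 4, 3, 7, 0, 0, 1, 0, 2, 0, 0, 2, 0, 3, 2, 5, 1, 1, 0, 0, 4, 7, 5, 2, 0, 4, 0, 0, 0, 1, 3, 3, 0, 1, 1, 1, 0, 5, 0, 1, 1, 0, 1, 1, 0, 4, 2, 0, 0, 0, 1, 3, 1, 1, 1, 1, 0, 7, 3, 4, 2, 1, 1, 0, 0, 0, 0, 0, 0, 1, 3, 0, 0, 1, 0, 2, 0, 5, 0, 6, 1, 6, 3, 2, 3, 8,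 3, 2, 0, 1, 1, 7, 7] (.cons 1 0 0 0 0 (.cons 11 1 0 .nil) [1, 0, 1, 2, 2, 0, 2, 5, 1, 4, 6, 7, 0, 3, 1, 1, 0, 3, 0, 0, 0, 2, 0, 2, 1, 1, 2, 0, 3, 0, 1, 1, 2, 0, 0, 1, 0, 1, 0, 1, 1, 0, 0, 0, 0, 1, 0, 1, 0, 6, 0, 0, 4, 0, 2, 3, 5, 1, 1, 9, 2, 0, 2, 0, 6, 1, 0, 2, 1, 3, 1, 0, 3, 4, 2, 1, 3, 1, 1, 1, 1, 0, 0, 2, 0, 1, 1, 0, 4, 1, 0, 3, 1, 2, 1, 1, 0, 1, 5, 0, 0, 1, 8, 2, 2, 3, 3, 1, 1, 1, 1, 1, 0, 0, 1, 1, 2, 2, 0, 0, 0, 1, 0, 14, 0, 11, 1, 0, 0, 1, 1, 6, 1, 1, 1, 0, 2, 0, 1, 0, 0, 2, 6, 0, 0, 3, 1, 3, 7, 1] .nil)))),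
  (.cons 0 24 0 0 0 (.cons 9 2 0 .nil) [] (.cons 0 17 0 0 0 (.cons 10 0 0 .nil) [] (.cons 2 3 0 0 0 (.cons 0 31 1 .nil) [15, 5, 58, 0, 0, 1, 1, 1, 1, 7, 3, 1, 5, 3, 2, 7, 0, 0, 1, 5, 11, 1, 1, 1, 23, 1, 0, 1, 0, 1, 1, 3, 0, 3, 1, 0, 3, 0, 7, 10, 21, 2, 0, 5, 2, 2, 6, 0, 4, 1, 0, 7, 3, 1, 1, 1, 0, 1, 3, 8, 4, 3, 1, 1, 0, 1, 5, 0, 1, 1, 3, 2, 2, 5, 0, 1, 0, 1, 0, 0, 1, 0, 2, 1, 4, 0, 8, 6, 11, 6, 15, 1, 0, 0, 0, 6, 3, 0] (.cons 2 7 0 0 0 (.cons 0 32 0 .nil) [21, 1, 10, 20, 24, 0, 1, 1, 1, 1, 0, 3, 1, 2, 1, 0, 5, 1, 0, 1, 0, 1, 5, 0, 0, 1, 5, 5, 2, 0, 1, 3, 4, 17, 0, 0, 1, 1, 2, 2, 1, 1, 0, 0, 0, 2, 3, 10, 3, 0, 2, 1, 2, 10, 1, 2, 4, 3, 2,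 8, 1, 3, 1, 0, 1, 0, 0, 0, 1, 1, 0, 2, 0, 1, 2, 3, 3, 0, 1, 0, 3, 1, 0, 1, 0, 3, 7, 0, 0, 0, 1, 1, 1, 0, 3, 2, 5, 1, 3, 3, 0, 0, 2, 0, 9, 1, 7, 10, 4, 4, 0, 2, 0, 2, 0, 1, 0, 0, 3, 3, 3, 1, 5, 0, 4] (.cons 1 0 0 0 0 (.cons 10 1 0 .nil) [12, 9, 61, 3, 1, 0, 0, 1, 0, 1, 2, 0, 1, 1, 5, 2, 1, 0, 1, 0, 2, 1, 0, 6, 11, 1, 13, 4, 7, 0, 0, 1, 3, 4, 0, 5, 0, 7, 10, 3, 1, 15, 2, 1, 0, 3, 4, 0, 1, 3, 5, 0, 0, 0, 1, 0, 0, 3, 2, 1, 2, 1, 1, 3, 1, 0, 1, 1, 5, 0, 0, 3, 1, 1, 1, 1, 1, 1, 0, 7, 1, 6, 1, 0, 2, 1, 1, 1, 0, 1, 1, 6, 0, 0, 2, 0, 8, 1, 1, 17, 3, 0, 5, 7, 0, 3, 0, 1, 0, 7, 2, 1, 1, 9] .nil))))),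
  (.cons 0 21 0 0 0 (.cons 10 4 0 .nil) [0, 4, 3, 68, 3] (.cons 1 0 0 0 0 (.cons 11 1 0 .nil) [3, 1, 4, 0, 1, 0, 0, 4, 0, 1, 19, 7, 4, 1, 0, 9, 5, 0, 0, 4, 0, 1, 1, 3, 1, 5, 0, 0, 4, 0, 0, 5, 0, 2, 0, 0, 4, 1, 1, 0, 7, 1, 3, 0, 1, 9, 2, 2, 0, 4, 1, 7, 1, 5, 0, 0, 0, 1, 1, 1, 3, 5, 3, 0, 3, 1, 4, 0, 2, 2, 2, 0, 1, 0, 4, 3, 1, 1, 1, 1, 1, 0, 0, 1, 0, 2, 1, 1, 1, 1, 2, 0, 0, 5, 3, 0, 2, 2, 2, 1, 0, 1, 0, 1, 2, 0, 0, 11, 1, 1, 1, 1, 0, 1, 1, 1, 2, 2, 1, 2, 5, 2, 0, 0, 7, 2, 1, 1, 0, 4, 1, 4, 2, 5, 0, 0, 1, 3, 2, 3, 0, 1, 2, 1, 0, 0, 0, 1, 0, 1, 1, 5, 8, 0, 2] .nil)),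
  (.cons 0 19 0 0 0 (.cons 5 43 0 .nil) [2, 25, 37, 9] (.cons 0 5 1 0 0 (.cons 9 5 0 .nil) [5, 25, 1, 2, 30, 6, 79, 40] (.cons 0 15 0 0 0 (.cons 10 0 0 .nil) [] (.cons 2 4 0 0 0 (.cons 0 33 1 .nil) [3, 7, 0, 0, 1, 2, 3, 18, 3, 0, 0, 0, 3, 1, 1, 1, 2, 1, 15, 2, 0, 0, 1, 0, 3, 2, 5, 4, 3, 3, 1, 1, 0, 1, 0, 1, 0, 0, 0, 1, 2, 3, 1, 7, 2, 11, 1, 1, 3, 5, 3, 0, 5, 5, 2, 1, 0, 0, 0, 6, 1, 2, 0, 0, 0, 1, 1, 2, 1, 1, 0, 3, 1, 2, 0, 0, 0, 4, 0, 2, 1, 2, 4, 1, 5, 0, 2, 1, 0, 0, 0, 1, 2, 0, 0, 2, 0, 0, 3, 3, 1, 0, 1, 1, 0, 2, 0, 1, 0, 0, 8, 0, 1, 0, 3, 0, 3, 1, 0, 0, 6, 1, 2, 0, 1, 7, 5, 2, 2, 3, 0, 0, 6, 1, 3, 7, 0, 0, 1, 4, 1, 0, 0, 8, 1, 0, 0,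 1, 1, 3, 1, 0, 3, 1, 1, 1, 2, 1, 5, 4, 3, 0, 1, 0] .nil)))),
  (.cons 0 20 0 0 0 (.cons 9 2 0 .nil) [3] (.cons 0 11 0 0 0 (.cons 10 3 0 .nil) [2, 6, 3, 35] (.cons 2 16 0 0 0 (.cons 0 34 1 .nil) [92, 0, 3, 3, 5, 1, 8, 0, 7, 1, 5, 1, 1, 6, 1, 1, 8, 4, 1, 0, 4, 25, 0, 0, 3, 1, 2, 1, 5, 5, 3, 0, 0, 5, 5, 1, 1, 0, 15, 9, 0, 3, 3, 6, 2, 5, 4, 3, 0, 0, 1, 2, 0, 3, 0, 3, 0, 1, 5, 1, 0, 2, 0, 4, 0, 3, 1, 0, 3, 1, 5, 3, 2, 4, 6, 1, 6, 0, 2, 2, 2, 1, 1, 2, 1, 6, 0, 2, 3, 3, 11, 19, 0, 11, 3, 9, 0, 0, 2, 2, 6, 1, 1, 0] (.cons 1 0 0 0 0 (.cons 11 1 0 .nil) [2, 2, 1, 0, 4, 1, 1, 2, 2, 0, 0, 1, 9, 0, 3, 13, 3, 1, 20, 2, 0, 0, 2, 1, 1, 1, 0, 1, 6, 1,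 1, 2, 1, 1, 0, 2, 3, 1, 0, 1, 4, 3, 3, 0, 0, 1, 0, 3, 1, 0, 1, 1, 2, 7, 1, 2, 2, 1, 3, 0, 0, 3, 1, 5, 2, 1, 0, 3, 3, 0, 0, 1, 3, 1, 2, 2, 0, 0, 1, 0, 3, 1, 1, 2, 1, 3, 1, 1, 3, 3, 1, 0, 0, 1, 5, 0, 2, 3, 3, 1, 1, 0, 0, 1, 2, 0, 0, 2, 2, 4, 0, 0, 7, 3, 1, 0, 3, 0, 3, 1, 1, 0, 0, 7, 2, 0, 7, 4, 3, 6, 0, 2, 0, 1, 1, 1, 1, 1, 5, 2, 1, 4, 0, 1, 2, 1, 0, 1, 0, 0, 3, 0, 0, 1, 0, 1, 0, 2, 2, 3, 1, 5, 2, 0, 0, 1, 9, 1, 0, 0, 3, 1, 0, 0, 5, 1] .nil)))),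
  (.cons 2 5 0 0 0 (.cons 0 35 1 .nil) [4, 1, 1, 3, 0, 4, 2, 0, 0, 0, 8, 1, 6, 13, 6, 0, 22, 2, 0, 3, 1, 0, 2, 0, 1, 0, 3, 0, 4, 2, 6, 0, 5, 1, 1, 1, 2, 2, 1, 3, 2, 10, 1, 2, 0, 0, 1, 1, 0, 4, 1, 4, 7, 2, 0, 1, 0, 4, 0, 2, 1, 0, 2, 1, 6, 1, 0, 1, 7, 7, 0, 5, 2, 4, 0, 0, 0, 1, 7, 1, 1, 1, 0, 1, 0, 3, 0, 0, 0, 0, 7, 1, 3, 3, 1, 0, 1, 4, 1, 1, 1, 0, 1, 9, 3, 0, 5, 1, 0, 0, 0, 3, 3, 1, 4, 1, 0, 1, 0, 8, 1, 1, 0, 1, 1, 1, 0, 5, 3, 0, 1, 0, 2, 7, 11, 3, 1, 5, 2, 1, 2, 1, 1, 0, 1, 5, 3, 1, 4, 0, 0, 0, 2, 1, 1, 0, 2, 4, 1, 4, 1, 8, 2, 1, 2] .nil),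
  (.cons 0 18 0 0 0 (.cons 10 0 0 .nil) [] (.cons 0 20 0 0 0 (.cons 10 4 0 .nil) [0, 5] (.cons 1 0 0 0 0 (.cons 10 2 0 .nil) [5, 6, 0, 2, 1, 3, 3, 0, 5, 7, 6, 4, 0, 6, 1, 1, 6, 1, 3, 1, 1, 6, 0, 1, 0, 4, 3, 1, 1, 3, 1, 0, 0, 0, 3, 1, 0, 2, 1, 3, 0, 5, 0, 0, 0, 0, 1, 11, 13, 0, 1, 1, 2, 1, 0, 0, 4, 0, 0, 3, 1, 0, 2, 2, 1, 5, 1, 7, 5, 0, 2, 0, 4, 11, 2, 3, 1, 1, 3, 5, 1, 6, 3, 0, 0, 1, 0, 0, 2, 1, 1, 0, 0, 0, 0, 1, 3, 3, 0, 1, 3, 0, 1, 6, 0, 1, 0, 3, 1, 0, 2, 3, 5, 0, 1, 0, 1, 2, 1, 0, 1, 0, 0, 2, 0, 1, 0, 3, 1, 2, 1, 1, 0, 0, 2, 1, 0, 1, 1, 1, 1, 0, 0, 0, 0, 0, 3, 0, 1, 0, 1, 3, 5, 2, 5, 3, 1, 0, 1, 1, 0, 1, 1, 3, 1, 13, 2, 5, 9, 1, 3,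 1, 1, 0, 1, 1, 0, 0, 0, 3, 3, 0, 1, 3, 2, 1, 1, 1, 2, 1, 5, 0, 3, 1] .nil))),
  (.cons 0 24 0 0 0 (.cons 10 4 0 .nil) [96] (.cons 0 12 0 0 0 (.cons 11 0 0 .nil) [11] (.cons 2 6 0 0 0 (.cons 0 36 1 .nil) [32, 72, 3, 0, 1, 0, 2, 0, 0, 5, 0, 5, 7, 0, 2, 4, 0, 1, 1, 1, 7, 0, 2, 12, 0, 1, 0, 2, 0, 5, 20, 2, 0, 5, 0, 1, 19, 8, 1, 0, 1, 0, 0, 1, 1, 0, 1, 14, 1, 1, 5, 3, 9, 18, 0, 0, 0, 0, 1, 0, 1, 0, 0, 1, 1, 0, 5, 2, 3, 5, 1, 0, 5, 2, 2, 4, 1, 1, 3, 0, 0, 1, 2, 0, 6, 2, 3, 4, 2, 0, 0, 4, 2, 0, 6, 0, 1, 5, 1, 0, 0, 0, 3, 0, 0, 6, 2, 26, 0, 9, 1, 7, 20, 1, 0, 3, 1, 1, 1, 9, 3, 1, 0, 0, 0, 3, 0, 6] (.cons 1 0 0 0 0 (.cons 10 0 0 .nil) [16, 22,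 70, 2, 1, 1, 1, 9, 1, 1, 1, 1, 2, 3, 0, 12, 0, 0, 4, 0, 1, 2, 12, 1, 2, 0, 0, 5, 2, 1, 3, 15, 3, 2, 5, 0, 1, 5, 0, 0, 5, 0, 2, 0, 2, 0, 0, 1, 1, 0, 0, 0, 0, 17, 3, 0, 2, 3, 1, 1, 0, 1, 7, 4, 2, 0, 1, 3, 0, 2, 1, 1, 0, 0, 1, 0, 0, 3, 3, 2, 1, 1, 0, 3, 3, 1, 1, 1, 8, 3, 1, 0, 1, 3, 0, 1, 3, 4, 0, 9, 1, 2, 6, 1, 3, 3, 0, 1, 4, 1, 0, 2, 1, 0, 2, 4, 3, 2, 0, 0, 0, 1, 6, 5, 11, 4, 2, 2, 3, 5, 5, 1, 2, 2, 0, 1, 1, 0, 1, 0, 1, 0, 0, 0, 0, 1, 5, 0, 0, 1, 2, 0, 1] (.cons 1 0 0 0 0 (.cons 11 2 0 .nil) [2, 3, 7, 5, 0, 0, 5, 1, 4, 7, 0, 5, 7, 2, 3, 1, 0, 0, 3, 1, 4, 0, 0, 5, 1, 2, 2, 2, 0, 0, 0, 0, 1, 0, 1, 0, 11, 2, 1, 0, 1, 0, 6, 0, 5, 9, 1, 0, 0,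 4, 2, 0, 0, 1, 1, 0, 0, 1, 4, 0, 1, 3, 2, 2, 0, 0, 0, 3, 2, 3, 3, 0, 0, 1, 8, 1, 0, 1, 1, 3, 0, 2, 1, 6, 5, 2, 3, 1, 5, 4, 2, 5, 0, 1, 1, 2, 0, 1, 1, 2, 2, 2, 0, 1, 2, 5, 7, 3, 0, 3, 0, 1, 4, 4, 2, 1, 1, 0, 5, 1, 4, 1, 0, 0, 1, 1, 0, 1, 0, 1, 0, 1, 3, 2, 0, 0, 1, 1, 0, 0, 0, 1, 0, 0, 4, 1, 1, 2, 3, 0, 4, 0, 8, 13, 1, 4, 2, 0, 5, 0, 2, 1, 1, 5, 0, 1, 1, 0, 1, 2, 1, 0, 5, 2, 1, 1, 0, 0, 0, 1, 0, 1, 1, 0, 0, 5, 1, 1, 2, 3, 0, 1, 0, 2, 0, 1, 3, 6, 0, 0] .nil))))),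
  (.cons 0 14 0 0 0 (.cons 10 0 0 .nil) [] (.cons 0 18 0 0 0 (.cons 10 2 0 .nil) [0] (.cons 2 13 0 0 0 (.cons 0 37 0 .nil) [7, 6, 0, 0, 3, 3, 3, 1, 10, 0, 4, 8, 0, 4, 2, 1, 1, 0, 2, 3, 15, 0, 3, 0, 1, 2, 1, 1, 1, 1, 6, 1, 0, 0, 2, 0, 4, 7, 6, 0, 0, 7, 7, 1, 1, 1, 0, 3, 1, 0, 0, 0, 3, 0, 2, 3, 2, 1, 0, 3, 0, 0, 3, 3, 3, 1, 0, 1, 9, 0, 1, 1, 3, 4, 0, 1, 1, 0, 0, 2, 1, 0, 6, 1, 3, 2, 4, 3, 0, 3, 0, 1, 1, 0, 9, 1, 1, 4, 4, 1, 0, 0, 1, 1, 1, 0, 3, 6, 1, 6, 0, 4, 0, 6, 1, 1, 0, 0, 0, 3, 3, 4, 1, 0, 2, 0, 1, 0, 0, 3, 0, 0, 5, 6, 3, 1, 1, 5, 2, 1, 3, 6, 0, 0, 0, 4, 0, 4, 3, 1, 1, 0, 5, 7, 0, 2, 1, 2, 1, 1, 5, 10, 0, 2, 1, 0, 7, 1, 0, 4, 0, 1,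 1, 3, 3, 1, 0, 0, 0, 1, 0, 1, 4, 1, 9, 5, 3, 1, 0, 1, 1, 0, 2, 2] .nil))),
  (.cons 0 24 0 0 0 (.cons 9 0 0 .nil) [] (.cons 0 19 0 0 0 (.cons 9 1 0 .nil) [100] (.cons 0 11 0 0 0 (.cons 11 0 0 .nil) [45] (.cons 1 0 0 0 0 (.cons 11 2 0 .nil) [1, 1, 3, 5, 4, 0, 1, 2, 1, 3, 2, 3, 1, 8, 8, 3, 9, 5, 2, 0, 1, 2, 9, 1, 0, 3, 0, 1, 5, 1, 0, 1, 1, 1, 0, 1, 5, 1, 2, 3, 1, 1, 0, 3, 3, 2, 0, 0, 1, 3, 0, 3, 1, 1, 3, 0, 1, 6, 4, 2, 0, 0, 2, 1, 4, 1, 0, 0, 0, 4, 8, 6, 0, 0, 0, 1, 2, 3, 0, 6, 3, 2, 5, 0, 1, 1, 1, 2, 4, 0, 0, 2, 1, 0, 2, 0, 0, 5, 1, 4, 0, 0, 0, 1, 3, 5, 1, 3, 0, 9, 1, 3, 0, 1, 11, 3, 3, 1, 4, 0, 0, 5, 2, 4, 1, 0, 3, 1, 6, 3, 0, 0, 5, 0,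 0, 7, 0, 1, 0, 2, 0, 0, 0, 5, 3, 0, 3, 0, 1, 0, 1, 3, 1, 2, 2, 6, 1, 6, 3, 1, 1, 0, 1, 1, 6, 1, 1, 0, 2, 0, 0, 0, 2, 0, 4, 2, 1, 0, 5, 1, 0, 0, 3, 1, 1, 3, 3, 1, 2, 3, 2, 0, 0, 1, 3, 0, 4, 0, 2, 1, 1, 0, 5, 1, 3, 1, 0, 0, 5, 3, 0, 5] .nil)))),
  (.cons 0 10 0 0 0 (.cons 10 0 0 .nil) [] (.cons 2 7 0 0 0 (.cons 0 39 1 .nil) [22, 11, 0, 10, 1, 12, 1, 0, 2, 39, 1, 1, 2, 2, 5, 1, 0, 1, 3, 1, 0, 1, 2, 2, 3, 1, 1, 0, 1, 3, 0, 2, 0, 6, 3, 0, 2, 2, 2, 1, 0, 2, 2, 0, 1, 7, 5, 0, 2, 2, 14, 0, 1, 3, 2, 3, 3, 8, 1, 1, 7, 2, 2, 1, 3, 2, 0, 4, 2, 3, 4, 5, 7, 1, 1, 7, 0, 2, 2, 0, 0, 0, 1, 1, 1, 0, 0, 0, 4, 1, 0, 5, 0, 2, 4, 1, 1, 1, 3, 0, 0, 1, 3, 1,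 0, 1, 1, 1, 3, 0, 1, 1, 3, 5, 0, 4, 2, 1, 1, 2, 0, 0, 1, 3, 1, 0, 2, 0, 0, 2, 2, 1, 0, 0, 3, 3, 1, 2, 1, 1, 1, 2, 9, 1, 3, 0, 1, 4, 1, 3, 0, 1, 0, 6, 1, 0, 8, 1, 3, 1, 4, 1, 16, 5, 0, 6, 1, 1, 0, 5, 0, 1, 3, 3, 0, 3, 1, 1, 0, 0, 4, 1, 0, 4, 1, 2, 3, 0, 3, 1, 5, 5, 0, 0, 7, 1] (.cons 2 21 0 0 0 (.cons 0 38 1 .nil) [126, 1, 1, 3, 0, 2, 19, 2, 0, 0, 3, 1, 0, 1, 4, 6, 24, 5, 1, 37, 5, 11, 10, 2, 3, 6, 2, 2, 3, 2, 1, 0, 1, 1, 25, 1, 2, 0, 0, 2, 4, 2, 3, 1, 0, 5, 2, 0, 4, 3, 0, 1, 4, 0, 1, 0, 1, 1, 0, 0, 0, 0, 1, 2, 3, 5, 1, 1, 0, 1, 1, 6, 1, 0, 0, 0, 1, 0, 2, 0, 3, 1, 5, 0, 1, 1, 0, 1, 0, 0, 0, 3, 5, 0, 1, 0, 1, 6, 1, 4, 2, 0, 1, 5, 5, 2, 5,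 1, 0, 3, 1, 0, 2, 0, 0, 1, 2, 4, 0, 2, 22, 1, 1, 1, 1, 1, 0, 0, 0, 1, 2, 0, 1, 2, 1, 1, 1, 1, 7, 4, 2, 1, 22, 1, 5, 1] .nil))),
  (.cons 0 19 0 0 0 (.cons 9 2 0 .nil) [4, 100] (.cons 0 22 0 0 0 (.cons 10 3 0 .nil) [114] (.cons 0 12 0 0 0 (.cons 11 0 0 .nil) [103, 11] (.cons 1 0 0 0 0 (.cons 10 1 0 .nil) [2, 0, 8, 6, 2, 2, 0, 1, 2, 12, 1, 8, 5, 1, 1, 8, 2, 7, 17, 2, 2, 6, 2, 2, 3, 1, 0, 0, 0, 5, 8, 1, 0, 0, 5, 1, 0, 1, 1, 0, 1, 0, 6, 1, 3, 11, 1, 0, 2, 0, 2, 3, 0, 0, 3, 10, 3, 1, 2, 4, 0, 1, 0, 5, 1, 3, 1, 0, 1, 7, 6, 1, 4, 0, 3, 0, 0, 1, 2, 9, 3, 3, 1, 1, 5, 1, 1, 3, 7, 6, 0, 3, 3, 2, 3, 3, 3, 1, 0, 0, 0, 1, 1, 0, 3, 3, 0, 3, 3, 5, 0,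 0, 4, 1, 0, 1, 4, 0, 0, 1, 1, 0, 0, 4, 1, 0, 0, 0, 2, 1, 0, 5, 1, 0, 1, 1, 3, 2, 1, 1, 1, 4, 0, 5, 0, 0, 1, 0, 5, 0, 0, 1, 1, 0, 1, 1, 0, 9, 0, 1, 3, 4, 0, 0, 0, 0, 1, 0, 7, 1, 0, 6, 2, 1, 0, 3, 1, 1, 0, 1, 3, 7, 2, 3, 0, 0, 1, 1, 1, 0, 1, 1, 2, 3, 2, 1, 0, 0, 0, 3, 2, 1, 2, 3, 0, 0, 2, 5, 4, 0, 1, 1, 1, 1, 2, 3, 0, 3, 1, 1, 0, 1, 3, 2, 1, 0, 1, 2] (.cons 1 0 0 0 0 (.cons 11 1 0 .nil) [0, 2, 1, 2, 1, 0, 3, 4, 1, 1, 1, 2, 3, 13, 1, 0, 1, 0, 0, 1, 5, 1, 6, 2, 2, 1, 2, 0, 0, 2, 5, 7, 16, 2, 0, 1, 3, 4, 1, 9, 0, 7, 5, 2, 1, 0, 1, 0, 3, 1, 3, 1, 3, 7, 1, 1, 3, 0, 1, 1, 0, 0, 1, 3, 0, 0, 0, 0, 4, 0, 5, 5, 2, 1, 1, 8, 1, 3, 1, 0, 3, 4, 0, 2,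 1, 1, 3, 0, 4, 1, 1, 2, 0, 1, 3, 5, 3, 0, 4, 1, 2, 10, 1, 0, 5, 0, 0, 2, 5, 0, 1, 1, 1, 2, 1, 1, 0, 1, 0, 0, 1, 0, 1, 0, 2, 11, 3, 3, 4, 0, 1, 1, 1, 0, 2, 3, 1, 0, 3, 3, 1, 1, 1, 1, 0, 2, 0, 5, 3, 4, 2, 4, 1, 1, 1, 5, 4, 0, 0, 0, 0, 3, 1, 0, 0, 3, 1, 0, 1, 2, 3, 1, 1, 0, 2, 4, 3, 0, 3, 2, 2, 3, 8, 7, 3, 3, 1, 1, 1, 2, 1, 0, 3, 4, 6, 7, 1, 0, 1, 6, 0, 1, 2, 0, 1, 0, 0, 3, 8, 0, 1, 2, 0, 0, 4, 0, 1, 0, 0, 0, 1, 1, 0, 3, 2, 0, 0, 2, 3, 1, 1, 1] .nil))))),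
  (.cons 0 27 0 0 0 (.cons 9 2 0 .nil) [] (.cons 0 20 0 0 0 (.cons 10 1 0 .nil) [] (.cons 2 7 0 0 0 (.cons 0 40 1 (.cons 0 41 1 .nil)) [14, 6, 1, 5, 1, 2, 0, 45, 3, 5, 23, 5, 11, 6, 1, 6, 0, 2, 1, 13, 3, 0, 0, 1, 3, 0, 1, 1, 0, 1, 0, 18, 9, 0, 1, 0, 2, 0, 0, 2, 5, 3, 0, 2, 1, 7, 3, 1, 0, 3, 3, 17, 1, 7, 1, 0, 0, 0, 2, 0, 2, 0, 0, 0, 0, 5, 0, 7, 0, 9, 1, 4, 1, 1, 1, 4, 1, 3, 3, 5, 0, 0, 2, 0, 4, 1, 0, 1, 1, 1, 1, 0, 1, 0, 1, 3, 2, 0, 1, 2, 1, 1, 0, 1, 1, 0, 0, 0, 2, 1, 1, 1, 1, 0, 0, 2, 0, 1, 3, 0, 0, 1, 3, 0, 0, 3, 1, 3, 1, 0, 4, 1, 2, 4, 0, 0, 0, 3, 1, 2, 1, 0, 1, 3, 1, 0, 1, 1, 2, 0, 1, 5, 3, 1, 1, 1, 3, 1, 0, 2, 0, 1, 1, 7, 5, 1, 0,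 0, 0, 3, 3, 0, 8, 1, 0, 3, 5, 3, 9, 0, 1, 1, 5, 1, 4, 0, 0, 0, 1, 0, 8, 1, 0, 3, 0, 1, 1, 0, 1, 1, 1, 6, 2, 3, 0, 0, 0, 5, 1, 1, 1, 0, 1, 1, 7, 1, 8, 0, 5, 1, 0] (.cons 2 8 0 0 0 (.cons 0 40 1 .nil) [3, 10, 2, 1, 1, 0, 0, 4, 0, 3, 1, 38, 4, 3, 5, 20, 3, 3, 3, 6, 1, 1, 1, 0, 0, 3, 0, 1, 0, 4, 1, 5, 1, 2, 1, 0, 0, 1, 1, 4, 9, 11, 8, 6, 0, 3, 0, 1, 3, 3, 3, 0, 3, 0, 2, 1, 10, 0, 1, 1, 2, 1, 3, 0, 6, 3, 0, 5, 1, 3, 3, 0, 2, 0, 0, 0, 1, 3, 2, 0, 2, 5, 12, 4, 2, 2, 3, 1, 2, 1, 1, 11, 0, 1, 0, 1, 3, 0, 0, 0, 1, 1, 0, 0, 2, 0, 1, 1, 5, 0, 1, 0, 0, 0, 1, 1, 1, 3, 3, 2, 1, 0, 1, 0, 0, 1, 3, 5, 0, 3, 1, 1, 5, 0, 0, 0, 3, 0, 3, 1, 1, 1, 0, 3, 1, 4,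 0, 1, 5, 2, 2, 1, 0, 4, 0, 1, 3, 5, 3, 0, 1, 1, 0, 0, 3, 1, 0, 0, 0, 3, 0, 0, 1, 2, 1, 1, 3, 1, 1, 0, 0, 0, 7, 0, 1, 7, 5, 2, 1, 1, 17, 0, 2, 1, 1, 1, 0, 3, 3, 0, 5, 2, 0, 3, 0, 1, 0, 4, 0, 0, 2, 5, 3, 0, 1, 3, 0, 1, 0, 1, 0, 2, 0, 1, 1, 9, 0, 0, 5, 0] .nil)))),
  (.cons 0 22 0 0 0 (.cons 10 0 0 .nil) [] (.cons 0 25 0 0 0 (.cons 10 6 0 .nil) [0, 14] (.cons 0 13 0 0 0 (.cons 9 1 0 .nil) [11, 107] (.cons 1 0 0 0 0 (.cons 11 1 0 .nil) [1, 3, 1, 2, 0, 7, 0, 0, 0, 0, 0, 2, 2, 1, 0, 0, 1, 1, 4, 0, 1, 2, 15, 2, 2, 1, 1, 1, 2, 5, 1, 2, 1, 7, 0, 8, 1, 1, 1, 1, 0, 0, 3, 0, 3, 1, 4, 5, 1, 1, 0, 0, 1, 1, 1, 1, 2, 1, 1, 0, 2, 1, 1, 0, 5, 1, 2, 3, 1,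 7, 11, 1, 0, 0, 3, 1, 0, 3, 2, 2, 0, 8, 4, 8, 1, 1, 1, 0, 1, 0, 1, 1, 0, 0, 3, 3, 2, 0, 1, 1, 0, 1, 1, 1, 1, 1, 3, 0, 1, 0, 1, 3, 4, 1, 1, 0, 1, 0, 3, 0, 1, 1, 4, 1, 1, 5, 1, 0, 4, 0, 1, 0, 3, 0, 1, 0, 3, 0, 3, 3, 1, 0, 1, 6, 1, 0, 4, 3, 3, 1, 1, 5, 1, 0, 3, 3, 2, 0, 0, 0, 3, 2, 2, 0, 0, 3, 0, 1, 6, 2, 1, 1, 3, 3, 0, 1, 2, 0, 0, 1, 0, 7, 1, 0, 2, 3, 0, 0, 1, 1, 0, 0, 1, 0, 1, 4, 3, 0, 0, 0, 6, 6, 0, 3, 1, 1, 0, 1, 1, 0, 1, 0, 0, 1, 3, 3, 0, 8, 0, 7, 1, 0, 1, 5, 0, 0, 1, 1, 0, 1, 9, 1, 1, 3, 6, 3, 4, 1, 1, 0, 2, 1, 0, 2, 1, 2, 1, 2, 0, 2, 1, 1, 2, 1, 1, 1, 1, 0, 0, 1, 5, 0, 2, 1, 1, 5, 2, 4, 4, 1, 9, 1, 1, 0] (.cons 1 0 0 0 0 (.cons 11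 2 0 .nil) [0, 0, 1, 0, 3, 1, 0, 0, 3, 1, 1, 1, 3, 8, 3, 0, 1, 1, 3, 0, 0, 1, 1, 13, 2, 0, 1, 3, 0, 0, 0, 1, 7, 1, 2, 4, 3, 0, 0, 1, 1, 1, 1, 0, 0, 3, 5, 0, 1, 1, 2, 0, 1, 3, 1, 0, 1, 0, 0, 6, 3, 1, 1, 1, 1, 3, 1, 1, 3, 1, 1, 3, 0, 5, 1, 0, 3, 0, 1, 1, 1, 0, 1, 1, 3, 4, 2, 7, 0, 1, 5, 0, 4, 1, 0, 1, 0, 0, 4, 0, 1, 1, 1, 5, 6, 0, 0, 1, 3, 2, 9, 0, 0, 0, 1, 0, 1, 0, 0, 1, 1, 2, 1, 0, 1, 0, 1, 1, 2, 3, 0, 0, 0, 0, 1, 1, 0, 1, 0, 4, 0, 1, 1, 1, 2, 0, 0, 0, 1, 4, 1, 2, 0, 0, 4, 0, 0, 4, 0, 0, 3, 6, 0, 0, 0, 0, 3, 0, 4, 4, 0, 1, 8, 7, 6, 0, 1, 0, 0, 0, 1, 2, 0, 0, 0, 1, 0, 0, 0, 0, 0, 0, 3, 1, 5, 2, 1, 0, 1, 0, 6, 0, 1, 4, 1, 5, 5, 1, 0, 0, 4,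 1, 0, 3, 2, 1, 2, 1, 0, 0, 5, 5, 4, 0, 2, 1, 0, 4, 4, 0, 2, 0, 1, 1, 4, 0, 2, 1, 3, 0, 0, 0, 0, 0, 0, 1, 5, 2, 2, 3, 0, 1, 5, 0, 2, 1, 0, 4, 3, 0, 2, 0, 3, 1, 1, 0, 1, 6, 0, 6, 10, 0, 1, 3, 1, 6, 3, 0] .nil))))),
  (.cons 0 30 0 0 0 (.cons 5 61 0 .nil) [39, 60, 6, 0, 4, 0] (.cons 0 29 0 0 0 (.cons 9 5 0 .nil) [41, 71] (.cons 0 22 1 0 0 (.cons 10 3 0 .nil) [2, 100, 15, 102, 5, 42, 4, 38, 5, 9] (.cons 2 12 0 0 0 (.cons 0 42 1 .nil) [15, 3, 0, 0, 5, 3, 7, 13, 30, 0, 5, 0, 26, 3, 0, 8, 1, 2, 1, 3, 0, 3, 4, 6, 22, 0, 4, 3, 2, 0, 1, 5, 15, 0, 0, 0, 4, 2, 0, 6, 2, 1, 8, 1, 2, 3, 7, 6, 5, 1, 2, 13, 6, 2, 1, 0, 1, 1, 0, 0, 1, 0, 3, 2, 1, 0, 4,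 1, 0, 5, 14, 1, 8, 8, 2, 1, 2, 1, 0, 0, 2, 2, 1, 0, 5, 5, 2, 3, 1, 1, 0, 1, 1, 4, 5, 1, 1, 0, 1, 0, 0, 1, 2, 1, 2, 0, 2, 1, 0, 2, 9, 1, 0, 3, 0, 1, 2, 0, 4, 0, 0, 1, 2, 0, 1, 4, 9, 0, 5, 0, 0, 6, 2, 1, 5, 1, 1, 2, 4, 1, 3, 3, 1, 3, 3, 0, 3, 1, 0, 0, 0, 0, 1, 0, 2, 0, 0, 3, 4, 0, 1, 1, 3, 3, 0, 0, 3, 1, 5, 5, 1, 1, 7, 0, 3, 3, 2, 0, 2, 1, 2, 6, 8, 0, 9, 1, 0, 0, 4, 0, 1, 1, 0, 1, 0, 2, 1, 2, 0, 3, 4, 0, 1, 3, 1, 3, 0, 2, 0, 0, 1, 0, 3, 0, 4, 2, 5, 1, 1, 0, 1, 1] .nil)))),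
  (.cons 0 24 0 0 0 (.cons 10 1 0 .nil) [] (.cons 0 9 0 0 0 (.cons 11 3 0 .nil) [5, 0, 3, 0, 106] (.cons 1 0 0 0 0 (.cons 11 1 0 .nil) [2, 1, 7, 2, 3, 0, 6, 1, 1, 6, 1, 27, 2, 0, 10, 8, 4, 0, 0, 0, 13, 2, 1, 13, 3, 4, 1, 3, 0, 2, 1, 0, 0, 3, 0, 1, 4, 0, 2, 1, 1, 3, 1, 2, 0, 3, 1, 1, 0, 1, 2, 0, 5, 3, 3, 8, 1, 8, 3, 0, 2, 4, 2, 1, 0, 0, 3, 0, 3, 6, 1, 7, 2, 4, 0, 2, 1, 1, 5, 4, 1, 3, 3, 0, 1, 0, 0, 5, 0, 0, 1, 1, 1, 0, 7, 2, 11, 2, 0, 1, 3, 0, 10, 0, 1, 3, 0, 2, 0, 0, 1, 1, 2, 9, 2, 2, 2, 0, 2, 3, 2, 1, 6, 1, 1, 2, 0, 3, 1, 1, 0, 3, 1, 3, 0, 2, 1, 1, 0, 5, 1, 0, 0, 1, 2, 1, 1, 6, 1, 4, 1, 1, 0, 10, 2, 7, 1, 0, 1, 1, 1, 0, 0, 2, 5, 0, 1,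 3, 0, 1, 1, 0, 2, 1, 3, 0, 1, 1, 6, 3, 5, 1, 1, 0, 1, 7, 3, 1, 1, 1, 2, 0, 1, 3, 8, 1, 3, 0, 2, 3, 1, 4, 3, 2, 1, 4, 3, 2, 5, 1, 0, 0, 0, 0, 1, 0, 12, 0, 0, 0, 3, 0, 0, 0, 9, 0, 3, 1, 0, 0, 0, 1, 1, 1, 0, 3, 1, 2, 4, 4, 0, 1, 0, 1, 0, 3, 0, 3, 7, 2, 4, 1, 2, 3, 1, 0, 1, 1] .nil))),
  (.cons 0 14 0 0 0 (.cons 5 0 0 .nil) [11, 58] (.cons 2 13 0 0 0 (.cons 0 43 1 .nil) [6, 8, 1, 12, 0, 0, 7, 5, 1, 8, 0, 14, 25, 5, 2, 19, 1, 3, 0, 10, 5, 4, 3, 6, 2, 0, 4, 4, 1, 0, 1, 0, 0, 3, 2, 9, 17, 5, 2, 4, 0, 0, 0, 2, 2, 1, 7, 10, 12, 4, 1, 1, 0, 1, 1, 2, 1, 2, 0, 0, 0, 1, 8, 1, 1, 1, 7, 2, 1, 1, 2, 1, 0, 1, 0, 1, 0, 1, 2, 3, 0, 0, 6, 11, 2, 0, 4, 0,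 1, 0, 2, 3, 0, 4, 1, 0, 5, 1, 1, 1, 1, 4, 2, 2, 1, 1, 0, 4, 1, 1, 0, 0, 2, 0, 0, 1, 2, 0, 3, 6, 3, 2, 1, 1, 3, 1, 0, 0, 0, 1, 0, 1, 1, 0, 1, 0, 2, 3, 1, 2, 4, 0, 1, 0, 1, 3, 3, 1, 0, 1, 1, 0, 0, 1, 1, 10, 0, 1, 0, 2, 0, 3, 11, 2, 4, 6, 1, 3, 0, 3, 1, 0, 3, 1, 3, 3, 3, 1, 0, 1, 2, 1, 0, 0, 1, 2, 1, 3, 1, 0, 1, 3, 0, 0, 0, 2, 3, 4, 2, 9, 1, 0, 6, 2, 0, 3, 2, 9, 3, 0, 0, 5, 0, 9, 1, 0, 7, 0, 1, 2, 2, 0, 4, 3, 5, 3, 1, 2, 0, 1, 0, 7, 3, 3, 1, 3, 5, 0, 1, 3, 1, 1, 0, 0, 1, 9, 1, 2, 7, 0] .nil)),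
  (.cons 0 30 1 0 0 (.cons 5 1 0 .nil) [41, 4, 68, 1, 9, 113, 2, 50, 44, 6, 0, 4] (.cons 0 24 0 0 0 (.cons 10 1 0 .nil) [] (.cons 0 17 0 0 0 (.cons 10 0 0 .nil) [137] (.cons 2 8 0 0 0 (.cons 0 44 1 .nil) [0, 8, 3, 1, 0, 1, 1, 0, 0, 0, 3, 0, 0, 0, 28, 12, 3, 11, 1, 5, 14, 17, 15, 1, 0, 5, 2, 0, 1, 0, 8, 4, 6, 1, 3, 0, 1, 1, 5, 1, 0, 1, 0, 1, 1, 1, 2, 11, 8, 0, 0, 1, 0, 1, 1, 7, 5, 2, 0, 0, 0, 0, 0, 9, 5, 0, 2, 3, 0, 0, 1, 4, 3, 0, 1, 1, 1, 1, 6, 7, 1, 0, 3, 1, 0, 1, 1, 0, 1, 0, 1, 2, 0, 1, 1, 0, 1, 0, 1, 0, 3, 1, 1, 5, 1, 1, 0, 3, 9, 1, 3, 1, 12, 2, 1, 0, 1, 2, 0, 0, 1, 2, 1, 0, 0, 3, 3, 3, 5, 1, 2, 0, 3, 3, 0, 1, 0, 0, 5, 1, 4, 1, 1, 0,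 0, 4, 3, 2, 1, 1, 7, 3, 1, 1, 0, 7, 1, 0, 1, 0, 3, 1, 4, 0, 1, 0, 4, 2, 3, 7, 1, 3, 2, 5, 0, 1, 1, 0, 1, 1, 3, 3, 5, 0, 5, 1, 4, 1, 1, 5, 5, 3, 0, 7, 0, 0, 0, 0, 0, 2, 5, 1, 1, 0, 2, 2, 1, 1, 1, 3, 0, 2, 0, 1, 1, 4, 5, 0, 1, 5, 1, 1, 0, 2, 16, 1, 2, 0, 0, 5, 2, 0, 1, 12, 2, 0, 2, 1, 1, 3, 0, 0, 2, 9, 1, 0, 0, 1, 0, 2, 1, 0, 1, 0, 0, 1, 0, 7, 1, 3, 2, 0, 4, 5, 0, 2, 0, 0, 1, 1, 1, 0, 1, 2, 0, 6, 0, 3, 1, 0, 0] (.cons 1 0 0 0 0 (.cons 11 0 0 .nil) [2, 1, 1, 5, 1, 3, 1, 1, 0, 5, 1, 3, 1, 0, 2, 12, 0, 1, 0, 2, 0, 2, 1, 0, 1, 1, 3, 0, 3, 0, 2, 4, 2, 1, 1, 1, 3, 3, 1, 18, 1, 7, 0, 3, 0, 0, 1, 0, 0, 1, 0, 0, 0, 0, 0, 0, 0, 1, 2, 1, 0, 7, 0, 3,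 1, 1, 1, 1, 0, 0, 2, 3, 2, 0, 0, 2, 16, 1, 0, 0, 4, 2, 6, 0, 1, 3, 0, 1, 3, 7, 1, 2, 3, 3, 14, 0, 1, 1, 2, 2, 7, 1, 2, 0, 1, 7, 1, 5, 0, 3, 7, 1, 2, 1, 0, 2, 1, 1, 0, 3, 3, 1, 0, 1, 0, 0, 2, 1, 0, 5, 1, 3, 0, 1, 4, 0, 1, 4, 0, 2, 1, 1, 0, 0, 4, 0, 1, 3, 1, 5, 0, 0, 1, 1, 7, 0, 1, 4, 3, 1, 0, 7, 2, 2, 1, 0, 0, 0, 1, 1, 0, 1, 1, 1, 1, 0, 0, 2, 3, 0, 2, 0, 0, 0, 0, 3, 0, 6, 1, 2, 1, 4, 2, 1, 1, 0, 0, 3, 0, 1, 1, 13, 3, 3, 1, 1, 0, 1, 3, 0, 2, 0, 1, 2, 1, 2, 2, 1, 0, 1, 4, 1, 3, 1, 3, 0, 0, 0, 5, 0, 4, 3, 1, 10, 7, 1, 0, 0, 6, 2, 1, 0, 2, 3, 0, 3, 1, 0, 1, 0, 5, 0, 0, 0, 1, 0, 2, 1, 0, 1, 3, 1, 0, 1, 1, 0, 3, 0, 1, 2, 2, 1, 1, 1, 1, 0, 0,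 5, 0, 0, 1, 2, 9, 0, 0, 0, 1, 7, 0, 2, 4, 2, 1, 0, 3, 0, 0, 0, 1, 0, 0, 0, 1, 1, 1, 1, 1, 4, 1, 1, 1, 1, 0, 4, 1, 1, 0, 2, 1] .nil))))),
  (.cons 0 27 0 0 0 (.cons 9 5 0 .nil) [129] (.cons 0 18 0 0 0 (.cons 9 6 0 .nil) [3, 4, 38, 75] (.cons 0 25 0 0 0 (.cons 9 7 0 .nil) [5, 44, 2, 6, 63, 5, 2] .nil))),
  (.cons 0 38 0 0 0 (.cons 5 7 0 .nil) [71, 5, 51, 4, 3] (.cons 0 30 0 0 0 (.cons 10 0 0 .nil) [] (.cons 0 17 0 0 0 (.cons 11 0 0 .nil) [6] (.cons 0 16 0 0 0 (.cons 11 1 0 .nil) [14] .nil)))),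
  (.cons 0 18 0 0 0 (.cons 9 0 0 .nil) [] (.cons 0 27 0 0 0 (.cons 9 2 0 .nil) [] (.cons 0 20 0 0 0 (.cons 9 1 0 .nil) [143] (.cons 0 38 0 0 0 (.cons 10 0 0 .nil) [1, 3, 2, 41, 78, 10, 1] (.cons 2 23 0 0 0 (.cons 0 45 0 .nil) [28, 0, 2, 4, 1, 2, 0, 22, 0, 22, 1, 2, 0, 5, 2, 1, 31, 5, 7, 0, 0, 2, 2, 1, 2, 5, 1, 1, 0, 2, 2, 8, 2, 4, 1, 4, 8, 3, 1, 10, 5, 0, 18, 3, 0, 1, 1, 0, 0, 9, 3, 3, 1, 11, 1, 1, 0, 6, 3, 2, 0, 0, 0, 3, 1, 2, 12, 1, 9, 0, 5, 2, 5, 1, 0, 2, 4, 0, 1, 1, 2, 11, 3, 1, 5, 13, 3, 5, 6, 1, 5, 0, 4, 0, 0, 3, 3, 4, 5, 2, 1, 1, 2, 1, 2, 1, 1, 0, 4, 3, 2, 2, 1, 4, 0, 1, 4, 0, 1, 1, 0, 0, 0, 1, 0, 0, 4, 1, 1, 1, 1, 1, 4, 2, 2, 8,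 1, 2, 1, 1, 3, 5, 1, 3, 1, 0, 1, 0, 0, 0, 7, 1, 3, 2, 1, 0, 1, 2, 0, 0, 0, 0, 2, 8, 1, 4, 0, 2, 1, 6, 0, 7, 3, 3, 1, 1, 0, 2, 3, 0, 1, 0, 0, 1, 6, 2, 3, 1, 1, 0, 0, 4, 0, 1, 4, 1, 0, 0, 1, 1, 3, 0, 0, 1, 4, 3, 0, 1, 1, 3, 2, 0, 1, 5, 13, 0, 3, 0, 5, 1, 0, 0, 1, 1, 2, 16, 0, 1, 3, 0, 0, 3, 0, 1, 1, 2, 19, 0, 1, 4, 4, 1, 1, 3, 1, 1, 2, 0, 3, 0, 1, 3, 1, 0, 2, 3, 1, 4, 2, 0, 2, 1, 1, 3, 0, 2, 2, 5, 5, 3, 1, 3, 1, 2, 4, 0, 1, 1, 5, 1, 1, 1] .nil))))),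
  (.cons 0 19 0 0 0 (.cons 9 6 0 .nil) [142] (.cons 0 15 0 0 0 (.cons 10 0 0 .nil) [3, 138] .nil)),
  (.cons 0 14 1 0 0 (.cons 9 0 0 .nil) [12, 61, 204, 7, 0, 74] (.cons 0 20 0 0 0 (.cons 9 1 0 .nil) [3] (.cons 0 8 2 0 0 (.cons 10 1 0 .nil) [79, 119, 2, 84, 69, 7, 2, 46, 2] (.cons 0 14 0 0 0 (.cons 9 6 0 .nil) [10, 141, 2] (.cons 2 0 0 0 0 (.cons 0 46 0 .nil) [29, 1, 19, 3, 119, 4, 1, 1, 0, 0, 24, 2, 14, 8, 8, 3, 5, 45, 0, 3, 25, 1, 8, 32, 0, 11, 1, 1, 25, 12, 22, 10, 0, 33, 16, 0, 11, 7, 0, 10, 2, 0, 20, 1, 3, 1, 0, 1, 0, 9, 1, 2, 0, 1, 2, 15, 5, 2, 1, 2, 8, 0, 1, 1, 12, 0, 11, 40, 0, 4, 9, 4, 20, 1, 1, 1, 1, 1, 16, 1, 19, 4, 4, 37, 5,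 2, 5, 0, 0, 10, 1, 4, 0, 3, 3, 1, 11, 2, 21, 1, 0, 18, 34, 0, 1, 3, 1, 22, 0, 0, 4, 2, 3, 1, 0, 0, 2, 0, 0, 1, 5, 1, 0, 7, 2, 1, 1, 3, 2, 0, 2, 7, 2, 1, 6, 2, 1, 3, 10, 1, 3, 1, 3, 7, 0, 0, 2, 0, 9, 1, 1, 4, 0, 0] (.cons 2 16 0 0 0 (.cons 0 47 0 .nil) [45, 11, 12, 2, 3, 1, 53, 0, 1, 1, 0, 3, 19, 0, 4, 0, 0, 1, 4, 2, 3, 1, 0, 3, 0, 0, 11, 0, 1, 3, 0, 1, 1, 5, 3, 1, 2, 0, 0, 3, 2, 0, 3, 1, 15, 3, 1, 0, 0, 4, 1, 2, 0, 1, 5, 2, 9, 2, 5, 3, 1, 5, 0, 18, 2, 0, 1, 6, 0, 0, 0, 0, 5, 0, 16, 7, 0, 5, 9, 4, 4, 1, 1, 2, 2, 1, 2, 1, 2, 5, 11, 2, 1, 0, 3, 0, 0, 11, 3, 1, 1, 0, 0, 0, 1, 1, 7, 3, 1, 1, 4, 1, 0, 1, 0, 0, 2, 2, 0, 0, 3, 0, 2, 1, 5, 0, 1,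 1, 3, 3, 4, 1, 4, 3, 2, 5, 2, 1, 2, 3, 0, 1, 2, 3, 3, 0, 4, 1, 0, 9, 1, 5, 4, 2, 1, 2, 2, 2, 1, 3, 2, 1, 2, 1, 0, 1, 0, 0, 4, 1, 1, 2, 1, 2, 10, 1, 2, 1, 0, 1, 1, 7, 1, 1, 3, 6, 3, 8, 3, 1, 1, 2, 0, 0, 0, 0, 0, 3, 1, 5, 1, 2, 5, 1, 0, 0, 4, 0, 1, 0, 0, 0, 0, 1, 0, 1, 9, 0, 4, 0, 1, 1, 3, 1, 1, 0, 0, 3, 1, 1, 3, 8, 5, 2, 0, 0, 1, 0, 0, 0, 2, 1, 5, 0, 6, 0, 11, 4, 0, 1, 1, 1, 1, 0, 5, 20, 1, 1, 0, 0, 1, 3, 1, 1, 2, 1, 3, 1, 5, 2, 1, 0, 0, 1, 0, 3, 1, 2, 1, 10, 1, 3, 1, 0, 1, 3, 0, 3, 2, 5, 2, 3, 1, 3, 3, 3, 1, 3, 1, 5, 0, 3, 0, 1, 9, 0, 8] (.cons 1 0 0 0 0 (.cons 11 1 0 .nil) [10, 18, 1, 0, 5, 0, 1, 2, 3, 1, 3, 1, 0, 0, 3, 3, 11, 19, 0,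 1, 3, 5, 3, 6, 1, 1, 3, 3, 0, 1, 23, 0, 9, 5, 1, 0, 0, 0, 3, 0, 3, 3, 2, 0, 0, 0, 1, 0, 2, 0, 3, 0, 1, 4, 2, 1, 2, 2, 0, 0, 0, 1, 2, 0, 1, 1, 0, 7, 0, 1, 0, 3, 9, 1, 1, 11, 0, 3, 0, 2, 5, 3, 2, 1, 1, 0, 0, 0, 1, 1, 11, 1, 0, 2, 0, 2, 9, 4, 0, 1, 17, 3, 1, 2, 2, 5, 0, 0, 0, 0, 0, 0, 1, 0, 0, 9, 1, 3, 1, 0, 0, 0, 0, 3, 1, 0, 3, 0, 3, 1, 6, 5, 7, 1, 1, 0, 1, 1, 0, 0, 1, 1, 1, 3, 1, 1, 1, 4, 2, 3, 0, 0, 2, 5, 0, 0, 4, 5, 2, 1, 3, 0, 2, 1, 0, 0, 1, 1, 0, 0, 1, 0, 5, 1, 0, 3, 1, 2, 2, 6, 1, 0, 1, 2, 1, 2, 1, 1, 0, 1, 1, 0, 1, 1, 0, 6, 1, 0, 3, 2, 0, 0, 0, 1, 1, 2, 0, 3, 1, 3, 0, 0, 1, 1, 1, 2, 12, 3, 0, 6, 3, 2, 1, 1, 2, 5, 2, 2, 0, 8, 1, 5,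 3, 1, 0, 0, 5, 3, 5, 3, 2, 3, 1, 1, 3, 1, 5, 0, 0, 4, 1, 7, 1, 4, 1, 2, 1, 1, 1, 6, 1, 1, 3, 3, 3, 7, 0, 0, 5, 2, 4, 5, 0, 1, 1, 0, 11, 3, 0, 2, 0, 6, 2, 3, 5, 3, 5, 1, 2, 0, 4, 0, 1, 0, 0, 1, 1, 4, 1, 0, 0, 1, 0, 0, 1, 1, 4, 2, 1, 1, 3, 5, 3, 1, 1, 1, 2, 1, 0, 1, 1, 2, 1, 0, 1, 3, 2, 2, 1, 0, 1, 1, 1, 1, 0, 1, 0, 0, 0, 5, 3, 0, 1, 0, 1, 0, 1, 1, 0, 1, 1, 1, 2, 1, 0, 0, 1, 2, 3, 1, 5, 1, 1] .nil)))))))]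

theorem ok10 : run B sp W10 W11 G10 Y10 Y11 471 K10 D10 = true := by decide +kernel

end Vale.Agent.P236K.Cert.Pl.P96
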