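import Vale.Agent.P236K.P96.B
import Vale.Agent.P236K.P96.A14
import Vale.Agent.P236K.P96.A15

/-!
# P236K / P96 / R14 : the check of degree 14
-/

noncomputable section

namespace Vale.Agent.P236K.Cert.Pl.P96

/-- rows given by data -/
noncomputable def D14 : List DL := [.nil,
  .nil,
  .nil,
  .nil,
  .nil,
  .nil,
  .nil,
  .nil,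
  .nil,
  .nil,
  .nil,
  .nil,
  .nil,
  .nil,
  .nil,
  .nil,
  .nil,
  .nil,
  .nil,
  .nil,
  .nil,
  .nil,
  (.cons 2 0 0 0 0 (.cons 0 0 0 .nil) [] .nil),
  .nil,
  (.cons 2 0 0 0 0 (.cons 0 1 0 .nil) [] (.cons 1 0 0 0 0 (.cons 5 0 0 .nil) [] .nil)),
  (.cons 0 1 0 0 0 (.cons 9 0 0 .nil) [1] .nil),
  (.cons 2 1 0 0 0 (.cons 0 2 0 .nil) [] (.cons 1 0 0 0 0 (.cons 5 0 0 .nil) [4] .nil)),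
  .nil,
  (.cons 2 2 0 0 0 (.cons 0 3 0 .nil) [] (.cons 1 0 0 0 0 (.cons 9 0 0 .nil) [2, 2] .nil)),
  .nil,
  (.cons 2 0 0 0 0 (.cons 0 4 0 .nil) [] (.cons 1 0 0 0 0 (.cons 9 0 0 .nil) [2, 1, 1, 3] .nil)),
  (.cons 0 3 0 0 0 (.cons 10 0 0 .nil) [5] .nil),
  (.cons 1 0 0 0 0 (.cons 9 0 0 .nil) [3, 1, 2, 3] .nil),
  (.cons 0 1 0 0 0 (.cons 10 0 0 .nil) [1] (.cons 2 3 0 0 0 (.cons 0 5 1 .nil) [0, 7, 5] .nil)),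
  (.cons 0 4 0 0 0 (.cons 9 1 0 .nil) [6] (.cons 1 0 0 0 0 (.cons 9 0 0 .nil) [1, 7, 0, 1, 0, 0] .nil)),
  (.cons 2 4 0 0 0 (.cons 0 6 1 .nil) [9, 0, 6] .nil),
  (.cons 0 2 0 0 0 (.cons 9 1 0 .nil) [5] (.cons 1 0 0 0 0 (.cons 9 0 0 .nil) [8, 2, 1, 0] .nil)),
  (.cons 2 5 0 0 0 (.cons 0 7 1 .nil) [] .nil),
  (.cons 1 0 0 0 0 (.cons 9 0 0 .nil) [10, 3] .nil),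
  (.cons 2 3 0 0 0 (.cons 0 8 0 .nil) [12, 1, 8, 3] .nil),
  (.cons 0 6 0 0 0 (.cons 9 0 0 .nil) [] (.cons 1 0 0 0 0 (.cons 10 0 0 .nil) [1, 12, 1, 0, 7, 1, 2, 1, 0] .nil)),
  (.cons 2 1 0 0 0 (.cons 0 9 1 .nil) [1, 6, 4, 12, 1, 11] .nil),
  (.cons 0 4 0 0 0 (.cons 10 0 0 .nil) [2] (.cons 1 0 0 0 0 (.cons 10 1 0 .nil) [0, 2, 0, 2, 0, 0, 0, 3, 0, 10, 0, 2, 2, 0] .nil)),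
  (.cons 0 7 0 0 0 (.cons 9 0 0 .nil) [] .nil),
  (.cons 0 2 0 0 0 (.cons 10 1 0 .nil) [2] .nil),
  (.cons 0 5 0 0 0 (.cons 9 2 0 .nil) [12] .nil),
  .nil,
  (.cons 0 3 0 0 0 (.cons 9 0 0 .nil) [17] .nil),
  (.cons 0 6 0 0 0 (.cons 10 1 0 .nil) [1] .nil),
  .nil,
  (.cons 0 4 0 0 0 (.cons 10 0 0 .nil) [] .nil),
  (.cons 0 7 0 0 0 (.cons 9 0 0 .nil) [] .nil),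
  .nil,
  (.cons 0 5 0 0 0 (.cons 10 1 0 .nil) [2] .nil),
  (.cons 0 8 0 0 0 (.cons 9 0 0 .nil) [] .nil),
  (.cons 2 10 0 0 0 (.cons 0 10 0 .nil) [5, 1, 27, 5, 0, 10, 4, 2, 26, 1, 4] .nil),
  (.cons 0 6 0 0 0 (.cons 9 2 0 .nil) [20] .nil),
  (.cons 2 10 0 0 0 (.cons 0 11 0 .nil) [4, 30, 5, 13, 20, 7, 0, 1, 0] (.cons 1 0 0 0 0 (.cons 5 13 0 .nil) [6, 1, 10, 0, 0, 8, 9, 3, 5, 0, 14, 7, 0, 5, 2, 2, 1, 2, 0, 5, 6, 0, 1, 8, 0] .nil)),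
  (.cons 0 11 0 0 0 (.cons 9 0 0 .nil) [31] .nil),
  (.cons 0 7 0 0 0 (.cons 10 0 0 .nil) [] (.cons 1 0 0 0 0 (.cons 5 0 0 .nil) [2, 0, 3, 12, 2, 11, 3, 4, 0, 8, 3, 1, 0, 7, 6, 0, 1, 9, 2, 0, 9, 1, 3, 3, 3, 15, 1, 0] .nil)),
  (.cons 2 11 0 0 0 (.cons 0 12 0 .nil) [28, 7, 1, 2, 6, 13, 11, 0, 17, 10, 0, 15, 5, 16] .nil),
  (.cons 1 0 0 0 0 (.cons 9 0 0 .nil) [3, 1, 1, 0, 5, 4, 0, 2, 8, 1, 7, 4, 5, 1, 4, 0, 0, 0, 4, 12, 1, 2, 1, 3, 0, 1, 3, 1, 0, 5, 3, 2, 0, 0, 7, 0, 1, 1, 3, 1, 0, 0, 1, 3, 0] .nil),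
  (.cons 0 8 0 0 0 (.cons 9 0 0 .nil) [] (.cons 2 11 0 0 0 (.cons 0 13 1 .nil) [44, 0, 2, 15, 12, 0, 0, 0, 4, 10, 1, 1, 1, 0, 4, 12, 1, 0, 2, 5, 3, 9, 5] .nil)),
  (.cons 0 12 0 0 0 (.cons 9 4 0 .nil) [34] (.cons 1 0 0 0 0 (.cons 9 0 0 .nil) [0, 5, 1, 2, 3, 1, 1, 14, 0, 3, 0, 2, 5, 0, 1, 2, 10, 0, 5, 10, 0, 3, 1, 1, 0, 4, 3, 3, 1, 3, 0, 1, 3, 14, 3, 1, 0, 1, 2, 4, 1, 4, 1, 0, 2] .nil)),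
  (.cons 2 12 0 0 0 (.cons 0 14 1 .nil) [9, 38, 4, 2, 11, 6, 3, 5, 23, 0, 7, 0, 4, 1, 4, 6, 0, 5, 2, 6, 0, 1, 2, 5, 7, 4] .nil),
  (.cons 0 9 0 0 0 (.cons 9 1 0 .nil) [] (.cons 1 0 0 0 0 (.cons 9 0 0 .nil) [13, 5, 9, 8, 0, 2, 1, 1, 0, 3, 6, 1, 4, 12, 1, 3, 1, 8, 0, 2, 10, 1, 0, 0, 0, 0, 0, 0, 1, 3, 0, 1, 1, 2, 2, 3, 0, 1, 2, 1, 3, 4, 1, 15, 1, 1] .nil)),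
  (.cons 2 13 0 0 0 (.cons 0 16 1 .nil) [48, 1, 12, 16, 32, 16, 2, 2, 2, 4, 8, 14, 0, 1, 4] (.cons 2 16 0 0 0 (.cons 0 15 0 .nil) [183] .nil)),
  (.cons 1 0 0 0 0 (.cons 9 0 0 .nil) [8, 1, 1, 20, 8, 2, 1, 0, 1, 1, 13, 3, 21, 2, 3, 11, 1, 9, 4, 1, 0, 3, 0, 6, 1, 1, 7, 5, 1, 1, 2, 1, 8, 1, 2, 1, 1, 2, 11, 2, 8, 0, 1, 0] .nil),
  (.cons 2 11 0 0 0 (.cons 0 18 0 .nil) [43, 15, 1, 3, 4, 16, 10, 4, 9, 27, 11, 4, 18, 12, 7, 2, 19, 1] (.cons 2 16 0 0 0 (.cons 0 17 0 .nil) [57, 5, 3, 7, 32, 26, 19, 17, 1, 0, 5, 9, 9, 26] (.cons 1 0 0 0 0 (.cons 5 23 0 .nil) [7, 1, 23, 42, 31, 39, 17, 9, 13, 4, 3, 7, 2, 20, 0, 5] .nil))),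
  (.cons 0 14 0 0 0 (.cons 9 1 0 .nil) [] (.cons 0 18 0 0 0 (.cons 9 0 0 .nil) [47] (.cons 1 0 0 0 0 (.cons 10 0 0 .nil) [3, 13, 1, 2, 16, 1, 3, 8, 6, 1, 2, 2, 12, 15, 9, 5, 1, 5, 3, 0, 1, 0, 5, 3, 3, 2, 0, 1, 5, 8, 2, 5, 1, 7, 2, 1, 3, 2, 3, 3, 2, 3, 13, 4, 0, 7, 1, 0, 0, 0] .nil))),
  (.cons 2 12 0 0 0 (.cons 0 19 1 .nil) [53, 3, 4, 2, 11, 3, 15, 1, 6, 0, 2, 3, 7, 1, 3, 0, 1, 6, 1, 1, 8, 1, 0, 0, 1, 3, 1, 3, 3, 1, 2, 1, 2, 0, 6, 5, 0, 1, 3, 1, 0, 0, 0, 0, 4, 0, 7, 1, 1, 5, 3, 0, 2] (.cons 1 0 0 0 0 (.cons 5 0 0 .nil) [6, 0, 0, 4, 13, 6, 1, 22, 8, 3, 2, 8, 0, 5, 14, 2, 10, 5, 9, 1, 6, 0, 1, 1, 0, 0, 0, 1, 5, 0, 1, 1, 1, 0, 1, 5, 0, 5, 1, 2, 2, 0,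 1, 2, 2, 2, 1, 1, 2, 32, 3] .nil)),
  (.cons 0 18 0 0 0 (.cons 10 0 0 .nil) [6, 40] .nil),
  (.cons 0 15 0 0 0 (.cons 9 1 0 .nil) [] (.cons 2 10 0 0 0 (.cons 0 20 1 .nil) [10, 1, 0, 1, 6, 28, 0, 7, 0, 5, 2, 1, 0, 0, 7, 1, 8, 1, 3, 14, 0, 6, 14, 11, 1, 1, 1, 12, 0, 2, 0, 0, 0, 1, 1, 0, 0, 2, 0, 3, 0, 6, 0, 0, 5, 4, 5, 1, 5, 0, 5, 6, 16, 3, 1, 3, 0] (.cons 1 0 0 0 0 (.cons 9 0 0 .nil) [10, 0, 1, 1, 1, 6, 12, 0, 10, 6, 1, 1, 1, 2, 0, 7, 1, 0, 0, 1, 0, 0, 2, 3, 0, 1, 7, 12, 5, 0, 4, 1, 3, 1, 6, 1, 2, 0, 1, 0, 2, 1, 1, 1, 1, 1, 0, 0, 0, 1, 0, 3, 2, 1, 3, 1, 4, 1, 2, 3, 1, 1, 0, 1, 1, 1, 1, 6, 0, 3, 1, 0, 4, 3, 1, 1, 11, 1, 2, 4, 1, 0, 0, 1, 0] .nil))),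
  (.cons 0 13 0 0 0 (.cons 10 0 0 .nil) [4] (.cons 0 14 0 0 0 (.cons 10 3 0 .nil) [0, 54] .nil)),
  (.cons 0 19 0 0 0 (.cons 5 0 0 .nil) [5] (.cons 2 11 0 0 0 (.cons 0 21 1 .nil) [20, 36, 0, 7, 1, 0, 1, 3, 6, 0, 1, 1, 1, 22, 18, 1, 4, 4, 1, 0, 4, 0, 13, 0, 2, 3, 2, 2, 0, 5, 2, 0, 0, 1, 3, 3, 10, 1, 1, 3, 4, 0, 1, 1, 0, 3, 0, 2, 0, 1, 4, 1, 0, 0, 0, 14, 0, 4, 5, 1, 0] (.cons 1 0 0 0 0 (.cons 9 5 0 .nil) [2, 5, 2, 9, 11, 0, 4, 15, 6, 1, 3, 1, 6, 1, 5, 7, 2, 1, 0, 5, 1, 12, 1, 2, 3, 1, 2, 2, 1, 0, 2, 1, 3, 1, 1, 5, 4, 1, 1, 1, 2, 0, 0, 0, 1, 0, 9, 7, 0, 2, 5, 1, 0, 2, 0, 1, 0, 1, 1, 0, 1, 0, 1, 1, 0, 0, 3, 3, 3, 0, 1, 1, 3, 0, 3, 3, 2, 7, 1, 1, 1, 0,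 5, 1, 0, 1, 1, 0, 0, 1, 3, 1, 3] .nil))),
  (.cons 0 14 0 0 0 (.cons 10 4 0 .nil) [4, 2, 48] .nil),
  (.cons 0 20 0 0 0 (.cons 9 4 0 .nil) [52, 0, 5] (.cons 1 0 0 0 0 (.cons 9 0 0 .nil) [10, 9, 15, 5, 3, 3, 3, 6, 2, 10, 1, 5, 0, 7, 1, 11, 0, 1, 4, 1, 0, 3, 2, 2, 0, 1, 1, 2, 2, 0, 0, 5, 1, 3, 1, 2, 0, 3, 1, 4, 0, 5, 0, 0, 0, 2, 1, 0, 0, 0, 1, 7, 1, 2, 0, 1, 3, 2, 3, 0, 0, 1, 0, 1, 0, 1, 0, 2, 3, 1, 0, 0, 0, 7, 4, 0, 2, 0, 1, 0, 0, 0, 1, 7, 8, 4, 0, 2, 0, 0, 2, 2, 0, 0, 1, 5, 6, 0, 1, 0] .nil)),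
  (.cons 0 12 0 0 0 (.cons 10 1 0 .nil) [6] (.cons 2 14 0 0 0 (.cons 0 22 1 .nil) [0, 3, 5, 3, 3, 32, 8, 8, 2, 3, 2, 0, 1, 2, 2, 6, 0, 1, 0, 9, 12, 1, 3, 2, 4, 2, 3, 1, 0, 2, 1, 11, 1, 5, 0, 4, 1, 4, 0, 1, 1, 1, 1, 0, 1, 2, 1, 3, 0, 2, 1, 0, 2, 5, 3, 2, 0, 17, 3, 0, 9, 0, 3, 0, 0, 0, 0, 1, 1, 3, 0, 0, 0, 1, 1, 1, 4, 3, 2, 0, 10, 1, 7, 0, 2, 1, 1, 2, 1, 10, 2] .nil)),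
  (.cons 0 20 0 0 0 (.cons 9 3 0 .nil) [64] (.cons 1 0 0 0 0 (.cons 9 0 0 .nil) [7, 7, 0, 0, 11, 1, 4, 13, 0, 5, 4, 3, 0, 3, 0, 1, 0, 2, 0, 6, 9, 0, 0, 1, 3, 1, 1, 0, 0, 2, 0, 0, 5, 3, 0, 0, 0, 7, 0, 3, 1, 1, 1, 4, 0, 2, 0, 1, 1, 1, 1, 3, 9, 1, 1, 6, 1, 3, 1, 0, 2, 0, 4, 1, 2, 2, 0, 1, 1, 0, 5, 1, 4, 1, 0, 3, 2, 0, 0, 4, 0, 1, 0, 1, 0, 11, 0, 1, 2, 4, 0, 1, 1, 0, 2, 0, 3, 1, 1, 1, 4, 5, 1, 0, 5, 2, 3, 6, 1, 0, 4, 1, 0, 0, 0, 4, 1, 1] .nil)),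
  (.cons 2 15 0 0 0 (.cons 0 23 0 .nil) [3, 9, 0, 54, 1, 9, 3, 9, 2, 6, 2, 3, 1, 3, 3, 0, 0, 0, 3, 1, 1, 2, 1, 1, 5, 0, 3, 0, 0, 0, 3, 5, 1, 2, 0, 1, 0, 1, 2, 3, 15, 1, 2, 0, 0, 4, 2, 5, 2, 1, 1, 0, 1, 1, 2, 0, 0, 1, 2, 3, 2, 4, 1, 0, 1, 1, 0, 0, 3, 5, 5, 1, 0, 0, 1, 1, 4, 4, 3, 2, 5, 3, 0, 3, 6, 0, 3, 0, 7, 1, 3, 4, 5, 0, 2, 3, 1, 0, 1, 8, 5, 2, 1] .nil),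
  (.cons 0 13 0 0 0 (.cons 9 1 0 .nil) [65] (.cons 1 0 0 0 0 (.cons 9 0 0 .nil) [6, 6, 1, 1, 7, 29, 0, 3, 4, 1, 8, 1, 1, 2, 6, 2, 1, 0, 0, 1, 1, 0, 3, 6, 2, 15, 0, 1, 2, 5, 1, 11, 0, 1, 3, 1, 9, 2, 0, 1, 3, 0, 1, 0, 0, 3, 4, 0, 0, 1, 4, 0, 3, 1, 0, 0, 0, 9, 0, 1, 0, 1, 1, 0, 2, 1, 1, 1, 1, 5, 3, 0, 1, 1, 0, 4, 7, 3, 2, 0, 5, 0, 7, 1, 0, 3, 0, 4, 1, 6, 5, 4, 5, 1, 3, 5, 1, 1, 2, 5, 1, 1, 5, 4, 0, 2, 0, 1, 1, 3, 1, 2, 3, 0, 0] .nil)),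
  (.cons 0 21 0 0 0 (.cons 9 0 0 .nil) [] (.cons 0 13 0 0 0 (.cons 10 0 0 .nil) [] .nil)),
  (.cons 0 18 0 0 0 (.cons 9 0 0 .nil) [] .nil),
  (.cons 0 22 0 0 0 (.cons 5 4 0 .nil) [3, 66] (.cons 0 16 0 0 0 (.cons 10 0 0 .nil) [] (.cons 2 4 0 0 0 (.cons 0 24 1 .nil) [26, 0, 12, 16, 17, 5, 3, 1, 2, 3, 3, 0, 3, 0, 1, 1, 1, 1, 0, 3, 1, 8, 1, 3, 4, 3, 11, 7, 0, 10, 2, 1, 1, 1, 0, 3, 0, 9, 5, 2, 1, 1, 4, 3, 14, 3, 0, 0, 6, 0, 2, 1, 2, 0, 1, 0, 1, 1, 0, 1, 1, 2, 0, 5, 1, 1, 0, 0, 1, 6, 0, 1, 0, 5, 0, 4, 1, 1, 8, 2, 5, 1, 1, 2, 1, 7, 0, 0, 3, 1, 0, 0, 0, 5, 3, 5, 19, 11, 9, 4, 1, 2, 0, 0, 7, 2, 0, 0, 0, 13, 0, 16] .nil))),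
  (.cons 0 20 0 0 0 (.cons 10 4 0 .nil) [77] .nil),
  (.cons 0 19 0 0 0 (.cons 9 0 0 .nil) [] (.cons 2 5 0 0 0 (.cons 0 25 1 .nil) [13, 1, 0, 11, 28, 1, 2, 2, 30, 0, 2, 0, 4, 6, 2, 8, 1, 1, 3, 1, 18, 0, 3, 3, 2, 11, 1, 2, 0, 5, 4, 4, 0, 3, 3, 0, 0, 1, 1, 3, 0, 1, 3, 0, 12, 0, 13, 6, 0, 1, 2, 3, 3, 4, 0, 1, 0, 0, 0, 7, 2, 1, 2, 0, 1, 0, 1, 2, 4, 1, 1, 3, 2, 0, 1, 4, 4, 1, 5, 8, 0, 0, 1, 1, 0, 0, 0, 3, 3, 3, 0, 0, 3, 2, 6, 1, 1, 2, 0, 3, 3, 1, 8, 3, 0, 0, 1, 4, 1, 4, 2, 7, 3, 9, 6, 1, 6, 0, 2, 0, 0, 0, 3, 0, 0, 3, 0, 6] .nil)),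
  (.cons 0 17 0 0 0 (.cons 10 1 0 .nil) [3, 1] (.cons 0 18 0 0 0 (.cons 10 3 0 .nil) [7] .nil)),
  (.cons 0 21 0 0 0 (.cons 5 1 0 .nil) [11] .nil),
  (.cons 0 3 1 0 0 (.cons 9 4 0 .nil) [27, 4, 42, 5, 2, 75, 33] (.cons 0 17 0 0 0 (.cons 10 2 0 .nil) [3] (.cons 2 6 0 0 0 (.cons 0 26 1 .nil) [1, 9, 9, 1, 44, 23, 3, 4, 0, 0, 3, 0, 1, 1, 0, 1, 4, 12, 1, 0, 0, 0, 1, 1, 0, 0, 6, 5, 0, 4, 2, 0, 2, 0, 0, 3, 5, 3, 0, 4, 0, 0, 0, 3, 0, 0, 3, 1, 1, 5, 0, 3, 0, 1, 0, 0, 1, 5, 6, 2, 3, 5, 5, 1, 2, 4, 1, 4, 0, 1, 10, 0, 1, 3, 0, 0, 1, 1, 1, 11, 0, 0, 14, 0, 2, 1, 0, 0, 0, 0, 3, 0, 0, 1, 3, 0, 1, 1, 1, 0, 1, 0, 0, 0, 4, 0, 2, 0, 3, 2, 1, 4, 2, 0, 0, 3, 1, 7, 3,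 0, 0, 13, 1, 0, 2, 1, 3, 0, 1, 0, 1, 2, 1, 3, 8, 1, 0, 1, 4, 1, 3, 0, 1, 1, 2, 2, 0, 9, 6, 3, 4, 1, 1, 2, 2, 1, 0, 7, 0, 4, 5, 0, 0, 6, 1, 1] .nil))),
  (.cons 0 19 0 0 0 (.cons 9 3 0 .nil) [10, 72] (.cons 1 0 0 0 0 (.cons 11 2 0 .nil) [1, 3, 3, 3, 0, 3, 3, 1, 1, 6, 1, 16, 6, 15, 0, 0, 0, 3, 1, 0, 1, 1, 0, 1, 1, 0, 1, 0, 6, 1, 1, 1, 1, 0, 0, 0, 1, 1, 1, 0, 0, 0, 1, 0, 0, 5, 7, 2, 3, 3, 5, 0, 1, 0, 3, 7, 1, 8, 6, 0, 1, 1, 0, 2, 0, 7, 0, 1, 1, 0, 2, 1, 0, 3, 3, 0, 1, 1, 3, 3, 0, 0, 1, 0, 0, 10, 0, 1, 1, 2, 0, 0, 4, 1, 1, 1, 1, 4, 2, 2, 1, 0, 3, 4, 1, 0, 2, 1, 0, 1, 0, 1, 1, 0, 1, 3, 0, 1, 0, 1, 0, 0, 0, 1, 0, 0, 1, 0, 1, 1, 0, 0, 0, 1, 1, 5, 4, 2, 1,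 0, 0, 1, 1, 1, 2, 0, 3, 5, 0, 0, 5, 2, 1, 1, 1, 0, 1, 1, 1, 2, 0, 2, 1, 2, 2, 1, 0, 1, 0, 1, 0, 0, 2, 0, 5, 1, 0, 1, 3, 0, 0, 2, 2, 0, 5, 3, 0, 7, 3, 2, 3, 1, 0, 0, 0, 4, 0, 5, 1, 3, 1, 1, 5, 2, 1, 2, 0, 1, 0, 0, 5, 1, 0, 1, 1, 0, 0, 3, 1, 0, 0, 2, 3] .nil)),
  (.cons 0 17 0 0 0 (.cons 10 0 0 .nil) [] (.cons 2 3 0 0 0 (.cons 0 28 1 .nil) [1, 14, 5, 0, 0, 2, 1, 1, 7, 8, 10, 7, 0, 18, 8, 0, 0, 1, 3, 3, 0, 0, 3, 0, 1, 0, 2, 1, 1, 0, 0, 2, 5, 3, 1, 0, 1, 4, 2, 5, 4, 3, 1, 1, 1, 5, 1, 2, 1, 0, 8, 3, 1, 3, 2, 1, 1, 1, 1, 4, 0, 1, 1, 1, 0, 1, 0, 5, 1, 9, 1, 0, 0, 1, 1, 0, 5, 0, 1, 5, 1, 1, 3, 1, 1, 0, 4, 5, 0, 3, 2, 1, 3, 0, 1, 6, 0, 3, 3, 1, 2, 6, 9, 1,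 6, 1, 0, 1, 2, 1, 1, 3, 0, 0, 0, 2, 0, 4, 0, 1, 1, 1, 0, 1, 0, 0, 2, 3, 1, 0, 1, 0, 5, 1, 0, 1, 1, 0, 3, 6, 0, 1, 5, 0, 1, 1, 0, 1, 2, 0, 0, 3, 0, 1, 1, 1, 1, 2, 3, 2, 0, 1, 1, 7, 1, 2, 0, 0, 4, 3, 4, 11, 4, 0, 0, 0, 2, 6, 0, 1, 6, 4, 0, 3, 1, 4, 2, 0, 1, 1, 2, 0, 1, 0, 0, 0, 2, 5, 0, 0, 4, 0, 2] (.cons 2 6 0 0 0 (.cons 0 27 1 .nil) [2, 33, 58, 8, 7, 5, 1, 0, 3, 0, 3, 1, 0, 1, 1, 0, 1, 1, 0, 5, 2, 1, 27, 1, 2, 1, 4, 1, 0, 0, 0, 3, 1, 5, 4, 0, 3, 0, 1, 0, 1, 0, 5, 1, 0, 0, 0, 1, 9, 2, 3, 2, 3, 1, 5, 0, 2, 1, 4, 0, 7, 1, 1, 6, 0, 4, 4, 2, 2, 8, 3, 1, 4, 1, 3, 4, 0, 1, 1, 3, 3, 0, 3, 0, 0, 1, 1, 2, 0, 0, 1, 1, 0, 3, 1, 1, 1, 0, 1, 0, 1, 2, 5, 0, 0, 5,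 1, 3, 1, 2, 3, 0, 2, 0, 3, 2, 3, 11, 3, 1, 0, 0, 0, 0, 1, 2, 4, 2, 0, 0, 2, 0, 3, 2, 1, 6, 1, 2, 8, 0, 11, 1, 1, 0, 0, 0, 2, 4, 1, 1, 1, 3, 3, 3, 2, 1, 2, 1, 1, 0, 1, 1, 2, 0, 1, 1, 0, 1, 0, 2, 1, 0, 1, 2, 3, 6, 1, 0, 3, 5] (.cons 1 0 0 0 0 (.cons 5 45 0 .nil) [13, 2, 1, 0, 5, 0, 0, 2, 2, 0, 5, 5, 3, 3, 9, 0, 1, 0, 3, 3, 1, 19, 7, 3, 4, 0, 3, 1, 1, 3, 1, 1, 1, 1, 1, 1, 1, 0, 1, 1, 0, 5, 1, 0, 6, 5, 0, 3, 4, 0, 8, 1, 2, 1, 1, 0, 5, 1, 0, 2, 3, 1, 3, 0, 1, 9, 1, 2, 0, 1, 2, 0, 1, 0, 1, 2, 2, 0, 1, 1, 1, 3, 0, 0, 0, 0, 2, 3, 4, 0, 1, 3, 5, 0, 2, 2, 7, 1, 1, 2, 0, 0, 1, 1, 2, 0, 3, 0, 1, 1, 0, 3, 1, 0, 1, 1, 0, 0, 0, 15, 4, 0, 1, 1, 4, 0, 1, 0, 2, 0,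 2, 0, 3, 5, 2, 2, 0, 1, 1, 9, 0, 1, 1, 0, 0, 1, 0, 2, 2, 0, 1, 4, 0, 1, 0, 2, 0, 1, 1, 0, 0, 1, 1, 0, 0, 1, 6, 1, 0, 1, 1, 2, 0, 2, 1, 6, 1, 6, 1, 1, 3, 4, 2, 1, 3, 8, 1, 0, 4, 1, 3, 3, 2, 0, 3, 0, 3, 1, 1, 1, 0, 0, 3, 0, 3, 3, 0, 1, 0, 2, 8, 1, 3] .nil)))),
  (.cons 0 19 0 0 0 (.cons 10 4 0 .nil) [6] (.cons 0 7 0 0 0 (.cons 9 0 0 .nil) [99] (.cons 1 0 0 0 0 (.cons 11 1 0 .nil) [1, 3, 4, 1, 0, 3, 1, 1, 3, 1, 0, 1, 16, 1, 6, 0, 1, 4, 1, 1, 3, 1, 5, 0, 7, 2, 6, 7, 0, 0, 4, 2, 2, 1, 4, 0, 2, 1, 0, 2, 1, 0, 1, 0, 3, 1, 1, 1, 0, 5, 0, 3, 1, 3, 0, 1, 1, 0, 0, 0, 1, 3, 3, 1, 0, 0, 0, 1, 0, 5, 5, 0, 3, 0, 2, 1, 0, 2, 1, 2, 0, 2, 3, 1, 3, 0, 1, 1, 1, 2, 1,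 1, 0, 1, 7, 1, 1, 3, 8, 3, 0, 1, 1, 1, 1, 0, 7, 4, 0, 2, 4, 3, 5, 3, 1, 3, 0, 2, 2, 1, 1, 0, 1, 0, 0, 0, 0, 1, 5, 1, 0, 1, 0, 0, 1, 5, 0, 1, 0, 0, 1, 1, 1, 3, 0, 0, 0, 1, 0, 1, 0, 3, 0, 1, 0, 4, 3, 1, 0, 0, 1, 4, 1, 0, 0, 5, 0, 3, 1, 2, 1, 3, 1, 0, 3, 0, 3, 9, 4, 1, 0, 2, 8, 1, 0, 3, 5, 0, 0, 0, 3, 1, 3, 5, 0, 1, 0, 0, 1, 0, 0, 2, 3, 0, 1, 0, 2, 2, 1, 0, 3, 7, 0, 1, 1, 3, 1, 1, 2, 0, 3, 4, 1, 2, 5, 2, 14, 3, 7, 1] .nil))),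
  (.cons 0 20 0 0 0 (.cons 10 1 0 .nil) [] .nil),
  (.cons 0 19 0 0 0 (.cons 9 2 0 .nil) [] (.cons 0 7 0 0 0 (.cons 11 2 0 .nil) [10, 0, 84] (.cons 2 8 0 0 0 (.cons 0 29 1 .nil) [1, 0, 0, 2, 9, 5, 3, 2, 1, 1, 0, 1, 6, 0, 14, 7, 11, 1, 3, 11, 1, 0, 7, 6, 1, 0, 1, 3, 0, 0, 4, 1, 5, 0, 8, 4, 0, 1, 1, 1, 3, 0, 0, 1, 1, 1, 4, 0, 3, 3, 1, 2, 2, 17, 4, 3, 2, 0, 1, 1, 1, 2, 0, 9, 2, 8, 0, 4, 0, 3, 0, 1, 0, 1, 1, 1, 0, 0, 0, 7, 2, 1, 0, 0, 1, 3, 0, 0, 1, 1, 0, 1, 0, 0, 2, 0, 0, 3, 2, 1, 1, 2, 1, 2, 1, 1, 1, 0, 0, 0, 1, 0, 7, 1, 0, 0, 0, 0, 2, 2, 1, 1, 5, 6, 1, 0, 2, 4, 1, 2, 0, 3, 1, 1, 0, 5, 8, 0, 7, 0, 3, 0, 4, 0, 0, 3, 3, 0, 1, 1, 6, 3, 1, 0, 1, 1, 10,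 0, 0, 1, 3, 0, 3, 0, 1, 0, 3, 0, 8, 0, 0, 0, 3, 1, 1, 1, 3, 0, 1, 1, 7, 0, 0, 1, 0, 7, 0, 0, 2, 1, 0, 3, 2, 0, 1, 3, 3, 2, 1, 3, 1, 1, 0, 0, 0, 7, 6, 0, 0, 1, 2, 0, 1, 1, 2, 1, 0, 2, 2, 3, 3, 1, 7, 3, 0, 0, 1, 5, 2, 5, 0, 3] .nil))),
  (.cons 0 14 0 0 0 (.cons 5 0 0 .nil) [] (.cons 0 24 0 0 0 (.cons 9 5 0 .nil) [39, 64] (.cons 1 0 0 0 0 (.cons 9 0 0 .nil) [1, 0, 7, 4, 1, 0, 7, 1, 9, 8, 14, 4, 1, 2, 3, 0, 3, 0, 9, 3, 1, 0, 1, 2, 1, 4, 3, 6, 0, 1, 0, 1, 2, 1, 1, 5, 0, 1, 1, 1, 5, 3, 0, 1, 0, 1, 2, 3, 1, 0, 1, 0, 2, 3, 5, 4, 0, 4, 0, 1, 2, 1, 1, 0, 1, 3, 3, 0, 1, 1, 1, 0, 0, 1, 5, 0, 0, 4, 2, 3, 2, 1, 2, 1, 7, 1, 0, 0, 0, 1, 0, 0, 2, 0, 1, 0, 1, 1, 1,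 1, 3, 1, 0, 0, 1, 0, 1, 8, 2, 3, 1, 1, 0, 1, 0, 3, 1, 0, 0, 1, 0, 1, 3, 3, 1, 4, 3, 0, 1, 1, 0, 2, 0, 0, 3, 1, 1, 5, 0, 0, 0, 1, 1, 5, 0, 0, 0, 1, 0, 2, 4, 0, 1, 2, 0, 1, 0, 1, 1, 1, 4, 2, 1, 1, 0, 1, 5, 3, 0, 1, 1, 0, 0, 0, 2, 0, 1, 3, 4, 0, 0, 0, 5, 2, 0, 2, 1, 2, 2, 2, 0, 3, 0, 3, 1, 0, 4, 0, 4, 1, 0, 3, 1, 0, 0, 9, 2, 9, 0, 2, 1, 1, 0, 2, 3, 0, 1, 1, 2, 3, 1, 3, 0, 1, 0, 1, 4, 0, 3, 0, 0, 1, 2, 0, 9, 0, 0, 3, 0, 1, 0, 0, 1, 0, 0, 1, 0, 0, 0, 2, 0, 3, 0, 1, 0, 1, 3, 0, 0, 0, 2, 1, 5, 1, 0, 1, 0, 4, 0, 2, 3, 3] .nil))),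
  (.cons 0 29 0 0 0 (.cons 5 1 0 .nil) [] (.cons 0 21 0 0 0 (.cons 10 1 0 .nil) [10] (.cons 2 7 0 0 0 (.cons 0 30 0 .nil) [1, 11, 3, 1, 2, 1, 1, 2, 0, 1, 7, 1, 28, 18, 18, 4, 0, 0, 0, 0, 5, 0, 1, 1, 1, 0, 3, 1, 6, 1, 0, 0, 3, 0, 0, 2, 0, 0, 0, 1, 0, 2, 3, 0, 10, 1, 5, 6, 0, 3, 2, 0, 2, 1, 1, 0, 4, 13, 3, 0, 3, 1, 1, 2, 12, 2, 1, 2, 1, 0, 0, 3, 4, 1, 1, 3, 5, 11, 1, 1, 2, 7, 1, 3, 3, 1, 4, 1, 1, 0, 0, 3, 1, 2, 2, 5, 6, 0, 9, 3, 0, 0, 0, 8, 3, 0, 1, 1, 0, 0, 0, 2, 3, 0, 2, 0, 1, 1, 0, 0, 7, 1, 1, 0, 1, 0, 1, 1, 1, 0, 2, 0, 1, 4, 2, 3, 1, 3, 1, 1, 1, 3, 1, 2, 2, 0, 1, 2, 0, 1, 1, 1, 3, 0, 0, 2, 2, 4, 1, 1, 2, 0, 0, 7, 1, 4, 0, 1, 2, 0, 0, 1, 0, 1, 5,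 1, 0, 5, 3, 2, 3, 2, 5, 5, 1, 3, 2, 3, 0, 1, 0, 2, 0, 3, 4, 3, 0, 4, 0, 0, 1, 2, 4, 0, 0, 0, 2, 0, 0, 2, 1, 0, 1, 0, 0, 3, 0, 0, 2, 0, 1, 0, 0, 1, 0, 3, 0, 2, 0, 3, 1, 0, 0, 2, 0, 3, 3, 1, 17, 2, 1] .nil))),
  (.cons 0 2 2 0 0 (.cons 9 8 0 .nil) [0, 8, 86, 9, 0, 89, 7, 0, 1, 46, 36, 0, 1] (.cons 2 6 0 0 0 (.cons 0 31 0 .nil) [26, 1, 1, 5, 4, 1, 0, 5, 7, 14, 5, 0, 2, 3, 1, 0, 21, 4, 4, 1, 0, 0, 5, 1, 1, 5, 2, 0, 6, 4, 1, 1, 3, 2, 0, 1, 3, 13, 10, 6, 0, 0, 3, 5, 1, 3, 0, 10, 5, 5, 2, 5, 1, 1, 1, 1, 0, 8, 2, 5, 1, 2, 0, 3, 1, 0, 0, 2, 1, 3, 0, 2, 4, 7, 2, 8, 1, 2, 6, 3, 0, 0, 1, 0, 0, 7, 1, 7, 1, 3, 2, 3, 7, 0, 5, 0, 3, 0, 1, 0, 0, 4, 1, 1, 0, 1, 1,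 3, 2, 0, 1, 1, 0, 0, 0, 0, 1, 1, 0, 7, 2, 0, 7, 0, 1, 1, 0, 3, 0, 0, 1, 2, 0, 1, 1, 1, 0, 1, 4, 0, 0, 0, 4, 1, 0, 4, 0, 1, 0, 3, 0, 1, 0, 0, 1, 0, 0, 1, 1, 1, 5, 1, 0, 0, 0, 1, 2, 3, 0, 0, 7, 0, 6, 1, 0, 1, 3, 2, 1, 0, 1, 1, 3, 1, 3, 4, 1, 13, 9, 4, 3, 2, 4, 1, 1, 1, 5, 0, 7, 3, 2, 1, 4, 3, 1, 6, 1, 1, 0, 5, 3, 3, 1, 0, 0, 1, 3, 1, 0, 3, 2, 0, 0, 1, 6, 3, 3, 0, 4, 1, 1, 1, 1, 8, 3, 13] (.cons 1 0 0 0 0 (.cons 9 1 0 .nil) [2, 0, 7, 3, 0, 0, 5, 2, 5, 0, 0, 0, 20, 0, 2, 1, 4, 2, 2, 1, 2, 1, 2, 1, 1, 9, 0, 7, 1, 3, 6, 3, 1, 1, 5, 3, 0, 1, 3, 0, 1, 1, 2, 1, 4, 6, 1, 3, 2, 1, 1, 0, 0, 0, 1, 0, 1, 1, 1, 4, 4, 0, 1, 0, 2, 3, 10, 7, 0, 0, 2, 1, 1, 1, 7, 2,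 11, 1, 0, 2, 2, 3, 0, 1, 1, 0, 4, 2, 0, 0, 0, 1, 1, 1, 3, 2, 2, 1, 1, 2, 0, 6, 0, 2, 0, 0, 0, 4, 1, 1, 0, 0, 0, 1, 1, 1, 0, 3, 0, 4, 3, 1, 0, 2, 0, 0, 1, 0, 1, 1, 1, 2, 1, 2, 0, 1, 1, 0, 1, 2, 1, 0, 0, 1, 1, 0, 5, 1, 0, 2, 0, 1, 0, 7, 1, 1, 2, 0, 1, 2, 2, 1, 1, 3, 0, 1, 1, 0, 1, 3, 0, 0, 0, 1, 1, 1, 2, 1, 1, 1, 3, 0, 1, 0, 1, 3, 0, 1, 2, 4, 7, 0, 2, 1, 1, 1, 1, 0, 3, 1, 0, 2, 0, 0, 1, 1, 0, 0, 2, 0, 0, 1, 0, 4, 3, 2, 1, 0, 4, 0, 0, 2, 3, 0, 9, 1, 1, 0, 6, 0, 2, 0, 2, 0, 7, 0, 2, 2, 2, 1, 1, 7, 1, 1, 4, 0, 2, 0, 1, 2, 9, 1, 2, 3, 2, 0, 0, 3, 0, 5, 0, 1, 5, 4, 2, 3, 6, 0, 1, 5, 10, 1, 0, 1, 0, 1, 4, 0] (.cons 1 0 0 0 0 (.cons 11 2 0 .nil) [3, 1, 11,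 1, 5, 0, 2, 0, 6, 1, 7, 2, 1, 5, 0, 5, 2, 1, 0, 5, 1, 1, 1, 0, 0, 2, 2, 1, 2, 4, 2, 2, 3, 1, 4, 4, 2, 0, 1, 1, 1, 0, 2, 0, 4, 1, 2, 1, 0, 3, 1, 1, 1, 1, 3, 5, 6, 0, 0, 1, 3, 3, 8, 1, 3, 3, 3, 3, 0, 3, 1, 5, 1, 0, 1, 0, 4, 3, 2, 1, 1, 5, 0, 5, 1, 2, 2, 1, 5, 1, 0, 1, 1, 5, 0, 1, 0, 1, 0, 9, 6, 0, 2, 0, 0, 0, 1, 1, 0, 5, 0, 7, 2, 3, 1, 3, 1, 1, 2, 3, 1, 2, 5, 0, 1, 1, 2, 1, 1, 3, 0, 0, 1, 2, 1, 5, 2, 0, 1, 1, 4, 1, 5, 0, 2, 2, 3, 1, 0, 0, 1, 6, 3, 6, 2, 3, 0, 1, 0, 0, 3, 0, 0, 2, 7, 3, 1, 0, 2, 7, 0, 1, 1, 5, 1, 0, 2, 5, 1, 1, 0, 2, 4, 1, 4, 0, 1, 4, 3, 1, 0, 0, 3, 1, 1, 1, 6, 0, 4, 0, 0, 1, 0, 1, 2, 0, 2, 0, 0, 0, 5, 1, 2, 0, 9, 1, 3, 3, 0, 2, 1, 0,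 7, 0, 1, 1, 0, 0, 0, 2, 1, 3, 0, 6, 6, 1, 5, 1, 0, 5, 3, 1, 0, 2, 2, 1, 0, 0, 0, 2, 3, 7, 0, 0, 1, 1, 1, 1, 7, 1, 1, 3, 3, 5, 7, 0, 0] .nil))))]

theorem ok14 : run B sp W14 W15 G14 Y14 Y15 348 K14 D14 = true := by decide +kernel

end Vale.Agent.P236K.Cert.Pl.P96
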