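import Vale.Agent.P236K.P96.B
import Vale.Agent.P236K.P96.A15
import Vale.Agent.P236K.P96.A16

/-!
# P236K / P96 / R15 : the check of degree 15
-/

noncomputable section

namespace Vale.Agent.P236K.Cert.Pl.P96

/-- rows given by data -/
noncomputable def D15 : List DL := [.nil,
  .nil,
  .nil,
  .nil,
  .nil,
  .nil,
  .nil,
  .nil,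
  .nil,
  .nil,
  .nil,
  .nil,
  .nil,
  .nil,
  .nil,
  .nil,
  .nil,
  .nil,
  .nil,
  .nil,
  .nil,
  .nil,
  .nil,
  .nil,
  (.cons 2 0 0 0 0 (.cons 0 0 1 .nil) [] .nil),
  (.cons 1 0 0 0 0 (.cons 5 0 0 .nil) [] .nil),
  (.cons 2 0 0 0 0 (.cons 0 1 0 .nil) [] .nil),
  (.cons 1 0 0 0 0 (.cons 9 0 0 .nil) [0] .nil),
  (.cons 2 0 0 0 0 (.cons 0 2 1 .nil) [0] .nil),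
  (.cons 1 0 0 0 0 (.cons 9 0 0 .nil) [0] .nil),
  (.cons 2 1 0 0 0 (.cons 0 3 1 .nil) [] .nil),
  (.cons 1 0 0 0 0 (.cons 9 0 0 .nil) [0, 0] .nil),
  (.cons 2 0 0 0 0 (.cons 0 4 1 .nil) [5] .nil),
  (.cons 0 2 0 0 0 (.cons 9 0 0 .nil) [] (.cons 1 0 0 0 0 (.cons 10 0 0 .nil) [0, 0, 1] .nil)),
  (.cons 2 0 0 0 0 (.cons 0 5 0 .nil) [3, 0] .nil),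
  (.cons 0 3 0 0 0 (.cons 9 0 0 .nil) [1] (.cons 0 1 0 0 0 (.cons 10 0 0 .nil) [3] .nil)),
  (.cons 2 5 0 0 0 (.cons 0 6 0 .nil) [7, 3] (.cons 1 0 0 0 0 (.cons 5 0 0 .nil) [3, 2, 3] .nil)),
  (.cons 0 1 0 0 0 (.cons 10 0 0 .nil) [0] .nil),
  (.cons 2 6 0 0 0 (.cons 0 7 0 .nil) [] (.cons 1 0 0 0 0 (.cons 9 1 0 .nil) [4, 6, 1, 0] .nil)),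
  .nil,
  (.cons 2 0 0 0 0 (.cons 0 8 1 .nil) [0] (.cons 1 0 0 0 0 (.cons 9 1 0 .nil) [4, 1, 2, 3, 5] .nil)),
  (.cons 0 2 0 0 0 (.cons 10 0 0 .nil) [8] .nil),
  (.cons 0 7 0 0 0 (.cons 9 0 0 .nil) [8] (.cons 2 1 0 0 0 (.cons 0 9 1 .nil) [2, 10] (.cons 1 0 0 0 0 (.cons 9 1 0 .nil) [2, 1, 3, 1, 3, 0, 1, 0, 2, 1, 1] .nil))),
  (.cons 0 3 0 0 0 (.cons 10 0 0 .nil) [0] .nil),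
  (.cons 0 5 0 0 0 (.cons 9 0 0 .nil) [8] (.cons 0 7 0 0 0 (.cons 9 1 0 .nil) [] (.cons 1 0 0 0 0 (.cons 10 0 0 .nil) [0, 1, 0, 1, 4, 0, 1, 1, 1, 0, 1, 0, 2, 1, 1] .nil))),
  .nil,
  (.cons 0 6 0 0 0 (.cons 9 0 0 .nil) [9] (.cons 0 2 0 0 0 (.cons 10 0 0 .nil) [8] .nil)),
  (.cons 0 8 0 0 0 (.cons 5 0 0 .nil) [] .nil),
  (.cons 0 2 0 0 0 (.cons 10 0 0 .nil) [1] .nil),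
  (.cons 0 4 0 0 0 (.cons 10 0 0 .nil) [] .nil),
  .nil,
  (.cons 0 4 0 0 0 (.cons 10 0 0 .nil) [] .nil),
  (.cons 0 5 0 0 0 (.cons 10 1 0 .nil) [17] .nil),
  .nil,
  .nil,
  (.cons 0 8 0 0 0 (.cons 10 0 0 .nil) [] .nil),
  .nil,
  (.cons 0 7 0 0 0 (.cons 9 1 0 .nil) [2, 17] (.cons 2 10 0 0 0 (.cons 0 10 1 .nil) [7, 19, 0, 14, 9, 1, 11, 6, 2, 11] .nil)),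
  (.cons 0 9 0 0 0 (.cons 5 1 0 .nil) [] (.cons 0 7 0 0 0 (.cons 10 0 0 .nil) [] (.cons 1 0 0 0 0 (.cons 5 0 0 .nil) [4, 3, 1, 17, 7, 0, 0, 9, 0, 1, 3, 1, 7, 7, 0, 4, 0, 0, 3, 3] .nil))),
  (.cons 2 10 0 0 0 (.cons 0 11 0 .nil) [6, 25, 4, 0, 12, 3, 8, 8, 6, 7, 1, 5] .nil),
  (.cons 0 8 0 0 0 (.cons 10 0 0 .nil) [] (.cons 1 0 0 0 0 (.cons 9 0 0 .nil) [4, 1, 0, 3, 14, 7, 4, 13, 3, 4, 3, 2, 2, 1, 6, 1, 0, 3, 7, 13] .nil)),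
  (.cons 2 10 0 0 0 (.cons 0 12 1 .nil) [5, 0, 0, 21, 1, 3, 12, 0, 0, 16, 3, 6, 1, 0, 2, 3, 1, 1, 2, 5] .nil),
  (.cons 0 12 0 0 0 (.cons 9 0 0 .nil) [30] .nil),
  (.cons 2 11 0 0 0 (.cons 0 13 1 .nil) [4, 0, 5, 13, 16, 0, 1, 22, 15, 2, 16, 2, 3, 1, 1, 1, 1, 2, 5, 0] (.cons 1 0 0 0 0 (.cons 5 0 0 .nil) [23, 1, 3, 0, 2, 2, 0, 1, 0, 0, 10, 0, 0, 1, 4, 2, 9, 4, 2, 0, 0, 0, 2, 0, 0, 1, 0, 0, 1, 2, 0, 2, 1, 1] .nil)),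
  (.cons 0 12 0 0 0 (.cons 9 0 0 .nil) [28] (.cons 0 9 0 0 0 (.cons 9 2 0 .nil) [26] .nil)),
  (.cons 2 13 0 0 0 (.cons 0 14 0 .nil) [5, 39, 11, 20, 0, 1, 18, 3, 25, 3, 3] (.cons 1 0 0 0 0 (.cons 9 0 0 .nil) [4, 1, 1, 8, 5, 3, 6, 3, 12, 0, 2, 0, 6, 2, 1, 3, 3, 11, 0, 0, 6, 1, 1, 2, 5, 1, 0, 9, 0, 1, 1, 1, 3, 1, 3, 2, 1, 1] .nil)),
  (.cons 0 12 0 0 0 (.cons 9 0 0 .nil) [] (.cons 0 9 0 0 0 (.cons 9 2 0 .nil) [] .nil)),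
  (.cons 2 14 0 0 0 (.cons 0 15 0 .nil) [68, 13, 5, 0, 5, 6, 3, 0, 2, 1, 0, 1, 6, 6, 3, 0, 1, 0, 0, 1, 5, 5, 5, 4, 0, 1, 1] (.cons 1 0 0 0 0 (.cons 9 1 0 .nil) [4, 1, 4, 0, 3, 2, 2, 6, 3, 3, 2, 0, 0, 4, 1, 1, 1, 1, 6, 0, 0, 5, 0, 5, 0, 11, 0, 0, 1, 3, 2, 0, 1, 3, 0, 6, 0, 0, 1, 0, 1, 2, 0, 1, 0, 0, 2, 2, 0, 2, 1, 1, 0, 0, 0] .nil)),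
  (.cons 2 16 0 0 0 (.cons 0 16 1 .nil) [64, 59] .nil),
  (.cons 2 12 0 0 0 (.cons 0 17 0 .nil) [49, 0, 1, 47, 1, 22, 1, 1, 1, 1, 1, 0, 0, 0, 4, 6, 2, 3, 0] (.cons 1 0 0 0 0 (.cons 5 0 0 .nil) [18, 31, 0, 48, 0, 22, 19, 14, 7, 1, 1, 2, 20] (.cons 1 0 0 0 0 (.cons 9 1 0 .nil) [7, 1, 3, 3, 2, 2, 6, 1, 1, 7, 3, 1, 0, 0, 2, 3, 1, 1, 2, 6, 0, 0, 1, 2, 1, 10, 5, 1, 4, 5, 1, 2, 1, 3, 1, 3, 1, 3, 2, 2, 1, 0, 2, 1, 0, 3, 0, 0, 2, 0, 7, 2, 3, 0, 1, 1, 1, 0] .nil))),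
  (.cons 2 16 0 0 0 (.cons 0 18 0 .nil) [51, 0, 12, 1, 13, 16, 2, 31, 3, 8, 4, 8, 21, 31] .nil),
  (.cons 0 15 0 0 0 (.cons 9 4 0 .nil) [37] (.cons 1 0 0 0 0 (.cons 9 0 0 .nil) [7, 1, 3, 4, 26, 6, 1, 2, 1, 6, 3, 3, 13, 4, 7, 3, 1, 9, 14, 2, 4, 0, 4, 1, 4, 0, 1, 2, 0, 0, 0, 18, 3, 5, 6, 0, 9] (.cons 1 0 0 0 0 (.cons 9 2 0 .nil) [1, 4, 0, 5, 3, 0, 2, 0, 4, 1, 6, 9, 1, 1, 6, 5, 0, 0, 1, 1, 5, 5, 1, 1, 1, 2, 4, 2, 0, 4, 0, 1, 1, 3, 2, 6, 0, 1, 1, 0, 1, 1, 0, 2, 0, 2, 1, 1, 2, 0, 1, 0, 6, 0, 5, 0, 4, 5, 0, 0, 2, 0, 1, 2, 0] .nil))),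
  (.cons 2 13 0 0 0 (.cons 0 19 0 .nil) [56, 0, 2, 0, 4, 3, 7, 16, 6, 0, 0, 2, 7, 6, 1, 2, 6, 2, 1, 0, 2, 1, 0, 0, 1, 1, 1, 1, 7, 4, 6, 1, 0, 0, 0, 0, 5, 0, 3, 0, 0, 8, 0, 3, 2, 1, 1, 0] .nil),
  (.cons 0 15 0 0 0 (.cons 9 2 0 .nil) [37, 2, 3] (.cons 1 0 0 0 0 (.cons 9 4 0 .nil) [1, 7, 4, 1, 5, 3, 3, 2, 1, 11, 2, 1, 5, 5, 1, 0, 2, 1, 0, 1, 0, 0, 3, 3, 0, 1, 1, 0, 0, 9, 0, 7, 3, 0, 0, 0, 3, 3, 2, 1, 3, 0, 1, 0, 1, 1, 2, 5, 1, 1, 2, 1, 0, 1, 2, 1, 1, 3, 0, 4, 1, 1, 0, 2, 1, 2, 4, 1, 5, 1, 0, 1, 0, 3, 1, 0] .nil)),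
  (.cons 2 10 0 0 0 (.cons 0 20 1 .nil) [4, 2, 0, 0, 5, 16, 18, 4, 0, 0, 0, 0, 0, 3, 1, 1, 2, 2, 1, 1, 0, 9, 2, 7, 0, 0, 1, 2, 1, 3, 5, 9, 1, 1, 0, 3, 6, 1, 3, 1, 3, 7, 5, 12, 0, 3, 4, 1, 0, 0, 1, 0, 1, 0, 1, 9, 1, 4, 0, 1, 1, 1, 2, 1, 0] .nil),
  (.cons 0 14 0 0 0 (.cons 9 2 0 .nil) [2, 41] (.cons 0 17 0 0 0 (.cons 9 0 0 .nil) [1, 45] (.cons 1 0 0 0 0 (.cons 10 3 0 .nil) [0, 11, 3, 5, 12, 3, 3, 7, 5, 2, 0, 2, 1, 0, 1, 0, 0, 1, 1, 2, 0, 3, 2, 2, 3, 3, 1, 1, 1, 2, 0, 1, 0, 0, 1, 5, 0, 1, 0, 0, 1, 0, 3, 1, 0, 1, 1, 0, 0, 1, 3, 1, 4, 1, 3, 3, 1, 1, 1, 1, 6, 1, 3, 1, 0, 0, 0, 1, 1, 2, 1, 3, 0, 3, 4, 6, 0, 2, 2, 3, 3, 4, 5, 3, 1] .nil))),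
  (.cons 0 18 0 0 0 (.cons 5 1 0 .nil) [51] (.cons 2 10 0 0 0 (.cons 0 21 1 .nil) [4, 0, 3, 6, 12, 5, 17, 1, 1, 0, 5, 1, 1, 4, 0, 0, 1, 1, 0, 10, 1, 0, 4, 0, 1, 4, 2, 1, 0, 4, 0, 0, 3, 3, 5, 1, 0, 5, 0, 2, 3, 2, 1, 1, 1, 2, 0, 0, 6, 0, 1, 1, 2, 1, 1, 9, 1, 0, 0, 3, 2, 2, 3, 1, 5, 1, 7, 1, 0, 0, 2, 2, 7, 0, 7, 2] .nil)),
  (.cons 0 11 0 0 0 (.cons 9 0 0 .nil) [57] (.cons 1 0 0 0 0 (.cons 10 2 0 .nil) [1, 3, 9, 1, 20, 0, 9, 0, 4, 1, 0, 0, 1, 0, 1, 1, 2, 3, 1, 1, 0, 1, 1, 11, 2, 12, 0, 0, 0, 2, 0, 0, 1, 0, 2, 2, 1, 0, 0, 1, 0, 1, 3, 1, 1, 5, 0, 1, 1, 0, 0, 3, 3, 0, 0, 1, 1, 0, 0, 2, 0, 0, 1, 0, 2, 0, 0, 0, 1, 0, 0, 0, 1, 3, 4, 5, 1, 5, 0, 0, 1, 3, 2, 3, 3, 1, 1,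 0, 3, 0, 7, 0, 0, 0, 0, 0, 2, 1, 0] .nil)),
  (.cons 0 19 0 0 0 (.cons 5 0 0 .nil) [] (.cons 2 11 0 0 0 (.cons 0 22 1 .nil) [14, 0, 42, 3, 2, 0, 1, 1, 1, 4, 3, 1, 4, 1, 4, 1, 2, 0, 0, 1, 0, 5, 1, 1, 1, 0, 2, 2, 13, 5, 1, 0, 1, 0, 11, 0, 0, 11, 2, 1, 1, 1, 4, 2, 0, 1, 0, 3, 0, 1, 0, 0, 3, 1, 1, 0, 1, 1, 3, 0, 2, 0, 1, 2, 5, 2, 2, 1, 2, 0, 4, 1, 3, 4, 4, 6, 5, 4] .nil)),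
  (.cons 0 17 0 0 0 (.cons 10 2 0 .nil) [5, 3, 44, 3] .nil),
  (.cons 2 13 0 0 0 (.cons 0 23 1 .nil) [11, 3, 28, 39, 3, 9, 2, 1, 3, 1, 1, 1, 1, 9, 1, 3, 2, 0, 0, 0, 5, 1, 1, 0, 0, 0, 6, 1, 5, 1, 0, 1, 12, 0, 0, 1, 4, 0, 0, 2, 2, 0, 1, 2, 0, 0, 0, 0, 0, 10, 1, 3, 5, 0, 0, 5, 5, 0, 1, 1, 1, 0, 3, 1, 5, 4, 0, 1, 0, 17, 5, 1, 8, 7, 2, 0, 2, 1, 1] (.cons 1 0 0 0 0 (.cons 5 0 0 .nil) [24, 7, 4, 10, 4, 28, 0, 2, 5, 1, 5, 3, 1, 1, 1, 1, 0, 1, 3, 1, 1, 0, 5, 2, 36, 1, 0, 2, 11, 3, 7, 0, 1, 1, 0, 3, 0, 0, 3, 0, 1, 1, 1, 1, 2, 1, 6, 7, 0, 4, 0, 2, 0, 1, 2, 0, 0, 0, 1, 1, 0, 0, 0, 1, 1, 0, 7, 0, 1, 2, 3, 4, 7, 0, 2, 0, 1, 5, 2, 2, 1, 1, 1, 1, 1, 2] .nil)),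
  (.cons 0 16 0 0 0 (.cons 10 0 0 .nil) [62] (.cons 0 17 0 0 0 (.cons 10 2 0 .nil) [0, 2, 3, 54] .nil)),
  (.cons 0 22 0 0 0 (.cons 9 4 0 .nil) [7, 55] (.cons 1 0 0 0 0 (.cons 9 5 0 .nil) [0, 7, 1, 0, 0, 1, 3, 0, 3, 7, 0, 4, 2, 0, 0, 3, 1, 7, 6, 1, 3, 3, 1, 1, 0, 3, 0, 5, 10, 1, 5, 1, 4, 0, 1, 2, 1, 1, 0, 3, 2, 1, 2, 2, 1, 1, 1, 1, 2, 1, 0, 4, 1, 5, 1, 2, 0, 1, 1, 3, 1, 0, 3, 0, 0, 1, 1, 2, 0, 3, 6, 5, 0, 0, 2, 0, 0, 1, 0, 3, 1, 0, 2, 0, 1, 1, 0, 1, 0, 0, 2, 1, 0, 0, 2, 0, 2, 3, 2, 0, 0, 0, 3, 0, 0, 5, 0, 5, 0, 0, 0, 5, 0, 2, 7, 1, 2, 1, 4, 3, 1, 3, 3, 1, 6, 1, 0, 1, 0, 0, 0] .nil)),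
  (.cons 0 17 0 0 0 (.cons 10 0 0 .nil) [] (.cons 0 14 0 0 0 (.cons 10 3 0 .nil) [4] .nil)),
  (.cons 0 18 0 0 0 (.cons 9 1 0 .nil) [] (.cons 0 22 0 0 0 (.cons 9 5 0 .nil) [] .nil)),
  (.cons 0 16 0 0 0 (.cons 10 0 0 .nil) [] .nil),
  (.cons 0 19 0 0 0 (.cons 9 1 0 .nil) [] (.cons 0 15 0 0 0 (.cons 9 0 0 .nil) [73] .nil)),
  (.cons 0 23 0 0 0 (.cons 5 0 0 .nil) [70] (.cons 0 15 0 0 0 (.cons 10 0 0 .nil) [] (.cons 0 16 0 0 0 (.cons 10 5 0 .nil) [1] .nil))),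
  (.cons 0 18 0 0 0 (.cons 10 5 0 .nil) [5, 70] .nil),
  (.cons 0 20 0 0 0 (.cons 5 0 0 .nil) [] (.cons 0 17 0 0 0 (.cons 10 0 0 .nil) [] (.cons 2 6 0 0 0 (.cons 0 24 1 .nil) [20, 22, 38, 1, 1, 3, 0, 0, 0, 0, 3, 1, 4, 2, 2, 8, 1, 1, 3, 1, 12, 7, 0, 1, 2, 6, 3, 0, 1, 6, 0, 2, 0, 11, 6, 0, 3, 0, 3, 3, 5, 0, 2, 1, 1, 0, 9, 15, 9, 0, 3, 3, 3, 0, 1, 4, 3, 0, 0, 1, 0, 2, 1, 0, 3, 0, 3, 1, 0, 0, 5, 1, 1, 0, 0, 1, 1, 2, 5, 8, 1, 0, 1, 2, 3, 2, 2, 1, 1, 4, 1, 0, 0, 1, 1, 3, 0, 0, 3, 3, 0, 3, 3, 2, 10, 1, 0, 0, 3, 1, 2, 4, 3, 0, 10, 1, 1, 7, 0, 0, 0, 1, 0, 1, 1, 5, 0, 1, 2, 1, 1] .nil))),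
  (.cons 0 18 0 0 0 (.cons 10 0 0 .nil) [82] (.cons 2 19 0 0 0 (.cons 0 25 0 .nil) [1, 8, 0, 0, 0, 0, 21, 1, 12, 1, 1, 4, 8, 6, 8, 2, 0, 0, 0, 1, 3, 1, 2, 1, 1, 8, 6, 0, 1, 1, 2, 3, 2, 5, 1, 1, 1, 0, 1, 1, 4, 0, 2, 3, 0, 0, 7, 1, 5, 0, 1, 0, 0, 0, 1, 3, 6, 3, 4, 0, 1, 2, 0, 1, 2, 3, 1, 3, 0, 1, 1, 4, 3, 0, 1, 3, 5, 0, 1, 6, 0, 0, 10, 1, 3, 1, 1, 2, 0, 3, 1, 0, 0, 1, 1, 1, 2, 4, 3, 4, 3, 0, 0, 0, 0, 0, 1, 0, 1, 0, 5, 2, 0, 0, 0, 1, 1, 3, 1, 1, 0, 1, 4, 5, 0, 1, 2, 0, 1, 6, 0, 1, 1, 0, 3, 1, 1, 4, 0, 5, 1, 3, 0, 1, 2, 7, 4, 1, 1, 5, 0, 1, 0, 0, 2, 7, 7, 0, 1, 3, 0, 0, 0, 2, 3, 3, 2, 2, 1, 0] .nil)),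
  (.cons 2 7 0 0 0 (.cons 0 26 1 .nil) [71, 17, 6, 3, 1, 0, 0, 0, 0, 0, 1, 0, 0, 7, 0, 0, 0, 0, 0, 0, 3, 0, 1, 1, 1, 0, 0, 0, 12, 1, 1, 0, 3, 7, 0, 9, 11, 2, 2, 11, 5, 2, 3, 0, 3, 0, 1, 2, 0, 1, 0, 0, 21, 2, 2, 6, 1, 7, 1, 9, 0, 0, 1, 0, 1, 1, 1, 2, 4, 0, 5, 5, 1, 0, 1, 1, 4, 5, 4, 0, 3, 0, 2, 3, 0, 6, 2, 0, 4, 2, 0, 3, 6, 0, 0, 4, 0, 1, 1, 2, 1, 7, 0, 3, 0, 1, 1, 0, 5, 1, 16, 5, 6, 1, 7, 1, 3, 2, 8, 2, 1, 2, 1, 1, 1, 0, 1, 1, 0, 4, 1, 0, 0, 1, 1, 1, 14, 7] (.cons 1 0 0 0 0 (.cons 5 0 0 .nil) [24, 10, 25, 0, 34, 3, 1, 1, 1, 1, 3, 0, 1, 4, 0, 4, 2, 3, 1, 0, 2, 0, 3, 5, 8, 1, 0, 0, 0, 0, 3, 3, 0, 2, 4, 2, 1, 3, 3, 0, 3, 2, 7, 11, 0, 0, 0, 3, 1, 2, 0, 0, 0, 4, 8,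 6, 3, 1, 1, 7, 0, 1, 7, 0, 1, 0, 2, 0, 2, 6, 1, 3, 1, 0, 1, 2, 5, 0, 0, 0, 5, 4, 1, 1, 0, 4, 0, 0, 0, 1, 0, 6, 2, 0, 1, 4, 1, 2, 0, 0, 1, 0, 1, 0, 1, 1, 2, 1, 1, 5, 1, 0, 2, 0, 1, 0, 0, 2, 2, 1, 1, 1, 3, 0, 0, 12, 3, 1, 1, 0, 7, 3, 8, 0, 0, 3, 3, 0, 2, 0, 0, 0, 0, 6, 1, 1, 1, 0, 1, 0, 0, 2, 0, 1, 10, 1, 1, 0, 0, 0, 0] .nil)),
  (.cons 0 18 0 0 0 (.cons 10 1 0 .nil) [3] (.cons 0 19 0 0 0 (.cons 11 1 0 .nil) [1, 1, 2, 84] .nil)),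
  (.cons 0 23 0 0 0 (.cons 9 6 0 .nil) [9, 77, 4] (.cons 1 0 0 0 0 (.cons 9 0 0 .nil) [20, 7, 1, 1, 10, 7, 3, 2, 5, 8, 3, 0, 0, 8, 0, 0, 2, 3, 1, 1, 1, 0, 2, 1, 0, 1, 2, 3, 0, 1, 1, 1, 1, 0, 0, 4, 2, 1, 0, 1, 0, 1, 0, 0, 1, 2, 3, 3, 0, 0, 1, 0, 4, 0, 1, 0, 0, 4, 1, 5, 1, 1, 1, 2, 0, 0, 0, 2, 1, 10, 2, 1, 0, 0, 2, 1, 1, 2, 1, 5, 1, 5, 3, 1, 1, 1, 1, 8, 1, 0, 1, 0, 7, 2, 5, 0, 0, 0, 0, 3, 1, 4, 0, 1, 7, 0, 0, 3, 5, 1, 0, 1, 2, 0, 1, 1, 0, 0, 1, 3, 0, 0, 1, 0, 1, 1, 3, 1, 2, 1, 2, 2, 1, 1, 3, 0, 0, 3, 1, 1, 1, 0, 6, 1, 0, 1, 1, 1, 1, 5, 0, 1, 1, 1, 1, 0, 5, 1, 1, 0, 0, 2, 1, 1, 0, 1, 1, 0, 1, 0, 1, 2, 3, 3, 4, 1, 5, 4, 4, 0, 3, 0, 6, 1, 0, 0, 1, 0, 1, 3, 1, 2, 0,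 4, 1, 1, 0, 3, 3, 1, 2, 0, 0, 2, 4, 1, 3, 5, 1, 0, 0, 5, 0] .nil)),
  (.cons 0 19 0 0 0 (.cons 10 0 0 .nil) [] (.cons 2 8 0 0 0 (.cons 0 27 1 .nil) [12, 7, 0, 1, 0, 0, 0, 6, 15, 12, 1, 3, 2, 16, 1, 9, 5, 0, 1, 0, 4, 3, 4, 1, 0, 0, 0, 4, 1, 1, 1, 2, 0, 0, 1, 3, 1, 11, 2, 4, 1, 3, 2, 1, 11, 4, 7, 5, 1, 5, 0, 1, 0, 1, 0, 2, 1, 1, 3, 4, 2, 1, 0, 1, 3, 0, 0, 1, 1, 0, 6, 3, 3, 9, 3, 1, 1, 1, 2, 0, 0, 0, 2, 8, 0, 3, 0, 1, 2, 2, 1, 0, 2, 1, 3, 0, 1, 4, 0, 0, 1, 5, 0, 7, 0, 0, 1, 1, 0, 0, 1, 2, 1, 8, 4, 1, 1, 0, 11, 0, 1, 1, 0, 0, 2, 1, 0, 0, 3, 0, 1, 1, 2, 0, 1, 0, 1, 3, 1, 5, 4, 6, 1, 5, 0, 3, 1, 1, 2, 0, 11, 0, 3, 1, 3, 10, 1, 0, 1, 3, 1, 2, 1, 1, 0, 1, 0, 4, 3, 1,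 2, 0, 0, 0, 1, 2, 0, 0, 1, 0, 1, 4, 5, 1, 0, 4, 0, 0, 7, 0, 6, 1, 0, 0] .nil)),
  (.cons 0 20 0 0 0 (.cons 9 1 0 .nil) [95] (.cons 0 26 0 0 0 (.cons 9 0 0 .nil) [1, 95] .nil)),
  (.cons 0 3 2 0 0 (.cons 9 4 0 .nil) [5, 43, 0, 42, 1, 3, 79, 0, 1, 43, 1, 1, 0, 0, 28, 5] (.cons 0 20 0 0 0 (.cons 10 0 0 .nil) [] (.cons 2 5 0 0 0 (.cons 0 28 0 (.cons 0 29 1 .nil)) [3, 7, 0, 5, 0, 4, 2, 3, 6, 0, 1, 9, 3, 2, 1, 0, 0, 1, 1, 0, 0, 0, 5, 1, 1, 10, 0, 0, 5, 1, 3, 0, 1, 4, 1, 6, 0, 1, 0, 1, 2, 1, 1, 1, 0, 1, 0, 0, 3, 0, 0, 0, 3, 7, 7, 3, 0, 1, 0, 3, 0, 1, 1, 4, 0, 0, 7, 1, 3, 5, 1, 1, 1, 1, 0, 0, 0, 2, 1, 4, 4, 5, 3, 0, 0, 1, 1, 0, 1, 0, 1, 0, 1, 5, 1, 0, 0, 5, 0, 0, 1,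 0, 0, 3, 0, 4, 1, 2, 1, 1, 1, 0, 0, 1, 2, 1, 0, 0, 7, 0, 1, 0, 0, 1, 3, 2, 0, 3, 2, 1, 2, 0, 1, 9, 1, 3, 2, 5, 1, 0, 0, 0, 0, 0, 1, 0, 4, 0, 0, 4, 0, 5, 2, 0, 2, 2, 1, 2, 1, 1, 1, 1, 1, 3, 1, 1, 0, 1, 0, 0, 3, 3, 7, 0, 0, 1, 1, 2, 1, 5, 0, 0, 1, 1, 1, 1, 2, 0, 0, 7, 1, 4, 2, 3, 1, 0, 0, 0, 0, 1, 1, 5, 0, 1, 1, 0, 1, 3, 1, 3, 3, 1, 1, 0, 5, 1, 0, 2, 1, 0, 0, 1, 0, 0, 0, 0, 3, 1, 0, 7, 6, 3, 1, 1, 2, 0, 0, 2, 1, 1, 1, 1, 1, 3, 0, 0, 7, 0, 2, 3, 3, 1] (.cons 2 8 0 0 0 (.cons 0 28 1 .nil) [17, 2, 0, 2, 1, 2, 9, 5, 11, 22, 0, 16, 1, 1, 0, 4, 1, 0, 3, 2, 3, 1, 3, 4, 1, 4, 1, 1, 2, 0, 0, 0, 1, 1, 0, 0, 12, 2, 0, 1, 4, 1, 3, 0, 0, 1, 0, 3, 1, 0, 1, 1, 0, 1, 1, 1, 0,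 0, 3, 2, 0, 1, 1, 1, 7, 0, 1, 9, 0, 4, 3, 2, 9, 0, 1, 0, 1, 1, 1, 2, 8, 2, 5, 5, 3, 5, 2, 3, 4, 0, 1, 1, 1, 5, 1, 1, 4, 0, 0, 0, 1, 7, 1, 0, 1, 2, 0, 3, 0, 2, 3, 0, 2, 3, 0, 5, 1, 0, 7, 4, 4, 2, 1, 1, 1, 0, 8, 0, 3, 3, 1, 0, 1, 0, 0, 0, 3, 3, 1, 1, 0, 3, 2, 7, 5, 2, 2, 2, 0, 5, 0, 0, 1, 1, 1, 1, 3, 2, 1, 1, 0, 1, 3, 1, 2, 0, 0, 2, 1, 1, 1, 0, 2, 0, 0, 2, 1, 8, 2, 1, 4, 3, 1, 11, 1, 0, 1, 2, 1, 4, 5, 1, 0, 3, 0, 3, 4, 2, 0, 1, 2, 1, 8, 0, 0, 3, 3, 0, 0, 0, 2] (.cons 1 0 0 0 0 (.cons 5 50 0 .nil) [12, 7, 3, 2, 1, 0, 0, 0, 10, 1, 10, 4, 7, 1, 2, 5, 1, 3, 8, 7, 7, 0, 0, 2, 0, 0, 4, 0, 0, 3, 3, 1, 2, 3, 3, 0, 1, 0, 1, 0, 0, 0, 4, 7, 10, 0, 0, 0, 0, 1, 0, 0, 0, 0,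 1, 0, 2, 0, 2, 0, 0, 1, 7, 0, 0, 3, 0, 4, 1, 5, 4, 3, 1, 0, 0, 1, 0, 0, 1, 1, 0, 3, 1, 1, 0, 0, 0, 3, 1, 1, 7, 1, 1, 6, 0, 0, 0, 4, 0, 3, 1, 1, 1, 0, 1, 1, 3, 0, 1, 3, 4, 9, 4, 1, 0, 4, 2, 5, 4, 0, 3, 1, 1, 5, 0, 5, 0, 0, 0, 0, 4, 1, 8, 1, 0, 1, 3, 1, 1, 1, 4, 1, 2, 0, 1, 3, 0, 2, 0, 1, 1, 1, 3, 3, 1, 0, 1, 1, 1, 0, 0, 0, 1, 1, 0, 3, 1, 1, 2, 0, 2, 4, 0, 0, 3, 4, 1, 1, 2, 1, 0, 0, 0, 1, 2, 1, 0, 0, 1, 5, 1, 0, 2, 3, 1, 0, 1, 0, 0, 4, 0, 0, 1, 3, 0, 4, 1, 0, 2, 0, 1, 0, 1, 1, 1, 0, 3, 2, 0, 7, 0, 0, 3, 4, 0, 3, 2, 3, 1, 2, 0, 1, 0, 1, 3, 1, 9] .nil)))))]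

theorem ok15 : run B sp W15 W16 G15 Y15 Y16 332 K15 D15 = true := by decide +kernel

end Vale.Agent.P236K.Cert.Pl.P96
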