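import Vale.Agent.P236K.P96.B
import Vale.Agent.P236K.P96.A2
import Vale.Agent.P236K.P96.A3

/-!
# P236K / P96 / R2 : the check of degree 2
-/

noncomputable section

namespace Vale.Agent.P236K.Cert.Pl.P96

/-- rows given by data -/
noncomputable def D2 : List DL := [.nil,
  .nil,
  .nil,
  .nil,
  (.cons 2 0 0 0 0 (.cons 0 0 0 .nil) [] .nil),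
  .nil,
  (.cons 2 0 0 0 0 (.cons 0 1 0 .nil) [] (.cons 1 0 0 0 0 (.cons 5 0 0 .nil) [] .nil)),
  (.cons 0 1 0 0 0 (.cons 9 0 0 .nil) [1] .nil),
  (.cons 2 1 0 0 0 (.cons 0 2 0 .nil) [] (.cons 1 0 0 0 0 (.cons 5 0 0 .nil) [4] .nil)),
  .nil,
  (.cons 2 2 0 0 0 (.cons 0 3 0 .nil) [] (.cons 1 0 0 0 0 (.cons 9 0 0 .nil) [2, 2] .nil)),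
  .nil,
  (.cons 2 0 0 0 0 (.cons 0 4 0 .nil) [] (.cons 1 0 0 0 0 (.cons 9 0 0 .nil) [2, 1, 1, 3] .nil)),
  (.cons 0 3 0 0 0 (.cons 10 0 0 .nil) [5] .nil),
  (.cons 1 0 0 0 0 (.cons 9 0 0 .nil) [3, 1, 2, 3] .nil),
  (.cons 0 1 0 0 0 (.cons 10 0 0 .nil) [1] (.cons 2 3 0 0 0 (.cons 0 5 1 .nil) [0, 5, 1, 1, 3] .nil)),
  (.cons 0 3 1 0 0 (.cons 9 1 0 .nil) [6, 5, 0] (.cons 1 0 0 0 0 (.cons 9 0 0 .nil) [1, 7, 0, 1, 2] .nil)),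
  .nil,
  (.cons 0 2 0 0 0 (.cons 9 1 0 .nil) [5] (.cons 2 3 0 0 0 (.cons 0 6 0 .nil) [] (.cons 1 0 0 0 0 (.cons 9 0 0 .nil) [10] .nil))),
  .nil,
  .nil,
  (.cons 2 5 0 0 0 (.cons 0 7 1 .nil) [12, 0] .nil),
  (.cons 1 0 0 0 0 (.cons 10 0 0 .nil) [10, 2, 1, 1, 0, 3, 1, 4, 0, 0] .nil),
  (.cons 2 1 0 0 0 (.cons 0 8 1 .nil) [1, 8, 19, 9] .nil),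
  (.cons 0 2 2 0 0 (.cons 9 0 0 .nil) [18, 3, 4] (.cons 2 5 0 0 0 (.cons 0 9 0 .nil) [] (.cons 1 0 0 0 0 (.cons 10 0 0 .nil) [3, 0, 13, 5, 8, 2, 3, 3] (.cons 1 0 0 0 0 (.cons 10 1 0 .nil) [4, 2, 3, 0, 0, 0, 1, 0, 0, 10, 1, 0, 2] .nil)))),
  .nil,
  (.cons 0 2 0 0 0 (.cons 10 0 0 .nil) [0] .nil),
  .nil,
  (.cons 2 4 0 0 0 (.cons 0 10 1 .nil) [] .nil),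
  (.cons 0 2 1 0 0 (.cons 9 0 0 .nil) [4, 3, 7, 27] .nil),
  (.cons 2 0 0 0 0 (.cons 0 12 0 .nil) [] (.cons 2 6 0 0 0 (.cons 0 11 0 .nil) [57, 1, 6] (.cons 1 0 0 0 0 (.cons 10 0 0 .nil) [4, 8, 11, 3, 6, 10, 3, 3, 3, 2, 6] (.cons 1 0 0 0 0 (.cons 10 1 0 .nil) [4, 1, 0, 3, 1, 0, 8, 4, 4, 0, 0, 11, 2, 8, 1, 2, 0] .nil)))),
  (.cons 1 0 0 0 0 (.cons 11 0 0 .nil) [4, 17, 8, 3, 3, 6, 3, 2, 4, 6, 1, 2, 0] .nil),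
  (.cons 2 1 0 0 0 (.cons 0 13 0 .nil) [] (.cons 1 0 0 0 0 (.cons 10 0 0 .nil) [4, 1, 14, 2, 5, 3, 0, 10, 1, 2, 0, 2, 3, 1, 4, 1, 3, 2, 3, 0] .nil)),
  (.cons 1 0 0 0 0 (.cons 11 0 0 .nil) [5, 3, 0, 1, 0, 11, 3, 1, 2, 0, 1, 7, 11, 1, 3, 1, 1, 0, 1, 1, 1, 0, 1, 0, 1, 4, 0, 0] .nil),
  (.cons 2 2 0 0 0 (.cons 0 14 0 .nil) [28, 3] .nil),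
  (.cons 1 0 0 0 0 (.cons 11 0 0 .nil) [1, 2, 23, 0, 3, 2, 3, 2, 4, 1, 16, 3, 0, 0, 5, 0, 3, 2, 3, 8] .nil),
  (.cons 2 3 0 0 0 (.cons 0 15 0 .nil) [] (.cons 1 0 0 0 0 (.cons 10 0 0 .nil) [2, 3, 6, 1, 15, 2, 3, 4, 2, 14, 7, 3, 4, 0, 0, 1, 4, 1, 0, 1, 1, 0, 1, 2, 2, 0, 0] .nil)),
  (.cons 0 7 0 0 0 (.cons 10 0 0 .nil) [] (.cons 1 0 0 0 0 (.cons 11 0 0 .nil) [0, 1, 1, 1, 7, 0, 13, 1, 11, 1, 0, 1, 1, 1, 9, 3, 0, 1, 2, 2, 0, 3, 0, 0, 2, 4, 0, 5, 0, 2, 0, 0, 2, 0, 1] .nil)),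
  .nil,
  (.cons 0 4 0 0 0 (.cons 11 0 0 .nil) [1, 5] .nil),
  (.cons 0 7 1 0 0 (.cons 5 0 0 .nil) [2, 71, 13] .nil),
  .nil,
  (.cons 0 7 0 0 0 (.cons 10 0 0 .nil) [3] (.cons 1 0 0 0 0 (.cons 11 0 0 .nil) [0, 0, 8, 5, 1, 3, 12, 2, 4, 3, 4, 0, 2, 7, 0, 1, 7, 2, 9, 0, 5, 0, 0, 1, 2, 1, 1, 1, 1, 5, 1, 0, 1, 1, 0, 1, 1, 0, 0, 1, 2, 3, 2, 0] .nil)),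
  .nil,
  .nil,
  (.cons 0 5 0 0 0 (.cons 11 0 0 .nil) [1] (.cons 2 7 0 0 0 (.cons 0 16 1 .nil) [0, 10, 2, 1, 5, 20, 8, 1, 4, 2, 0, 14, 22, 10, 0, 7, 0, 4, 5, 0, 7, 2, 1, 0, 1, 2, 0, 5, 1, 10, 3, 1] .nil)),
  (.cons 2 4 0 0 0 (.cons 0 17 0 .nil) [4, 0, 19, 39, 0, 7, 2, 14, 0, 18, 0, 2, 1, 0, 0, 1, 1, 8, 2, 4, 2, 6, 1, 5, 8, 2, 4, 3, 0, 0, 5] (.cons 1 0 0 0 0 (.cons 10 0 0 .nil) [7, 1, 11, 4, 0, 2, 10, 4, 2, 3, 7, 6, 2, 3, 4, 9, 1, 7, 2, 8, 1, 3, 1, 1, 1, 0, 2, 2, 0, 4, 3, 7, 1, 1, 1, 3, 1, 9, 3, 3, 1, 0, 3, 7] .nil)),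
  .nil,
  (.cons 0 7 3 0 0 (.cons 10 2 0 .nil) [6, 11, 2, 24] (.cons 0 4 1 0 0 (.cons 10 0 0 .nil) [9, 19, 53] (.cons 1 0 0 0 0 (.cons 11 0 0 .nil) [0, 0, 4, 1, 0, 3, 3, 0, 2, 0, 6, 0, 4, 4, 4, 1, 5, 1, 0, 2, 2, 7, 1, 5, 8, 11, 0, 4, 0, 1, 5, 1, 0, 0, 6, 0, 4, 2, 3, 0, 1, 1, 2, 3, 0, 4, 1, 0, 1, 1, 1, 1, 0, 0, 0, 2, 1, 0, 9, 2, 0, 1, 1, 1, 0, 2] .nil))),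
  (.cons 0 2 6 0 0 (.cons 10 6 0 .nil) [45, 19, 5, 1, 29] .nil),
  (.cons 0 6 0 0 0 (.cons 11 0 0 .nil) [0, 37] .nil),
  (.cons 0 4 2 0 0 (.cons 9 0 0 .nil) [121, 0] .nil),
  (.cons 0 7 0 1 0 (.cons 5 16 0 .nil) [10, 21, 6, 27, 1, 3, 5, 2, 11, 2, 177] .nil),
  .nil,
  (.cons 0 6 0 0 0 (.cons 10 1 0 .nil) [5] (.cons 2 7 0 0 0 (.cons 0 18 0 .nil) [166, 1, 4, 17, 1, 5, 1, 1, 2, 0, 1, 2, 1, 6, 1, 25, 4, 0, 34, 3] (.cons 1 0 0 0 0 (.cons 10 0 0 .nil) [16, 43, 19, 0, 3, 13, 23, 44, 8, 7, 0, 2, 0, 7, 0, 5, 1, 2, 1, 7, 5, 15, 0, 6, 1, 23] .nil))),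
  (.cons 0 6 1 0 0 (.cons 11 0 0 .nil) [0, 51, 92] .nil),
  (.cons 0 6 2 0 0 (.cons 9 1 0 .nil) [12, 41, 7, 19, 20, 43] .nil),
  .nil,
  (.cons 1 0 0 0 0 (.cons 9 0 0 .nil) [11, 0, 12, 1, 9, 4, 21, 2, 4, 0, 5, 2, 3, 1, 1, 1, 3, 3, 19, 3, 2, 0, 0, 1, 3, 1, 11, 3, 1, 0, 9, 8, 1, 1, 3, 1, 1, 0, 1, 2, 4, 0, 2, 0, 0, 3, 1, 5, 0, 0, 0, 2, 1, 0, 1, 1, 0, 9, 0, 1, 1, 1, 0, 3, 0, 0, 2, 0, 7, 0, 2, 0, 1, 3, 1, 1, 0, 0, 2, 0, 0, 0, 3, 1, 1, 0, 0, 1, 5, 1, 1, 3, 2, 1, 3, 1, 2, 0, 1, 6] .nil),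
  .nil,
  .nil,
  (.cons 2 6 3 0 0 (.cons 0 19 0 .nil) [7, 0, 34, 1, 32, 3, 11, 8, 11, 25, 0, 0, 7, 62, 2, 1, 7, 3, 1, 0, 5, 2, 3, 0, 1, 4, 2, 1, 1, 0, 9, 15, 2, 1, 3, 1, 1, 0, 4, 5, 1, 3, 2, 1, 4, 3, 16, 7, 10, 14, 7, 10, 2, 3, 4] .nil),
  (.cons 1 0 0 0 0 (.cons 7 0 0 .nil) [4, 0, 42, 0, 7, 12, 0, 1, 1, 1, 0, 1, 1, 6, 13, 15, 3, 1, 4, 1, 1, 5, 0, 2, 0, 5, 2, 2, 0, 6, 3, 14, 14, 3, 6, 1, 4, 1, 3, 2, 0, 3, 3, 0, 0, 0, 1, 1, 0, 3, 0, 1, 0, 1, 2, 0, 0, 3, 4, 1, 0, 8, 1, 1, 0, 0, 9, 0, 2, 1, 7, 4, 0, 0, 0, 8, 5, 17, 4, 2, 13, 0, 7, 3, 0, 1, 7, 1, 2, 2, 0, 1, 5] .nil),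
  (.cons 2 10 0 0 0 (.cons 0 20 1 .nil) [20, 5, 3, 11, 30, 0, 11, 2, 4, 0, 27, 0, 12, 9, 35, 15, 3, 10, 0, 7, 1, 3, 4, 2, 7, 2, 1, 0, 1, 1, 3, 2, 3, 7, 3, 11, 1, 7, 0, 0, 0, 5, 1, 7, 5, 2, 10, 4, 3, 2, 0, 4, 6, 5, 9, 2, 2, 0, 3, 11, 13, 0, 2, 3, 17] .nil),
  (.cons 2 4 0 0 0 (.cons 0 21 1 .nil) [6, 105, 25, 91, 23, 9, 3, 0, 0, 2, 2, 6, 1, 2, 10, 35, 3, 1, 4, 2, 0, 17, 13, 5, 1, 59, 7, 8, 4, 14] (.cons 1 0 0 0 0 (.cons 10 1 0 .nil) [5, 0, 0, 5, 21, 10, 3, 2, 10, 2, 2, 5, 5, 3, 5, 1, 5, 3, 3, 1, 4, 2, 2, 6, 18, 0, 10, 0, 5, 2, 0, 1, 0, 1, 8, 3, 4, 12, 4, 0, 0, 8, 1, 3, 3, 1, 0, 1, 3, 0, 0, 4, 3, 1, 0, 2, 1, 1, 2, 0, 3, 0, 1, 0, 1, 0, 1, 2,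 2, 3, 0, 1, 0, 0, 0, 7, 5, 5, 0, 3, 3, 0, 1, 1, 1, 3, 0, 1, 1, 4, 0, 0, 0, 1, 0, 1, 1, 0, 17, 4, 3, 2, 12, 0, 2, 0, 0, 1, 0, 0, 2, 1, 0, 1, 1, 0, 0, 0, 1, 1, 1, 0, 5, 1] (.cons 1 0 0 0 0 (.cons 10 0 0 .nil) [4, 1, 6, 0, 0, 9, 19, 2, 3, 15, 3, 5, 5, 3, 6, 9, 2, 0, 5, 3, 3, 2, 3, 0, 17, 1, 2, 3, 2, 1, 4, 3, 3, 0, 1, 0, 2, 2, 7, 15, 3, 1, 1, 0, 0, 0, 2, 1, 1, 3, 1, 1, 3, 0, 0, 2, 0, 3, 2, 0, 0, 0, 1, 1, 0, 1, 1, 1, 0, 0, 0, 0, 1, 5, 5, 1, 1, 2, 1, 0, 1, 0, 0, 2, 2, 9, 1, 3, 3, 3, 0, 1, 4, 0, 2, 2, 1, 0, 2, 2, 0, 1, 0, 3, 5, 2, 0, 2, 1, 1, 4, 3, 3, 6, 0, 1, 1, 0, 0, 5, 3, 1, 1, 3, 1, 0, 0, 0, 0, 1, 3, 2, 0] .nil))),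
  .nil,
  (.cons 1 0 0 0 0 (.cons 11 0 0 .nil) [6, 2, 4, 4, 1, 1, 5, 1, 7, 4, 5, 11, 5, 0, 3, 4, 1, 5, 1, 2, 5, 1, 5, 1, 1, 1, 2, 2, 1, 4, 1, 1, 1, 1, 2, 3, 14, 1, 19, 1, 8, 0, 3, 0, 4, 0, 2, 1, 7, 1, 0, 0, 0, 0, 1, 0, 1, 1, 1, 7, 4, 3, 3, 0, 0, 3, 1, 0, 0, 4, 2, 0, 0, 6, 0, 0, 3, 0, 1, 0, 1, 1, 1, 0, 1, 1, 2, 3, 2, 0, 0, 0, 0, 0, 3, 5, 0, 1, 0, 1, 1, 0, 3, 2, 3, 3, 2, 0, 0, 3, 0, 2, 1, 1, 0, 2, 0, 1, 2, 0, 1, 0, 1, 0, 0, 3, 1, 0, 2, 2, 0, 0, 0, 15, 1, 0, 0, 2, 1, 0, 3, 0, 0, 0, 4, 0, 1, 5, 1, 1, 0, 0, 10, 2] .nil),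
  .nil,
  .nil,
  (.cons 2 5 0 0 0 (.cons 0 22 1 .nil) [10, 5, 15, 51, 1, 7, 3, 14, 2, 5, 16, 1, 26, 4, 33, 9, 0, 7, 32, 1, 1, 0, 1, 1, 2, 0, 0, 5, 0, 0, 3, 3, 1, 0, 2, 0, 3, 1, 3, 1, 2, 0, 1, 0, 0, 1, 1, 0, 0, 1, 3, 6, 5, 1, 1, 0, 5, 0, 0, 2, 8, 4, 4, 2, 0, 3, 2, 1, 4, 4, 12, 1, 0, 2, 3, 1, 5, 2, 0, 9, 9, 0, 1, 3, 4, 22, 2, 2, 0, 4, 2, 5, 1, 1, 0, 0, 0, 9, 0, 0, 6, 11, 5, 2] (.cons 1 0 0 0 0 (.cons 10 0 0 .nil) [2, 2, 3, 0, 4, 3, 6, 2, 8, 1, 31, 7, 1, 19, 0, 5, 2, 0, 2, 4, 25, 0, 4, 3, 2, 8, 1, 0, 10, 3, 10, 7, 0, 3, 2, 4, 19, 3, 0, 0, 0, 0, 2, 2, 3, 1, 0, 1, 1, 1, 0, 2, 1, 1, 1, 3, 0, 0, 0, 1, 1, 0, 0, 1, 0, 8, 1, 5, 1, 7, 1, 3, 0, 0, 0,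 3, 5, 1, 0, 1, 4, 0, 3, 1, 2, 3, 5, 5, 3, 0, 8, 1, 0, 7, 3, 1, 0, 0, 1, 1, 0, 1, 0, 3, 3, 2, 1, 1, 3, 1, 1, 1, 1, 2, 0, 0, 7, 1, 5, 6, 2, 4, 6, 6, 1, 2, 1, 1, 3, 0, 0, 4, 2, 0, 3, 2, 1, 1, 0, 2, 2, 2] .nil)),
  (.cons 1 0 0 0 0 (.cons 10 0 0 .nil) [4, 3, 2, 21, 4, 14, 0, 7, 16, 22, 3, 4, 4, 2, 0, 0, 7, 16, 8, 8, 1, 0, 5, 2, 1, 18, 3, 2, 1, 2, 0, 1, 4, 2, 1, 1, 4, 1, 11, 4, 2, 0, 1, 1, 2, 2, 1, 0, 3, 1, 2, 1, 1, 3, 5, 0, 1, 1, 1, 2, 1, 0, 1, 1, 0, 3, 3, 0, 1, 2, 1, 2, 0, 5, 7, 2, 1, 2, 1, 1, 2, 0, 0, 1, 9, 9, 2, 0, 3, 1, 3, 3, 10, 4, 7, 5, 3, 1, 0, 5, 1, 1, 0, 4, 2, 1, 1, 2, 2, 1, 4, 0, 2, 5, 0, 3, 1, 1, 2, 0, 5, 3, 0, 2, 3, 0, 3, 0, 0, 0,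 3, 7, 1, 4, 6, 1, 7, 0, 0, 2, 6] .nil),
  .nil,
  (.cons 0 6 6 0 0 (.cons 10 0 0 .nil) [24, 15, 2, 39, 22] (.cons 2 10 0 0 0 (.cons 0 23 0 .nil) [35, 50, 1, 5, 27, 8, 3, 76, 29, 13, 33, 0, 0, 11, 4, 1, 3, 18, 6, 5, 0, 0, 3, 3, 2, 0, 2, 0, 0, 4, 9, 3, 16, 12, 0, 12, 24, 28, 1, 2, 1, 3, 3, 0, 11, 12, 63, 0, 3, 4, 7, 0, 3, 10, 0, 0, 6, 25] (.cons 1 0 0 0 0 (.cons 11 0 0 .nil) [3, 0, 17, 7, 1, 0, 53, 5, 29, 3, 30, 19, 8, 33, 2, 0, 9, 3, 3, 10, 3, 9, 2, 0, 1, 5, 0, 1, 0, 0, 0, 1, 7, 1, 1, 3, 4, 2, 7, 7, 5, 1, 3, 1, 2, 1, 3, 0, 4, 3, 3, 1, 0, 1, 2, 0, 2, 3, 2, 2, 7, 1, 0, 3, 1, 3, 0, 0, 6, 4, 9, 9, 1, 3, 10, 5, 4, 5, 0, 2, 2, 5, 0, 4, 7, 7, 0,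 1, 0, 1, 0, 0, 5, 6, 3, 18, 4, 1, 6, 6, 4, 9, 2, 0, 3, 3, 4, 1, 4, 0, 5, 8, 7] (.cons 1 0 0 0 0 (.cons 11 1 0 .nil) [4, 6, 0, 3, 0, 0, 2, 0, 2, 2, 12, 33, 3, 0, 0, 0, 1, 13, 1, 1, 2, 2, 1, 3, 5, 5, 5, 0, 1, 9, 1, 7, 5, 9, 3, 5, 19, 6, 3, 1, 8, 2, 1, 11, 1, 2, 8, 5, 0, 2, 0, 4, 0, 0, 1, 5, 3, 1, 2, 1, 6, 3, 3, 1, 0, 0, 3, 0, 0, 0, 3, 3, 0, 0, 1, 1, 0, 12, 0, 0, 5, 5, 6, 1, 1, 8, 0, 1, 3, 3, 1, 0, 1, 4, 0, 0, 4, 2, 0, 1, 0, 11, 0, 3, 2, 6, 4, 5, 5, 0, 1, 4, 0, 1, 1, 0, 2, 2, 5, 1, 0, 4, 0, 11, 4, 5, 1, 4, 7, 3, 3, 1, 4, 0, 3, 1, 1, 4, 5, 5, 11, 3, 1, 6, 4, 1, 7, 3, 5] .nil)))),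
  (.cons 1 0 0 0 0 (.cons 11 0 0 .nil) [0, 4, 3, 3, 0, 29, 1, 2, 24, 1, 5, 17, 3, 2, 17, 3, 5, 0, 5, 12, 18, 9, 0, 13, 5, 11, 0, 0, 5, 0, 4, 2, 6, 4, 2, 7, 15, 3, 1, 4, 4, 1, 2, 2, 2, 0, 3, 3, 1, 1, 3, 4, 1, 4, 1, 3, 1, 5, 6, 1, 0, 3, 0, 0, 0, 2, 4, 0, 1, 5, 1, 1, 5, 1, 0, 2, 1, 0, 2, 0, 5, 2, 1, 5, 1, 5, 4, 3, 0, 3, 6, 0, 4, 1, 1, 3, 0, 0, 0, 4, 2, 1, 1, 0, 0, 1, 0, 7, 3, 2, 2, 7, 4, 1, 1, 1, 0, 7, 0, 9, 0, 4, 10, 2, 1, 5, 1, 0, 1, 1, 1, 3, 0, 2, 0, 0, 1, 7, 1, 0, 1, 0, 1, 1, 0, 4, 1, 7, 2, 2, 2, 4, 1, 7] .nil),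
  .nil,
  (.cons 0 7 9 0 0 (.cons 10 0 0 .nil) [7, 8, 7, 19, 0, 3, 3, 58, 0, 3, 8, 0, 1, 8, 2, 30, 20] .nil),
  .nil,
  .nil,
  (.cons 0 6 0 2 0 (.cons 5 0 0 .nil) [11, 1, 6, 10, 1, 3, 4, 21, 1, 4, 0, 6, 9, 5, 1, 8, 1, 1, 3, 0, 6, 6, 4, 3, 1, 4, 3, 5, 0, 2, 0, 0, 0, 3, 1, 0, 2, 2, 13, 12, 3, 4, 1, 4, 108, 176, 4, 1, 0, 5, 1, 0, 1, 2, 5, 0, 8, 1, 0, 11, 0, 3, 1, 0, 0, 1, 1, 4, 6, 2, 1, 4, 3, 1, 0, 10, 2, 1, 0, 0, 0, 3, 1, 1, 5, 0, 3, 3, 2, 3, 3, 6] (.cons 0 6 0 0 0 (.cons 11 1 0 .nil) [2] .nil)),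
  (.cons 0 6 1 2 0 (.cons 5 8 0 .nil) [4, 23, 17, 4, 3, 11, 6, 19, 17, 2, 13, 1, 2, 15, 0, 5, 22, 5, 16, 2, 3, 0, 9, 21, 192, 0, 34, 73, 0, 2, 4, 1, 0, 0, 6, 0, 0, 3, 1, 3, 0, 3, 2, 4, 3, 2, 0, 3, 3, 1, 1, 3, 7, 3, 5, 0, 4, 1, 19, 19, 4, 7] .nil),
  (.cons 0 6 1 0 0 (.cons 9 0 0 .nil) [15, 2, 154, 78] .nil),
  .nil,
  (.cons 2 8 0 0 0 (.cons 0 24 1 .nil) [105, 36, 27, 96, 1, 5, 2, 1, 1, 8, 2, 2, 3, 2, 3, 1, 0, 2, 1, 1, 12, 1, 1, 0, 0, 7, 2, 1, 0, 0, 0, 26, 20, 2, 16, 7, 20, 1, 15, 0, 1, 3, 2, 12, 2, 13, 0, 3, 1, 10, 1, 0, 3, 9, 3, 0, 3, 5, 1, 4, 3, 0, 25, 3, 31, 0, 1, 16, 0, 2, 5, 8, 2, 2, 7, 1, 7, 43, 15, 4, 13, 2, 5, 14, 0, 4, 7, 1, 1,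 3, 0, 1, 0, 0, 1, 1, 13, 14, 7, 11, 10, 0, 0] (.cons 1 0 0 0 0 (.cons 11 0 0 .nil) [15, 1, 0, 0, 1, 0, 14, 11, 4, 0, 2, 0, 4, 30, 1, 5, 2, 7, 5, 7, 16, 0, 2, 1, 1, 0, 1, 0, 4, 6, 5, 4, 15, 1, 2, 7, 0, 0, 3, 7, 1, 14, 1, 2, 1, 0, 0, 7, 1, 0, 0, 3, 3, 1, 0, 2, 1, 1, 1, 0, 2, 0, 0, 4, 1, 13, 2, 2, 6, 2, 1, 3, 1, 3, 3, 1, 0, 3, 0, 0, 0, 0, 1, 0, 3, 0, 2, 1, 0, 0, 0, 3, 1, 3, 0, 3, 3, 2, 0, 5, 0, 1, 0, 5, 3, 1, 6, 0, 4, 1, 1, 0, 4, 0, 0, 7, 2, 7, 1, 1, 0, 3, 3, 0, 1, 3, 0, 1, 0, 0, 4, 0, 2, 3, 0, 5, 4, 1, 7, 1, 0, 4, 1, 0, 5, 3, 2, 1, 1, 4, 11, 0, 4, 3, 0, 2, 0, 0, 3, 6, 0, 0, 0, 0, 5, 5, 2, 1, 0, 1, 8, 0, 1, 5, 1, 3, 3, 0, 7, 7, 2, 0, 6, 0, 5,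 0, 5, 0, 5, 1, 0, 7, 8, 1, 5, 0, 1, 0, 1, 1, 1, 1, 5, 1, 1, 0, 3, 1, 0, 0, 1, 5, 1, 3, 1, 1, 0, 0, 0, 0, 3, 4, 1, 1, 0, 1, 5, 0, 1, 2, 0, 2, 1, 0, 3, 5, 1, 3, 2, 1, 3, 3, 0, 1, 2, 0, 4, 1, 6, 2] .nil)),
  .nil,
  (.cons 2 0 0 0 0 (.cons 0 25 0 .nil) [452, 3, 0, 100, 372, 20] (.cons 2 9 0 0 0 (.cons 0 26 1 .nil) [13, 8, 1, 10, 0, 0, 1, 3, 33, 3, 9, 14, 2, 2, 1, 0, 9, 9, 4, 0, 0, 1, 7, 7, 2, 11, 10, 2, 1, 2, 5, 7, 4, 10, 31, 0, 3, 3, 0, 3, 2, 5, 3, 3, 0, 0, 1, 1, 1, 3, 0, 4, 0, 0, 0, 2, 11, 26, 19, 1, 0, 11, 12, 1, 3, 0, 0, 2, 12, 0, 1, 1, 1, 0, 0, 4, 1, 3, 1, 0, 0, 1, 2, 1, 0, 3, 2, 0, 1, 5, 0, 1, 3, 0, 3, 0, 3, 5, 1, 7, 2, 0, 1, 1, 2, 0,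 15, 27, 1, 6, 1, 0, 0, 5, 3, 0, 1, 0, 3, 1, 0, 1, 0, 0, 0, 3, 0, 3, 6, 4, 3, 6, 0, 0, 2, 0, 1, 10, 0, 0, 1, 3, 2, 1, 1, 0, 1, 14, 0, 4, 3, 2, 1, 6, 4, 1, 4, 1, 18, 13, 0, 2, 15, 8, 1, 2, 1, 2, 7, 0, 3, 0, 7, 0, 0, 3, 9, 0, 3, 1, 0, 1, 2, 0, 4, 1, 1, 0, 0, 10, 1, 2, 0, 1, 1, 0, 7, 3, 0, 2, 3, 0, 0, 1, 1, 4, 0, 4, 0, 2, 3, 5, 12] (.cons 1 0 0 0 0 (.cons 11 0 0 .nil) [25, 0, 12, 0, 0, 2, 16, 14, 2, 8, 0, 9, 3, 2, 0, 5, 4, 1, 3, 0, 1, 7, 7, 1, 4, 12, 9, 2, 6, 1, 1, 1, 14, 1, 2, 0, 9, 30, 9, 5, 0, 4, 5, 1, 0, 1, 2, 0, 3, 0, 1, 2, 2, 0, 1, 3, 3, 1, 1, 0, 5, 1, 2, 1, 5, 4, 1, 1, 6, 15, 1, 2, 1, 0, 0, 0, 0, 0, 0, 1, 3, 1, 0, 3, 0, 1, 3, 10, 0, 0,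 1, 0, 2, 5, 2, 2, 9, 1, 0, 1, 0, 0, 1, 0, 0, 10, 1, 0, 3, 0, 0, 0, 1, 0, 1, 3, 5, 0, 10, 1, 0, 1, 5, 0, 0, 0, 0, 0, 4, 2, 1, 1, 1, 3, 1, 0, 1, 5, 4, 0, 0, 0, 0, 1, 1, 1, 0, 1, 4, 1, 1, 1, 8, 5, 0, 4, 0, 4, 1, 0, 4, 0, 1, 2, 0, 19, 0, 0, 1, 1, 1, 7, 5, 0, 5, 1, 5, 0, 10, 1, 0, 2, 2, 1, 3, 0, 21, 0, 5, 0, 1, 1, 2, 12, 0, 1, 0, 6, 0, 0, 2, 2, 0, 1, 0, 4, 4, 4, 4, 2, 0, 9, 0, 5, 1, 3, 0, 0, 3, 2, 1, 0, 1, 0, 1, 0, 2, 4, 0, 1, 5, 11, 1, 0, 5, 2, 0, 15, 2] .nil))),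
  (.cons 1 0 0 0 0 (.cons 6 0 0 .nil) [6, 93, 9, 0, 7, 16, 8, 0, 3, 6, 33, 0, 13, 18, 4, 5, 0, 1, 8, 8, 9, 24, 1, 14, 0, 7, 9, 10, 54, 1, 20, 3, 2, 10, 1, 15, 2, 1, 3, 3, 3, 3, 13, 2, 6, 5, 2, 2, 0, 0, 6, 1, 1, 0, 7, 8, 1, 1, 7, 2, 0, 0, 3, 0, 9, 1, 0, 1, 4, 1, 1, 3, 4, 1, 0, 1, 9, 1, 2, 5, 7, 2, 1, 3, 13, 9, 3, 0, 2, 11, 33, 3, 1, 4, 8, 9, 17, 1, 10, 21, 1, 0, 0, 3, 7, 7, 5, 15, 1, 2, 4, 2, 0, 7, 0, 1, 4, 1, 2, 2, 2, 1, 8, 1, 1, 1, 2, 2, 0, 1, 1, 1, 6, 4, 7, 26, 0, 1, 21, 6, 7, 3, 0, 1, 5] .nil),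
  (.cons 2 1 0 0 0 (.cons 0 27 0 .nil) [3, 2, 1, 102, 0, 7, 11, 1, 1, 0, 0, 0, 1, 22, 8, 28, 1, 11, 4, 21, 17, 1, 4, 46, 45, 54, 9, 13, 4, 6, 1, 2, 0, 10, 0, 0, 2, 5, 1, 0, 3, 1, 0, 0, 0, 1, 5, 1, 1, 6, 0, 0, 0, 8, 1, 3, 0, 1, 6, 7, 7, 5, 1, 0, 0, 2, 0, 0, 11, 8, 2, 2, 7, 10, 1, 6, 3, 24, 4, 1, 0, 12, 16, 1, 3, 6, 20, 13, 3, 8, 1, 16, 2, 5, 11, 2, 9, 5, 30, 6, 7, 1, 8, 1, 0, 0, 1, 3, 1, 6, 1, 1, 2, 2, 0, 0, 1, 5, 2, 0, 2, 2, 0, 5, 3, 2, 1, 1, 5, 1, 6, 1, 1, 1, 1, 1, 0, 0, 0, 4, 0, 5, 6, 15, 1, 1, 0, 1, 12, 7, 0, 6, 2, 1, 3] (.cons 1 0 0 0 0 (.cons 11 0 0 .nil) [4, 2, 0, 2, 39, 21, 9, 9, 5, 34, 3, 1, 0, 8, 7, 4, 10, 1, 16, 14, 1, 2, 13, 1,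 2, 5, 2, 10, 1, 3, 1, 0, 3, 9, 6, 1, 0, 1, 1, 0, 3, 1, 1, 6, 2, 3, 3, 5, 1, 3, 2, 1, 3, 2, 4, 0, 3, 0, 1, 3, 5, 14, 1, 2, 5, 0, 3, 9, 1, 1, 1, 3, 3, 3, 0, 0, 1, 2, 1, 1, 0, 3, 2, 1, 3, 1, 1, 0, 0, 1, 3, 2, 1, 3, 3, 3, 0, 1, 1, 2, 1, 1, 3, 2, 0, 0, 3, 5, 1, 0, 0, 2, 8, 2, 2, 0, 3, 1, 4, 6, 1, 0, 0, 5, 0, 1, 1, 0, 1, 1, 1, 0, 0, 4, 0, 0, 11, 4, 0, 0, 1, 0, 1, 0, 1, 1, 1, 1, 0, 0, 0, 1, 1, 4, 3, 1, 7, 0, 0, 1, 2, 0, 3, 1, 7, 0, 3, 0, 1, 0, 2, 0, 2, 5, 2, 5, 2, 0, 0, 0, 1, 2, 3, 1, 1, 3, 1, 2, 0, 2, 4, 3, 19, 2, 0, 3, 6, 6, 6, 2, 15, 2, 0, 3, 1, 5, 1, 1, 4, 1, 2, 0, 0, 0, 0, 1, 0, 1, 1, 0, 0, 0, 0, 1, 2, 1, 1, 0, 2, 3, 1, 2, 0, 3, 1, 5, 1, 0,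 1, 0, 0, 1, 1, 5, 1, 2, 3, 0, 1, 1, 0, 0, 11, 0, 0, 2, 0, 0, 3, 0, 3, 0, 9, 0, 9, 9, 7, 6, 0, 0, 1] .nil)),
  (.cons 0 6 3 0 0 (.cons 10 0 0 .nil) [2, 3, 1, 53, 124, 5, 76] (.cons 1 0 0 0 0 (.cons 9 1 0 .nil) [17, 19, 6, 4, 15, 3, 34, 9, 1, 0, 0, 6, 1, 0, 0, 1, 1, 2, 0, 7, 0, 0, 4, 1, 0, 1, 0, 9, 2, 30, 24, 0, 1, 9, 25, 1, 0, 1, 1, 2, 24, 0, 5, 4, 1, 7, 5, 0, 1, 0, 0, 1, 3, 1, 11, 19, 3, 0, 0, 3, 7, 9, 1, 2, 2, 6, 0, 1, 0, 3, 0, 0, 3, 0, 0, 4, 1, 1, 12, 1, 1, 0, 0, 0, 1, 3, 3, 3, 1, 2, 1, 0, 0, 2, 0, 2, 0, 0, 0, 2, 4, 0, 1, 2, 0, 1, 6, 0, 0, 3, 0, 1, 5, 7, 1, 0, 1, 4, 1, 0, 0, 3, 0, 0, 5, 12, 3, 1, 3, 2, 3, 0, 1, 2, 0, 0, 3, 2, 6, 0, 4, 1,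 12, 3, 0, 0, 0, 3, 1, 1, 1, 3, 8, 0, 1, 2, 1, 1, 5, 5, 15, 3, 0, 0, 0, 0, 7, 1, 0, 1, 0, 2, 0, 5, 1, 4, 1, 0, 8, 14, 1, 52, 1, 2, 0, 0, 6, 0, 3, 1, 1, 3, 0, 4, 6, 3, 6, 1, 1, 1, 1, 0, 2, 1, 2, 0, 2, 2, 0, 0, 3, 1, 1, 1, 5, 0, 15, 1, 3, 1, 4, 1, 3, 0, 3, 9, 0, 5, 2, 0, 3, 3, 2, 11, 10, 1, 1, 12, 0, 2] .nil)),
  (.cons 0 6 9 0 0 (.cons 11 1 0 .nil) [0, 8, 11, 25, 27, 1, 13, 10, 13, 1, 23, 21, 0, 0, 2, 3, 9, 3, 27, 12, 7, 3, 17, 5, 27] (.cons 2 2 0 0 0 (.cons 0 28 0 .nil) [569, 4, 421, 14, 61, 54, 56] (.cons 1 0 0 0 0 (.cons 11 0 0 .nil) [3, 4, 1, 1, 0, 5, 1, 29, 0, 12, 10, 1, 24, 3, 4, 0, 25, 6, 2, 4, 0, 3, 0, 0, 2, 3, 1, 1, 0, 29, 0, 1, 1,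 3, 17, 5, 4, 1, 0, 4, 3, 5, 4, 1, 22, 6, 3, 3, 3, 4, 0, 5, 2, 1, 5, 3, 0, 1, 1, 2, 4, 1, 1, 3, 0, 0, 0, 4, 1, 4, 0, 3, 3, 1, 13, 1, 9, 1, 1, 0, 0, 1, 0, 5, 2, 0, 4, 0, 0, 1, 2, 0, 1, 0, 1, 2, 1, 0, 0, 0, 4, 1, 2, 2, 1, 0, 5, 0, 3, 2, 0, 0, 1, 1, 1, 6, 0, 0, 3, 4, 0, 2, 3, 5, 0, 1, 7, 1, 1, 1, 0, 7, 3, 1, 0, 3, 0, 3, 0, 1, 1, 0, 1, 5, 0, 0, 1, 3, 1, 4, 0, 0, 3, 0, 1, 0, 1, 1, 0, 1, 1, 1, 0, 6, 2, 0, 0, 1, 5, 4, 1, 0, 3, 0, 6, 1, 3, 2, 1, 3, 0, 4, 3, 1, 5, 5, 1, 3, 1, 3, 0, 5, 3, 5, 6, 5, 1, 0, 4, 1, 1, 6, 0, 1, 0, 0, 4, 0, 1, 2, 2, 1, 1, 6, 4, 0, 2, 11, 0, 3, 0, 4, 1, 1, 1, 5, 0, 8, 0, 0, 0, 13, 1, 2, 2, 4, 0, 0, 2, 2, 0, 0, 0, 1, 0, 0, 0,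 1, 0, 2, 1, 3, 0, 1, 1, 0, 0, 1, 0, 0, 1, 1, 0, 0, 1, 2, 3, 0, 4, 2, 2, 1, 3, 1, 2, 0, 2, 2, 3, 1, 3, 1, 4, 0, 0, 7, 0, 1, 0, 2, 0, 0, 0, 2, 1, 1, 0, 7, 4, 6, 7, 0, 5, 1, 8, 1] .nil))),
  (.cons 0 6 10 0 0 (.cons 11 0 0 .nil) [5, 5, 14, 55, 19, 1, 12, 17, 0, 3, 14, 3, 4, 3, 16, 10, 0, 16, 12, 17, 2, 13, 6, 0, 2] (.cons 1 0 0 0 0 (.cons 9 0 0 .nil) [3, 3, 1, 0, 1, 1, 74, 16, 41, 20, 3, 0, 4, 1, 3, 0, 0, 0, 0, 1, 2, 27, 0, 24, 11, 1, 9, 1, 1, 1, 1, 1, 10, 16, 0, 6, 1, 7, 1, 3, 17, 1, 13, 0, 0, 7, 3, 39, 0, 1, 10, 1, 5, 1, 1, 2, 0, 1, 5, 2, 1, 1, 1, 3, 0, 0, 1, 1, 1, 1, 0, 0, 1, 0, 5, 2, 1, 2, 1, 1, 5, 1, 2, 0, 3, 0, 0, 0, 3, 1, 0, 1, 1, 3,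 0, 1, 0, 0, 1, 0, 1, 0, 1, 3, 0, 1, 3, 2, 0, 0, 1, 0, 7, 5, 2, 5, 2, 0, 2, 1, 3, 5, 1, 1, 0, 9, 2, 3, 13, 13, 2, 1, 1, 6, 0, 7, 3, 0, 23, 1, 1, 1, 3, 0, 0, 6, 4, 3, 0, 1, 11, 1, 5, 1, 4, 4, 0, 1, 4, 5, 0, 1, 4, 7, 1, 1, 3, 0, 2, 2, 0, 0, 0, 0, 0, 8, 12, 5, 9, 0, 22, 1, 2, 2, 0, 0, 0, 2, 9, 11, 3, 0, 3, 0, 2, 1, 0, 9, 0, 2, 1, 5, 2, 1, 1, 2, 2, 0, 1, 0, 2, 4, 0, 2, 1, 1, 1, 0, 7, 19, 2, 0, 2, 3, 1, 1, 1, 1, 1, 0, 1, 3, 2, 2, 1, 1, 5, 0, 3, 1, 3, 0, 0, 12, 1, 5, 3, 4, 4, 6] .nil)),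
  (.cons 2 3 0 0 0 (.cons 0 30 0 .nil) [463, 0, 6, 37, 2, 14, 3, 16, 11, 3, 3, 10, 2, 6, 0, 26, 4, 13, 2, 0, 0, 1, 6, 2, 6, 5, 1, 4, 15, 6, 8, 3, 0, 1, 13, 3, 3, 2, 2, 0, 338, 0, 0, 5, 1, 0, 3, 1, 1, 1, 7, 0] (.cons 2 11 0 0 0 (.cons 0 29 0 .nil) [314, 0, 4, 7, 11, 6, 6, 2, 3, 4, 3, 5, 3, 1, 7, 5, 0, 1, 4, 17, 4, 1, 2, 2, 10, 4, 1, 4, 0, 24, 10, 3, 15, 2, 17, 2, 3, 2, 2, 2, 3, 7, 3, 6, 1, 3, 6, 9, 5, 2, 21, 1, 0, 0, 2, 1, 2, 2, 0, 1, 2, 1, 4, 5, 3, 0, 1, 2, 0, 2, 0, 0, 2, 0, 1, 2, 0, 1, 0, 11, 1, 1, 3, 0, 0, 0, 1, 1, 3, 7, 5, 0, 29, 0, 75, 0, 18, 88, 1, 21, 1, 8, 0, 15, 8, 0, 2, 2, 9, 4, 1, 7, 3, 3, 1, 3, 2, 0, 0, 16, 2, 1] (.cons 1 0 0 0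 0 (.cons 11 0 0 .nil) [4, 22, 10, 1, 5, 18, 3, 55, 1, 24, 3, 2, 1, 2, 0, 1, 5, 2, 0, 41, 17, 3, 1, 4, 1, 7, 2, 1, 1, 38, 0, 2, 0, 7, 2, 6, 3, 2, 0, 2, 0, 1, 0, 0, 1, 2, 4, 8, 0, 2, 2, 3, 2, 1, 4, 19, 1, 3, 0, 0, 2, 0, 4, 2, 1, 2, 1, 2, 3, 1, 0, 5, 2, 0, 0, 2, 2, 1, 3, 1, 3, 2, 1, 1, 2, 1, 0, 4, 0, 3, 6, 4, 1, 0, 5, 1, 0, 0, 7, 7, 0, 0, 7, 3, 1, 0, 1, 1, 0, 0, 1, 0, 4, 0, 1, 0, 0, 0, 5, 1, 1, 1, 8, 0, 2, 0, 4, 0, 2, 4, 0, 4, 2, 0, 3, 0, 1, 0, 1, 4, 1, 7, 1, 1, 3, 0, 0, 1, 2, 0, 3, 1, 1, 8, 0, 2, 1, 6, 2, 2, 20, 0, 9, 1, 1, 1, 2, 4, 1, 2, 14, 1, 9, 0, 1, 4, 2, 1, 1, 0, 1, 3, 1, 5, 1, 1, 1, 1, 3, 8, 1, 18, 0, 1, 0, 5, 1, 2, 0, 7, 1, 4, 4, 8,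 5, 1, 20, 0, 3, 4, 0, 2, 5, 0, 0, 0, 4, 3, 1, 0, 7, 1, 1, 2, 1, 2, 6, 1, 0, 10, 2, 1, 1, 3, 0, 10, 2, 1, 6, 0, 0, 8, 0, 3, 0, 2, 8, 1, 2, 2, 6, 3, 3, 9, 2, 0, 17, 2, 12] (.cons 1 0 0 0 0 (.cons 11 1 0 .nil) [4, 1, 0, 4, 11, 1, 7, 0, 3, 6, 2, 17, 41, 9, 0, 1, 0, 2, 6, 13, 2, 3, 5, 0, 1, 3, 2, 0, 0, 5, 1, 3, 1, 0, 16, 6, 0, 19, 0, 3, 2, 1, 4, 3, 1, 7, 0, 30, 0, 2, 0, 0, 3, 1, 2, 1, 1, 7, 3, 4, 1, 1, 0, 6, 0, 0, 6, 4, 7, 3, 1, 0, 3, 2, 16, 3, 3, 1, 1, 2, 0, 4, 0, 0, 1, 2, 1, 0, 3, 0, 3, 11, 0, 2, 6, 1, 0, 2, 4, 8, 3, 0, 1, 0, 3, 4, 1, 1, 5, 0, 5, 1, 2, 4, 1, 3, 0, 1, 0, 2, 0, 6, 0, 1, 0, 0, 3, 1, 0, 2, 7, 1, 0, 2, 0, 0, 1, 1, 1, 4, 0, 1, 0,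 1, 0, 6, 1, 0, 0, 0, 0, 0, 0, 0, 0, 3, 2, 0, 1, 1, 1, 1, 0, 3, 3, 2, 1, 0, 2, 1, 0, 1, 2, 2, 1, 0, 1, 0, 2, 1, 2, 0, 0, 8, 3, 2, 3, 2, 2, 3, 1, 2, 6, 0, 0, 1, 0, 0, 8, 4, 6, 2, 1, 1, 1, 3, 1, 0, 3, 0, 0, 2, 2, 0, 1, 0, 10, 0, 4, 3, 2, 3, 2, 0, 11, 6, 9, 1, 0, 3, 0, 6, 0, 6, 1, 11, 1, 3, 9, 3, 0, 5, 3, 2, 2, 1, 1, 2, 5, 1, 7, 4, 0, 2, 1, 1, 1, 1, 0, 0, 3, 4, 2, 0, 3, 0, 3, 0, 0, 0, 1, 3, 0, 0, 2, 4, 3, 0, 0, 3, 4, 1, 0, 5, 2, 0, 0, 2, 5, 0, 1, 4, 1, 2, 1, 0, 3, 1, 1, 4, 3, 3, 4, 0, 0, 4, 0, 5, 2, 2, 12, 0, 1, 2] .nil)))),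
  (.cons 2 4 0 0 0 (.cons 0 31 1 .nil) [8, 5, 2, 46, 55, 19, 7, 2, 0, 2, 5, 16, 1, 4, 3, 1, 3, 48, 7, 0, 5, 5, 2, 10, 1, 1, 22, 8, 0, 1, 0, 6, 3, 3, 1, 1, 12, 0, 4, 6, 1, 1, 1, 2, 1, 3, 6, 1, 2, 0, 47, 10, 3, 15, 1, 0, 10, 15, 2, 1, 1, 5, 0, 7, 1, 3, 3, 1, 5, 4, 0, 1, 2, 0, 1, 2, 0, 3, 2, 0, 2, 2, 1, 0, 1, 0, 7, 0, 0, 8, 0, 2, 7, 0, 4, 0, 3, 0, 1, 8, 3, 0, 12, 33, 0, 1, 0, 3, 0, 1, 0, 0, 0, 2, 3, 2, 4, 9, 1, 1, 1, 7, 6, 2, 0, 2, 5, 6, 0, 2, 1, 11, 3, 5, 0, 3, 1, 0, 0, 3, 0, 3, 1, 2, 1, 3, 0, 3, 0, 9, 8, 11, 3, 0, 1, 2, 0, 0, 16, 26, 0, 0, 1, 15, 3, 20, 1, 0, 1, 3, 1, 1, 1, 2, 1, 0, 1, 1, 1, 0, 1, 4, 3, 1, 3, 0, 0, 2, 3, 5, 2, 2, 1, 2, 0,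 1, 3, 1, 0, 0, 1, 0, 6, 5, 0, 1, 0, 0, 1, 0, 2, 0, 1, 5, 1, 5, 3, 0, 0, 2, 0, 1, 10, 5, 3, 0, 2, 5, 7, 2, 3, 3, 5, 1, 3, 5, 11, 6, 3, 3, 6, 3] (.cons 1 0 0 0 0 (.cons 11 0 0 .nil) [2, 4, 0, 56, 45, 8, 9, 17, 5, 5, 3, 1, 14, 1, 9, 1, 3, 9, 19, 19, 14, 20, 1, 1, 11, 3, 11, 5, 1, 1, 2, 9, 1, 0, 3, 2, 0, 1, 4, 2, 2, 6, 3, 6, 1, 10, 1, 0, 0, 3, 7, 7, 2, 2, 14, 5, 2, 4, 3, 2, 11, 6, 0, 1, 0, 8, 0, 2, 4, 0, 0, 9, 2, 0, 0, 1, 0, 1, 2, 0, 0, 2, 0, 0, 1, 7, 0, 1, 2, 2, 14, 1, 3, 3, 0, 3, 1, 3, 2, 0, 0, 3, 3, 0, 3, 3, 0, 0, 0, 0, 6, 2, 1, 1, 4, 1, 1, 0, 1, 3, 1, 2, 1, 1, 3, 5, 0, 3, 1, 6, 0, 0, 1, 0, 3, 0, 4, 0, 1, 1, 0, 1, 0, 1, 0, 1, 0, 5, 0, 30,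 2, 1, 2, 1, 0, 2, 1, 8, 6, 0, 3, 0, 7, 0, 9, 3, 2, 0, 7, 5, 1, 2, 6, 0, 8, 3, 1, 1, 0, 1, 24, 22, 16, 3, 2, 12, 11, 0, 7, 1, 2, 6, 3, 2, 2, 3, 1, 1, 3, 2, 0, 4, 2, 3, 3, 2, 0, 1, 1, 3, 4, 6, 3, 5, 1, 4, 1, 1, 2, 3, 3, 1, 0, 4, 5, 4, 1, 0, 3, 0, 3, 0, 3, 3, 3, 0, 2, 2, 0, 0, 1, 4, 1, 0, 2, 1, 3, 27, 0, 3, 7, 4] (.cons 1 0 0 0 0 (.cons 9 0 0 .nil) [5, 7, 2, 0, 0, 5, 1, 42, 1, 1, 3, 4, 12, 10, 2, 3, 1, 1, 1, 1, 2, 15, 2, 2, 1, 0, 1, 4, 2, 5, 3, 1, 1, 2, 3, 0, 0, 0, 1, 3, 2, 4, 4, 13, 1, 21, 0, 3, 15, 4, 1, 0, 2, 1, 14, 23, 6, 3, 5, 2, 8, 3, 3, 8, 1, 0, 2, 5, 8, 3, 20, 2, 15, 3, 7, 3, 0, 1, 3, 1, 9, 0, 0, 3, 4, 0, 1, 2, 5, 0, 0, 2, 2, 0, 0, 1,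 4, 1, 2, 1, 3, 1, 1, 1, 0, 3, 6, 3, 1, 0, 1, 3, 0, 2, 1, 1, 0, 2, 1, 9, 0, 1, 1, 0, 0, 1, 1, 1, 7, 0, 0, 1, 5, 0, 0, 3, 0, 0, 1, 3, 0, 0, 1, 2, 2, 0, 1, 1, 8, 1, 5, 0, 5, 3, 6, 3, 2, 2, 0, 0, 1, 1, 0, 1, 0, 5, 1, 0, 1, 0, 0, 2, 1, 1, 2, 2, 5, 1, 0, 0, 1, 1, 2, 1, 0, 12, 3, 0, 1, 1, 1, 1, 7, 0, 0, 1, 0, 4, 5, 1, 26, 7, 3, 1, 3, 1, 3, 7, 1, 1, 1, 6, 0, 1, 2, 1, 0, 1, 1, 1, 1, 6, 1, 1, 13, 0, 1, 8, 1, 3, 10, 10, 1, 16, 1, 3, 1, 3, 6, 1, 0, 0, 0, 1, 2, 6, 0, 1, 9, 3, 0, 1, 8, 0, 3, 0, 2, 0, 1, 1, 2, 0, 1, 0, 3, 1, 1, 5, 4, 13, 3, 1, 5, 2, 3, 5, 4, 0, 7, 6, 9, 1, 7, 2, 2, 2, 1, 0, 1, 14, 2, 5, 6, 2, 0] .nil))),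
  (.cons 0 6 1 1 0 (.cons 11 0 0 .nil) [0, 3, 1, 4, 0, 10, 5, 9, 17, 5, 3, 23, 0, 0, 11, 5, 17, 8, 2, 7, 3, 0, 3, 3, 7, 5, 3, 4, 2, 4, 2, 5, 1, 13, 0, 0, 18, 3, 7, 1, 9, 2, 5, 0, 0, 4, 1, 0, 18, 0, 574, 146, 19] .nil),
  (.cons 1 0 0 0 0 (.cons 10 1 0 .nil) [10, 3, 0, 10, 5, 3, 0, 3, 5, 2, 0, 5, 9, 3, 0, 12, 14, 2, 6, 1, 3, 5, 3, 1, 0, 1, 1, 9, 7, 0, 3, 5, 3, 1, 2, 1, 1, 1, 0, 7, 2, 4, 10, 4, 5, 2, 0, 1, 1, 1, 19, 7, 8, 1, 0, 32, 12, 36, 1, 5, 4, 4, 1, 5, 2, 1, 0, 1, 1, 1, 2, 2, 0, 7, 0, 25, 2, 2, 2, 0, 0, 1, 9, 5, 0, 1, 3, 2, 2, 5, 1, 0, 6, 0, 10, 0, 0, 4, 3, 1, 1, 5, 3, 0, 0, 1, 5, 1, 1, 0, 2, 1, 2, 0, 1, 0, 0, 6, 2, 1, 1, 1, 2, 3, 0, 0,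 0, 0, 1, 1, 3, 0, 3, 1, 2, 3, 1, 2, 0, 5, 1, 1, 0, 2, 10, 3, 2, 5, 0, 3, 3, 1, 6, 5, 1, 1, 2, 2, 9, 1, 2, 0, 1, 1, 8, 0, 3, 1, 1, 1, 1, 3, 1, 0, 3, 3, 6, 3, 1, 3, 0, 2, 1, 0, 0, 2, 1, 2, 2, 1, 1, 7, 2, 1, 0, 1, 2, 3, 1, 0, 0, 0, 1, 1, 1, 0, 4, 1, 2, 0, 1, 4, 5, 0, 5, 1, 1, 0, 1, 0, 1, 0, 0, 1, 3, 0, 3, 1, 0, 3, 3, 2, 2, 0, 1, 2, 2, 1, 1, 3, 0, 0, 1, 3, 1, 2, 1, 1, 4, 2, 3, 4, 1, 2, 1, 2, 24, 1, 10, 7, 1, 0, 1, 3, 1, 3, 4, 0, 3, 2, 1, 0, 6, 1, 0, 0, 6, 0, 1, 2, 7, 0, 1, 0, 0, 2, 6, 0, 5, 2, 0, 2, 8, 1, 0, 0, 0, 0, 0, 0, 1, 3, 5, 2, 0, 0, 0, 0, 1, 4, 0, 9, 3, 0, 9, 3, 3, 4, 1, 4, 2, 0, 0, 3, 0, 1, 6, 0, 5, 15, 5, 19] .nil),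
  .nil,
  .nil,
  (.cons 2 5 0 0 0 (.cons 0 32 1 .nil) [13, 117, 12, 0, 3, 26, 1, 4, 2, 3, 11, 0, 11, 13, 94, 6, 17, 1, 0, 6, 1, 3, 1, 0, 11, 3, 5, 5, 8, 5, 7, 3, 5, 1, 1, 3, 6, 10, 2, 7, 5, 10, 4, 5, 31, 70, 1, 1, 1, 3, 1, 5, 3, 5, 5, 0, 3, 2, 3, 1, 3, 38, 0, 0, 0, 7, 0, 23, 1, 1, 0, 3, 1, 1, 3, 2, 1, 1, 0, 4, 0, 4, 0, 1, 1, 2, 0, 2, 0, 2, 2, 5, 0, 1, 1, 1, 1, 3, 5, 1, 5, 0, 3, 0, 1, 2, 2, 7, 5, 3, 1, 1, 3, 1, 5, 2, 1, 1, 5, 7, 3, 36, 41, 4, 2, 1, 3, 1, 0, 3, 0, 4, 0, 2, 3, 0, 4, 0, 0, 2, 1, 2, 0, 8, 6, 94, 0, 3, 1, 0, 2, 3, 4, 1, 0, 0, 1, 0, 0, 1, 1, 1, 1, 8, 2, 1, 1, 3, 5, 0, 3, 2, 1, 1, 0, 0, 2, 0, 0, 3, 1, 1, 3, 4, 2, 1, 1, 0, 1, 5,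 0, 1, 2, 1, 3, 0, 0, 0, 1, 1, 2, 0, 1, 4, 0, 3, 0, 1, 7, 3, 8, 0, 3, 0, 4, 3, 5, 5, 0, 3, 11, 0, 2, 0, 3, 1, 1, 1, 3, 0, 3, 1, 3, 7, 7, 3, 1, 1, 3, 4, 1, 2, 1, 15, 2, 2] (.cons 1 0 0 0 0 (.cons 9 5 0 .nil) [14, 16, 1, 1, 11, 7, 2, 4, 12, 48, 20, 24, 1, 2, 7, 2, 3, 2, 2, 3, 0, 6, 7, 60, 1, 1, 0, 1, 39, 11, 45, 4, 11, 0, 4, 7, 4, 2, 2, 1, 3, 14, 25, 12, 5, 4, 2, 7, 5, 2, 5, 0, 6, 8, 2, 0, 3, 8, 5, 18, 3, 0, 1, 1, 1, 7, 0, 0, 0, 1, 1, 2, 1, 0, 2, 2, 2, 1, 1, 0, 1, 5, 1, 0, 1, 0, 0, 0, 6, 0, 0, 3, 2, 3, 0, 0, 0, 0, 1, 5, 0, 7, 5, 2, 0, 0, 4, 0, 0, 1, 1, 0, 2, 2, 1, 3, 1, 6, 4, 1, 1, 5, 3, 1, 0, 4, 5, 3, 8, 0, 3, 1, 2, 0, 2, 3, 1, 9, 0, 1, 1,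 7, 9, 3, 6, 3, 1, 0, 1, 0, 1, 4, 12, 2, 1, 3, 13, 3, 3, 2, 8, 1, 13, 1, 2, 2, 1, 0, 6, 2, 2, 3, 2, 3, 0, 1, 0, 0, 1, 9, 2, 0, 1, 4, 6, 5, 2, 10, 2, 3, 12, 3, 0, 1, 2, 3, 14, 12, 7, 5, 0, 8, 3, 1, 0, 13, 11, 1, 7, 1, 1, 2, 1, 4, 1, 3, 0, 2, 1, 0, 6, 7, 1, 8, 2, 1, 2, 2, 4, 0, 0, 0, 0, 0, 3, 2, 0, 7, 4, 20, 4, 0, 1, 0, 2, 7, 0, 0, 2, 1, 5, 2, 0, 10, 2, 6, 0, 4, 0, 1, 2, 3, 12, 4, 0, 1, 5, 0, 4, 6, 7] (.cons 1 0 0 0 0 (.cons 11 0 0 .nil) [3, 4, 18, 0, 10, 5, 0, 6, 1, 0, 12, 18, 45, 4, 0, 21, 10, 1, 1, 3, 1, 0, 1, 0, 23, 24, 0, 3, 12, 10, 4, 2, 0, 0, 5, 6, 5, 2, 5, 24, 5, 1, 0, 4, 0, 1, 2, 3, 10, 2, 1, 8, 4, 3, 10, 1, 2, 4, 1, 1, 1, 0, 2, 4,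 0, 0, 4, 2, 2, 3, 5, 4, 4, 7, 2, 0, 1, 2, 1, 4, 5, 3, 7, 1, 8, 0, 4, 0, 3, 7, 0, 3, 0, 0, 0, 16, 2, 1, 1, 2, 1, 3, 2, 0, 0, 3, 1, 2, 3, 1, 2, 2, 0, 3, 0, 9, 6, 0, 0, 1, 3, 0, 6, 1, 1, 2, 0, 5, 5, 1, 0, 0, 20, 4, 0, 0, 0, 2, 1, 0, 0, 1, 3, 1, 7, 0, 1, 0, 9, 1, 5, 6, 1, 0, 1, 1, 0, 2, 1, 0, 4, 1, 1, 0, 1, 0, 0, 3, 3, 5, 1, 2, 5, 1, 1, 1, 3, 3, 1, 0, 5, 4, 0, 1, 8, 5, 12, 5, 0, 1, 9, 4, 0, 3, 24, 8, 1, 16, 1, 0, 1, 1, 1, 3, 7, 1, 1, 0, 1, 2, 0, 11, 12, 1, 10, 12, 0, 4, 1, 3, 0, 2, 2, 13, 7, 12, 4, 7, 1, 0, 1, 0, 1, 1, 5, 3, 0, 4, 1, 1, 0, 3, 0, 0, 2, 0, 2, 3, 2, 0, 2, 0, 1, 0, 0, 0, 3, 0, 0, 0, 0, 5, 3, 3, 0, 4, 0, 0, 1, 0, 2, 1, 0, 1, 3, 3,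 4, 1, 1, 0, 0, 1, 3, 0, 0, 0, 3, 3, 0, 2, 0, 1, 1, 3, 1, 3, 3, 4, 2, 1, 0, 3, 5, 3, 6, 3, 5, 2, 5, 1, 1, 1, 0, 0, 2, 0, 0, 1, 6, 8, 0, 0, 8, 5, 1, 3, 7, 3, 0, 0, 2] .nil)))]

theorem ok2 : run B sp W2 W3 G2 Y2 Y3 344 K2 D2 = true := by decide +kernel

end Vale.Agent.P236K.Cert.Pl.P96
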