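import Vale.Agent.P236K.P96.B
import Vale.Agent.P236K.P96.A23
import Vale.Agent.P236K.P96.A24

/-!
# P236K / P96 / R23 : the check of degree 23
-/

noncomputable section

namespace Vale.Agent.P236K.Cert.Pl.P96

/-- rows given by data -/
noncomputable def D23 : List DL := [.nil,
  .nil,
  .nil,
  .nil,
  .nil,
  .nil,
  .nil,
  .nil,
  .nil,
  .nil,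
  .nil,
  .nil,
  .nil,
  .nil,
  .nil,
  .nil,
  .nil,
  .nil,
  .nil,
  .nil,
  .nil,
  .nil,
  .nil,
  .nil,
  .nil,
  .nil,
  .nil,
  .nil,
  .nil,
  .nil,
  .nil,
  .nil,
  .nil,
  .nil,
  .nil,
  .nil,
  (.cons 2 0 0 0 0 (.cons 0 0 1 .nil) [] .nil),
  (.cons 1 0 0 0 0 (.cons 5 0 0 .nil) [] .nil),
  (.cons 2 0 0 0 0 (.cons 0 1 0 .nil) [] .nil),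
  (.cons 1 0 0 0 0 (.cons 9 0 0 .nil) [0] .nil),
  (.cons 2 0 0 0 0 (.cons 0 2 1 .nil) [0] .nil),
  (.cons 1 0 0 0 0 (.cons 9 0 0 .nil) [0] .nil),
  (.cons 2 1 0 0 0 (.cons 0 3 1 .nil) [] .nil),
  (.cons 1 0 0 0 0 (.cons 9 0 0 .nil) [0, 0] .nil),
  (.cons 2 0 0 0 0 (.cons 0 4 1 .nil) [5] .nil),
  (.cons 0 2 0 0 0 (.cons 9 0 0 .nil) [] (.cons 1 0 0 0 0 (.cons 10 0 0 .nil) [0, 0, 1] .nil)),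
  (.cons 2 0 0 0 0 (.cons 0 5 0 .nil) [3, 0] .nil),
  (.cons 0 3 0 0 0 (.cons 9 0 0 .nil) [1] (.cons 0 1 0 0 0 (.cons 10 0 0 .nil) [3] .nil)),
  (.cons 2 5 0 0 0 (.cons 0 6 0 .nil) [7, 3] (.cons 1 0 0 0 0 (.cons 5 0 0 .nil) [3, 2, 3] .nil)),
  (.cons 0 1 0 0 0 (.cons 10 0 0 .nil) [0] .nil),
  (.cons 2 6 0 0 0 (.cons 0 7 0 .nil) [] (.cons 1 0 0 0 0 (.cons 9 1 0 .nil) [4, 6, 1, 0] .nil)),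
  .nil,
  (.cons 2 0 0 0 0 (.cons 0 8 1 .nil) [0] (.cons 1 0 0 0 0 (.cons 9 1 0 .nil) [4, 1, 2, 3, 5] .nil)),
  (.cons 0 2 0 0 0 (.cons 10 0 0 .nil) [8] .nil),
  (.cons 0 7 0 0 0 (.cons 9 0 0 .nil) [8] (.cons 2 1 0 0 0 (.cons 0 9 1 .nil) [2, 10] (.cons 1 0 0 0 0 (.cons 9 1 0 .nil) [2, 1, 3, 1, 3, 0, 1, 0, 2, 1, 1] .nil))),
  (.cons 0 3 0 0 0 (.cons 10 0 0 .nil) [0] .nil),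
  (.cons 0 5 0 0 0 (.cons 9 0 0 .nil) [8] (.cons 0 7 0 0 0 (.cons 9 1 0 .nil) [] (.cons 1 0 0 0 0 (.cons 10 0 0 .nil) [0, 1, 0, 1, 4, 0, 1, 1, 1, 0, 1, 0, 2, 1, 1] .nil))),
  .nil,
  (.cons 0 6 0 0 0 (.cons 9 0 0 .nil) [9] (.cons 0 2 0 0 0 (.cons 10 0 0 .nil) [8] .nil)),
  (.cons 0 8 0 0 0 (.cons 5 0 0 .nil) [] .nil),
  (.cons 0 2 0 0 0 (.cons 10 0 0 .nil) [1] .nil),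
  (.cons 0 4 0 0 0 (.cons 10 0 0 .nil) [] .nil),
  .nil,
  (.cons 0 4 0 0 0 (.cons 10 0 0 .nil) [] .nil),
  (.cons 0 5 0 0 0 (.cons 10 1 0 .nil) [17] .nil),
  .nil,
  .nil,
  (.cons 0 8 0 0 0 (.cons 10 0 0 .nil) [] .nil),
  .nil,
  (.cons 0 7 0 0 0 (.cons 9 1 0 .nil) [2, 17] (.cons 2 10 0 0 0 (.cons 0 10 1 .nil) [7, 19, 0, 14, 9, 1, 18, 2] .nil)),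
  (.cons 0 9 0 0 0 (.cons 5 1 0 .nil) [] (.cons 0 7 0 0 0 (.cons 10 0 0 .nil) [] (.cons 1 0 0 0 0 (.cons 5 0 0 .nil) [4, 3, 1, 25, 0, 0, 9, 0, 1, 3, 1, 6, 2, 1, 1, 0, 4, 0, 1, 2, 3, 4] .nil))),
  (.cons 2 10 0 0 0 (.cons 0 11 0 .nil) [6, 25, 4, 0, 12, 3, 8, 8, 6, 7, 1, 5] .nil),
  (.cons 0 8 0 0 0 (.cons 10 0 0 .nil) [] (.cons 1 0 0 0 0 (.cons 9 0 0 .nil) [4, 1, 0, 3, 14, 5, 1, 4, 13, 3, 4, 3, 5, 0, 3, 4, 1, 0, 4, 19] .nil)),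
  (.cons 2 10 0 0 0 (.cons 0 12 1 .nil) [5, 0, 0, 21, 1, 3, 12, 0, 0, 16, 3, 6, 1, 1, 2, 3, 1, 1, 3, 5] .nil),
  (.cons 0 12 0 0 0 (.cons 9 0 0 .nil) [30] .nil),
  (.cons 2 11 0 0 0 (.cons 0 13 1 .nil) [4, 0, 5, 13, 16, 0, 1, 22, 15, 2, 16, 2, 5, 1, 1, 1, 2, 5, 0] (.cons 1 0 0 0 0 (.cons 5 0 0 .nil) [23, 1, 3, 0, 2, 2, 0, 1, 0, 0, 2, 6, 0, 0, 1, 4, 5, 7, 8, 3, 1, 6, 1, 3, 1, 1, 1, 1, 0, 0, 1, 1] .nil)),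
  (.cons 0 12 0 0 0 (.cons 9 0 0 .nil) [28] (.cons 0 9 0 0 0 (.cons 9 2 0 .nil) [26] .nil)),
  (.cons 2 13 0 0 0 (.cons 0 14 0 .nil) [5, 39, 11, 20, 0, 1, 18, 3, 25, 2, 3] (.cons 1 0 0 0 0 (.cons 9 0 0 .nil) [4, 1, 1, 8, 5, 3, 6, 3, 12, 0, 2, 0, 5, 0, 2, 1, 3, 2, 10, 0, 0, 1, 2, 1, 8, 3, 1, 1, 1, 0, 2, 1, 0, 1, 0, 1, 3, 1, 3, 2, 1, 1] .nil)),
  (.cons 0 12 0 0 0 (.cons 9 0 0 .nil) [] (.cons 0 9 0 0 0 (.cons 9 2 0 .nil) [] .nil)),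
  (.cons 2 14 0 0 0 (.cons 0 15 0 .nil) [68, 13, 5, 0, 5, 6, 3, 0, 3, 2, 1, 6, 6, 3, 0, 1, 0, 1, 0, 3, 1, 5, 5, 4, 0, 1, 1] (.cons 1 0 0 0 0 (.cons 9 1 0 .nil) [4, 1, 4, 0, 3, 2, 2, 6, 3, 3, 1, 0, 0, 0, 4, 1, 1, 0, 1, 5, 0, 0, 0, 5, 0, 4, 13, 2, 3, 1, 0, 0, 3, 7, 4, 0, 0, 3, 1, 0, 3, 0, 3, 2, 2, 0, 0, 0, 1, 0, 1, 0, 0] .nil)),
  (.cons 2 16 0 0 0 (.cons 0 16 1 .nil) [64, 59] .nil),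
  (.cons 2 12 0 0 0 (.cons 0 17 0 .nil) [49, 0, 1, 47, 1, 22, 1, 1, 1, 1, 1, 0, 0, 0, 3, 0, 6, 2, 4, 33] (.cons 1 0 0 0 0 (.cons 5 0 0 .nil) [18, 30, 0, 12, 34, 0, 25, 16, 14, 9, 1, 2] (.cons 1 0 0 0 0 (.cons 9 1 0 .nil) [7, 1, 3, 3, 2, 2, 6, 1, 1, 7, 3, 0, 0, 0, 2, 3, 1, 0, 2, 6, 0, 0, 1, 2, 1, 13, 3, 1, 4, 7, 2, 1, 1, 9, 0, 3, 0, 2, 0, 0, 4, 0, 2, 1, 2, 0, 1, 7, 2, 3, 1, 1, 1, 1, 0] .nil))),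
  (.cons 2 16 0 0 0 (.cons 0 18 0 .nil) [51, 0, 12, 1, 13, 16, 2, 18, 11, 3, 6, 0, 4, 8, 21, 31] .nil),
  (.cons 0 15 0 0 0 (.cons 9 4 0 .nil) [37] (.cons 1 0 0 0 0 (.cons 9 0 0 .nil) [7, 1, 3, 4, 26, 7, 1, 2, 1, 6, 3, 0, 1, 13, 4, 7, 3, 1, 9, 18, 1, 1, 0, 6, 1, 5, 1, 1, 2, 0, 0, 0, 6, 0, 0, 4, 5, 5, 6, 0, 3, 5] (.cons 1 0 0 0 0 (.cons 9 2 0 .nil) [1, 4, 0, 5, 3, 0, 2, 0, 4, 1, 6, 9, 0, 1, 6, 6, 0, 1, 1, 5, 5, 0, 1, 1, 2, 4, 2, 0, 0, 2, 0, 3, 2, 2, 0, 2, 0, 3, 0, 9, 1, 3, 4, 2, 1, 2, 5, 3, 1, 3, 1, 3, 8, 0, 7, 0, 0, 0, 0] .nil))),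
  (.cons 2 13 0 0 0 (.cons 0 19 0 .nil) [56, 6, 8, 7, 16, 6, 0, 0, 2, 7, 6, 1, 2, 7, 5, 1, 2, 2, 0, 3, 1, 1, 4, 1, 4, 6, 0, 0, 3, 7, 0, 3, 0, 0, 10, 3, 5, 1] .nil),
  (.cons 0 15 0 0 0 (.cons 9 2 0 .nil) [37, 2, 3] (.cons 1 0 0 0 0 (.cons 9 4 0 .nil) [1, 7, 4, 1, 5, 3, 3, 2, 1, 11, 5, 0, 3, 5, 0, 0, 2, 2, 1, 0, 0, 3, 3, 0, 1, 1, 0, 0, 9, 0, 2, 1, 1, 3, 0, 0, 0, 0, 1, 3, 1, 3, 1, 1, 1, 1, 3, 3, 0, 0, 1, 1, 1, 0, 1, 1, 5, 2, 0, 0, 1, 1, 0, 2, 0, 4, 2, 0, 8, 3, 3, 1, 1, 1, 3, 1, 1, 0, 1, 3] .nil)),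
  (.cons 2 10 0 0 0 (.cons 0 20 1 .nil) [4, 2, 0, 0, 5, 16, 18, 4, 0, 2, 1, 1, 3, 1, 1, 2, 2, 1, 1, 0, 9, 2, 7, 0, 0, 1, 2, 1, 3, 5, 9, 1, 1, 0, 0, 1, 2, 4, 1, 0, 1, 0, 1, 0, 2, 2, 3, 5, 6, 3, 0, 4, 0, 0, 1, 0, 0, 0, 3, 9, 1, 4, 2, 3, 2, 1, 0, 0] .nil),
  (.cons 0 14 0 0 0 (.cons 9 2 0 .nil) [2, 41] (.cons 0 17 0 0 0 (.cons 9 0 0 .nil) [1, 45] (.cons 1 0 0 0 0 (.cons 10 3 0 .nil) [0, 11, 3, 5, 12, 3, 3, 7, 4, 0, 0, 0, 1, 0, 1, 0, 2, 0, 0, 1, 2, 0, 3, 2, 2, 3, 3, 1, 1, 1, 2, 0, 1, 0, 3, 5, 0, 1, 0, 0, 1, 0, 3, 1, 6, 6, 0, 1, 3, 0, 0, 2, 1, 1, 5, 0, 3, 3, 0, 1, 1, 2, 0, 1, 1, 9, 0, 5, 3, 6, 0, 2, 2, 3, 1, 0, 4, 3, 1, 3, 1] .nil))),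
  (.cons 0 18 0 0 0 (.cons 5 1 0 .nil) [51] (.cons 2 10 0 0 0 (.cons 0 21 1 .nil) [4, 0, 3, 6, 12, 5, 17, 1, 1, 0, 2, 1, 1, 1, 4, 2, 1, 1, 0, 10, 1, 0, 4, 0, 1, 4, 2, 1, 0, 4, 0, 0, 3, 3, 5, 1, 0, 3, 1, 1, 1, 0, 6, 4, 1, 1, 0, 1, 2, 0, 2, 0, 4, 1, 0, 5, 3, 1, 0, 0, 3, 2, 0, 1, 0, 1, 6, 0, 1, 0, 3, 1, 0, 0, 2, 2, 7, 0, 7] .nil)),
  (.cons 0 11 0 0 0 (.cons 9 0 0 .nil) [57] (.cons 1 0 0 0 0 (.cons 10 2 0 .nil) [1, 3, 9, 1, 20, 0, 9, 0, 4, 1, 0, 0, 1, 5, 2, 0, 1, 1, 2, 1, 1, 11, 2, 12, 0, 0, 0, 2, 0, 0, 0, 0, 2, 2, 1, 0, 0, 1, 0, 0, 3, 1, 1, 2, 0, 3, 2, 1, 0, 1, 1, 2, 0, 1, 0, 3, 1, 2, 2, 1, 0, 3, 1, 0, 1, 1, 1, 0, 1, 2, 4, 2, 1, 0, 3, 1, 0, 0, 2, 4, 3, 3, 1, 1, 0, 3, 0, 1, 5, 0, 0, 0, 2, 0,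 0, 1, 0] .nil)),
  (.cons 0 19 0 0 0 (.cons 5 0 0 .nil) [] (.cons 2 11 0 0 0 (.cons 0 22 1 .nil) [14, 0, 42, 3, 2, 0, 0, 0, 6, 3, 1, 5, 0, 4, 1, 2, 0, 0, 2, 5, 1, 1, 1, 0, 2, 2, 13, 5, 1, 0, 1, 0, 12, 1, 0, 5, 1, 7, 1, 2, 2, 5, 7, 1, 0, 0, 0, 3, 3, 0, 1, 3, 1, 1, 2, 0, 0, 0, 1, 1, 3, 1, 0, 1, 3, 2, 0, 4, 1, 3, 4, 4, 6, 5, 1, 0, 0] .nil)),
  (.cons 0 17 0 0 0 (.cons 10 2 0 .nil) [5, 3, 44, 3] .nil),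
  (.cons 2 13 0 0 0 (.cons 0 23 1 .nil) [11, 3, 28, 20, 11, 2, 1, 3, 9, 2, 1, 3, 1, 1, 1, 1, 9, 1, 1, 1, 2, 0, 0, 0, 5, 1, 1, 0, 0, 0, 1, 4, 1, 5, 1, 0, 1, 12, 0, 0, 1, 0, 2, 0, 0, 1, 0, 5, 0, 1, 0, 3, 0, 0, 1, 1, 5, 9, 0, 3, 0, 0, 1, 9, 1, 2, 0, 0, 2, 2, 3, 7, 2, 0, 1, 13, 5, 1, 8, 7, 2, 0, 2, 1] (.cons 1 0 0 0 0 (.cons 5 0 0 .nil) [24, 7, 4, 10, 4, 22, 3, 3, 2, 5, 1, 0, 3, 0, 1, 1, 1, 1, 1, 0, 1, 3, 1, 1, 1, 5, 2, 36, 0, 0, 2, 10, 1, 2, 0, 1, 3, 1, 1, 0, 1, 2, 3, 3, 0, 1, 3, 0, 11, 6, 3, 0, 2, 2, 1, 7, 1, 1, 1, 1, 1, 0, 0, 2, 0, 2, 2, 3, 2, 3, 0, 2, 3, 3, 15, 3, 0, 1, 0, 3, 1, 1, 2] .nil)),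
  (.cons 0 16 0 0 0 (.cons 10 0 0 .nil) [62] (.cons 0 17 0 0 0 (.cons 10 2 0 .nil) [0, 2, 3, 54] .nil)),
  (.cons 0 22 0 0 0 (.cons 9 4 0 .nil) [7, 55] (.cons 1 0 0 0 0 (.cons 9 0 0 .nil) [10, 1, 1, 3, 0, 8, 3, 1, 9, 1, 1, 1, 0, 10, 0, 0, 1, 2, 3, 0, 0, 5, 1, 0, 1, 0, 0, 3, 2, 3, 0, 3, 1, 0, 3, 1, 8, 1, 0, 3, 3, 1, 1, 1, 0, 2, 1, 0, 1, 2, 2, 5, 2, 1, 1, 1, 0, 0, 4, 3, 1, 1, 5, 2, 1, 1, 2, 0, 11, 0, 5, 1, 7, 0, 0, 0, 1, 0, 2, 6, 0, 1, 0, 4, 3, 0, 4, 3, 1, 0, 0, 1, 1, 1, 0, 4, 0, 2, 3, 2, 1, 6, 0, 3, 0, 0, 5, 0, 0, 1, 0, 0, 6, 2, 0, 0, 1, 5, 5, 1, 0, 2, 1] .nil)),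
  (.cons 0 17 0 0 0 (.cons 10 0 0 .nil) [] (.cons 0 14 0 0 0 (.cons 10 3 0 .nil) [4] .nil)),
  (.cons 0 18 0 0 0 (.cons 9 1 0 .nil) [] (.cons 0 22 0 0 0 (.cons 9 5 0 .nil) [] .nil))]

theorem ok23 : run B sp W23 W24 G23 Y23 Y24 253 K23 D23 = true := by decide +kernel

end Vale.Agent.P236K.Cert.Pl.P96
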