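import Vale.Agent.P236K.P96.B
import Vale.Agent.P236K.P96.A3
import Vale.Agent.P236K.P96.A4

/-!
# P236K / P96 / R3 : the check of degree 3
-/

noncomputable section

namespace Vale.Agent.P236K.Cert.Pl.P96

/-- rows given by data -/
noncomputable def D3 : List DL := [.nil,
  .nil,
  .nil,
  .nil,
  .nil,
  .nil,
  (.cons 2 0 0 0 0 (.cons 0 0 1 .nil) [] .nil),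
  (.cons 1 0 0 0 0 (.cons 5 0 0 .nil) [] .nil),
  (.cons 2 0 0 0 0 (.cons 0 1 0 .nil) [] .nil),
  (.cons 1 0 0 0 0 (.cons 9 0 0 .nil) [0] .nil),
  (.cons 2 0 0 0 0 (.cons 0 2 1 .nil) [0] .nil),
  (.cons 1 0 0 0 0 (.cons 9 0 0 .nil) [0] .nil),
  (.cons 2 1 0 0 0 (.cons 0 3 1 .nil) [] .nil),
  (.cons 1 0 0 0 0 (.cons 9 0 0 .nil) [0, 0] .nil),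
  (.cons 2 0 0 0 0 (.cons 0 4 1 .nil) [5] .nil),
  (.cons 0 2 0 0 0 (.cons 9 0 0 .nil) [] (.cons 1 0 0 0 0 (.cons 10 0 0 .nil) [0, 0, 1] .nil)),
  (.cons 2 0 0 0 0 (.cons 0 5 0 .nil) [3, 0] .nil),
  (.cons 0 3 0 0 0 (.cons 9 0 0 .nil) [1] (.cons 0 1 0 0 0 (.cons 10 0 0 .nil) [3] .nil)),
  (.cons 2 5 0 0 0 (.cons 0 6 0 .nil) [] (.cons 1 0 0 0 0 (.cons 5 0 0 .nil) [3, 2, 3] .nil)),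
  (.cons 0 1 0 0 0 (.cons 10 0 0 .nil) [0] .nil),
  (.cons 1 0 0 0 0 (.cons 9 1 0 .nil) [2, 6, 2] .nil),
  .nil,
  (.cons 2 0 0 0 0 (.cons 0 7 1 .nil) [0, 4] (.cons 1 0 0 0 0 (.cons 9 1 0 .nil) [5, 3, 0, 7] .nil)),
  (.cons 0 2 0 0 0 (.cons 10 0 0 .nil) [6] .nil),
  (.cons 0 3 2 0 0 (.cons 9 0 0 .nil) [6, 1, 3, 0] (.cons 2 1 0 0 0 (.cons 0 9 1 .nil) [2, 8] (.cons 2 5 0 0 0 (.cons 0 8 0 .nil) [3, 0, 2, 13, 0] (.cons 1 0 0 0 0 (.cons 9 1 0 .nil) [4, 1, 3, 12, 1] .nil)))),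
  (.cons 0 3 0 0 0 (.cons 10 0 0 .nil) [0] .nil),
  (.cons 0 7 0 0 0 (.cons 9 0 0 .nil) [3, 6] (.cons 1 0 0 0 0 (.cons 10 0 0 .nil) [1, 0, 3, 4, 0, 1, 1, 1, 0, 1, 2, 1, 1] .nil)),
  (.cons 0 7 0 0 0 (.cons 10 0 0 .nil) [3] .nil),
  (.cons 0 7 1 0 0 (.cons 9 0 0 .nil) [7, 12, 8] (.cons 0 2 0 0 0 (.cons 10 0 0 .nil) [10] .nil)),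
  .nil,
  (.cons 0 2 0 0 0 (.cons 10 0 0 .nil) [3] (.cons 2 4 0 0 0 (.cons 0 11 1 .nil) [18, 8, 4, 2] (.cons 2 7 0 0 0 (.cons 0 10 0 .nil) [] (.cons 1 0 0 0 0 (.cons 9 0 0 .nil) [12, 12, 1, 3, 2, 1, 2, 1, 2] .nil)))),
  (.cons 2 0 0 0 0 (.cons 0 12 0 .nil) [] (.cons 1 0 0 0 0 (.cons 10 0 0 .nil) [2, 0, 0, 6, 0, 1, 4, 3, 5, 4, 1, 0, 1, 4, 1] .nil)),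
  (.cons 2 8 0 0 0 (.cons 0 13 0 .nil) [25, 13, 10] .nil),
  (.cons 2 1 0 0 0 (.cons 0 14 0 .nil) [51, 2] (.cons 1 0 0 0 0 (.cons 10 1 0 .nil) [4, 14, 4, 3, 0, 1, 3, 6, 0, 0, 0, 1, 1, 1, 3, 1] (.cons 1 0 0 0 0 (.cons 11 0 0 .nil) [12, 3, 6, 3, 7, 1, 5, 2, 0, 0, 6, 1, 1] .nil))),
  .nil,
  (.cons 2 2 0 0 0 (.cons 0 15 0 .nil) [33, 3, 29, 1] (.cons 1 0 0 0 0 (.cons 11 0 0 .nil) [6, 10, 1, 1, 4, 2, 0, 0, 11, 1, 1, 3, 0, 1, 2, 0, 3, 1, 4] .nil)),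
  (.cons 2 6 0 0 0 (.cons 0 16 1 .nil) [8, 1, 8, 39, 5, 11, 3] (.cons 1 0 0 0 0 (.cons 10 0 0 .nil) [3, 6, 1, 2, 4, 11, 1, 1, 1, 1, 1, 2, 1, 8, 1, 0, 3, 4, 1, 0, 0, 2, 1, 2] .nil)),
  (.cons 0 2 2 0 0 (.cons 9 0 0 .nil) [21, 18, 2, 11, 2] (.cons 2 3 0 0 0 (.cons 0 17 0 .nil) [31, 0, 33, 0, 7, 5, 3, 0] (.cons 1 0 0 0 0 (.cons 11 0 0 .nil) [3, 0, 1, 1, 0, 2, 0, 0, 3, 12, 3, 3, 3, 1, 0, 0, 2, 7, 3, 1, 3, 3, 0, 1, 1, 1, 0, 0, 1] .nil))),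
  .nil,
  (.cons 0 10 0 0 0 (.cons 10 1 0 .nil) [6] (.cons 1 0 0 0 0 (.cons 11 0 0 .nil) [0, 2, 9, 2, 6, 1, 3, 0, 1, 1, 1, 0, 1, 4, 2, 1, 9, 5, 1, 0, 1, 7, 1, 0, 1, 1, 1, 2, 0, 1] .nil)),
  .nil,
  (.cons 0 4 0 0 0 (.cons 11 0 0 .nil) [2, 25, 1] .nil),
  (.cons 2 5 0 0 0 (.cons 0 18 0 .nil) [40, 44, 9, 0, 0, 1, 8, 1, 1, 0, 16] (.cons 1 0 0 0 0 (.cons 10 1 0 .nil) [4, 0, 5, 8, 19, 1, 5, 2, 0, 10, 1, 13, 0, 1, 2, 0, 0, 1, 0, 2, 4, 3, 3, 0, 3, 3, 1] .nil)),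
  (.cons 0 4 0 0 0 (.cons 11 0 0 .nil) [0, 1] .nil),
  (.cons 0 9 0 0 0 (.cons 9 0 0 .nil) [10, 27] .nil),
  (.cons 0 9 0 0 0 (.cons 10 0 0 .nil) [] (.cons 1 0 0 0 0 (.cons 11 0 0 .nil) [0, 7, 3, 5, 21, 13, 2, 2, 2, 1, 24, 15, 0, 0, 0, 7, 1, 1, 12, 0, 14, 4] .nil)),
  (.cons 2 10 0 0 0 (.cons 0 19 1 .nil) [46, 13, 16, 43, 1, 3, 19, 0] .nil),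
  .nil,
  (.cons 0 4 2 0 0 (.cons 10 1 0 .nil) [5, 44, 22, 38, 3] (.cons 2 4 0 0 0 (.cons 0 20 0 .nil) [20, 3, 19, 8, 1, 0, 6, 1, 3, 13, 4, 0, 4, 3, 6, 13, 0, 0, 0, 1, 1, 4, 3, 0, 8, 0, 1, 2, 1, 0, 1, 1, 5, 2, 0, 8] (.cons 1 0 0 0 0 (.cons 10 0 0 .nil) [3, 19, 1, 1, 1, 16, 6, 1, 1, 0, 8, 3, 2, 1, 6, 1, 2, 5, 10, 0, 3, 3, 3, 6, 1, 1, 5, 5, 6, 0, 3, 3, 1, 0, 3, 0, 7, 3, 2] .nil))),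
  (.cons 0 6 0 0 0 (.cons 11 0 0 .nil) [0, 47] .nil),
  (.cons 0 12 0 0 0 (.cons 10 1 0 .nil) [42] (.cons 1 0 0 0 0 (.cons 10 0 0 .nil) [1, 4, 3, 0, 10, 0, 2, 0, 5, 0, 3, 5, 1, 0, 1, 2, 1, 4, 3, 1, 1, 1, 2, 1, 0, 4, 1, 0, 1, 2, 1, 4, 1, 3, 1, 1, 5, 1, 1, 0, 0, 0, 3, 2, 1, 2, 8, 0, 2, 0, 0, 3, 0, 1, 1, 0, 2, 1, 2, 2, 0, 0, 0, 3, 3, 1, 1, 3, 2, 0, 0, 0, 1, 0] .nil)),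
  (.cons 0 9 2 0 0 (.cons 5 25 0 .nil) [46, 13, 18, 7, 20, 3, 1] (.cons 0 6 0 0 0 (.cons 11 0 0 .nil) [5] (.cons 0 8 0 0 0 (.cons 11 1 0 .nil) [1, 2, 3] .nil))),
  (.cons 0 7 0 0 0 (.cons 9 0 0 .nil) [47] (.cons 0 12 1 0 0 (.cons 10 0 0 .nil) [1, 0, 38, 1, 3, 47, 14, 21, 3, 1] .nil)),
  .nil,
  (.cons 0 12 0 0 0 (.cons 9 1 0 .nil) [0] (.cons 2 16 0 0 0 (.cons 0 21 0 .nil) [58, 12, 5, 5, 1, 0, 10, 8, 19, 15, 4, 8, 2, 0, 7, 3, 0, 1, 0, 2, 0, 7, 0, 6, 3, 9, 0, 1, 3, 4, 1, 0, 8, 2, 14] .nil)),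
  (.cons 1 0 0 0 0 (.cons 10 0 0 .nil) [6, 10, 3, 3, 2, 2, 5, 0, 14, 3, 1, 3, 1, 0, 1, 3, 3, 0, 4, 0, 1, 3, 0, 3, 4, 0, 2, 2, 6, 7, 1, 16, 5, 2, 3, 0, 0, 6, 0, 1, 1, 2, 5, 2, 3, 0, 0, 0, 1, 1, 1, 0, 0, 1, 0, 7, 4, 0, 0, 3, 0, 0, 7, 1, 1, 1, 5, 0, 5, 0, 1, 1, 6, 1] .nil),
  (.cons 0 6 2 0 0 (.cons 5 0 0 .nil) [57, 31, 0, 14, 52] .nil),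
  (.cons 0 6 0 0 0 (.cons 11 1 0 .nil) [2] .nil),
  (.cons 2 10 0 0 0 (.cons 0 22 0 .nil) [19, 50, 3, 6, 3, 2, 2, 0, 5, 2, 1, 5, 21, 4, 2, 2, 2, 1, 31, 0, 7, 1, 0, 1, 0, 4, 1, 1, 2, 0, 0, 2, 2, 1, 1, 2, 7, 0, 6, 4, 1, 1, 4, 2, 5, 4, 1, 2, 0, 1, 1, 6, 4, 8, 1, 11, 1, 2] .nil),
  .nil,
  (.cons 0 6 1 0 0 (.cons 10 0 0 .nil) [5, 35, 30, 50, 58] .nil),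
  (.cons 0 10 1 0 0 (.cons 5 0 0 .nil) [179] (.cons 0 12 3 0 0 (.cons 10 0 0 .nil) [18, 4, 11, 3, 2, 0, 29, 13, 1, 1, 0, 22, 1, 0, 1, 47] .nil)),
  (.cons 2 19 0 0 0 (.cons 0 23 1 .nil) [10, 81, 12, 23, 54, 32, 11, 3, 5, 0, 1, 9, 1, 0, 2, 16, 2, 14, 0, 2, 8, 20, 2, 8, 4, 13, 11, 5, 6, 3, 0, 17, 1, 1, 5] (.cons 1 0 0 0 0 (.cons 7 0 0 .nil) [34, 0, 22, 12, 17, 1, 1, 0, 0, 0, 0, 21, 0, 26, 0, 0, 2, 6, 0, 4, 10, 16, 3, 3, 2, 9, 0, 0, 4, 1, 3, 4, 4, 0, 3, 0, 0, 1, 1, 0, 2, 0, 0, 0, 1, 3, 1, 12, 1, 0, 3, 2, 0, 3, 1, 0, 5, 0, 0, 2, 0, 3, 1, 1, 3, 4, 0, 2, 7, 9, 0, 1, 1, 1, 1, 3, 5, 12, 3, 0, 1, 1, 3] .nil)),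
  (.cons 0 10 2 0 0 (.cons 9 6 0 .nil) [5, 40, 45, 24, 7, 5, 41, 6, 1, 10] .nil),
  (.cons 2 10 0 0 0 (.cons 0 24 1 (.cons 0 25 0 .nil)) [5, 16, 2, 4, 16, 2, 24, 7, 1, 3, 9, 0, 2, 0, 1, 3, 2, 1, 1, 0, 14, 1, 3, 0, 7, 0, 13, 4, 2, 3, 19, 3, 0, 0, 2, 5, 1, 4, 5, 2, 0, 2, 0, 1, 0, 7, 5, 1, 4, 9, 0, 1, 2, 1, 0, 1, 1, 1, 0, 0, 2, 0, 1, 0, 0, 2, 0, 1, 3, 1, 3, 0, 4, 0, 2, 2, 1, 0, 0, 0, 0, 0, 5, 1, 0, 1, 1, 1, 1, 1, 1, 1, 0, 0, 9, 3, 7, 0, 5, 0, 1, 0, 11, 3, 5, 0, 0, 5] (.cons 2 17 0 0 0 (.cons 0 24 1 .nil) [7, 3, 14, 0, 6, 1, 3, 9, 3, 0, 0, 17, 7, 2, 3, 1, 8, 0, 0, 0, 3, 5, 3, 1, 5, 8, 0, 2, 1, 3, 3, 2, 9, 5, 0, 0, 4, 0, 1, 1, 12, 0,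 0, 0, 0, 3, 1, 5, 12, 4, 3, 6, 3, 3, 2, 3, 2, 0, 3, 3, 1, 4, 0, 2, 2, 0, 1, 0, 3, 0, 4, 0, 1, 1, 4, 0, 0, 2, 0, 1, 0, 0, 3, 0, 2, 2, 5, 1, 0, 0, 0, 1, 2, 1, 0, 1, 2, 0, 1, 0, 1, 0, 12, 6, 0, 0, 1, 1, 1, 4, 9, 0, 0, 0, 0, 1, 0, 3] (.cons 1 0 0 0 0 (.cons 5 38 0 .nil) [8, 3, 1, 4, 8, 5, 0, 3, 17, 0, 2, 16, 2, 3, 0, 14, 2, 0, 2, 1, 1, 1, 0, 4, 10, 1, 3, 0, 1, 1, 4, 2, 10, 1, 1, 0, 0, 1, 1, 3, 1, 14, 2, 1, 1, 2, 4, 0, 4, 0, 0, 0, 1, 0, 1, 3, 2, 0, 0, 7, 0, 3, 1, 0, 1, 2, 3, 2, 1, 0, 0, 1, 6, 0, 1, 3, 1, 3, 1, 2, 0, 0, 4, 1, 1, 1, 3, 3, 3, 9, 2, 1, 0, 1, 5, 4, 0, 0, 1, 3, 1, 3, 0, 3, 2, 6, 1, 1, 2, 0, 0, 2, 0, 4, 3, 5, 0, 0, 0, 0, 1,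 1, 1, 4, 0] (.cons 1 0 0 0 0 (.cons 9 4 0 .nil) [21, 4, 1, 9, 4, 9, 2, 1, 21, 0, 3, 1, 3, 4, 8, 0, 3, 1, 1, 0, 0, 3, 3, 17, 0, 4, 2, 1, 1, 7, 1, 3, 1, 2, 1, 0, 1, 3, 1, 1, 0, 3, 4, 2, 0, 0, 1, 0, 3, 2, 4, 7, 2, 1, 7, 2, 2, 1, 3, 1, 0, 1, 3, 2, 3, 0, 1, 0, 1, 0, 2, 3, 0, 2, 1, 3, 1, 0, 3, 1, 0, 3, 0, 4, 1, 2, 3, 0, 1, 3, 3, 0, 0, 1, 0, 0, 0, 1, 3, 1, 0, 0, 5, 2, 5, 3, 0, 3, 0, 6, 4, 5, 1, 9, 5, 0, 1, 7, 4] .nil)))),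
  .nil,
  (.cons 2 4 0 0 0 (.cons 0 26 1 .nil) [16, 79, 15, 7, 3, 2, 21, 13, 16, 4, 1, 21, 10, 2, 2, 31, 4, 0, 1, 0, 0, 5, 3, 5, 0, 1, 2, 1, 7, 0, 0, 4, 2, 0, 1, 2, 6, 1, 14, 0, 2, 2, 3, 1, 1, 0, 3, 0, 0, 1, 1, 3, 0, 0, 2, 0, 3, 1, 1, 1, 3, 3, 1, 7, 3, 10, 9, 3, 3, 0, 9, 0, 17, 2, 5, 7] (.cons 1 0 0 0 0 (.cons 11 0 0 .nil) [16, 7, 1, 1, 2, 0, 1, 1, 2, 8, 17, 0, 1, 3, 0, 10, 0, 3, 5, 0, 7, 6, 4, 1, 16, 2, 8, 2, 2, 8, 1, 2, 4, 1, 1, 15, 0, 1, 1, 0, 1, 2, 0, 5, 2, 0, 13, 1, 0, 0, 1, 1, 0, 0, 6, 1, 7, 1, 1, 0, 1, 2, 0, 0, 5, 1, 0, 0, 1, 9, 0, 2, 0, 0, 3, 5, 5, 0, 1, 2, 1, 2, 4, 0, 3, 0, 1, 1, 2, 3, 3, 1, 1, 1, 2, 1, 3, 0, 3, 2, 0, 2,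 2, 0, 0, 0, 0, 1, 0, 0, 3, 0, 1, 1, 1, 13, 2, 6, 2, 4, 1, 0, 2, 1, 2, 0, 0, 6, 3, 1] (.cons 1 0 0 0 0 (.cons 10 2 0 .nil) [3, 4, 0, 4, 0, 1, 0, 2, 1, 3, 0, 1, 6, 2, 1, 22, 3, 0, 5, 4, 3, 1, 5, 1, 3, 1, 3, 2, 0, 1, 0, 3, 3, 1, 1, 4, 2, 8, 2, 2, 3, 2, 7, 3, 2, 3, 1, 16, 1, 1, 0, 1, 2, 0, 6, 1, 1, 1, 1, 5, 3, 2, 3, 0, 1, 1, 3, 0, 1, 1, 1, 0, 1, 0, 2, 1, 11, 0, 1, 1, 0, 1, 2, 0, 3, 0, 0, 1, 1, 0, 0, 0, 1, 2, 0, 0, 0, 1, 1, 1, 0, 0, 2, 4, 1, 0, 3, 2, 1, 3, 1, 0, 3, 0, 4, 0, 4, 2, 6, 1, 0, 0, 0, 2, 0, 3, 0, 0, 3, 0, 1, 0, 2, 0, 1, 0, 5, 2, 5, 4, 1, 1, 0, 3, 0, 3, 2, 0, 1, 1, 5, 3] .nil))),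
  (.cons 0 19 0 0 0 (.cons 10 0 0 .nil) [5, 0] .nil),
  (.cons 0 19 1 0 0 (.cons 9 2 0 .nil) [86, 71] (.cons 1 0 0 0 0 (.cons 11 0 0 .nil) [0, 5, 4, 1, 3, 1, 1, 14, 1, 0, 1, 0, 0, 8, 5, 3, 1, 0, 4, 2, 5, 0, 2, 0, 1, 2, 7, 0, 1, 2, 0, 0, 1, 1, 1, 3, 0, 1, 0, 0, 2, 1, 4, 1, 0, 2, 9, 3, 1, 0, 3, 6, 0, 0, 5, 1, 3, 1, 1, 1, 2, 0, 1, 1, 3, 1, 1, 1, 1, 0, 2, 1, 1, 0, 1, 0, 0, 2, 0, 0, 1, 7, 4, 1, 1, 1, 0, 8, 1, 2, 0, 1, 0, 1, 2, 1, 7, 3, 0, 0, 1, 1, 1, 1, 2, 0, 0, 2, 3, 3, 0, 2, 0, 0, 0, 2, 2, 4, 2, 0, 0, 1, 0, 0, 0, 1, 1, 3, 0, 2, 0, 3, 0, 0, 5, 1, 5, 1, 3, 0, 1, 1, 3, 3, 1, 3, 4, 3, 2, 1, 1, 2, 3, 1, 3, 1, 6, 0, 1, 0, 2, 1, 0, 1, 3, 1,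 1, 0, 3, 0, 3, 1, 0, 1, 2, 0, 5, 0, 6, 0, 0] .nil)),
  (.cons 0 19 2 0 0 (.cons 10 4 0 .nil) [4, 0, 1, 39, 7, 34, 54, 3, 7, 58, 12, 3] (.cons 2 9 0 0 0 (.cons 0 27 1 .nil) [0, 13, 0, 5, 0, 1, 4, 2, 6, 28, 1, 11, 9, 3, 0, 0, 2, 5, 3, 3, 2, 0, 2, 2, 0, 0, 0, 0, 26, 4, 3, 0, 2, 4, 0, 5, 20, 1, 0, 1, 9, 3, 0, 2, 3, 3, 0, 1, 0, 5, 1, 3, 0, 1, 3, 0, 1, 0, 2, 2, 0, 1, 1, 3, 0, 0, 7, 0, 1, 7, 7, 2, 2, 7, 4, 3, 1, 9, 0, 1, 0, 2, 2, 1, 0, 2, 7, 1, 0, 1, 0, 2, 1, 3, 0, 0, 0, 7, 1, 3, 4, 5, 0, 1, 1, 4, 0, 0, 1, 5, 2, 5, 6, 4, 5, 2, 1, 1, 0, 2, 1, 2, 2, 5, 2, 0, 0, 1, 0, 3, 0, 0, 3, 3, 1, 3, 9, 1, 3, 1, 0] .nil)),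
  (.cons 2 19 0 0 0 (.cons 0 28 0 .nil) [92, 7, 2, 19, 2, 2, 0, 0, 7, 6, 13, 38, 10, 5, 1, 2, 31, 3, 3, 0, 0, 0, 18, 3, 0, 1, 3, 2, 0, 0, 1, 0, 7, 0, 4, 2, 0, 3, 10, 0, 1, 4, 0, 2, 0, 3, 2, 0, 0, 3, 3, 2, 5, 1, 1, 0, 3, 1, 7, 1, 6, 0, 5, 3, 4, 0, 0, 2, 1, 0, 0, 1, 0, 1, 1, 1, 2, 0, 3, 0, 1, 0, 1, 2, 4, 5, 0, 2, 25, 2, 5, 1, 5, 1, 6, 6, 1, 4, 2, 10, 2] (.cons 1 0 0 0 0 (.cons 9 0 0 .nil) [12, 0, 4, 3, 4, 9, 5, 0, 12, 1, 0, 3, 3, 18, 4, 1, 4, 5, 2, 3, 1, 3, 2, 0, 1, 1, 7, 2, 4, 1, 3, 5, 8, 1, 1, 13, 9, 0, 1, 1, 4, 1, 2, 0, 1, 2, 1, 3, 0, 3, 13, 0, 1, 1, 2, 2, 1, 0, 1, 10, 0, 0, 2, 3, 1, 3, 4, 1, 2, 1, 1, 1, 2, 0, 5, 1, 1, 3, 4, 2,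 0, 1, 0, 4, 3, 0, 1, 3, 7, 2, 0, 1, 0, 1, 0, 1, 0, 1, 3, 0, 1, 0, 4, 3, 1, 5, 1, 3, 0, 0, 2, 1, 0, 3, 0, 3, 1, 4, 3, 2, 1, 0, 6, 1, 0, 1, 1, 1, 4, 0, 2, 1, 6, 3, 1, 6, 0, 6, 2, 1, 1, 1, 1, 1, 2, 0, 8, 1, 0, 9, 14, 0, 3, 0, 0, 0, 1, 0, 1, 1, 2] (.cons 1 0 0 0 0 (.cons 11 0 0 .nil) [5, 4, 1, 1, 0, 5, 3, 20, 1, 7, 1, 0, 3, 0, 1, 2, 0, 3, 9, 1, 1, 1, 5, 0, 2, 1, 1, 8, 3, 1, 3, 1, 1, 1, 1, 0, 0, 1, 5, 1, 0, 2, 0, 0, 2, 3, 4, 0, 1, 0, 0, 0, 1, 0, 0, 0, 0, 15, 2, 0, 3, 1, 0, 0, 0, 0, 1, 0, 9, 4, 0, 3, 0, 2, 1, 0, 3, 0, 0, 3, 6, 0, 2, 2, 0, 1, 0, 0, 0, 1, 0, 0, 2, 7, 3, 1, 0, 1, 1, 2, 5, 0, 1, 1, 3, 0, 0, 3, 1, 1, 1, 3, 0, 0, 1, 0, 0, 0,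 0, 1, 2, 0, 1, 1, 1, 0, 1, 2, 1, 1, 0, 4, 1, 0, 1, 0, 0, 4, 0, 1, 0, 3, 3, 3, 2, 0, 1, 0, 0, 0, 1, 1, 2, 3, 2, 5, 2, 1, 2, 4, 3, 0, 1, 0, 3, 1, 9, 3, 0, 0, 5, 0, 6, 0, 0, 1, 1, 2, 0, 0, 0, 0, 0, 1, 1, 1, 1, 1, 1, 1, 1, 1, 1, 4, 0, 0, 2, 1, 0, 4, 0, 1] .nil))),
  (.cons 1 0 0 0 0 (.cons 10 0 0 .nil) [4, 5, 4, 47, 29, 1, 13, 1, 0, 0, 0, 0, 1, 1, 0, 7, 8, 0, 2, 6, 1, 1, 5, 21, 0, 1, 3, 0, 10, 1, 3, 13, 7, 12, 5, 1, 1, 2, 0, 0, 3, 2, 0, 2, 1, 8, 2, 2, 1, 4, 0, 0, 2, 8, 5, 1, 1, 3, 1, 1, 2, 0, 0, 1, 1, 3, 7, 5, 3, 4, 3, 0, 1, 3, 1, 0, 0, 1, 0, 2, 3, 0, 0, 1, 2, 6, 0, 0, 1, 0, 1, 4, 1, 1, 1, 3, 5, 12, 2, 0, 0, 3, 3, 0, 1, 0, 0, 1, 1, 3,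 3, 0, 1, 1, 1, 0, 11, 6, 0, 0, 0, 0, 3, 3, 0, 7, 5, 2, 0, 0, 1, 6, 2, 2, 1, 0, 2, 1, 4, 8, 1, 0, 0] .nil),
  (.cons 0 12 6 0 0 (.cons 10 1 0 .nil) [8, 11, 4, 0, 10, 8, 15, 13, 7, 13, 20, 1, 9, 1, 2, 1, 0, 27, 25, 1, 40, 17] (.cons 2 6 0 0 0 (.cons 0 30 1 .nil) [20, 1, 1, 3, 0, 0, 0, 0, 0, 13, 21, 14, 21, 2, 1, 4, 1, 6, 0, 0, 1, 0, 3, 4, 2, 3, 0, 27, 0, 3, 0, 5, 12, 0, 0, 0, 0, 23, 0, 4, 5, 1, 2, 4, 4, 0, 1, 1, 2, 10, 1, 10, 3, 1, 2, 6, 1, 0, 1, 0, 1, 5, 1, 0, 0, 3, 0, 1, 5, 2, 0, 2, 0, 1, 0, 0, 0, 1, 0, 1, 0, 4, 2, 0, 2, 2, 1, 0, 1, 1, 0, 6, 0, 1, 0, 16, 5, 0, 3, 0, 1, 1, 4, 0, 2, 5, 2, 0, 1, 0, 1, 4, 7, 4, 0, 1, 3, 1, 0, 2, 0, 2,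 11, 1, 2, 3, 3, 0, 1, 1, 2, 1, 1, 17, 3, 8, 2, 1, 1, 1, 6, 0, 0, 2, 5, 1, 5, 5, 0, 9] (.cons 2 16 0 0 0 (.cons 0 29 0 .nil) [24, 0, 84, 7, 14, 1, 15, 3, 1, 46, 8, 1, 0, 2, 28, 11, 15, 5, 2, 23, 8, 2, 11, 15, 6, 5, 3, 4, 1, 1, 0, 0, 2, 0, 0, 0, 1, 1, 1, 3, 0, 0, 0, 0, 0, 1, 0, 3, 11, 3, 0, 4, 6, 0, 1, 7, 5, 0, 1, 0, 2, 0, 10, 3, 5, 4, 8, 3, 0, 2, 3, 2, 4, 10, 21, 2, 40, 27] (.cons 1 0 0 0 0 (.cons 10 2 0 .nil) [4, 19, 3, 9, 1, 1, 34, 34, 1, 7, 14, 12, 1, 7, 0, 26, 1, 3, 0, 17, 3, 1, 1, 0, 21, 2, 0, 2, 8, 0, 11, 1, 0, 0, 3, 10, 0, 1, 7, 0, 2, 0, 3, 1, 0, 6, 2, 0, 5, 0, 1, 1, 1, 0, 0, 1, 3, 0, 0, 0, 2, 2, 0, 0, 1, 3, 0, 0, 0, 0, 1,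 4, 1, 0, 1, 2, 0, 1, 1, 0, 7, 0, 3, 0, 1, 1, 3, 0, 3, 0, 0, 5, 1, 1, 3, 0, 3, 1, 0, 1, 1, 7, 0, 0, 0, 3, 1, 0, 0, 0, 0, 1, 0, 0, 3, 2, 6, 0, 5, 0, 1, 1, 0, 2, 3, 0, 2, 4, 1, 2, 0, 0, 1, 1, 0, 12, 2, 2, 2, 2, 0, 1, 2, 1, 0, 7, 1, 0, 4, 1, 1, 2, 2, 3, 1, 0, 6, 3, 1] .nil)))),
  (.cons 0 20 0 0 0 (.cons 10 0 0 .nil) [7] (.cons 2 17 0 0 0 (.cons 0 31 0 .nil) [0, 14, 5, 1, 43, 1, 7, 0, 24, 2, 0, 5, 0, 0, 18, 0, 12, 0, 4, 0, 13, 6, 1, 2, 7, 17, 13, 1, 2, 1, 1, 23, 1, 1, 0, 4, 0, 5, 5, 3, 0, 1, 9, 7, 11, 1, 0, 2, 2, 3, 8, 2, 1, 9, 1, 1, 3, 0, 1, 0, 1, 0, 1, 1, 3, 1, 2, 3, 0, 1, 1, 2, 0, 0, 0, 1, 3, 0, 1, 2, 1, 2, 0, 1, 0, 1, 1, 3, 1, 6,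 0, 1, 0, 1, 6, 2, 1, 0, 1, 7, 5, 1, 1, 1, 4, 9, 0, 0, 2, 0, 0, 7, 0, 0, 9, 0, 0, 6, 7, 9, 7, 1, 7, 2, 3, 3, 0, 7, 11, 1, 0, 0, 1, 0, 0, 0, 0, 1, 1, 4, 3, 1, 2, 4, 1, 3, 1, 3, 0] (.cons 1 0 0 0 0 (.cons 11 0 0 .nil) [2, 2, 2, 3, 3, 3, 0, 2, 1, 18, 8, 6, 2, 1, 4, 0, 19, 2, 0, 2, 1, 0, 1, 0, 1, 1, 3, 9, 1, 1, 1, 0, 1, 0, 8, 0, 5, 4, 0, 4, 7, 5, 0, 7, 3, 13, 11, 11, 15, 6, 1, 1, 1, 13, 0, 2, 0, 0, 1, 0, 7, 3, 5, 1, 6, 1, 1, 1, 1, 1, 0, 1, 2, 0, 3, 0, 4, 0, 1, 6, 1, 0, 0, 1, 0, 1, 0, 1, 2, 1, 2, 1, 2, 1, 1, 0, 3, 3, 0, 1, 0, 3, 1, 0, 2, 1, 1, 0, 0, 0, 1, 1, 1, 0, 1, 0, 4, 0, 2, 0, 2, 0, 5, 2, 0, 3, 2, 1, 1, 1, 0, 1, 2, 1, 3, 0, 0, 1,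 2, 1, 0, 5, 0, 1, 0, 0, 0, 1, 2, 2, 8, 1, 3, 0, 0, 0, 1, 1, 1, 2, 1, 0, 1, 0, 3, 0, 0, 3, 2, 3, 2, 3, 0, 1, 7, 5, 0, 0, 1, 2, 4, 1, 0, 0, 3, 1, 0, 1, 0, 0, 0, 0, 0, 2, 0, 1, 1, 2, 1, 1] .nil))),
  .nil,
  (.cons 0 7 0 0 0 (.cons 11 0 0 .nil) [0, 8] .nil),
  (.cons 0 12 0 0 0 (.cons 11 0 0 .nil) [96, 11] (.cons 1 0 0 0 0 (.cons 10 0 0 .nil) [4, 13, 0, 5, 10, 1, 17, 0, 9, 1, 1, 1, 7, 8, 4, 14, 0, 1, 3, 1, 4, 5, 5, 7, 2, 1, 6, 8, 1, 8, 1, 11, 2, 2, 5, 4, 4, 1, 1, 12, 5, 1, 5, 0, 0, 2, 2, 1, 8, 8, 6, 0, 3, 1, 3, 0, 3, 7, 8, 7, 1, 1, 0, 6, 2, 2, 3, 1, 0, 4, 4, 1, 9, 0, 1, 3, 1, 3, 2, 3, 1, 1, 0, 3, 4, 1, 3, 2, 0, 3, 3, 2, 0, 1, 1, 2,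 0, 0, 0, 6, 3, 1, 1, 0, 1, 1, 1, 0, 0, 2, 1, 0, 3, 1, 0, 1, 1, 1, 0, 5, 1, 0, 4, 0, 4, 2, 9, 0, 7, 1, 1, 2, 1, 1, 1, 3, 1, 1, 5, 0, 3, 1, 4, 1, 1, 3, 0, 2, 0, 5, 1, 1, 1, 3, 0, 2, 0, 0, 0, 0, 3, 2, 0, 1, 6, 2, 1, 4, 0, 0, 6, 3, 6, 3, 2, 0, 1, 7, 0, 1, 1, 1, 0, 5, 0, 0, 3, 1, 0, 1, 4, 4, 0, 1, 9, 5, 1, 3, 0, 5, 0, 0] .nil)),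
  .nil,
  (.cons 0 12 0 2 0 (.cons 5 49 0 .nil) [17, 10, 9, 1, 9, 27, 5, 14, 0, 28, 0, 12, 6, 1, 4, 7, 0, 2, 0, 1, 7, 13, 2, 17, 0, 21, 5, 1, 0, 15, 15, 5, 1, 1, 0, 84, 18, 21, 7, 124, 9, 0, 0, 1, 1, 1, 3, 3, 0, 1, 1, 0, 1, 0, 3, 2, 2, 3, 1, 7, 9, 8, 1, 1, 0, 11, 0, 3, 1, 2, 2, 6, 15, 2, 12, 0, 4, 1, 1, 1, 0, 2, 0, 7, 6, 1, 4, 0] (.cons 0 12 0 0 0 (.cons 10 0 0 .nil) [] (.cons 1 0 0 0 0 (.cons 11 1 0 .nil) [0, 0, 6, 0, 2, 7, 2, 2, 1, 1, 1, 3, 2, 2, 3, 0, 0, 5, 10, 4, 13, 0, 5, 0, 15, 6, 1, 1, 1, 1, 0, 2, 6, 0, 1, 1, 0, 4, 5, 3, 1, 0, 0, 3, 0, 3, 1, 0, 0, 1, 1, 0, 2, 0, 1, 1, 0, 2, 3, 1, 1, 8, 3, 4, 0, 1, 0, 1, 0, 0, 1, 1, 4, 9, 8,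 1, 2, 1, 1, 0, 2, 1, 9, 1, 2, 0, 3, 1, 0, 1, 1, 7, 1, 0, 7, 3, 0, 0, 1, 5, 5, 0, 0, 0, 1, 1, 3, 1, 1, 0, 1, 0, 1, 1, 1, 1, 1, 0, 0, 0, 0, 0, 3, 4, 2, 0, 0, 4, 1, 1, 3, 3, 2, 1, 3, 0, 0, 1, 0, 0, 0, 0, 0, 2, 0, 0, 2, 3, 2, 2, 1, 1, 4, 1, 2, 1, 0, 1, 4, 1, 0, 1, 3, 0, 0, 3, 0, 1, 6, 0, 2, 1, 3, 0, 1, 0, 4, 3, 3, 0, 0, 6, 1, 1, 1, 2, 1, 0, 1, 1, 2, 0, 6, 0, 7, 0, 0, 3, 1, 0, 3, 0, 3, 0, 0, 1, 1, 1, 0, 1, 0, 0, 0, 0, 3, 1, 1, 1, 0, 3, 4, 1, 1, 3, 0, 0, 4, 2, 0, 0, 2, 0, 0, 5, 0, 1, 3, 0, 0, 0, 0, 3, 0, 7, 7, 4, 1, 9, 2, 0, 2, 0, 0, 0, 0, 1, 2, 3, 2, 0, 1, 2, 3, 0, 2, 1, 1, 2, 1, 2, 3, 7] .nil))),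
  .nil,
  (.cons 0 20 2 0 0 (.cons 5 56 0 .nil) [25, 5, 81, 19, 39, 1, 0, 44, 58, 1, 30] .nil),
  (.cons 0 20 0 0 0 (.cons 11 0 0 .nil) [3] .nil),
  (.cons 0 20 1 0 0 (.cons 9 0 0 .nil) [333, 7] (.cons 2 10 0 0 0 (.cons 0 32 1 .nil) [4, 12, 6, 1, 8, 0, 34, 3, 0, 48, 1, 6, 5, 18, 7, 0, 0, 1, 21, 1, 33, 4, 6, 7, 29, 5, 2, 7, 1, 30, 4, 12, 0, 2, 1, 2, 0, 1, 3, 3, 0, 3, 3, 1, 1, 6, 7, 1, 6, 6, 0, 1, 1, 0, 5, 1, 1, 3, 3, 5, 1, 1, 1, 3, 3, 3, 0, 1, 3, 1, 4, 3, 0, 1, 4, 1, 1, 1, 1, 2, 1, 2, 2, 0, 3, 0, 0, 0, 5, 6, 5, 1, 1, 1, 0, 5, 0, 3, 2, 1, 1, 4, 0, 1, 1, 1, 1, 1, 2, 0, 1, 0, 1, 8, 0, 1, 0, 1, 1, 1, 3, 4, 1, 1, 0, 0, 4, 14, 1, 3, 0,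 7, 0, 0, 0, 2, 0, 4, 0, 4, 0, 13, 0, 0, 3, 5, 0, 3, 10, 3, 0, 3, 2, 3, 2, 5, 8, 0, 0, 7, 15, 0, 0, 1, 6, 3, 3, 1, 0, 5, 1, 0, 13, 1, 1, 0, 0, 1, 0, 3, 4, 0, 0, 2, 0, 1, 2, 0, 2, 3, 0, 4, 0, 3, 5, 0, 0, 1, 10, 1, 5, 1, 1, 0, 11, 0, 4, 3, 0, 2] (.cons 1 0 0 0 0 (.cons 10 3 0 .nil) [10, 9, 1, 6, 8, 0, 17, 6, 12, 0, 0, 7, 1, 3, 22, 6, 0, 1, 7, 4, 8, 9, 1, 5, 1, 1, 4, 2, 9, 2, 6, 5, 6, 7, 0, 1, 7, 1, 5, 30, 1, 0, 3, 4, 0, 6, 0, 1, 5, 20, 0, 6, 3, 3, 7, 1, 9, 3, 2, 2, 4, 6, 0, 4, 14, 7, 1, 1, 4, 10, 1, 3, 3, 5, 1, 2, 2, 1, 5, 7, 0, 9, 0, 9, 6, 0, 0, 4, 0, 1, 0, 1, 3, 3, 1, 7, 3, 1, 1, 6, 2, 2, 0, 1, 1, 0, 0, 0, 1, 1, 1, 1, 1, 0, 1, 4,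 5, 0, 9, 2, 0, 3, 0, 9, 7, 0, 8, 1, 2, 0, 1, 3, 4, 1, 2, 3, 3, 0, 1, 6, 13, 1, 1, 1, 0, 5, 1, 5, 1, 0, 3, 7, 7, 1, 0, 0, 0, 7, 6, 3, 0, 15, 0, 5, 4, 1, 4, 1, 8, 0, 6, 2, 11, 7, 4, 1, 2, 1, 1, 0, 1, 6, 0, 1, 1, 1, 0, 0, 2, 12, 3, 0, 8, 3, 0, 4, 1, 5, 0, 4, 0, 4, 1, 1, 2, 1, 4, 0] .nil))),
  .nil,
  (.cons 0 9 0 0 0 (.cons 11 0 0 .nil) [3, 9] (.cons 0 20 3 0 0 (.cons 11 1 0 .nil) [0, 3, 7, 46, 3, 3, 0, 0, 1, 3, 31, 1, 0, 23, 1, 5, 79, 0, 14, 0, 3] (.cons 2 11 0 0 0 (.cons 0 33 1 .nil) [29, 0, 1, 14, 0, 1, 0, 1, 66, 11, 9, 5, 1, 2, 0, 0, 0, 0, 1, 14, 3, 3, 0, 1, 2, 7, 0, 1, 0, 4, 3, 1, 1, 37, 33, 0, 11, 23, 5, 1, 14, 4, 1, 13, 0, 2,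 4, 2, 3, 1, 1, 1, 1, 3, 1, 5, 23, 3, 18, 3, 2, 3, 4, 0, 5, 1, 0, 0, 3, 1, 2, 0, 15, 1, 0, 1, 2, 0, 0, 2, 5, 0, 1, 0, 0, 2, 0, 1, 3, 2, 9, 1, 1, 1, 1, 6, 2, 5, 1, 1, 1, 1, 1, 1, 1, 4, 2, 1, 1, 0, 1, 4, 4, 11, 5, 0, 1, 1, 0, 0, 1, 0, 0, 1, 0, 5, 12, 0, 0, 1, 3, 4, 4, 0, 5, 3, 4, 1, 1, 0, 3, 5, 1, 0, 12, 0, 0, 2, 3, 6, 2, 0, 7, 1, 4, 1, 1, 0, 7, 0, 1, 0, 3, 1, 17, 3, 2, 2, 18, 0, 1, 1, 0, 0, 3, 2, 18, 1, 1, 11, 0, 0, 1, 0, 0, 2, 4, 0, 2, 0, 0, 0, 2, 3, 3, 1, 0, 0, 1, 4, 11, 0, 1, 3, 1, 2, 0, 3, 1, 11, 0, 3, 10, 1, 3, 16, 1] .nil))),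
  (.cons 0 19 6 0 0 (.cons 10 20 0 .nil) [35, 56, 1, 1, 1, 2, 28, 17, 2, 39, 3, 3, 1, 4, 46, 0, 0, 4, 1, 23] (.cons 2 0 0 0 0 (.cons 0 34 0 .nil) [149, 264, 12, 126, 22, 80, 56, 297, 3, 8, 0, 2, 3, 1, 0, 17] (.cons 1 0 0 0 0 (.cons 11 1 0 .nil) [18, 1, 3, 3, 6, 21, 0, 21, 2, 4, 0, 10, 31, 2, 4, 0, 2, 2, 2, 6, 4, 5, 5, 3, 1, 0, 0, 5, 14, 4, 5, 4, 1, 1, 16, 14, 21, 1, 9, 3, 1, 0, 0, 0, 0, 2, 5, 0, 5, 12, 12, 2, 0, 0, 1, 2, 0, 1, 4, 1, 0, 1, 2, 1, 0, 3, 2, 2, 2, 0, 1, 1, 4, 5, 0, 1, 0, 0, 1, 1, 8, 0, 0, 1, 0, 7, 3, 2, 2, 3, 2, 1, 3, 0, 3, 1, 4, 0, 1, 1, 0, 1, 2, 2, 1, 0, 3, 0, 1, 3, 1, 0, 5, 0, 0, 0, 1, 1, 2, 1, 7, 2, 2, 1, 0, 0, 1,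 1, 1, 3, 0, 3, 1, 1, 0, 0, 0, 1, 0, 1, 1, 2, 5, 3, 1, 2, 10, 1, 0, 4, 2, 0, 2, 0, 0, 0, 0, 1, 3, 0, 1, 5, 1, 2, 1, 1, 10, 0, 0, 1, 2, 5, 6, 1, 4, 1, 0, 2, 0, 1, 0, 0, 5, 0, 0, 1, 1, 0, 1, 16, 0, 7, 0, 1, 5, 0, 2, 0, 1, 1, 0, 3, 1, 3, 3, 3, 7, 2, 1, 9, 2, 1, 13, 4, 14, 2, 9, 0, 1, 4, 0, 0, 1, 0, 1, 0, 3, 8, 1, 4, 0, 0, 2, 0, 0, 3, 0, 0, 0, 0, 4, 1, 3, 1, 1, 2, 0, 5, 0, 3, 3, 4, 1, 0, 1, 2, 0, 0, 2, 2, 2, 7, 1, 0, 0, 3, 1, 1, 2, 0, 0, 1, 11, 0, 4, 1, 2, 0, 1, 4] (.cons 1 0 0 0 0 (.cons 11 0 0 .nil) [2, 3, 2, 1, 7, 6, 2, 1, 6, 14, 8, 1, 18, 2, 1, 0, 0, 1, 3, 29, 9, 3, 1, 1, 3, 0, 3, 4, 3, 0, 8, 1, 3, 0, 3, 4, 1, 3, 1, 1, 1, 1, 0, 0,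 0, 5, 2, 11, 12, 1, 1, 1, 11, 2, 7, 15, 2, 0, 1, 3, 0, 0, 0, 4, 0, 0, 1, 1, 1, 21, 2, 0, 4, 3, 5, 12, 6, 1, 5, 2, 4, 1, 3, 4, 6, 2, 27, 9, 2, 0, 0, 13, 0, 3, 1, 0, 1, 1, 1, 1, 8, 1, 0, 1, 5, 0, 2, 0, 0, 2, 1, 1, 1, 2, 3, 4, 3, 2, 2, 0, 1, 2, 0, 7, 5, 5, 1, 0, 0, 0, 1, 0, 4, 2, 0, 1, 2, 1, 4, 0, 2, 3, 0, 0, 5, 4, 0, 0, 1, 1, 0, 7, 2, 0, 3, 0, 3, 0, 4, 0, 3, 1, 0, 1, 1, 0, 4, 2, 2, 0, 1, 0, 3, 1, 4, 1, 1, 0, 1, 2, 1, 6, 1, 6, 1, 0, 6, 0, 0, 1, 0, 0, 1, 1, 2, 1, 2, 1, 4, 0, 0, 3, 1, 3, 7, 6, 9, 1, 1, 1, 5, 3, 1, 0, 5, 9, 2, 7, 1, 1, 4, 5, 1, 4, 0, 2, 2, 0, 7, 2, 1, 4, 1, 3, 0, 0, 7, 0, 1, 1, 1, 2, 1, 0, 0, 1, 0, 3, 1, 2, 2, 0, 2, 6,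 0, 0, 1, 0, 1, 0, 0, 1, 0, 1, 0, 3, 0, 1, 0, 1, 1, 2, 1, 3, 0, 1, 1, 1, 0, 7, 2, 13, 5] .nil)))),
  (.cons 2 13 0 0 0 (.cons 0 35 1 .nil) [9, 4, 52, 39, 47, 21, 1, 0, 0, 3, 1, 27, 4, 50, 20, 0, 0, 13, 4, 23, 9, 22, 5, 11, 6, 2, 3, 3, 1, 2, 0, 3, 0, 2, 1, 0, 4, 46, 12, 1, 1, 1, 1, 1, 5, 0, 6, 0, 5, 2, 0, 2, 0, 14, 1, 5, 1, 0, 7, 6, 1, 3, 4, 1, 3, 1, 6, 1, 5, 0, 2, 2, 0, 0, 3, 1, 8, 6, 4, 4, 26, 9, 1, 0, 1, 0, 1, 2, 1, 1, 0, 4, 1, 5, 12, 1, 4, 1, 0, 6, 6, 19, 3, 11, 0, 0, 13, 3, 0, 5, 0, 3, 2, 0, 0, 0, 0, 0, 1, 1, 0, 15, 0, 27, 8, 1, 2, 0, 0, 1, 1, 16, 1, 10, 7, 0, 11, 23, 3, 3, 1, 5, 1, 0, 0, 0, 5, 2, 2, 0, 1, 0, 0, 0, 0, 0, 1, 3,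 9, 2, 1, 1, 4, 4, 3, 11, 1, 1, 0, 5, 3, 1, 0, 19, 1, 5, 4, 12] .nil),
  (.cons 0 8 1 0 0 (.cons 9 2 0 .nil) [3, 81, 287] (.cons 0 12 3 0 0 (.cons 10 0 0 .nil) [4, 65, 41, 137, 88] (.cons 2 1 0 0 0 (.cons 0 36 1 .nil) [504, 15, 9, 6, 1, 14, 4, 1, 20, 3, 0, 12, 1, 0, 1, 0, 1, 1, 1, 1, 13, 0, 2, 14, 0, 1, 0, 2, 0, 3, 21, 3, 2, 1, 3, 35, 1, 3, 41, 47, 33, 169, 14, 20, 1, 9, 18, 1, 4, 0, 47, 1, 13] (.cons 1 0 0 0 0 (.cons 6 0 0 .nil) [23, 56, 55, 16, 1, 6, 0, 2, 6, 20, 7, 7, 5, 4, 33, 2, 2, 6, 3, 2, 0, 31, 7, 72, 0, 9, 13, 2, 0, 3, 8, 39, 23, 2, 4, 1, 4, 19, 2, 0, 2, 1, 1, 21, 0, 11, 1, 2, 1, 1, 1, 3, 3, 5, 1, 3, 4, 3, 7, 0, 0, 7, 6,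 1, 0, 21, 3, 1, 0, 0, 2, 1, 1, 16, 1, 1, 10, 3, 8, 7, 11, 1, 10, 1, 2, 27, 3, 3, 4, 32, 2, 2, 1, 5, 1, 21, 1, 0, 39, 3, 5, 6, 3, 19, 3, 38, 12, 1, 0, 5, 0, 11, 0, 0, 9, 8, 8, 0, 4, 0, 9, 2, 0, 11, 1, 0, 12, 3, 5, 2, 1, 3, 11, 2, 1, 1, 12] (.cons 1 0 0 0 0 (.cons 11 1 0 .nil) [3, 0, 15, 0, 6, 0, 0, 0, 1, 1, 1, 5, 3, 4, 4, 1, 0, 1, 2, 1, 1, 3, 8, 9, 3, 2, 0, 7, 2, 0, 3, 4, 5, 9, 9, 2, 1, 0, 6, 1, 3, 5, 4, 1, 2, 0, 0, 1, 1, 0, 1, 1, 0, 3, 3, 0, 0, 1, 3, 0, 0, 0, 3, 5, 3, 9, 6, 1, 0, 1, 0, 9, 5, 4, 1, 5, 4, 8, 3, 1, 31, 3, 0, 0, 1, 4, 0, 1, 2, 6, 1, 1, 5, 1, 3, 1, 7, 1, 0, 0, 3, 1, 0, 0, 3, 0, 3, 0, 2, 0, 3, 1, 3, 6, 0, 0, 1, 0, 0, 5,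 1, 1, 1, 2, 0, 0, 4, 0, 1, 1, 1, 0, 0, 3, 1, 1, 2, 5, 6, 3, 5, 0, 0, 3, 6, 0, 0, 1, 1, 3, 1, 0, 4, 3, 0, 2, 1, 1, 1, 1, 3, 3, 1, 0, 2, 7, 0, 0, 3, 3, 1, 1, 3, 1, 2, 0, 1, 1, 0, 1, 1, 0, 5, 4, 0, 0, 0, 5, 0, 0, 1, 1, 0, 5, 1, 3, 1, 1, 1, 1, 3, 0, 0, 0, 0, 1, 5, 5, 1, 2, 2, 0, 3, 0, 1, 1, 0, 1, 1, 1, 4, 3, 5, 2, 0, 2, 2, 1, 2, 1, 1, 1, 3, 0, 2, 0, 3, 0, 3, 3, 0, 0, 3, 3, 3, 2, 1, 1, 0, 0, 2, 1, 0, 3, 1, 0, 1, 3, 0, 2, 2, 4, 4, 0, 0, 0, 0, 0, 1, 0, 0, 5, 1, 0, 0, 9, 5, 0, 1, 0, 0, 1, 1, 0, 2, 0, 0, 1, 0, 3, 1, 1, 3, 7, 0, 2, 0, 1, 0, 2, 5, 1, 1, 1, 1, 1, 3, 5, 1, 1, 1, 7, 1, 1, 0, 0, 1, 1, 4, 5, 1, 0, 0, 7, 1, 1, 0, 1, 0, 5, 0, 0, 0,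 1, 1, 1, 1, 3, 1, 1, 1, 10, 1, 1, 0, 0, 1, 1, 1, 3, 3, 0, 0, 0, 0, 0, 0, 3, 0, 3, 0, 1, 1, 2, 1, 0, 0, 1, 1, 1, 0, 0, 1, 1, 0, 3] .nil))))),
  (.cons 0 8 2 0 0 (.cons 9 67 0 .nil) [137, 35, 2, 72, 7, 57, 62, 4] (.cons 0 12 9 0 0 (.cons 10 0 0 .nil) [8, 16, 19, 1, 10, 1, 5, 4, 1, 2, 18, 2, 1, 39, 8, 4, 3, 1, 1, 5, 10, 3, 2, 1, 11, 3, 1, 0, 1, 1, 1, 1, 3, 6, 1, 6, 1, 1, 12, 8, 4, 1, 14, 18, 2, 0, 0, 3, 17, 1, 0, 2, 13, 3, 13] (.cons 2 14 0 0 0 (.cons 0 37 0 .nil) [24, 10, 31, 18, 2, 3, 0, 15, 39, 0, 2, 20, 1, 1, 3, 10, 1, 1, 1, 0, 25, 7, 1, 0, 22, 2, 19, 38, 1, 1, 3, 0, 0, 12, 34, 5, 7, 1, 1, 0, 1, 7, 13, 2, 7, 5, 2, 1, 3, 9, 4, 3,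 3, 1, 3, 9, 11, 1, 3, 0, 1, 0, 3, 9, 4, 2, 1, 2, 7, 2, 4, 0, 3, 0, 1, 3, 0, 0, 0, 0, 1, 0, 1, 0, 1, 5, 0, 1, 0, 4, 0, 1, 3, 3, 1, 1, 3, 0, 7, 3, 5, 1, 4, 6, 1, 0, 0, 1, 0, 1, 3, 0, 1, 4, 5, 2, 3, 0, 0, 2, 1, 0, 3, 0, 2, 2, 2, 0, 1, 4, 2, 2, 0, 1, 0, 1, 0, 3, 0, 1, 1, 3, 5, 10, 0, 2, 1, 5, 12, 2, 2, 1, 2, 0, 1, 21, 0, 1, 0, 5, 32, 0, 0, 0, 0, 1, 11, 2, 1, 8, 0, 0, 1, 0, 11, 5, 1, 21, 18, 14, 1, 18, 9, 13, 3, 3, 3, 1, 0, 4, 2, 1, 2, 0, 2, 3, 1, 2, 1, 6, 4, 0, 0, 3, 0, 4, 1, 5, 0, 3, 0, 0, 2, 1, 0, 0, 6, 1, 1, 2, 6, 0, 3, 3, 0, 1, 11, 6, 1, 12, 1, 2, 0, 10] (.cons 1 0 0 0 0 (.cons 10 1 0 .nil) [3, 18, 5, 12, 47, 5, 3, 2, 4, 1, 3, 14,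 13, 6, 1, 2, 6, 15, 3, 2, 0, 1, 1, 1, 0, 2, 1, 1, 1, 0, 1, 8, 2, 3, 4, 1, 0, 24, 2, 1, 1, 1, 5, 0, 11, 3, 31, 0, 0, 1, 0, 0, 1, 1, 1, 0, 8, 33, 0, 1, 3, 6, 0, 0, 0, 0, 5, 9, 1, 2, 2, 3, 1, 0, 1, 2, 3, 0, 1, 0, 1, 4, 4, 1, 6, 0, 10, 4, 0, 4, 2, 1, 0, 1, 1, 1, 0, 3, 4, 0, 3, 0, 1, 2, 1, 1, 1, 0, 0, 1, 1, 1, 0, 1, 1, 0, 0, 3, 1, 1, 0, 3, 1, 1, 1, 0, 2, 0, 0, 1, 4, 0, 1, 0, 2, 1, 1, 1, 2, 3, 2, 1, 1, 2, 1, 0, 5, 0, 2, 0, 0, 0, 0, 1, 0, 1, 1, 4, 1, 1, 3, 0, 5, 0, 4, 0, 1, 0, 1, 0, 6, 7, 2, 4, 0, 0, 1, 0, 1, 0, 2, 0, 3, 2, 1, 12, 0, 3, 1, 0, 3, 3, 0, 1, 3, 1, 1, 0, 0, 3, 1, 0, 7, 0, 0, 1, 0, 1, 2, 0, 1, 1, 2, 0, 9, 4, 3, 2, 1, 4, 0, 0,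 1, 0, 3, 2, 1, 1, 0, 3, 1, 1, 1, 0, 0, 2, 1, 0, 0, 3, 2, 2, 0, 3, 0, 1, 3, 0, 1, 5, 0, 2, 1, 2, 1, 0, 9, 8, 1, 3, 7, 0, 0, 6, 4, 1, 2, 1, 0, 0, 2, 4, 1, 5, 4, 3, 1, 0, 1, 0, 1, 3, 3, 5, 0, 1, 0, 1, 2, 2, 1, 0, 1, 0, 1, 3, 0, 0, 1, 1, 1, 0, 3, 0, 0, 1, 1, 0, 0, 1, 1, 0, 3, 2, 1, 4, 1, 0, 3, 1, 3, 4, 1, 0, 2, 0, 1, 1, 1, 1, 0, 1, 0, 0, 1, 0, 11, 1, 0, 1, 2, 1, 0, 0, 1, 1, 3, 0, 2, 1, 3] .nil)))),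
  (.cons 2 2 0 0 0 (.cons 0 38 1 .nil) [16, 48, 1, 2, 2, 28, 10, 48, 17, 2, 2, 26, 1, 4, 1, 15, 0, 3, 2, 48, 5, 1, 20, 1, 1, 21, 1, 1, 81, 21, 41, 28, 3, 3, 1, 0, 1, 0, 0, 0, 1, 3, 2, 0, 7, 0, 0, 5, 1, 5, 1, 0, 1, 1, 0, 2, 1, 1, 1, 1, 1, 2, 0, 4, 5, 4, 4, 3, 0, 1, 1, 1, 1, 1, 3, 1, 0, 0, 2, 0, 0, 3, 0, 1, 1, 0, 1, 0, 0, 3, 0, 0, 1, 1, 1, 0, 6, 2, 0, 0, 0, 0, 0, 1, 0, 1, 3, 0, 0, 7, 1, 0, 7, 2, 4, 8, 2, 0, 1, 1, 0, 0, 1, 0, 3, 0, 0, 0, 0, 4, 1, 6, 0, 2, 1, 3, 1, 1, 0, 4, 3, 1, 0, 1, 0, 13, 1, 0, 0, 2, 1, 0, 0, 1, 1, 0, 0, 2, 2, 8, 0, 0, 1, 0, 1, 1, 1, 1, 2, 2, 0, 1, 3, 3, 3, 3, 1, 1, 3, 9, 0, 1, 3, 2, 1, 0, 16, 0, 2, 3, 3, 2, 1, 0,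 1, 1, 1, 2, 1, 0, 2, 0, 2, 1, 1, 10, 5, 0, 1, 2, 0, 0, 5, 8, 4, 4, 1, 1, 4, 0, 5, 0, 1, 4, 0, 3, 1, 0, 0, 1, 1, 1, 0, 1, 2, 9, 0, 7, 0, 5, 2, 9, 2, 2, 1, 0, 0, 1, 0, 1, 0, 3, 4, 2, 1, 2, 2, 3, 0, 4, 9, 1, 4, 0, 4, 1, 0, 4, 2, 2] (.cons 1 0 0 0 0 (.cons 6 0 0 .nil) [8, 16, 42, 22, 11, 0, 0, 0, 16, 1, 24, 7, 7, 1, 0, 0, 7, 1, 0, 3, 5, 2, 0, 12, 1, 2, 0, 1, 0, 6, 7, 2, 21, 12, 4, 1, 0, 2, 0, 1, 0, 5, 2, 4, 0, 71, 31, 3, 7, 8, 9, 0, 2, 0, 4, 1, 6, 6, 0, 12, 16, 6, 5, 0, 3, 2, 2, 1, 2, 1, 1, 3, 0, 1, 0, 3, 1, 2, 4, 0, 0, 0, 0, 1, 1, 8, 4, 3, 2, 0, 4, 1, 3, 0, 0, 1, 3, 2, 0, 5, 0, 3, 0, 3, 5, 0, 0, 1, 3, 5, 0, 1, 0, 2, 1, 1, 3, 5, 0, 3,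 0, 1, 6, 3, 0, 0, 3, 0, 5, 5, 5, 5, 0, 1, 1, 4, 1, 4, 1, 1, 1, 0, 1, 5, 2, 1, 1, 2, 0, 13, 5, 2, 7, 2, 0, 0, 1, 4, 0, 1, 0, 11, 1, 0, 0, 1, 2, 0, 2, 1, 3, 0, 3, 11, 7, 3, 0, 2, 2, 1, 0, 2, 2, 5, 0, 0, 3, 5, 2, 1, 4, 5, 5, 13, 11, 4, 1, 1, 3, 2, 3, 4, 5, 5, 14, 0, 0, 2, 6, 1, 12, 7, 4, 1, 0, 0, 4, 1, 8, 2, 0, 2, 0, 0, 0, 0, 1, 1, 0, 0, 3, 0, 2, 0, 1, 2, 0, 1, 0, 13, 1, 3, 4, 1, 0, 3, 1, 4, 7, 2, 6, 0, 1, 5, 13, 4, 0, 1, 2, 0, 7, 6, 1, 1, 0, 5] (.cons 1 0 0 0 0 (.cons 11 1 0 .nil) [2, 3, 3, 0, 4, 2, 43, 1, 5, 3, 23, 3, 1, 8, 1, 13, 6, 1, 2, 13, 2, 2, 0, 0, 2, 1, 0, 11, 0, 4, 1, 0, 1, 3, 0, 3, 1, 3, 1, 4, 6, 8, 1, 2, 2, 5, 1, 13, 0,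 1, 1, 6, 3, 1, 0, 1, 1, 2, 6, 0, 2, 0, 0, 0, 0, 1, 3, 3, 2, 7, 7, 3, 0, 2, 3, 0, 0, 3, 5, 2, 1, 2, 2, 3, 4, 1, 0, 5, 1, 1, 1, 1, 1, 0, 0, 8, 1, 1, 2, 1, 0, 0, 5, 0, 0, 0, 0, 0, 1, 1, 0, 5, 5, 0, 1, 2, 3, 1, 0, 0, 1, 4, 10, 1, 1, 1, 3, 2, 0, 0, 6, 1, 1, 1, 0, 0, 4, 4, 2, 2, 3, 0, 4, 0, 4, 0, 0, 1, 3, 1, 3, 1, 1, 3, 0, 1, 5, 1, 0, 0, 2, 0, 2, 4, 0, 4, 2, 1, 5, 6, 0, 0, 1, 1, 0, 1, 1, 1, 0, 3, 1, 5, 2, 0, 2, 1, 0, 0, 1, 0, 4, 1, 3, 1, 0, 2, 0, 0, 0, 1, 0, 8, 1, 3, 1, 1, 1, 0, 0, 0, 1, 0, 3, 0, 0, 0, 0, 2, 0, 0, 3, 1, 3, 0, 6, 11, 0, 1, 4, 1, 1, 1, 2, 0, 2, 0, 0, 0, 1, 3, 0, 0, 3, 0, 0, 0, 0, 0, 1, 3, 7, 3, 1, 0, 1, 2, 1, 1, 1, 0, 1,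 1, 1, 1, 1, 0, 1, 2, 2, 1, 1, 6, 1, 5, 1, 3, 0, 0, 0, 1, 1, 6, 0, 1, 1, 0, 2, 3, 1, 5, 0, 1, 1, 5, 1, 3, 0, 0, 3, 1, 3, 0, 2, 2, 0, 1, 9, 4, 0, 3, 2, 1, 0, 0, 1, 1, 0, 1, 3, 0, 1, 1, 1, 2, 3, 1, 3, 0, 1, 0, 0, 0, 0, 0, 0, 3, 1, 3, 1, 2, 1, 2, 0, 2, 0, 0, 3, 0, 5, 0, 3, 3, 1, 3, 1, 1, 3, 2, 1, 0, 3, 2, 0, 2, 0, 1, 4, 0, 1, 0, 1, 1, 1, 2, 2, 0, 3, 2, 2, 1, 2, 2, 2, 2, 1, 7, 1, 1, 0, 3, 2, 3] .nil))),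
  (.cons 0 9 0 0 0 (.cons 11 1 0 .nil) [3] (.cons 2 15 0 0 0 (.cons 0 40 1 .nil) [60, 99, 0, 5, 7, 25, 5, 13, 2, 1, 1, 0, 14, 5, 37, 13, 24, 3, 1, 25, 30, 5, 11, 2, 4, 0, 0, 0, 1, 6, 1, 0, 1, 1, 1, 4, 4, 0, 0, 1, 0, 3, 6, 7, 1, 1, 2, 1, 3, 7, 12, 4, 0, 5, 0, 5, 1, 10, 5, 13, 0, 0, 0, 1, 1, 0, 1, 4, 0, 1, 0, 1, 2, 1, 1, 0, 0, 3, 0, 5, 2, 1, 1, 0, 0, 3, 1, 1, 2, 2, 0, 5, 7, 1, 2, 1, 1, 0, 1, 0, 0, 0, 2, 0, 1, 4, 3, 0, 3, 1, 0, 1, 5, 1, 7, 1, 4, 13, 1, 0, 3, 2, 3, 0, 5, 5, 3, 0, 6, 4, 0, 1, 0, 1, 3, 0, 3, 1, 0, 0, 4, 0, 0, 2, 0, 3, 4, 14, 0, 1, 7, 0, 6, 7, 1, 2, 1, 0, 1, 0, 1, 0, 0, 0, 0, 0, 2, 0, 0, 0, 1, 2, 3, 0, 6, 0, 7, 0, 0, 0,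 0, 0, 0, 1, 5, 3, 1, 1, 1, 19, 3, 9, 0, 1, 0, 13, 1, 10, 3, 6, 0, 5, 5, 3, 0, 1, 2, 3, 1, 4, 3, 4, 1, 19, 2, 3, 0, 5, 0, 1, 0, 2, 4, 1, 0, 0, 0, 8, 1, 0, 0, 2, 0, 0, 1, 0, 0, 0, 3, 0, 1, 1, 0, 0, 0, 0, 2, 1, 5, 3, 0, 1, 0, 0, 0, 5, 1, 0, 12, 1, 3, 2, 0, 8, 0, 0, 3, 2, 1, 0, 2, 1, 2, 0, 1, 2, 9, 7, 0, 8, 2, 11, 0] (.cons 2 20 0 0 0 (.cons 0 39 0 .nil) [416, 2, 5, 1, 1, 1, 0, 9, 0, 0, 3, 3, 7, 1, 1, 0, 0, 3, 2, 1, 0, 1, 4, 0, 0, 3, 0, 25, 5, 1, 7, 6, 10, 3, 17, 0, 1, 0, 3, 0, 4, 1, 0, 1, 1, 0, 1, 3, 1, 0, 3, 9, 10, 1, 1, 2, 2, 3, 1, 1, 6, 0, 1, 1, 0, 0, 5, 1, 5, 1, 3, 1, 0, 1, 1, 0, 0, 0, 1, 1, 0, 9, 0, 3, 0, 0, 0, 0, 5, 10, 1, 1,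 3, 1, 1, 1, 3, 1, 0, 4, 0, 3, 2, 4, 1, 4, 0, 0, 1, 1, 3, 0, 1, 0, 1, 2, 2, 1, 1, 0, 0, 0, 3, 1, 1, 4, 8, 0, 0, 5, 0, 8, 6, 1, 2, 1, 0, 1, 0, 1, 0, 0, 2, 1, 0, 0, 1, 0, 0, 2, 0, 2, 1, 6, 9, 0, 5, 0, 1, 1, 3, 1, 0, 0, 1, 1, 1, 5, 18, 0, 1, 0, 1, 3, 17, 8, 5, 0, 1, 2, 0, 5, 9, 0, 1, 2, 2, 3, 2, 0, 6, 1, 2, 14, 7, 11, 4, 7, 5, 10, 1, 1, 2, 0, 0, 1, 1, 4, 0, 0, 0, 0, 1, 0, 1, 1, 0, 1, 1, 5, 1, 0, 1, 2, 51, 26] (.cons 1 0 0 0 0 (.cons 10 0 0 .nil) [12, 9, 11, 0, 2, 0, 2, 2, 0, 0, 5, 4, 0, 16, 9, 8, 0, 1, 22, 34, 0, 5, 8, 0, 7, 2, 0, 13, 0, 4, 1, 3, 1, 0, 3, 5, 3, 2, 2, 31, 7, 34, 1, 6, 6, 3, 10, 22, 2, 3, 1, 2, 15, 3, 0, 0, 0, 1, 2, 0,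 0, 1, 2, 0, 0, 6, 1, 0, 6, 1, 5, 0, 0, 0, 2, 0, 3, 0, 0, 0, 1, 1, 1, 1, 5, 0, 0, 1, 4, 1, 3, 1, 4, 1, 7, 5, 1, 7, 1, 0, 1, 1, 4, 1, 1, 1, 2, 8, 8, 1, 7, 0, 0, 2, 0, 4, 1, 0, 0, 3, 1, 1, 0, 0, 1, 0, 3, 3, 2, 1, 0, 0, 7, 0, 1, 0, 3, 3, 1, 0, 1, 1, 0, 3, 1, 1, 3, 2, 3, 0, 3, 2, 0, 1, 1, 1, 0, 0, 1, 1, 0, 1, 1, 4, 13, 0, 3, 1, 1, 8, 3, 1, 1, 0, 1, 2, 1, 1, 0, 0, 2, 0, 3, 3, 3, 1, 2, 1, 0, 1, 0, 5, 1, 2, 0, 2, 2, 2, 2, 2, 0, 3, 1, 1, 1, 0, 1, 3, 1, 0, 2, 0, 2, 0, 3, 3, 5, 0, 2, 6, 1, 2, 1, 9, 7, 0, 2, 0, 0, 0, 4, 0, 1, 2, 0, 1, 6, 0, 1, 1, 1, 3, 1, 3, 1, 1, 0, 0, 0, 0, 1, 7, 5, 20, 6, 1, 1, 2, 0, 2, 1, 5, 4, 0, 1, 5, 1, 1, 0, 5, 10, 5,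 1, 15, 0, 0, 0, 0, 1, 0, 2, 0, 1, 1, 4, 4, 0, 1, 0, 4, 0, 0, 0, 2, 0, 3, 0, 0, 0, 0, 0, 1, 0, 1, 4, 2, 0, 2, 0, 0, 0, 1, 2, 1, 0, 1, 4, 0, 1, 3, 5, 0, 1, 1, 0, 2, 3, 1, 0, 0, 1, 1, 0, 1, 3, 1, 0, 1, 2, 6, 3, 1, 3, 2, 1, 5, 2, 0, 7, 0, 3, 1] .nil)))),
  (.cons 0 20 0 1 0 (.cons 5 75 0 .nil) [7, 2, 19, 22, 7, 2, 1, 4, 11, 0, 0, 1, 0, 5, 1, 2, 1, 1, 3, 9, 0, 9, 14, 6, 0, 22, 2, 3, 0, 0, 0, 8, 0, 0, 0, 1, 1, 0, 1, 3, 0, 3, 2, 5, 1, 1, 0, 1, 1, 0, 0, 0, 19, 1, 2, 1, 0, 1, 5, 0, 5, 1, 3, 1, 8, 6, 1, 16, 0, 1, 1, 6, 13, 9, 736, 58, 5, 0] (.cons 0 19 0 0 0 (.cons 11 2 0 .nil) [4, 1, 141] (.cons 2 3 0 0 0 (.cons 0 42 1 .nil) [164, 3, 41,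 1, 100, 48, 0, 0, 48, 12, 0, 1, 0, 0, 12, 7, 6, 0, 1, 10, 1, 1, 1, 2, 3, 1, 4, 0, 13, 1, 3, 3, 4, 23, 4, 30, 32, 24, 0, 5, 0, 1, 5, 1, 3, 1, 0, 0, 0, 5, 1, 0, 8, 3, 7, 7, 1, 2, 0, 1, 1, 0, 0, 2, 0, 20, 1, 9, 1, 0, 0, 3, 1, 1, 1, 0, 0, 5, 4, 0, 3, 9, 0, 0, 3, 5, 1, 0, 1, 1, 0, 0, 4, 0, 0, 2, 3, 1, 1, 10, 0, 5, 4, 18, 0, 9, 1, 21, 0, 19, 2, 21, 0, 1, 0, 1, 0, 12, 2, 1, 1, 0, 10, 1, 1, 28, 110, 18, 8, 0, 5, 3, 0, 1, 6, 0, 1, 1, 14, 3, 8, 0, 2, 2, 7, 0, 10, 1, 32, 8, 6, 1, 21] (.cons 2 21 0 0 0 (.cons 0 41 0 .nil) [16, 18, 31, 20, 3, 3, 4, 53, 1, 0, 4, 0, 1, 21, 0, 3, 1, 0, 0, 3, 0, 5, 3, 5, 0, 9, 0, 4, 3, 1, 3, 0, 2, 1, 26, 1, 12, 0,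 3, 2, 8, 8, 17, 3, 1, 1, 1, 1, 1, 0, 4, 3, 14, 15, 2, 6, 0, 0, 0, 0, 4, 0, 2, 6, 3, 0, 1, 3, 4, 12, 3, 0, 0, 0, 0, 3, 3, 1, 1, 11, 1, 1, 3, 3, 4, 9, 13, 5, 4, 18, 0, 1, 1, 22, 4, 3, 9, 0, 1, 0, 5, 1, 3, 1, 1, 0, 1, 4, 2, 0, 1, 3, 0, 4, 0, 3, 1, 3, 6, 1, 3, 1, 1, 5, 1, 0, 0, 3, 3, 0, 0, 1, 0, 6, 1, 0, 13, 3, 1, 3, 1, 1, 3, 1, 1, 1, 1, 0, 5, 5, 0, 3, 10, 0, 1, 1, 2, 2, 0, 1, 1, 1, 1, 1, 1, 1, 3, 4, 0, 3, 1, 4, 3, 3, 2, 4, 14, 4, 1, 0, 1, 0, 0, 3, 1, 0, 4, 3, 0, 1, 0, 1, 1, 2, 4, 2, 3, 2, 4, 0, 6, 3, 2, 1, 1, 1, 3, 0, 1, 3, 1, 1, 2, 5, 5, 0, 2, 0, 2, 0, 0, 0, 4, 0, 0, 5, 4, 15, 1, 33, 5, 2, 14, 7, 1, 17, 5, 0, 0, 2, 0, 1, 3, 0, 8, 4,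 0, 3, 0, 0, 1, 1, 2, 3, 1, 1, 2, 1, 0, 2, 2, 1, 4, 0, 1, 3, 0, 3, 0, 1, 0, 0, 0, 0, 6, 7, 0, 1, 11, 0, 2, 5, 1, 3, 2, 0, 1, 0, 2, 0, 2, 0, 5, 1, 1, 2, 11, 6, 0, 0, 0, 1, 7] (.cons 1 0 0 0 0 (.cons 9 7 0 .nil) [14, 1, 11, 7, 5, 0, 8, 0, 20, 15, 5, 1, 2, 0, 4, 1, 19, 20, 1, 3, 4, 3, 0, 12, 5, 4, 3, 0, 5, 1, 0, 2, 5, 4, 13, 1, 2, 2, 0, 5, 6, 11, 2, 0, 4, 0, 1, 14, 0, 1, 0, 18, 25, 2, 3, 41, 15, 1, 5, 12, 0, 4, 0, 12, 1, 1, 4, 1, 0, 0, 7, 2, 3, 4, 8, 6, 12, 0, 4, 8, 1, 1, 1, 1, 1, 0, 2, 1, 3, 0, 3, 0, 3, 0, 1, 0, 1, 1, 2, 1, 1, 1, 0, 3, 3, 0, 4, 6, 0, 8, 0, 0, 0, 4, 4, 1, 1, 5, 1, 2, 4, 1, 1, 0, 0, 0, 3, 0, 0, 0, 3, 3, 1, 2, 1, 5, 1,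 0, 1, 5, 0, 1, 1, 0, 0, 0, 3, 1, 0, 2, 0, 1, 0, 3, 1, 1, 0, 0, 2, 1, 0, 1, 0, 0, 1, 2, 5, 1, 2, 5, 10, 3, 5, 0, 0, 0, 2, 4, 4, 2, 3, 2, 1, 1, 1, 1, 1, 0, 1, 0, 0, 8, 1, 5, 3, 3, 3, 7, 0, 0, 0, 2, 2, 2, 0, 3, 1, 0, 1, 0, 3, 3, 5, 2, 3, 1, 6, 0, 0, 1, 2, 1, 0, 3, 0, 1, 0, 5, 1, 0, 1, 1, 1, 3, 1, 0, 3, 2, 0, 1, 2, 1, 1, 1, 9, 1, 3, 3, 1, 1, 7, 1, 0, 3, 0, 17, 0, 4, 1, 3, 1, 2, 2, 1, 1, 0, 1, 5, 4, 0, 10, 5, 2, 1, 5, 0, 5, 2, 1, 1, 0, 2, 0, 0, 0, 3, 0, 0, 0, 2, 3, 0, 6, 0, 0, 1, 0, 0, 1, 3, 1, 1, 1, 1, 1, 3, 3, 4, 0, 1, 3, 0, 3, 1, 2, 3, 1, 0, 0, 0, 1, 3, 3, 7, 3, 0, 0, 1, 2, 0, 3, 0, 5, 5, 0, 1, 1, 2, 2, 6, 1, 1, 2, 1, 4, 5, 0] (.cons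 1 0 0 0 0 (.cons 11 0 0 .nil) [4, 1, 0, 9, 2, 3, 0, 0, 0, 1, 2, 0, 28, 2, 7, 5, 1, 8, 0, 4, 1, 4, 1, 0, 12, 20, 3, 2, 7, 2, 1, 13, 2, 0, 0, 1, 1, 1, 0, 3, 0, 0, 0, 3, 0, 3, 0, 4, 0, 1, 2, 0, 2, 0, 3, 1, 1, 1, 1, 1, 0, 2, 2, 1, 3, 8, 3, 0, 1, 3, 0, 1, 3, 0, 3, 1, 0, 2, 4, 8, 10, 1, 0, 1, 0, 1, 6, 0, 4, 2, 1, 2, 7, 3, 6, 1, 3, 9, 7, 0, 0, 2, 2, 1, 2, 0, 1, 1, 1, 0, 0, 1, 0, 0, 1, 1, 1, 1, 1, 1, 1, 0, 1, 0, 4, 2, 0, 2, 1, 3, 3, 14, 3, 9, 5, 1, 0, 1, 5, 0, 1, 0, 1, 4, 1, 4, 1, 2, 1, 3, 1, 3, 0, 3, 1, 1, 3, 3, 4, 3, 3, 1, 0, 4, 2, 1, 1, 2, 4, 2, 0, 1, 1, 0, 0, 0, 1, 1, 1, 3, 1, 1, 2, 2, 0, 1, 0, 1, 2, 0, 0, 1, 8, 0, 3, 1, 0, 0, 0, 4,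 3, 0, 3, 3, 5, 1, 1, 1, 1, 2, 0, 0, 1, 5, 1, 3, 2, 3, 3, 1, 1, 4, 0, 0, 1, 4, 2, 0, 1, 5, 0, 2, 3, 2, 7, 3, 3, 0, 0, 0, 2, 1, 1, 3, 0, 1, 4, 8, 1, 0, 1, 1, 1, 0, 0, 5, 3, 1, 1, 1, 0, 8, 0, 3, 0, 0, 2, 0, 0, 0, 1, 1, 0, 7, 0, 3, 1, 0, 4, 1, 2, 4, 2, 2, 1, 5, 0, 2, 3, 4, 1, 1, 2, 0, 2, 2, 1, 4, 0, 0, 1, 2, 0, 3, 0, 3, 1, 9, 1, 0, 1, 4, 7, 0, 5, 1, 0, 2, 0, 0, 3, 0, 3, 3, 0, 3, 0, 0, 2, 3, 1, 2, 2, 0, 6, 0, 0, 3, 2, 0, 0, 6, 0, 4, 1, 0, 0, 1, 1, 1, 0, 2, 6, 0, 1, 1, 3, 2, 3, 2, 1, 1, 2, 0, 0, 1, 1, 1, 2, 0, 2, 1, 0, 3, 1, 1, 1, 0, 1, 1, 1, 0, 1, 8, 1, 3, 3, 0, 1, 1, 0, 9, 1, 2, 0, 3, 1, 0, 0, 5, 1, 5, 10, 4, 0, 0, 0, 0, 0, 7, 1] (.cons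 1 0 0 0 0 (.cons 11 1 0 .nil) [5, 1, 2, 6, 3, 0, 3, 1, 3, 0, 3, 0, 2, 3, 0, 21, 7, 4, 0, 1, 2, 4, 0, 3, 7, 17, 20, 5, 0, 1, 1, 0, 3, 0, 1, 12, 3, 1, 0, 0, 3, 1, 5, 1, 1, 0, 1, 4, 0, 0, 3, 3, 0, 3, 2, 3, 2, 3, 0, 2, 3, 3, 0, 1, 0, 9, 1, 2, 1, 3, 1, 1, 11, 1, 3, 5, 13, 6, 1, 3, 0, 0, 1, 0, 0, 0, 0, 4, 1, 7, 6, 11, 1, 3, 1, 5, 4, 0, 0, 0, 1, 1, 0, 0, 0, 3, 2, 5, 1, 1, 2, 4, 5, 3, 1, 0, 1, 0, 0, 1, 1, 1, 1, 0, 1, 0, 2, 1, 1, 16, 1, 3, 5, 0, 6, 0, 4, 3, 2, 2, 1, 0, 2, 2, 2, 1, 2, 0, 0, 0, 0, 0, 1, 1, 1, 1, 2, 4, 0, 1, 0, 6, 6, 2, 1, 0, 2, 0, 0, 2, 3, 2, 1, 0, 0, 0, 0, 6, 3, 0, 1, 0, 0, 1, 7, 1, 2, 1, 1, 1, 1, 0, 4, 1, 1, 0, 1, 1, 3, 1,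 0, 1, 3, 1, 1, 0, 3, 0, 0, 0, 5, 0, 1, 0, 3, 1, 1, 3, 5, 1, 1, 0, 1, 1, 1, 0, 0, 2, 4, 0, 0, 1, 1, 2, 1, 0, 4, 1, 2, 1, 3, 1, 1, 3, 2, 1, 0, 1, 0, 0, 3, 1, 0, 1, 5, 3, 1, 1, 1, 1, 3, 1, 2, 0, 2, 4, 5, 1, 3, 5, 1, 0, 1, 5, 0, 1, 2, 1, 0, 0, 0, 4, 3, 0, 1, 1, 1, 0, 5, 3, 3, 1, 1, 1, 5, 0, 0, 2, 1, 0, 3, 0, 8, 3, 0, 3, 1, 2, 1, 1, 0, 3, 0, 0, 3, 1, 1, 3, 2, 1, 2, 1, 1, 5, 3, 1, 2, 1, 1, 2, 2, 2, 0, 2, 1, 2, 0, 0, 2, 0, 7, 0, 0, 3, 0, 1, 3, 1, 6, 0, 1, 0, 3, 1, 3, 0, 0, 2, 0, 1, 1, 0, 0, 1, 4, 1, 0, 0, 2, 0, 1, 2, 5, 1, 0, 1, 2, 1, 0, 3, 1, 2, 0, 1, 5, 2, 1, 2, 1, 4, 3, 3, 2, 0, 7, 3, 0, 2, 0, 1, 1, 0, 4, 4, 0, 0, 1, 5, 3, 5, 2, 1, 1,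 1, 1, 2, 1, 1, 4, 1, 0, 1, 1, 1, 1, 8, 0] .nil))))))),
  (.cons 0 20 1 1 0 (.cons 5 38 0 .nil) [15, 3, 4, 14, 9, 9, 2, 0, 1, 2, 0, 2, 6, 2, 7, 5, 16, 79, 8, 28, 2, 1, 0, 1, 7, 2, 9, 56, 0, 4, 1, 18, 0, 0, 1, 20, 2, 0, 0, 534, 94, 1, 97, 0, 5, 99] (.cons 0 9 1 0 0 (.cons 11 1 0 .nil) [3, 143, 5, 144, 129] .nil)),
  (.cons 2 4 0 0 0 (.cons 0 43 1 .nil) [51, 137, 1, 20, 1, 21, 3, 4, 0, 118, 50, 24, 5, 15, 18, 8, 10, 1, 1, 5, 4, 12, 73, 7, 0, 4, 13, 3, 4, 0, 8, 20, 2, 2, 5, 0, 1, 0, 0, 0, 1, 2, 0, 3, 1, 9, 0, 1, 0, 0, 1, 1, 1, 1, 0, 0, 1, 0, 0, 0, 3, 2, 2, 0, 0, 2, 3, 0, 5, 6, 0, 2, 1, 0, 1, 1, 2, 8, 0, 5, 5, 0, 0, 5, 1, 2, 11, 12, 0,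 2, 4, 0, 1, 2, 1, 0, 0, 3, 4, 0, 4, 1, 0, 0, 4, 0, 1, 2, 9, 4, 0, 1, 3, 1, 0, 1, 1, 0, 18, 2, 1, 0, 3, 1, 0, 0, 0, 1, 3, 1, 0, 7, 0, 3, 17, 1, 3, 0, 1, 2, 0, 2, 3, 2, 12, 1, 0, 1, 1, 3, 0, 0, 3, 1, 5, 0, 2, 0, 7, 0, 26, 0, 30, 0, 8, 1, 23, 4, 5, 13, 8, 2, 1, 1, 2, 0, 0, 4, 13, 5, 0, 0, 0, 0, 1, 5, 0, 1, 3, 0, 2, 1, 0, 1, 0, 3, 5, 2, 0, 0, 0, 0, 1, 0, 3, 1, 10, 2, 0, 6, 0, 4, 1, 1, 0, 13, 2, 1, 0, 1, 2, 1, 0, 3, 12, 2, 10, 8, 2, 2, 0] (.cons 1 0 0 0 0 (.cons 9 10 0 .nil) [18, 21, 0, 3, 5, 3, 7, 6, 12, 2, 15, 4, 20, 5, 4, 1, 3, 7, 1, 4, 2, 1, 8, 0, 1, 1, 0, 1, 3, 0, 2, 1, 4, 2, 0, 0, 0, 8, 3, 1, 1, 3, 2, 3, 14, 0, 11, 15, 3, 3, 6,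 1, 3, 4, 2, 1, 0, 0, 2, 1, 1, 7, 13, 6, 5, 1, 15, 23, 17, 5, 0, 4, 5, 4, 0, 8, 1, 1, 6, 6, 3, 4, 2, 3, 5, 1, 1, 0, 14, 2, 25, 1, 1, 6, 4, 12, 1, 4, 0, 5, 2, 1, 0, 1, 0, 1, 0, 2, 5, 0, 0, 1, 1, 0, 2, 2, 2, 0, 1, 1, 8, 5, 0, 2, 0, 1, 0, 0, 1, 1, 0, 1, 1, 9, 0, 0, 1, 0, 4, 4, 5, 13, 6, 3, 2, 0, 0, 1, 0, 7, 1, 1, 11, 3, 0, 0, 1, 0, 3, 3, 0, 0, 3, 3, 9, 2, 0, 1, 2, 0, 3, 0, 1, 0, 0, 1, 1, 1, 0, 0, 0, 0, 4, 1, 0, 1, 10, 1, 2, 1, 1, 0, 1, 1, 1, 1, 2, 1, 5, 1, 1, 0, 0, 1, 0, 2, 2, 1, 0, 1, 0, 0, 0, 1, 0, 0, 8, 3, 1, 1, 0, 0, 3, 1, 0, 1, 3, 0, 1, 2, 3, 3, 2, 0, 2, 5, 0, 3, 1, 0, 5, 0, 2, 0, 1, 1, 1, 2, 1, 1, 3, 6, 0, 1, 2, 1, 0, 0, 1, 0,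 3, 3, 1, 0, 0, 1, 9, 1, 0, 0, 9, 1, 0, 5, 0, 1, 1, 0, 1, 7, 5, 0, 1, 3, 0, 2, 0, 2, 8, 0, 2, 1, 12, 5, 0, 7, 0, 1, 3, 0, 1, 1, 3, 1, 1, 1, 4, 0, 1, 3, 0, 0, 1, 1, 0, 3, 2, 2, 3, 1, 0, 0, 3, 3, 1, 0, 3, 0, 1, 3, 5, 0, 4, 4, 2, 1, 1, 1, 1, 2, 3, 0, 0, 0, 1, 1, 1, 0, 1, 1, 0, 1, 1, 2, 0, 0, 1, 2, 0, 0, 1, 0, 7, 2, 0, 1, 1, 3, 1, 10, 0, 3, 3, 2, 3, 1, 6, 1, 3, 1, 3, 1, 1, 0, 4, 3, 1, 1, 7] (.cons 1 0 0 0 0 (.cons 11 0 0 .nil) [4, 8, 0, 4, 6, 2, 14, 0, 3, 3, 22, 2, 52, 0, 19, 0, 4, 4, 4, 3, 1, 1, 1, 7, 5, 0, 0, 1, 0, 6, 11, 1, 1, 0, 1, 1, 1, 3, 0, 3, 3, 9, 1, 17, 2, 0, 5, 5, 5, 1, 0, 3, 5, 0, 1, 0, 0, 5, 17, 2, 0, 3, 1, 5, 0, 34, 3, 2,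 3, 7, 3, 2, 5, 3, 1, 4, 3, 2, 1, 1, 4, 0, 1, 2, 3, 2, 1, 5, 0, 1, 0, 0, 1, 1, 5, 2, 1, 2, 1, 2, 24, 1, 1, 1, 1, 2, 3, 4, 7, 1, 4, 4, 1, 2, 0, 0, 0, 0, 1, 2, 0, 5, 1, 2, 1, 8, 2, 1, 2, 0, 2, 0, 0, 2, 8, 0, 1, 5, 1, 0, 0, 0, 0, 4, 0, 2, 1, 1, 0, 2, 3, 1, 1, 2, 0, 1, 1, 3, 3, 0, 2, 2, 2, 2, 3, 1, 2, 0, 0, 0, 1, 1, 0, 0, 1, 2, 0, 5, 2, 1, 4, 5, 0, 1, 1, 1, 5, 1, 1, 0, 1, 2, 0, 4, 1, 2, 1, 1, 0, 4, 2, 1, 1, 1, 1, 1, 3, 0, 4, 0, 3, 0, 1, 0, 0, 0, 3, 1, 3, 0, 0, 1, 5, 1, 1, 0, 3, 5, 1, 1, 0, 0, 5, 1, 1, 0, 1, 0, 3, 0, 0, 1, 0, 1, 1, 3, 11, 2, 11, 0, 1, 1, 1, 1, 4, 0, 2, 1, 4, 1, 1, 11, 2, 3, 1, 3, 1, 8, 1, 0, 1, 0, 2, 1, 1, 0, 4, 0, 1,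 1, 0, 2, 0, 0, 6, 1, 1, 1, 18, 3, 1, 3, 0, 4, 15, 3, 1, 4, 1, 3, 1, 3, 0, 15, 0, 5, 1, 1, 14, 8, 0, 1, 1, 3, 5, 0, 1, 1, 0, 5, 0, 1, 0, 1, 0, 2, 5, 1, 2, 2, 0, 1, 1, 6, 1, 1, 2, 3, 0, 2, 0, 0, 1, 1, 1, 5, 3, 0, 2, 1, 1, 1, 1, 1, 1, 4, 0, 2, 1, 1, 1, 0, 1, 1, 1, 4, 4, 0, 3, 2, 0, 1, 1, 2, 0, 0, 2, 0, 1, 3, 2, 7, 0, 7, 0, 1, 1, 1, 0, 9, 0, 0, 4] .nil))),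
  .nil,
  (.cons 0 9 2 0 0 (.cons 11 2 0 .nil) [155, 5, 11, 72, 48, 8, 90, 47, 5] (.cons 1 0 0 0 0 (.cons 6 0 0 .nil) [6, 0, 5, 1, 3, 3, 0, 0, 33, 9, 3, 1, 3, 1, 4, 20, 6, 1, 3, 0, 3, 0, 0, 9, 7, 9, 7, 7, 0, 5, 4, 6, 3, 0, 1, 1, 0, 1, 1, 1, 2, 8, 1, 10, 2, 1, 2, 2, 1, 0, 3, 3, 2, 3, 0, 0, 0, 1, 2, 0, 1, 16, 0, 4, 0, 7, 0, 5, 1, 9, 2, 1, 1, 1, 0, 2, 3, 7, 2, 3, 2, 1, 8, 8, 0, 1, 1, 0, 6, 3, 5, 0, 0, 9, 8, 3, 6, 1, 0, 0, 0, 2, 1, 1, 4, 1, 0, 2, 0, 1, 5, 7, 0, 0, 0, 1, 7, 2, 2, 1, 0, 3, 5, 0, 4, 3, 0, 3, 1, 0, 7, 3, 3, 0, 1, 21, 0, 0, 3, 0, 3, 0, 4, 1, 0, 1, 1, 4, 1, 2, 3, 3, 1, 1, 0, 7, 0, 8, 3, 3, 0, 0, 0, 1, 1, 0, 0, 0, 0, 0, 2,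 4, 0, 0, 0, 0, 0, 9, 1, 0, 3, 0, 0, 0, 0, 0, 0, 0, 3, 1, 1, 0, 1, 0, 2, 0, 3, 0, 5, 2, 1, 1, 0, 3, 0, 2, 1, 5, 3, 0, 1, 2, 3, 0, 2, 0, 2, 0, 1, 4, 5, 3, 0, 3, 0, 1, 3, 1, 1, 3, 1, 0, 0, 1, 2, 3, 1, 1, 13, 1, 4, 0, 1, 1, 1, 1, 0, 1, 0, 0, 2, 0, 3, 0, 2, 3, 0, 1, 0, 1, 5, 1, 1, 2, 3, 6, 4, 0, 2, 1, 2, 1, 1, 1, 0, 1, 0, 2, 0, 1, 1, 0, 5, 3, 2, 0, 1, 3, 0, 0, 1, 0, 6, 2, 0, 0, 0, 1, 1, 3, 1, 5, 0, 0, 0, 0, 0, 1, 1, 2, 5, 2, 1, 0, 2, 0, 2, 0, 6, 3, 6, 1, 3, 2, 1, 5, 0, 3, 1, 1, 2, 0, 0, 8, 2, 5, 1, 2, 3, 0, 0, 4, 4, 1, 0, 2, 4, 0, 3, 0, 0, 3, 1, 0, 3, 6, 0, 0, 1, 0, 3, 2, 1, 12, 8, 2, 0, 0, 1, 6, 1, 0, 0, 1, 0, 1, 0, 1, 1, 0, 2, 1, 0,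 1, 1, 3, 1, 0, 0, 1, 0, 4, 3, 0, 0, 2, 2, 1, 1, 0, 0, 1, 1, 1, 0, 2, 1, 3, 2, 1, 1, 0, 0, 0, 3, 0, 0, 3, 4, 0, 3, 11, 0, 2, 3, 1, 2, 3, 2, 0, 3, 3, 1, 2, 3, 1, 9, 0, 1, 1, 3, 3, 0, 0, 3, 1, 0, 2, 5, 0, 1, 0, 0, 0, 0, 0, 0, 0, 3, 4, 0, 3, 1, 3, 0] .nil)),
  (.cons 2 5 0 0 0 (.cons 0 44 0 .nil) [24, 49, 65, 308, 104, 29, 83, 7, 70, 1, 0, 1, 2, 6, 1, 0, 2, 1, 1, 1, 7, 1, 3, 1, 5, 1, 8, 1, 0, 4, 0, 2, 3, 1, 1, 4, 0, 2, 10, 2, 0, 7, 1, 1, 3, 5, 8, 3, 2, 0, 1, 0, 0, 7, 1, 1, 1, 0, 0, 5, 0, 1, 0, 0, 2, 6, 11, 4, 0, 4, 6, 0, 3, 2, 2, 2, 1, 1, 1, 0, 0, 3, 1, 0, 0, 1, 9, 1, 0, 0, 1, 3, 19, 0, 4, 0, 2, 5, 6, 0, 3, 3, 5, 6, 3, 1, 1, 3, 2, 1,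 33, 0, 1, 8, 2, 3, 1, 14, 0, 1, 2, 1, 1, 0, 0, 1, 2, 0, 0, 0, 8, 0, 3, 21, 117, 2, 17, 3, 0, 4, 6, 0, 1, 4, 0, 3, 4, 1, 0, 0, 5, 1, 1, 5, 1, 0, 0, 3, 2, 3, 1, 1, 5, 3, 3, 0, 1, 5, 16, 0, 15, 8, 0, 7, 1, 0, 0, 15, 5, 1, 0, 0, 2, 18, 12, 10, 1, 2, 2, 3, 22] (.cons 2 22 0 0 0 (.cons 0 45 0 .nil) [23, 1, 1, 12, 14, 0, 0, 0, 1, 0, 4, 1, 1, 64, 13, 4, 19, 10, 3, 1, 0, 8, 0, 3, 17, 5, 24, 5, 2, 4, 3, 6, 0, 1, 2, 13, 33, 0, 1, 29, 0, 1, 1, 0, 61, 1, 1, 1, 14, 6, 1, 4, 0, 7, 1, 8, 1, 1, 4, 4, 0, 1, 2, 1, 0, 0, 1, 0, 3, 2, 3, 0, 2, 0, 0, 1, 6, 1, 3, 1, 0, 32, 7, 4, 8, 20, 0, 3, 16, 21, 0, 1, 1, 0, 0, 0, 0, 2, 14, 7, 0, 2, 4, 0, 4, 3, 1, 1,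 1, 1, 3, 0, 1, 0, 0, 0, 3, 3, 1, 0, 1, 5, 0, 0, 2, 1, 1, 1, 1, 4, 0, 15, 2, 0, 4, 1, 3, 0, 3, 5, 1, 1, 2, 3, 2, 0, 8, 0, 2, 3, 5, 2, 2, 1, 13, 3, 2, 0, 0, 1, 0, 1, 1, 5, 4, 0, 0, 0, 1, 0, 1, 1, 3, 1, 2, 1, 3, 0, 1, 1, 1, 2, 3, 0, 3, 0, 1, 1, 5, 14, 0, 1, 0, 2, 6, 5, 2, 2, 0, 3, 3, 5, 6, 1, 1, 1, 1, 3, 5, 1, 1, 0, 1, 17, 0, 1, 1, 2, 3, 1, 4, 3, 1, 0, 1, 1, 1, 0, 2, 4, 2, 1, 0, 1, 1, 0, 4, 1, 1, 3, 0, 0, 0, 0, 9, 4, 13, 1, 2, 1, 7, 2, 24, 1, 2, 0, 0, 12, 1, 0, 0, 20, 9, 1, 5, 2, 1, 0, 3, 2, 0, 0, 3, 0, 0, 1, 1, 0, 0, 0, 0, 0, 3, 1, 1, 0, 1, 0, 0, 0, 1, 1, 0, 1, 0, 0, 2, 2, 1, 0, 0, 3, 1, 7, 2, 1, 1, 2, 1, 1, 1, 1, 1, 0, 2, 2, 0, 4,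 0, 1, 0, 3, 1, 0, 0, 3, 1, 2, 0, 0, 0, 0, 1, 1, 0, 1, 1, 0, 1, 0, 0, 3, 1, 0, 0, 2, 1, 1, 0, 2, 5, 0, 0, 1, 3, 6, 1, 1, 1, 0, 0, 5, 8, 0, 2, 1, 0, 0, 0, 0, 4, 1, 1, 13, 0, 1, 0, 0, 1] (.cons 1 0 0 0 0 (.cons 11 2 0 .nil) [4, 0, 2, 0, 10, 1, 3, 0, 1, 0, 4, 4, 1, 1, 2, 0, 1, 2, 1, 0, 1, 3, 3, 1, 0, 0, 6, 1, 0, 24, 0, 0, 1, 4, 0, 3, 8, 2, 2, 3, 1, 1, 0, 12, 0, 7, 2, 5, 0, 3, 0, 1, 2, 0, 4, 0, 0, 14, 5, 1, 2, 0, 0, 3, 5, 3, 1, 0, 1, 7, 4, 2, 0, 5, 6, 0, 25, 4, 1, 0, 1, 11, 1, 5, 4, 0, 1, 8, 0, 0, 3, 0, 1, 4, 1, 2, 0, 6, 9, 13, 8, 1, 3, 1, 9, 3, 5, 5, 0, 0, 1, 0, 1, 3, 1, 0, 0, 1, 0, 1, 0, 1, 1, 1, 3, 0, 3, 1, 2, 0, 0, 0, 3, 0, 0, 0,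 1, 1, 4, 0, 1, 3, 4, 3, 0, 1, 0, 0, 1, 1, 0, 5, 2, 0, 4, 3, 1, 1, 9, 0, 1, 4, 2, 0, 1, 0, 1, 1, 1, 0, 2, 0, 0, 3, 1, 6, 1, 1, 2, 2, 1, 0, 0, 1, 0, 0, 3, 0, 1, 1, 1, 3, 5, 5, 0, 0, 2, 1, 0, 1, 1, 6, 5, 3, 2, 1, 0, 7, 1, 2, 1, 3, 0, 2, 1, 1, 0, 5, 0, 0, 1, 0, 1, 0, 1, 3, 4, 0, 1, 0, 1, 0, 2, 0, 0, 1, 3, 0, 0, 0, 1, 3, 1, 0, 1, 0, 0, 2, 0, 1, 1, 1, 0, 0, 1, 1, 3, 1, 1, 3, 0, 2, 8, 0, 1, 2, 5, 0, 0, 1, 1, 1, 0, 1, 1, 3, 1, 3, 1, 1, 1, 0, 0, 0, 1, 1, 3, 0, 3, 2, 1, 1, 1, 4, 0, 3, 3, 2, 0, 0, 2, 1, 5, 1, 3, 3, 1, 6, 1, 1, 0, 3, 1, 4, 0, 0, 1, 0, 1, 0, 1, 5, 1, 1, 0, 0, 0, 3, 0, 1, 0, 2, 1, 1, 0, 0, 1, 1, 2, 2, 3, 5, 0, 2, 2, 0, 9, 1, 2,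 0, 3, 1, 4, 1, 1, 1, 0, 6, 0, 0, 2, 1, 0, 0, 1, 1, 0, 8, 1, 0, 4, 1, 1, 1, 2, 5, 2, 0, 0, 12, 0, 1, 3, 3, 8, 0, 0, 2, 3, 1, 1, 0, 1, 2, 2, 0, 0, 0, 3, 3, 5, 2, 0, 1, 5, 0, 4, 0, 0, 0, 0, 2, 0, 3, 0, 4, 0, 2, 0, 6, 3, 7, 0, 1, 0, 5, 0, 1, 1, 1, 1, 0, 1, 2, 5, 1, 1, 4, 1, 1, 0, 3, 0, 0, 1, 1, 2, 1, 0, 3, 1, 0, 9, 1, 6, 5, 1, 0, 0, 2, 0, 3, 2, 1, 5, 0, 0, 2, 3, 1, 0, 3, 0, 3, 4, 0, 0, 1, 1, 0, 0, 2, 2, 2, 3, 0, 0, 1, 0, 3, 1, 5, 0, 1, 4, 2, 0, 0, 2, 0, 1, 0, 2, 0, 1, 3, 2, 0, 7, 1, 1, 1, 3, 3] .nil)))]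

theorem ok3 : run B sp W3 W4 G3 Y3 Y4 542 K3 D3 = true := by decide +kernel

end Vale.Agent.P236K.Cert.Pl.P96
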