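import Vale.Agent.P236K.P96.B
import Vale.Agent.P236K.P96.A4
import Vale.Agent.P236K.P96.A5

/-!
# P236K / P96 / R4 : the check of degree 4
-/

noncomputable section

namespace Vale.Agent.P236K.Cert.Pl.P96

/-- rows given by data -/
noncomputable def D4 : List DL := [.nil,
  .nil,
  .nil,
  .nil,
  .nil,
  .nil,
  .nil,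
  (.cons 2 0 0 0 0 (.cons 0 0 0 .nil) [] .nil),
  .nil,
  (.cons 2 0 0 0 0 (.cons 0 1 0 .nil) [] (.cons 1 0 0 0 0 (.cons 5 0 0 .nil) [] .nil)),
  (.cons 0 1 0 0 0 (.cons 9 0 0 .nil) [1] .nil),
  (.cons 2 1 0 0 0 (.cons 0 2 0 .nil) [] (.cons 1 0 0 0 0 (.cons 5 0 0 .nil) [4] .nil)),
  .nil,
  (.cons 2 2 0 0 0 (.cons 0 3 0 .nil) [] (.cons 1 0 0 0 0 (.cons 9 0 0 .nil) [2, 2] .nil)),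
  .nil,
  (.cons 2 0 0 0 0 (.cons 0 4 0 .nil) [] (.cons 1 0 0 0 0 (.cons 9 0 0 .nil) [2, 1, 1, 3] .nil)),
  (.cons 0 3 0 0 0 (.cons 10 0 0 .nil) [5] .nil),
  (.cons 1 0 0 0 0 (.cons 9 0 0 .nil) [3, 1, 2, 3] .nil),
  (.cons 0 1 0 0 0 (.cons 10 0 0 .nil) [1] (.cons 2 3 0 0 0 (.cons 0 5 1 .nil) [0, 7, 5] .nil)),
  (.cons 0 4 0 0 0 (.cons 9 1 0 .nil) [6] (.cons 1 0 0 0 0 (.cons 9 0 0 .nil) [1, 7, 0, 1, 0, 0] .nil)),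
  (.cons 2 4 0 0 0 (.cons 0 6 1 .nil) [] .nil),
  (.cons 0 2 0 0 0 (.cons 9 1 0 .nil) [5] (.cons 1 0 0 0 0 (.cons 9 0 0 .nil) [8, 2, 1, 0] .nil)),
  (.cons 2 5 0 0 0 (.cons 0 7 1 .nil) [] .nil),
  (.cons 1 0 0 0 0 (.cons 9 0 0 .nil) [10, 2] .nil),
  (.cons 2 3 0 0 0 (.cons 0 8 0 .nil) [15, 8, 3] .nil),
  (.cons 0 6 0 0 0 (.cons 9 0 0 .nil) [] (.cons 1 0 0 0 0 (.cons 10 0 0 .nil) [1, 12, 1, 0, 0, 0, 3, 1, 2, 1, 0] .nil)),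
  (.cons 2 1 0 0 0 (.cons 0 9 1 .nil) [1, 6, 4, 12, 1, 11] .nil),
  (.cons 0 4 0 0 0 (.cons 10 0 0 .nil) [2] (.cons 1 0 0 0 0 (.cons 10 1 0 .nil) [0, 2, 0, 2, 0, 0, 0, 3, 0, 10, 0, 2, 2, 0] .nil)),
  (.cons 0 6 1 0 0 (.cons 9 0 0 .nil) [] .nil),
  (.cons 0 2 0 0 0 (.cons 10 1 0 .nil) [2] .nil),
  (.cons 0 5 0 0 0 (.cons 9 2 0 .nil) [12] (.cons 2 6 0 0 0 (.cons 0 10 0 .nil) [18, 13] .nil)),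
  (.cons 2 7 0 0 0 (.cons 0 11 0 .nil) [] .nil),
  (.cons 0 3 0 0 0 (.cons 9 0 0 .nil) [19] .nil),
  (.cons 2 0 0 0 0 (.cons 0 13 0 .nil) [22, 32, 6, 1] (.cons 2 8 0 0 0 (.cons 0 12 0 .nil) [61, 4] (.cons 1 0 0 0 0 (.cons 10 1 0 .nil) [5, 0, 0, 3, 0, 4, 4, 7, 0, 4, 0, 3, 8, 0, 0, 0, 3, 1, 5] .nil))),
  (.cons 1 0 0 0 0 (.cons 11 0 0 .nil) [4, 19, 4, 1, 0, 1, 1, 6, 3, 1, 3, 0, 1, 4, 1, 0, 1, 0, 0, 0, 2, 0] .nil),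
  (.cons 0 4 0 0 0 (.cons 10 0 0 .nil) [] (.cons 2 1 0 0 0 (.cons 0 14 0 .nil) [68] .nil)),
  (.cons 0 5 2 0 0 (.cons 9 3 0 .nil) [39, 3, 5, 8] (.cons 2 6 0 0 0 (.cons 0 15 1 .nil) [13, 16, 1, 12, 6, 21, 4] (.cons 1 0 0 0 0 (.cons 11 0 0 .nil) [3, 3, 3, 1, 0, 15, 1, 3, 2, 0, 0, 0, 5, 1, 1, 6, 1, 1, 2, 1, 1, 1, 1, 1, 1, 1, 0, 0, 3, 5, 0] .nil))),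
  (.cons 2 2 0 0 0 (.cons 0 16 0 .nil) [0, 1, 1, 1, 8, 11, 20, 2, 3, 1, 3, 1, 9, 0, 0, 1, 1, 3, 4, 1, 5, 0, 1, 2] .nil),
  (.cons 0 5 0 0 0 (.cons 10 1 0 .nil) [0] (.cons 1 0 0 0 0 (.cons 11 0 0 .nil) [0, 3, 1, 0, 1, 5, 4, 1, 0, 0, 1, 1, 0, 4, 4, 3, 1, 1, 4, 4, 0, 3, 1, 1, 2, 7, 4, 1, 0, 0, 1, 1, 2, 3, 0, 0, 1] .nil)),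
  (.cons 2 3 0 0 0 (.cons 0 17 0 .nil) [36, 1, 1, 5, 1, 9, 0, 40] (.cons 1 0 0 0 0 (.cons 10 0 0 .nil) [6, 27, 5, 3, 2, 1, 4, 12, 5, 0, 2, 9, 0, 0, 0, 0, 11, 3, 3] .nil)),
  (.cons 0 10 0 0 0 (.cons 11 0 0 .nil) [0, 3, 22, 5] .nil),
  (.cons 0 5 1 0 0 (.cons 9 1 0 .nil) [11, 2, 14, 30] .nil),
  (.cons 0 4 0 0 0 (.cons 11 0 0 .nil) [1, 5] (.cons 2 9 0 0 0 (.cons 0 18 1 .nil) [47, 5, 47, 6, 1, 0] .nil)),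
  .nil,
  (.cons 1 0 0 0 0 (.cons 10 1 0 .nil) [2, 1, 1, 0, 1, 3, 5, 7, 6, 1, 3, 0, 2, 2, 0, 0, 0, 0, 1, 1, 0, 1, 5, 2, 7, 3, 1, 3, 1, 5, 2, 2, 3, 5, 1, 3, 8, 3, 3, 1, 1, 1, 3, 2, 2, 0, 2, 0, 5] .nil),
  (.cons 0 5 0 0 0 (.cons 11 0 0 .nil) [0, 5] (.cons 2 6 0 0 0 (.cons 0 19 0 .nil) [122, 13, 15, 4] (.cons 1 0 0 0 0 (.cons 10 0 0 .nil) [12, 6, 29, 1, 0, 1, 0, 2, 0, 5, 2, 2, 9, 16, 6, 1, 9, 0, 1, 1, 1, 3, 0, 4, 2, 1, 1, 0, 2, 2, 0, 2, 8, 1] .nil))),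
  .nil,
  .nil,
  (.cons 2 10 0 0 0 (.cons 0 20 1 .nil) [25, 37, 36, 6, 33, 2, 3, 6, 1, 3, 8, 0, 9, 6, 6, 1, 0] .nil),
  (.cons 0 11 0 0 0 (.cons 10 2 0 .nil) [52] (.cons 1 0 0 0 0 (.cons 10 0 0 .nil) [1, 7, 3, 9, 1, 5, 8, 13, 1, 0, 0, 1, 2, 3, 1, 1, 2, 1, 3, 2, 1, 0, 1, 4, 0, 5, 4, 3, 25, 1, 13, 2, 0, 2, 0, 3, 4, 3, 0, 0, 0, 10, 2, 0, 5, 1, 2, 2, 0, 0, 5] .nil)),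
  (.cons 2 4 0 0 0 (.cons 0 21 0 .nil) [9, 1, 14, 3, 4, 3, 0, 0, 17, 3, 1, 0, 3, 0, 2, 2, 0, 2, 1, 23, 2, 4, 2, 0, 2, 0, 13, 0, 3, 1, 0, 2, 2, 1, 1, 4, 5, 3, 1, 2, 2, 0, 0, 0, 2, 0, 7, 0, 0, 5, 0, 3, 1, 9, 2] .nil),
  (.cons 0 11 0 0 0 (.cons 10 0 0 .nil) [] (.cons 0 13 0 0 0 (.cons 10 3 0 .nil) [0, 6] (.cons 0 7 0 0 0 (.cons 10 1 0 .nil) [53] (.cons 1 0 0 0 0 (.cons 11 0 0 .nil) [0, 0, 0, 3, 1, 0, 0, 3, 0, 1, 2, 0, 6, 1, 0, 2, 2, 5, 1, 1, 3, 0, 0, 2, 4, 3, 3, 0, 0, 0, 0, 2, 3, 2, 1, 0, 1, 3, 3, 0, 4, 4, 0, 1, 0, 0, 5, 1, 0, 1, 0, 3, 5, 4, 1, 2, 2, 0, 1, 3, 1, 0, 2, 0, 1, 1, 0, 0, 0, 3, 2, 1, 5, 1, 0, 1, 4, 5, 0, 9, 0, 1,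 8] .nil)))),
  (.cons 0 16 0 0 0 (.cons 5 0 0 .nil) [45, 7, 1] (.cons 0 11 1 0 0 (.cons 10 1 0 .nil) [1, 44, 7, 45, 18, 1, 16, 5, 3] .nil)),
  (.cons 0 5 0 0 0 (.cons 11 0 0 .nil) [0, 1] .nil),
  .nil,
  (.cons 0 16 1 0 0 (.cons 5 6 0 .nil) [51, 1, 5, 72, 0, 16, 6, 0, 1] (.cons 2 5 0 0 0 (.cons 0 22 0 .nil) [7, 0, 1, 2, 0, 6, 19, 19, 5, 1, 0, 0, 12, 5, 3, 1, 0, 2, 1, 9, 8, 4, 2, 3, 0, 0, 3, 0, 6, 0, 1, 1, 0, 1, 7, 0, 3, 4, 1, 1, 0, 1, 0, 1, 1, 4, 1, 3, 0, 2, 0, 0, 3, 2, 3, 0, 3, 1, 5, 0, 0, 5, 4, 4, 0, 1, 0, 0, 2, 0, 1, 1, 6, 0, 3, 3, 16] (.cons 1 0 0 0 0 (.cons 5 30 0 .nil) [11, 1, 1, 0, 9, 1, 0, 2, 10, 1, 0, 3, 17, 1,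 0, 1, 0, 1, 3, 0, 1, 0, 0, 0, 0, 0, 0, 0, 4, 7, 1, 1, 1, 0, 4, 5, 6, 1, 17, 6, 9, 3, 2, 3, 4, 0, 0, 0, 0, 4, 2, 0, 0, 1, 1, 0, 0, 0, 1, 0, 4, 1, 0, 0, 1, 1, 14, 1, 1, 1, 1, 0, 0, 0, 0, 2, 2, 0, 2, 0, 0, 0, 3, 0, 1, 8, 4, 2] .nil))),
  (.cons 0 8 0 0 0 (.cons 9 0 0 .nil) [59] (.cons 0 13 0 0 0 (.cons 10 0 0 .nil) [2, 12, 43] .nil)),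
  (.cons 0 19 0 0 0 (.cons 5 1 0 .nil) [62] (.cons 0 16 0 0 0 (.cons 10 0 0 .nil) [] (.cons 0 9 0 0 0 (.cons 11 0 0 .nil) [11] .nil))),
  (.cons 0 19 0 0 0 (.cons 10 1 0 .nil) [4, 55, 4] .nil),
  .nil,
  (.cons 0 7 1 0 0 (.cons 9 0 0 .nil) [8, 31, 90, 42] (.cons 0 5 2 0 0 (.cons 10 1 0 .nil) [43, 50, 82, 16] .nil)),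
  (.cons 0 8 2 0 0 (.cons 10 0 0 .nil) [77, 2, 13, 0, 28, 67, 0] (.cons 1 0 0 0 0 (.cons 5 1 0 .nil) [10, 20, 11, 5, 8, 16, 4, 1, 0, 0, 1, 2, 0, 0, 7, 3, 1, 2, 0, 1, 0, 3, 2, 5, 0, 6, 0, 0, 1, 7, 21, 1, 5, 3, 5, 1, 0, 0, 0, 0, 0, 26, 1, 0, 1, 3, 5, 0, 2, 2, 1, 1, 1, 0, 3, 3, 0, 0, 5, 6, 3, 9, 0, 1, 1, 1, 2, 1, 1, 3, 0, 0, 0, 1, 2, 1, 1, 1, 3, 0, 1, 3, 1, 2, 1, 2, 4, 0, 3, 1, 2, 0, 5, 28, 1, 9] .nil)),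
  (.cons 2 9 0 0 0 (.cons 0 23 1 .nil) [2, 3, 0, 2, 1, 0, 0, 3, 10, 0, 7, 4, 1, 1, 1, 4, 0, 7, 4, 1, 1, 6, 9, 1, 2, 0, 0, 1, 4, 2, 0, 5, 3, 6, 0, 6, 2, 1, 9, 0, 1, 1, 8, 0, 1, 0, 1, 3, 0, 15, 3, 2, 1, 1, 0, 1, 5, 1, 3, 0, 3, 7, 0, 1, 1, 3, 0, 0, 1, 1, 1, 3, 3, 0, 0, 0, 1, 2, 0, 1, 5, 1, 0, 2, 2, 1, 1, 2, 0, 1, 0, 5, 0, 1, 0, 2, 0, 3, 1, 0, 4, 7, 1, 1, 1, 0, 0, 2, 0, 1, 1, 1, 9, 1, 1, 0, 0, 0, 4, 0, 1, 0, 1, 0, 4, 0, 1, 0, 1, 2, 1, 1, 0, 0, 1, 1, 1, 0, 1, 10] .nil),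
  (.cons 0 19 2 0 0 (.cons 5 0 0 .nil) [76, 50, 1, 2, 1, 1, 0, 64] (.cons 0 7 2 0 0 (.cons 9 1 0 .nil) [79, 20, 35, 3, 0, 50] (.cons 0 9 0 0 0 (.cons 11 0 0 .nil) [4] (.cons 1 0 0 0 0 (.cons 9 0 0 .nil) [5, 13, 2, 2, 0, 11, 0, 10, 1, 15, 9, 8, 2, 3, 7, 5, 4, 1, 1, 0, 0, 4, 6, 14, 1, 1, 1, 0, 2, 0, 9, 16, 5, 3, 7, 0, 0, 3, 2, 0, 1, 2, 5, 4, 3, 0, 5, 1, 0, 1, 0, 3, 4, 0, 0, 1, 2, 1, 1, 2, 0, 1, 1, 3, 1, 1, 0, 1, 7, 1, 0, 3, 11, 1, 3, 1, 0, 0, 5, 0, 0, 0, 5, 1, 1, 3, 1, 0, 3, 1, 0, 1, 0, 4, 3, 1, 0, 2, 0, 1, 5, 1, 3, 1, 1, 8, 1, 1, 1, 2, 3, 2, 10, 1, 0, 1, 4, 2, 2, 0, 5] .nil)))),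
  (.cons 2 19 0 0 0 (.cons 0 24 0 .nil) [3, 3, 1, 1, 5, 1, 3, 8, 11, 9, 1, 3, 2, 12, 13, 3, 2, 0, 4, 4, 0, 0, 1, 0, 2, 11, 4, 4, 0, 2, 2, 3, 0, 1, 0, 3, 3, 3, 3, 2, 0, 0, 7, 3, 2, 9, 4, 1, 0, 1, 8, 1, 15, 0, 1, 1, 4, 2, 0, 2, 1, 0, 3, 0, 0, 0, 0, 3, 1, 0, 4, 0, 2, 0, 0, 5, 1, 0, 0, 2, 1, 5, 0, 0, 0, 2, 0, 3, 4, 0, 0, 2, 0, 0, 0, 1, 1, 1, 1, 8, 0, 1, 1, 1, 0, 0, 1, 3, 1, 4, 0, 1, 1, 10, 2, 2, 0, 2, 2, 3, 1, 1, 1, 2, 7, 4, 4, 1, 9, 2, 5, 0] (.cons 2 22 0 0 0 (.cons 0 25 1 .nil) [8, 0, 2, 3, 47, 13, 12, 0, 1, 1, 0, 0, 5, 5, 4, 0, 13, 0, 1, 2, 5, 1, 0, 4, 2, 2, 13, 8, 0, 3, 2, 1, 10, 3, 4, 0, 1, 0, 0, 27, 1, 1, 4, 5, 1, 3, 1,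 1, 2, 1, 0, 1, 1, 1, 0, 3, 5, 5, 0, 1, 0, 1, 1, 1, 1, 1, 0, 0, 12, 1, 1, 2, 0, 0, 0, 4, 0, 0, 0, 0, 1, 1, 1, 1, 4, 3, 0, 2, 2, 0, 3, 0, 3, 1, 0, 0, 11, 3, 0, 5, 1, 7, 4, 1, 1, 0, 8, 1, 0, 1, 2, 2, 0, 3, 3, 0, 6, 0, 1] .nil)),
  (.cons 0 5 1 0 0 (.cons 10 0 0 .nil) [77] (.cons 0 10 0 0 0 (.cons 9 0 0 .nil) [22] (.cons 1 0 0 0 0 (.cons 9 2 0 .nil) [1, 0, 5, 0, 0, 1, 1, 1, 2, 0, 5, 7, 0, 3, 0, 1, 1, 6, 2, 1, 2, 2, 3, 3, 5, 0, 1, 5, 4, 0, 2, 0, 1, 0, 0, 1, 3, 1, 2, 2, 2, 0, 5, 0, 2, 0, 3, 0, 0, 1, 2, 0, 0, 2, 0, 0, 0, 2, 2, 0, 1, 15, 1, 2, 1, 1, 0, 0, 5, 1, 2, 0, 4, 1, 0, 2, 2, 1, 5, 1, 1, 0, 3, 0, 1, 0, 2, 1, 1, 1, 2, 2, 2,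 2, 1, 1, 1, 5, 0, 2, 1, 6, 0, 0, 3, 6, 2, 1, 0, 1, 1, 1, 1, 4, 1, 0, 0, 1, 1, 0, 2, 0, 5, 0, 1, 0, 1, 0, 0, 2, 6, 1, 1, 0, 0, 3, 0, 1, 1, 1, 1, 5, 1, 3, 1, 0, 3, 3, 1, 0, 1, 0, 1, 2, 3, 2, 0, 1, 2, 0, 0, 0, 1, 2, 4, 0, 1, 1, 7, 0, 1, 2, 1, 6, 1, 1, 0] .nil))),
  (.cons 2 10 0 0 0 (.cons 0 26 0 .nil) [17, 5, 5, 8, 4, 50, 3, 2, 1, 0, 1, 1, 4, 1, 0, 0, 1, 6, 2, 4, 7, 0, 6, 7, 1, 5, 1, 0, 0, 3, 0, 3, 3, 6, 4, 3, 1, 0, 1, 1, 1, 0, 3, 2, 0, 0, 4, 1, 0, 0, 2, 1, 17, 0, 1, 5, 3, 2, 0, 7, 4, 1, 3, 3, 0, 0, 7, 1, 1, 1, 0, 0, 3, 1, 0, 1, 1, 1, 3, 2, 4, 1, 1, 0, 6, 0, 0, 0, 6, 3, 0, 0, 0, 4, 3, 0, 1, 2, 1, 8, 2, 4, 1, 0, 0, 4, 1, 2,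 2, 2, 0, 1, 5, 2, 3, 0, 8, 1, 13, 0, 2, 5, 1, 1, 0, 1, 1, 1, 3, 6, 0, 1] (.cons 2 11 0 0 0 (.cons 0 27 1 .nil) [24, 4, 8, 6, 49, 0, 4, 0, 11, 0, 3, 3, 4, 20, 20, 8, 4, 4, 5, 16, 51, 1, 1, 3, 3, 6, 1, 6, 7, 3, 4, 0, 0, 3, 1, 0, 0, 0, 1, 0, 1, 2, 0, 3, 1, 0, 3, 5, 4, 0, 7, 0, 1, 2, 2, 0, 4, 4, 1, 3, 3, 2, 7, 5, 1, 4, 1, 4, 5, 0, 1, 2, 6, 4, 4, 8, 3, 0, 17, 0, 8, 1, 2, 4, 13] (.cons 1 0 0 0 0 (.cons 10 1 0 .nil) [23, 5, 3, 0, 4, 1, 4, 4, 7, 0, 2, 3, 5, 0, 0, 6, 10, 0, 8, 9, 5, 1, 3, 0, 2, 1, 1, 1, 2, 13, 0, 4, 1, 2, 5, 4, 1, 3, 3, 21, 5, 22, 4, 0, 5, 11, 2, 5, 2, 2, 0, 0, 11, 2, 0, 0, 2, 1, 0, 1, 0, 1, 2, 0, 1, 2, 0, 0, 2,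 0, 0, 0, 1, 4, 6, 1, 0, 0, 4, 0, 1, 3, 3, 1, 1, 0, 1, 1, 4, 0, 3, 1, 3, 3, 2, 1, 1, 3, 1, 1, 5, 0, 3, 0, 2, 4, 1, 3, 4, 1, 3, 1, 2, 0, 10, 9, 1, 0, 0, 0, 5, 3, 1, 7, 0, 2, 2, 3, 1, 3, 1, 6] .nil))),
  (.cons 0 10 1 0 0 (.cons 9 0 0 .nil) [241] (.cons 0 23 0 0 0 (.cons 10 0 0 .nil) [8] (.cons 1 0 0 0 0 (.cons 11 0 0 .nil) [1, 11, 1, 3, 3, 2, 1, 0, 1, 11, 2, 9, 0, 3, 0, 1, 1, 2, 1, 1, 12, 5, 1, 1, 0, 0, 0, 3, 0, 2, 3, 3, 2, 1, 0, 0, 2, 0, 3, 0, 0, 1, 1, 2, 2, 1, 0, 1, 0, 1, 0, 0, 1, 0, 2, 5, 1, 0, 1, 2, 1, 3, 1, 0, 3, 2, 0, 1, 2, 0, 1, 3, 4, 2, 1, 3, 4, 1, 0, 3, 2, 0, 4, 8, 1, 0, 2, 0, 1, 1, 2, 0, 3, 0, 2, 0, 4, 1, 0, 0, 0,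 3, 1, 4, 1, 0, 1, 1, 1, 1, 1, 0, 2, 1, 1, 0, 2, 1, 0, 5, 2, 5, 0, 1, 3, 7, 0, 2, 2, 0, 4, 3, 0, 1, 8, 1, 8, 1, 0, 2, 3, 0, 2, 1, 1, 1, 1, 0, 4, 1, 3, 0, 2, 8, 7, 8, 1, 0, 0, 0, 5, 1, 4, 1, 2, 0, 1, 5, 1, 3, 0, 0, 0, 1, 0, 1, 5, 4, 4] .nil))),
  (.cons 0 23 1 0 0 (.cons 5 0 0 .nil) [167] (.cons 0 9 2 0 0 (.cons 9 0 0 .nil) [90, 44, 26, 0, 48] (.cons 2 4 0 0 0 (.cons 0 28 1 .nil) [13, 29, 20, 7, 1, 3, 22, 3, 0, 0, 2, 10, 3, 3, 3, 2, 0, 7, 4, 1, 30, 9, 1, 1, 4, 8, 1, 5, 4, 3, 3, 3, 3, 6, 1, 5, 2, 21, 4, 4, 1, 1, 4, 5, 1, 5, 2, 1, 2, 1, 2, 5, 1, 1, 2, 2, 0, 0, 1, 1, 0, 1, 1, 4, 1, 3, 1, 1, 0, 4, 0, 0, 0, 0, 3, 8, 0, 3, 4, 3,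 3, 0, 0, 1, 0, 3, 3, 3, 0, 9, 3, 0, 2, 0, 0, 0, 3, 3, 1, 1, 1, 1, 2, 12, 2, 0, 1, 4, 5, 5, 6, 1, 0, 1, 3, 0, 2, 1, 0, 0, 0, 1, 0, 0, 5, 0, 2, 3, 7, 13, 3] (.cons 1 0 0 0 0 (.cons 10 0 0 .nil) [10, 2, 6, 3, 1, 14, 7, 0, 9, 1, 3, 1, 0, 0, 2, 0, 1, 0, 4, 0, 8, 0, 0, 1, 1, 0, 0, 0, 1, 0, 0, 5, 3, 1, 2, 0, 1, 1, 1, 1, 0, 4, 1, 2, 2, 0, 1, 6, 2, 0, 4, 5, 0, 3, 1, 0, 2, 3, 6, 0, 7, 1, 1, 6, 3, 5, 0, 2, 4, 6, 0, 0, 10, 0, 0, 0, 4, 1, 0, 0, 4, 3, 1, 1, 1, 1, 0, 3, 0, 0, 1, 0, 0, 0, 1, 1, 0, 0, 0, 1, 1, 2, 0, 1, 1, 0, 0, 1, 0, 0, 0, 7, 1, 1, 0, 1, 0, 3, 2, 0, 0, 2, 2, 1, 1, 3, 0, 1, 0, 2, 4, 5, 2, 1, 0, 0, 1, 3, 0, 2, 1, 0, 0, 7,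 0, 2, 0, 6, 1, 5, 5, 1, 5, 2, 1, 1, 0, 1, 1, 0, 0, 1, 3, 1, 0, 11, 0, 1, 3, 4, 0, 4, 1, 0, 3, 0, 0, 1, 1, 0, 0, 5, 2, 5, 0, 1, 3] .nil)))),
  (.cons 1 0 0 0 0 (.cons 11 1 0 .nil) [10, 2, 1, 0, 3, 3, 0, 1, 0, 5, 9, 4, 9, 2, 16, 1, 5, 0, 0, 1, 2, 0, 4, 1, 1, 0, 1, 9, 3, 1, 2, 1, 1, 1, 0, 1, 1, 9, 11, 0, 1, 2, 1, 0, 0, 6, 6, 2, 5, 0, 2, 7, 1, 0, 2, 4, 0, 5, 1, 1, 6, 0, 0, 0, 0, 1, 0, 0, 1, 1, 0, 1, 3, 4, 1, 0, 0, 2, 1, 1, 2, 5, 1, 1, 3, 4, 1, 3, 1, 1, 3, 2, 1, 3, 1, 1, 1, 1, 1, 0, 1, 0, 1, 1, 6, 1, 0, 1, 2, 1, 3, 1, 0, 0, 7, 0, 1, 1, 2, 0, 1, 1, 0, 0, 0, 0, 1, 0, 0, 0, 5, 3, 2, 1, 4, 0, 2, 1, 7, 0, 2, 5, 2, 0, 1, 0, 2, 1, 2,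 1, 2, 1, 2, 0, 0, 0, 1, 3, 0, 1, 3, 1, 0, 1, 5, 3, 0, 1, 11, 3, 0, 1, 1, 5, 1, 3, 2, 3, 1, 3, 1, 4, 1, 3, 0, 0, 2, 4, 8] .nil),
  (.cons 2 5 0 0 0 (.cons 0 30 1 .nil) [9, 12, 75, 2, 3, 3, 0, 1, 0, 0, 3, 12, 7, 1, 5, 1, 0, 5, 1, 2, 3, 31, 19, 7, 0, 5, 5, 0, 34, 1, 5, 1, 27, 0, 3, 1, 3, 3, 1, 1, 8, 0, 1, 1, 2, 1, 3, 2, 5, 2, 1, 0, 0, 1, 1, 1, 2, 0, 0, 0, 0, 2, 0, 0, 2, 1, 1, 0, 0, 1, 0, 1, 8, 0, 0, 1, 6, 0, 1, 1, 1, 5, 1, 1, 0, 0, 0, 7, 3, 1, 0, 0, 3, 1, 1, 1, 3, 1, 0, 1, 1, 0, 1, 9, 1, 2, 0, 2, 0, 0, 2, 1, 7, 0, 0, 7, 1, 7, 8, 0, 1, 1, 1, 2, 13, 0, 0, 3, 3, 3, 12, 2, 6, 3, 0, 8, 0, 7] (.cons 2 22 0 0 0 (.cons 0 29 0 .nil)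 [11, 12, 78, 3, 4, 1, 0, 0, 3, 5, 4, 4, 4, 5, 0, 0, 1, 1, 0, 4, 3, 29, 1, 8, 8, 0, 1, 1, 1, 0, 4, 6, 25, 3, 5, 1, 0, 3, 1, 27, 0, 2, 0, 2, 0, 0, 1, 0, 5, 0, 0, 0, 1, 11, 0, 3, 1, 0, 2, 3, 1, 0, 1, 1, 2, 1, 3, 3, 2, 1, 0, 1, 0, 2, 1, 3, 0, 5, 7, 10, 3, 4, 0, 0, 2, 0, 1, 2, 1, 1, 0, 1, 1, 0, 1, 7, 5, 3, 0, 1, 1, 0, 2, 1, 2, 0, 3, 0, 4, 2, 1, 1, 6, 3, 7, 0, 1, 10, 3, 3, 0, 0, 2, 1, 10, 1, 4, 0, 7, 9, 8, 3, 1, 1, 12, 7] (.cons 1 0 0 0 0 (.cons 9 1 0 .nil) [21, 2, 28, 0, 11, 9, 23, 5, 5, 3, 18, 1, 6, 5, 3, 0, 1, 3, 1, 0, 0, 2, 1, 12, 4, 2, 4, 9, 3, 5, 6, 1, 2, 5, 3, 42, 0, 0, 7, 4, 3, 7, 3, 11, 5, 2, 1, 1, 0, 1, 1, 0, 3, 0, 1,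 5, 4, 1, 0, 3, 1, 0, 0, 3, 1, 3, 3, 1, 0, 0, 2, 1, 3, 7, 0, 1, 0, 3, 1, 0, 5, 0, 0, 1, 9, 1, 0, 1, 0, 1, 1, 5, 0, 2, 3, 3, 1, 1, 1, 0, 2, 1, 5, 0, 7, 1, 1, 1, 2, 4, 1, 3, 1, 0, 1, 5, 0, 6, 3, 6, 0, 7, 0, 2, 0, 5, 1, 5, 3, 1, 1, 0, 4, 0, 2, 3, 0, 7, 1, 5, 3, 2, 2, 5] .nil))),
  (.cons 2 23 0 0 0 (.cons 0 31 0 .nil) [122, 3, 7, 1, 0, 13, 3, 5, 0, 42, 2, 11, 14, 0, 2, 3, 1, 22, 1, 4, 8, 4, 5, 15, 9, 7, 5, 9, 2, 2, 0, 1, 0, 0, 3, 0, 0, 1, 0, 3, 2, 1, 0, 0, 1, 3, 1, 0, 0, 0, 5, 1, 5, 4, 1, 1, 3, 1, 2, 7, 0, 4, 0, 0, 4, 0, 1, 0, 0, 1, 1, 0, 1, 3, 0, 3, 0, 5, 1, 1, 1, 0, 0, 1, 4, 0, 1, 1, 0, 1, 1, 3, 1, 1, 7, 2, 1, 2, 6, 1, 8,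 0, 9, 3, 5, 4, 3, 17, 4, 0, 12, 11, 1, 8, 2, 0, 6, 3] (.cons 1 0 0 0 0 (.cons 10 0 0 .nil) [7, 2, 3, 0, 1, 5, 8, 1, 1, 0, 2, 2, 1, 17, 1, 1, 7, 1, 1, 0, 3, 11, 5, 7, 1, 1, 1, 3, 1, 1, 0, 4, 0, 2, 1, 1, 1, 3, 2, 3, 2, 3, 2, 12, 2, 2, 3, 3, 0, 0, 5, 0, 0, 3, 1, 1, 3, 2, 6, 1, 5, 2, 0, 1, 12, 9, 3, 4, 0, 5, 1, 3, 17, 4, 1, 0, 0, 0, 2, 4, 1, 1, 0, 0, 0, 2, 2, 1, 0, 0, 0, 4, 0, 4, 0, 5, 1, 4, 0, 1, 3, 0, 1, 1, 1, 13, 1, 1, 1, 11, 3, 1, 2, 0, 3, 0, 6, 1, 1, 1, 2, 1, 1, 0, 1, 6, 6, 2, 4, 3, 0, 2, 2, 3, 0, 1, 2, 1, 3, 0, 3, 3, 0, 1, 1, 0, 1, 3, 17, 0, 3, 5, 2, 3, 2, 9, 0, 0, 3, 0, 3, 0, 5, 0, 0, 1, 10, 1, 0, 3, 0, 3, 0, 2, 1, 4,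 3, 4, 4, 0, 6] .nil)),
  (.cons 2 16 0 0 0 (.cons 0 32 0 .nil) [21, 3, 2, 7, 2, 3, 5, 2, 1, 17, 10, 22, 1, 3, 4, 1, 3, 1, 2, 7, 1, 6, 1, 5, 2, 1, 4, 31, 3, 0, 5, 1, 0, 9, 0, 0, 24, 8, 0, 22, 6, 0, 7, 26, 7, 1, 6, 2, 4, 4, 0, 9, 0, 0, 4, 1, 1, 9, 3, 0, 4, 0, 1, 1, 1, 2, 1, 0, 5, 0, 2, 0, 5, 0, 1, 8, 0, 7, 9, 0, 2, 1, 0, 0, 1, 4, 1, 1, 1, 0, 5, 4, 9, 4, 2, 6, 0, 1, 0, 5, 3, 6, 1, 5, 0, 0, 7, 0, 0, 8, 1, 4, 1, 1, 6, 0, 1, 0, 16, 4, 1, 8, 0, 5, 0, 5, 3, 2, 15, 10, 14] (.cons 1 0 0 0 0 (.cons 11 1 0 .nil) [6, 11, 1, 6, 1, 0, 0, 0, 0, 1, 1, 1, 1, 9, 5, 10, 2, 0, 5, 1, 1, 2, 1, 0, 4, 10, 2, 5, 12, 1, 2, 0, 2, 3, 2, 3, 0, 0, 0,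 0, 1, 0, 0, 1, 6, 7, 1, 1, 6, 5, 1, 2, 1, 0, 2, 3, 2, 4, 0, 3, 0, 5, 0, 3, 0, 4, 3, 0, 5, 1, 1, 0, 3, 3, 5, 1, 0, 4, 0, 0, 2, 0, 5, 2, 1, 2, 1, 2, 0, 1, 1, 1, 3, 0, 0, 1, 6, 4, 1, 0, 1, 1, 2, 0, 1, 5, 3, 1, 3, 0, 1, 1, 0, 0, 3, 1, 3, 14, 4, 1, 3, 1, 2, 0, 0, 5, 0, 0, 1, 1, 0, 0, 4, 1, 2, 0, 2, 0, 1, 7, 5, 0, 1, 2, 0, 3, 3, 3, 6, 1, 1, 7, 3, 3, 1, 0, 2, 0, 0, 1, 0, 1, 1, 0, 1, 0, 3, 1, 2, 0, 1, 0, 0, 0, 2, 3, 5, 0, 0, 1, 2, 0, 2, 1, 3, 7, 1, 1, 1, 0, 2, 3, 0, 10, 3, 0, 0, 0, 1, 1, 0, 5, 2, 2, 5, 2, 0, 1, 3, 1, 0, 0, 0, 0, 2, 1] .nil)),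
  (.cons 0 21 0 0 0 (.cons 10 1 0 .nil) [] (.cons 0 22 1 0 0 (.cons 10 3 0 .nil) [0, 2, 29, 67, 1, 116, 2, 0, 43, 1, 3] (.cons 2 19 0 0 0 (.cons 0 33 0 .nil) [1, 0, 13, 1, 1, 2, 1, 2, 0, 1, 1, 13, 8, 0, 2, 0, 2, 3, 2, 3, 3, 20, 1, 1, 15, 1, 0, 7, 3, 5, 0, 3, 0, 2, 0, 0, 0, 1, 0, 1, 4, 0, 2, 0, 7, 1, 1, 3, 3, 0, 5, 1, 11, 0, 4, 7, 1, 0, 1, 5, 0, 7, 27, 3, 5, 2, 0, 3, 1, 6, 1, 0, 0, 0, 4, 1, 0, 0, 1, 4, 3, 0, 6, 3, 4, 0, 1, 0, 1, 1, 0, 0, 1, 3, 2, 0, 3, 0, 2, 1, 4, 2, 7, 1, 1, 1, 6, 2, 5, 0, 0, 1, 3, 1, 0, 3, 0, 5, 1, 0, 1, 5, 5, 0, 3, 1, 1, 3, 3, 7, 0, 3, 3, 2, 1, 1, 2, 0, 1, 1, 3, 1, 0, 0, 2, 0, 1, 0, 2, 0, 1, 1, 1, 3, 0,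 2, 2, 0, 0, 1, 2, 1, 1, 0, 5, 0, 0, 4, 0, 1, 1, 7, 0, 2, 1, 2, 0, 1, 1, 1, 2, 1, 2, 1, 0, 0, 1, 2, 0, 2, 0, 0, 1, 1, 0, 3, 1, 0, 0, 1, 1, 1, 0, 0, 4, 1, 4, 3, 0, 3, 0, 0, 3, 2, 1, 1, 0, 4] (.cons 1 0 0 0 0 (.cons 10 0 0 .nil) [3, 8, 0, 3, 2, 0, 1, 2, 1, 0, 17, 9, 0, 6, 0, 1, 5, 2, 1, 0, 5, 19, 7, 1, 5, 0, 0, 6, 2, 1, 2, 0, 1, 2, 4, 0, 1, 1, 1, 2, 1, 0, 1, 3, 8, 1, 0, 3, 0, 2, 1, 3, 1, 0, 9, 1, 4, 2, 0, 1, 3, 0, 2, 4, 1, 2, 1, 1, 0, 8, 2, 3, 2, 1, 3, 5, 2, 5, 0, 7, 1, 9, 3, 1, 6, 1, 1, 1, 1, 4, 1, 0, 0, 0, 1, 1, 2, 1, 2, 1, 1, 1, 0, 1, 0, 1, 2, 0, 0, 0, 0, 0, 0, 0, 0, 0, 3, 0, 1, 1, 1, 1, 1, 1, 0, 0, 3, 1, 5, 2, 5, 0, 3,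 2, 1, 0, 5, 0, 1, 0, 3, 0, 0, 3, 1, 1, 0, 0, 3, 4, 1, 1, 2, 3, 0, 0, 1, 0, 7, 1, 1, 1, 1, 1, 0, 2, 3, 1, 0, 1, 0, 3, 3, 1, 0, 1, 0, 4, 0, 0, 2, 0, 1, 0, 5, 1, 0, 4, 0, 2, 1, 1, 0, 2, 3, 0, 2, 0, 2, 1, 1, 2, 3, 1, 3, 0, 2, 1, 3, 1, 0, 1, 2, 4, 4, 0, 1, 0, 0, 6, 3, 5, 0, 0, 4, 3, 3, 1, 0, 1, 1, 1, 0, 0, 2] .nil)))),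
  (.cons 1 0 0 0 0 (.cons 11 0 0 .nil) [1, 6, 0, 0, 1, 1, 0, 0, 1, 5, 0, 18, 1, 0, 11, 15, 0, 1, 1, 2, 2, 6, 5, 12, 6, 5, 0, 1, 1, 2, 0, 8, 0, 1, 1, 1, 0, 1, 0, 2, 0, 3, 5, 0, 0, 2, 3, 7, 7, 1, 4, 0, 7, 1, 3, 3, 0, 3, 1, 4, 1, 7, 1, 2, 2, 1, 0, 0, 1, 0, 10, 5, 1, 0, 1, 2, 0, 1, 4, 0, 0, 1, 10, 3, 0, 4, 1, 4, 0, 5, 6, 3, 2, 0, 1, 2, 0, 1, 3, 1, 4, 1, 0, 8, 5, 0, 1, 0, 1, 0, 1, 11, 1, 6, 0, 1, 2, 3, 0, 1, 5, 2, 2, 2, 4, 2, 1, 1, 1, 0, 1, 1, 1, 4, 5, 2, 0, 7, 4, 0, 0, 0, 1, 3, 1, 1, 3, 0, 0, 2, 3, 1, 0, 0, 0, 4, 0, 0, 0, 2, 1, 1, 1, 0, 2, 0, 3, 1, 1, 1, 1, 4, 1, 0, 0, 1, 2, 5, 4, 3, 0, 0, 0, 1, 0, 1, 5, 0, 8, 2, 2, 0, 0, 4,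 1, 0, 2, 5, 1, 0, 4, 1, 2, 5, 1, 6, 1, 0, 1, 2, 2, 1, 3, 2, 1, 0, 4, 1, 0, 3, 4, 1, 1, 2] .nil),
  (.cons 0 21 0 0 0 (.cons 11 0 0 .nil) [2, 1, 55] .nil),
  (.cons 0 22 2 0 0 (.cons 9 6 0 .nil) [] (.cons 0 21 1 0 0 (.cons 10 3 0 .nil) [43, 73, 132, 3] (.cons 2 22 0 0 0 (.cons 0 34 1 .nil) [0, 15, 0, 1, 5, 5, 2, 0, 5, 4, 11, 1, 8, 4, 0, 9, 3, 4, 15, 4, 1, 0, 3, 5, 1, 3, 5, 1, 0, 2, 1, 5, 6, 2, 1, 3, 1, 4, 0, 0, 0, 2, 2, 1, 0, 5, 0, 1, 3, 1, 4, 3, 3, 2, 0, 0, 0, 5, 2, 1, 3, 5, 3, 2, 2, 3, 5, 20, 7, 1, 2, 0, 0, 3, 1, 3, 3, 1, 2, 2, 1, 3, 3, 1, 3, 1, 0, 1, 3, 1, 1, 0, 6, 0, 3, 0, 3, 1, 7, 1, 1, 7, 3, 0, 1, 0, 2, 1, 3, 7, 4,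 1, 0, 1, 0, 0, 1, 1, 2, 0, 2, 1, 1, 9, 0, 0, 1, 2, 9, 0, 0, 0, 1, 1, 1, 0, 2, 0, 0, 1, 1, 1, 4, 5, 0, 1, 5, 5, 0, 9, 0, 0, 0, 2, 3, 4, 1, 0, 1, 0, 1, 2, 2, 0, 3, 1, 6, 3, 0, 3, 0, 1, 0, 2, 3, 1, 0, 0, 0, 0, 7, 3, 3, 0, 1, 1, 0, 1, 2, 7, 3, 3, 3, 5, 3, 1, 0, 7, 0, 2, 5, 10, 1, 8, 1, 3, 1, 1, 1, 3, 3, 1, 0, 1, 1, 1, 2, 2, 0, 0, 0, 1, 2, 0, 2, 1, 1, 0, 11, 1, 1, 0, 5, 0, 0, 3, 2, 1, 5] (.cons 1 0 0 0 0 (.cons 9 1 0 .nil) [4, 11, 3, 0, 5, 1, 8, 23, 1, 4, 2, 2, 1, 1, 3, 2, 4, 29, 0, 3, 3, 0, 13, 0, 9, 3, 1, 3, 2, 6, 1, 3, 0, 0, 1, 2, 2, 9, 2, 1, 0, 5, 1, 1, 1, 4, 2, 0, 1, 8, 0, 3, 5, 5, 1, 1, 1, 3, 4, 1, 20, 3, 0, 0, 3, 0, 0,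 0, 1, 1, 2, 1, 3, 2, 2, 0, 0, 4, 0, 3, 3, 4, 1, 2, 3, 3, 2, 0, 0, 1, 2, 2, 0, 0, 1, 6, 1, 0, 0, 1, 3, 2, 5, 2, 1, 1, 0, 5, 0, 2, 1, 1, 5, 1, 0, 0, 2, 2, 1, 0, 1, 4, 2, 3, 1, 0, 6, 1, 1, 0, 0, 0, 0, 2, 1, 0, 1, 4, 1, 1, 2, 0, 0, 0, 0, 1, 2, 3, 3, 1, 3, 0, 5, 0, 2, 1, 3, 3, 1, 4, 0, 1, 1, 12, 2, 0, 5, 1, 0, 1, 1, 0, 4, 0, 3, 1, 0, 2, 3, 0, 1, 0, 5, 1, 2, 9, 1, 0, 5, 1, 0, 1, 1, 1, 8, 1, 1, 6, 2, 2, 3, 0, 0, 2, 7, 1, 0, 1, 1, 1, 2, 5, 2, 4, 1, 1, 0, 3, 2, 2, 0, 6, 0, 4, 3, 1, 1, 2, 3, 0, 3, 0, 1, 3, 4, 0, 1] (.cons 1 0 0 0 0 (.cons 11 1 0 .nil) [2, 3, 9, 1, 1, 1, 1, 0, 0, 1, 0, 5, 7, 4, 11, 1, 0, 3, 2, 11, 5, 3, 3, 0, 1, 13,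 0, 2, 6, 2, 0, 1, 1, 0, 0, 3, 3, 3, 1, 2, 1, 2, 2, 2, 0, 0, 1, 1, 4, 1, 0, 1, 1, 7, 0, 5, 0, 1, 0, 0, 1, 5, 0, 1, 2, 3, 2, 7, 3, 1, 5, 2, 2, 1, 1, 1, 10, 1, 17, 0, 4, 0, 1, 3, 1, 0, 1, 0, 7, 1, 0, 2, 1, 0, 0, 0, 1, 3, 4, 1, 3, 3, 3, 4, 2, 5, 0, 1, 0, 1, 4, 1, 6, 3, 3, 1, 0, 1, 5, 1, 7, 0, 1, 1, 3, 0, 4, 1, 2, 3, 1, 1, 1, 0, 2, 0, 1, 2, 1, 0, 1, 1, 1, 1, 1, 1, 1, 0, 1, 0, 0, 0, 3, 4, 0, 1, 3, 3, 3, 0, 1, 3, 1, 0, 1, 1, 4, 0, 1, 6, 0, 9, 1, 9, 2, 0, 4, 3, 0, 0, 6, 1, 0, 0, 3, 0, 2, 1, 2, 2, 1, 1, 4, 0, 0, 0, 3, 0, 1, 1, 1, 0, 2, 6, 2, 3, 2, 0, 2, 9, 1, 0, 7, 6, 1, 1, 1, 0, 2, 0, 8, 1, 4, 1, 1, 1, 1, 1, 1, 0, 0, 1, 1, 0, 0,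 1, 6, 0, 3, 2, 3, 1, 1, 0, 1, 2, 1, 0, 0, 1, 0, 1, 5, 1, 2, 2, 5, 3, 0, 1] .nil))))),
  (.cons 0 7 0 0 0 (.cons 11 0 0 .nil) [0] .nil),
  (.cons 2 9 0 0 0 (.cons 0 35 1 .nil) [26, 0, 6, 8, 19, 65, 3, 0, 0, 0, 0, 1, 2, 4, 7, 0, 5, 1, 1, 0, 1, 2, 6, 3, 1, 1, 7, 0, 14, 13, 8, 1, 16, 3, 1, 3, 0, 0, 22, 1, 3, 2, 3, 1, 0, 14, 0, 4, 7, 1, 3, 1, 5, 1, 1, 5, 0, 0, 36, 6, 7, 0, 0, 9, 3, 2, 0, 1, 0, 0, 0, 2, 2, 6, 1, 0, 1, 2, 0, 0, 1, 1, 2, 0, 1, 1, 0, 3, 0, 7, 1, 2, 0, 4, 1, 1, 0, 5, 3, 2, 1, 4, 1, 3, 1, 6, 3, 1, 1, 1, 1, 1, 6, 1, 0, 2, 0, 5, 6, 0, 11, 4, 3, 0, 8, 0, 1, 6, 2, 3, 1, 2, 0, 2, 7, 0, 0, 1, 1, 0, 1, 1, 0, 0, 1, 2, 1, 3,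 2, 2, 3, 4, 0, 0, 4, 2, 3, 1, 0, 2, 4, 1, 8, 0, 4, 15, 2, 1, 0, 10, 2, 1, 1, 2, 1, 2, 1, 1, 0, 0, 0, 1, 0, 2, 1, 1, 1, 2, 0, 1, 19, 0, 3, 1, 0, 1, 2, 0] (.cons 1 0 0 0 0 (.cons 10 0 0 .nil) [7, 2, 5, 11, 1, 7, 2, 3, 0, 0, 0, 29, 0, 1, 1, 1, 3, 0, 6, 1, 1, 2, 10, 3, 5, 3, 3, 3, 2, 3, 1, 9, 2, 5, 3, 0, 2, 4, 1, 8, 5, 2, 13, 6, 0, 2, 2, 1, 1, 1, 0, 8, 2, 2, 11, 2, 4, 15, 0, 3, 2, 0, 1, 0, 2, 12, 2, 5, 0, 7, 0, 5, 0, 0, 0, 1, 0, 0, 1, 5, 4, 2, 2, 3, 3, 2, 9, 3, 3, 1, 3, 1, 4, 3, 0, 0, 1, 2, 1, 0, 1, 3, 0, 4, 1, 3, 1, 0, 0, 5, 3, 0, 0, 0, 0, 3, 0, 0, 0, 2, 1, 3, 0, 1, 0, 3, 5, 3, 8, 3, 0, 5, 3, 7, 1, 0, 5, 3, 0, 4, 6, 6, 3, 0,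 1, 3, 0, 1, 1, 3, 0, 3, 1, 2, 0, 2, 0, 0, 2, 0, 1, 0, 5, 5, 1, 3, 3, 1, 5, 4, 0, 0, 3, 0, 1, 1, 3, 1, 3, 0, 2, 0, 1, 1, 0, 0, 1, 3, 1, 0, 3, 1, 0, 2, 3, 0, 4, 1, 2, 1, 9, 1, 0, 11, 7, 2, 1, 7, 6, 0, 4, 7, 1, 1, 1, 1, 0, 5, 0, 2, 0, 3, 1, 1, 3, 0, 2, 1, 5, 2, 1, 0, 0, 0, 4, 4, 1, 1, 1, 5, 7, 2, 3, 0] .nil)),
  (.cons 0 25 1 0 0 (.cons 5 61 0 .nil) [44, 78, 149, 1, 1, 2] (.cons 1 0 0 0 0 (.cons 10 0 0 .nil) [0, 6, 0, 0, 13, 1, 12, 11, 0, 4, 1, 15, 0, 1, 1, 2, 4, 3, 0, 26, 4, 0, 1, 3, 3, 2, 2, 2, 6, 2, 1, 0, 1, 5, 5, 3, 0, 3, 1, 0, 0, 1, 3, 0, 5, 15, 1, 7, 1, 2, 1, 2, 0, 2, 0, 1, 1, 0, 0, 0, 11, 7, 4, 13, 6, 0, 15, 0, 1, 3,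 0, 4, 0, 1, 2, 1, 2, 0, 2, 3, 2, 0, 1, 1, 0, 0, 6, 3, 2, 2, 3, 0, 2, 4, 1, 0, 2, 0, 0, 1, 0, 1, 0, 2, 1, 1, 0, 3, 0, 1, 6, 3, 0, 1, 2, 0, 9, 4, 3, 2, 2, 0, 7, 0, 1, 7, 2, 0, 0, 0, 0, 3, 0, 0, 1, 1, 1, 2, 1, 2, 2, 1, 0, 3, 3, 5, 1, 2, 0, 0, 1, 0, 1, 1, 5, 0, 1, 0, 1, 0, 0, 1, 1, 6, 0, 0, 1, 1, 2, 4, 0, 1, 1, 2, 1, 1, 6, 0, 2, 1, 3, 8, 0, 3, 3, 6, 0, 0, 1, 0, 2, 8, 1, 1, 7, 3, 0, 3, 0, 3, 1, 1, 0, 3, 1, 4, 0, 0, 1, 0, 3, 1, 1, 2, 2, 1, 4, 0, 7, 1, 1, 4, 3, 4, 4, 12, 1, 1, 1, 1, 0, 1, 2, 2, 4, 3, 0, 2, 1, 4, 3, 0, 3, 3, 0, 4, 1, 3, 0, 1, 1, 1, 1, 4, 1, 1, 0, 3, 0, 1, 0, 0, 1, 0, 0, 1, 0, 1, 0, 5, 1, 2] .nil)),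
  (.cons 0 8 0 0 0 (.cons 11 0 0 .nil) [7, 118] .nil),
  (.cons 0 25 0 0 0 (.cons 5 0 0 .nil) [12, 60] .nil),
  (.cons 0 7 0 0 0 (.cons 11 0 0 .nil) [6] (.cons 2 21 0 0 0 (.cons 0 36 0 .nil) [10, 0, 3, 2, 4, 0, 5, 1, 21, 3, 1, 17, 3, 7, 0, 16, 2, 22, 2, 2, 1, 0, 3, 2, 1, 4, 4, 2, 0, 1, 3, 7, 1, 1, 5, 0, 0, 5, 1, 1, 2, 1, 0, 3, 0, 3, 15, 2, 0, 5, 7, 3, 3, 1, 2, 0, 2, 10, 4, 0, 0, 2, 1, 0, 2, 11, 1, 3, 5, 3, 19, 3, 7, 0, 0, 0, 1, 3, 1, 1, 0, 6, 0, 1, 0, 1, 0, 0, 3, 0, 0, 2, 8, 1, 1, 3, 0, 13, 0, 4, 6, 3, 0, 2, 0, 1, 4, 1, 1, 1, 0, 1, 4, 1, 3, 1, 3, 8, 1, 3, 5, 0, 5, 1, 0, 0, 4, 3, 0, 0, 1, 1, 2, 0, 0, 3, 3, 1, 0, 6, 1, 2,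 0, 0, 0, 0, 0, 2, 1, 0, 0, 1, 0, 11, 3, 7, 3, 6, 1, 3, 0, 5, 3, 1, 0, 2, 1, 3, 1, 3, 5, 0, 0, 0, 1, 0, 4, 2, 1, 3, 1, 1, 1, 0, 1, 1, 0, 0, 1, 3, 4, 2, 3, 0, 6, 0, 2, 1, 0, 1, 1, 0, 0, 0, 1, 1, 3, 2, 1, 1, 2, 11, 0, 0, 3, 0, 0, 2, 0, 0, 6, 3, 3, 1, 2, 1, 1, 3, 2, 3, 5, 2, 2, 3, 3, 0, 0, 1, 1, 4, 2, 0, 5, 0, 1, 13, 1, 0, 0, 3, 1, 6, 5, 1, 1, 1, 0, 0, 0, 2, 3, 1, 1, 1, 1, 0, 2, 1, 3, 0, 0, 3, 2, 0, 0, 1, 1, 0, 0, 2, 2, 3, 1, 1, 3, 0, 2, 1, 2, 0, 1, 1, 3, 0, 5, 0, 0, 2, 4] (.cons 1 0 0 0 0 (.cons 10 1 0 .nil) [17, 1, 4, 1, 1, 0, 7, 26, 6, 0, 3, 3, 0, 1, 1, 3, 1, 0, 6, 4, 4, 23, 0, 0, 0, 0, 3, 5, 3, 1, 4, 7, 0, 7, 2, 3, 3, 0,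 6, 0, 2, 4, 0, 0, 0, 1, 1, 13, 6, 2, 3, 0, 0, 1, 0, 2, 1, 7, 2, 13, 9, 2, 2, 2, 0, 2, 7, 2, 0, 4, 25, 2, 3, 7, 1, 5, 2, 1, 1, 1, 1, 4, 0, 5, 0, 1, 1, 10, 3, 2, 2, 1, 4, 0, 0, 7, 3, 0, 6, 5, 1, 0, 3, 0, 1, 3, 0, 2, 0, 0, 0, 3, 0, 2, 1, 0, 0, 0, 2, 0, 0, 1, 0, 5, 0, 1, 3, 1, 3, 8, 1, 0, 0, 0, 3, 1, 0, 2, 1, 1, 2, 1, 0, 1, 1, 2, 1, 1, 1, 0, 1, 0, 12, 2, 0, 5, 2, 0, 3, 0, 2, 2, 0, 4, 2, 0, 1, 1, 2, 7, 1, 1, 10, 0, 0, 5, 1, 8, 4, 1, 0, 0, 3, 3, 3, 4, 0, 1, 0, 4, 0, 0, 3, 4, 0, 1, 6, 1, 2, 1, 3, 1, 2, 4, 1, 0, 0, 0, 2, 0, 3, 0, 0, 0, 1, 2, 1, 1, 6, 1, 13, 0, 16, 1, 7, 1, 2, 3, 0, 1, 1, 0, 0, 0, 1, 3, 2, 1, 3, 2, 0, 5, 1, 1, 1,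 2, 0, 3, 0, 0, 0, 1, 0, 0, 0, 0, 0, 3, 6, 1, 0, 1, 0, 0, 6, 3, 1, 0, 1, 2, 1, 5, 3, 0, 13, 0, 1, 0, 1, 1, 0, 0, 1, 5, 3, 0, 1, 9, 5] .nil))),
  .nil,
  (.cons 0 24 0 0 0 (.cons 5 4 0 .nil) [75, 63] (.cons 0 25 0 0 0 (.cons 5 68 0 .nil) [0] (.cons 0 13 1 0 0 (.cons 10 0 0 .nil) [0, 136, 117, 78, 1, 43] (.cons 0 27 0 0 0 (.cons 10 2 0 .nil) [3, 0, 7, 127] (.cons 0 21 3 0 0 (.cons 10 3 0 .nil) [0, 1, 0, 8, 48, 6, 68, 4, 36, 54, 5, 8, 1, 78, 1, 39, 3] (.cons 1 0 0 0 0 (.cons 11 0 0 .nil) [0, 1, 0, 7, 2, 3, 0, 0, 1, 2, 3, 2, 3, 5, 1, 0, 1, 8, 0, 6, 1, 1, 17, 3, 0, 1, 3, 0, 5, 0, 0, 16, 19, 3, 2, 0, 0, 1, 1, 2, 0, 2, 3, 3, 5,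 1, 2, 3, 0, 0, 0, 0, 3, 0, 1, 1, 1, 2, 3, 6, 0, 3, 1, 0, 7, 1, 2, 7, 1, 2, 0, 0, 1, 1, 2, 0, 0, 1, 0, 4, 0, 18, 6, 8, 1, 2, 2, 1, 1, 4, 0, 0, 1, 3, 1, 3, 6, 0, 0, 1, 1, 0, 2, 0, 1, 2, 1, 0, 2, 3, 1, 0, 1, 1, 2, 0, 2, 0, 1, 1, 3, 1, 0, 7, 1, 6, 2, 3, 1, 0, 3, 3, 3, 5, 0, 1, 2, 1, 5, 5, 0, 6, 0, 2, 1, 0, 0, 1, 0, 2, 3, 0, 1, 3, 0, 0, 0, 11, 9, 1, 1, 0, 1, 0, 1, 0, 1, 1, 5, 0, 0, 3, 4, 0, 5, 1, 1, 1, 1, 0, 4, 1, 6, 1, 0, 0, 0, 0, 1, 4, 0, 1, 0, 1, 1, 3, 3, 0, 3, 0, 1, 0, 0, 1, 0, 2, 3, 5, 0, 3, 0, 2, 1, 3, 0, 1, 2, 1, 1, 7, 3, 1, 1, 3, 2, 1, 0, 1, 0, 1, 0, 2, 0, 1, 0, 1, 1, 0, 0, 0, 1, 3, 1, 0, 1, 1, 0, 1, 1, 2, 1, 3, 1, 4,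 1, 5, 1, 1, 0, 1, 5, 0, 0, 0, 1, 1, 0, 1, 2, 4, 1, 1, 0, 7, 1, 0, 0, 1, 4, 0, 1, 1, 1, 6, 0, 3, 0, 1, 4, 6, 0, 0, 3, 0, 2, 1, 0, 0, 0, 1, 0, 0, 1, 1, 1, 0, 9, 3, 0, 1, 0, 5, 0, 2, 3, 1, 1, 1, 1, 1, 1, 0, 1, 1, 0, 0, 0, 2, 0, 1, 2, 3, 0, 0, 0, 0, 0, 1, 4, 1, 0, 0, 3, 1, 0, 3, 0, 2, 0, 1, 3, 0, 1, 2, 2, 0, 2, 7, 1, 0, 0, 1, 1, 1, 1, 1, 0, 0, 0, 9, 1, 4, 1, 6, 0, 0, 2, 0] .nil)))))),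
  (.cons 0 24 0 0 0 (.cons 9 1 0 .nil) [5, 3] (.cons 0 5 6 0 0 (.cons 10 0 0 .nil) [1, 35, 1, 1, 2, 16, 21, 5, 0, 16, 31, 1, 1, 3, 22, 0, 1, 0, 1, 1, 3, 0, 27, 0, 4, 0, 1, 1, 1, 17, 5, 2, 2, 14, 1, 2, 23, 3, 4, 2, 60] (.cons 2 12 0 0 0 (.cons 0 37 1 .nil) [23, 9, 69, 3, 0, 7, 47, 0, 9, 14, 4, 2, 2, 0, 1, 0, 3, 3, 4, 11, 2, 0, 0, 25, 5, 0, 18, 3, 42, 2, 1, 1, 49, 1, 7, 0, 17, 2, 0, 0, 2, 4, 0, 2, 4, 14, 12, 4, 1, 19, 0, 1, 20, 1, 3, 9, 1, 1, 1, 0, 1, 8, 1, 3, 3, 0, 1, 0, 0, 2, 6, 0, 0, 0, 8, 5, 2, 3, 5, 2, 0, 0, 0, 1, 0, 0, 1, 2, 0, 2, 1, 9, 0, 1, 2, 0, 4, 0, 0, 2, 0, 1, 20, 2, 2, 6, 0, 1, 1, 3, 2, 3, 10, 2, 4, 0, 0, 1, 4,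 27, 0, 1, 8, 1, 4, 7, 0, 1, 25, 8, 1, 8, 4, 3, 0, 6, 1, 1, 1, 0, 1, 5, 3, 0, 15, 6, 8, 2, 14, 5, 5, 0, 0, 0, 2, 0, 2, 3, 25, 7, 7, 0, 4, 0, 4, 1, 0, 1, 5, 2, 8, 0, 1, 1, 3, 14, 17, 0, 8, 0, 3, 1, 2, 1, 0, 0, 0, 1, 0, 1, 30, 1] (.cons 2 22 0 0 0 (.cons 0 38 0 .nil) [25, 7, 1, 2, 70, 6, 31, 3, 4, 3, 1, 7, 1, 0, 15, 1, 3, 2, 2, 2, 0, 2, 2, 5, 2, 3, 3, 1, 1, 0, 1, 1, 4, 16, 5, 0, 14, 6, 27, 6, 0, 5, 59, 1, 13, 8, 1, 0, 4, 4, 3, 0, 6, 16, 12, 26, 0, 8, 17, 12, 0, 1, 1, 3, 9, 2, 2, 0, 0, 5, 1, 0, 1, 1, 4, 0, 2, 1, 3, 1, 0, 0, 4, 0, 4, 3, 1, 0, 0, 1, 2, 1, 9, 1, 11, 1, 0, 1, 4, 0, 3, 3, 5, 16, 0, 1, 1, 5, 4, 0, 0, 1, 1, 1, 7, 9,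 0, 2, 5, 1, 0, 1, 5, 1, 1, 15, 1, 3, 2, 1, 3, 4, 2, 2, 1, 1, 2, 0, 0, 11, 9, 5, 1, 6, 1, 1, 10, 0, 0, 0, 6, 2, 3, 0, 2, 39, 3, 22, 6, 3, 3, 0, 2, 2, 31, 1, 6, 1, 1, 3, 0, 1, 0, 0, 1, 3, 0, 2, 0, 7, 0, 8, 1, 7, 1, 6, 9, 0, 4, 7, 0, 0, 5, 3, 1, 0, 1, 3, 1, 2, 0, 2, 1, 3, 3, 10, 0] (.cons 1 0 0 0 0 (.cons 7 2 0 .nil) [5, 17, 1, 2, 1, 3, 0, 13, 16, 34, 2, 0, 1, 1, 2, 0, 3, 2, 2, 0, 15, 19, 0, 3, 0, 23, 1, 1, 3, 0, 1, 1, 2, 3, 3, 2, 4, 1, 0, 0, 2, 5, 19, 5, 0, 0, 0, 4, 0, 3, 3, 32, 0, 3, 5, 3, 0, 3, 0, 0, 1, 0, 7, 0, 19, 1, 12, 0, 3, 0, 0, 4, 6, 2, 5, 0, 3, 0, 4, 0, 0, 1, 1, 6, 3, 3, 4, 3, 2, 0, 3, 2, 1, 1, 0, 8, 1, 4, 0, 0,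 1, 0, 1, 3, 7, 1, 4, 1, 3, 1, 1, 0, 3, 0, 8, 1, 0, 1, 6, 0, 0, 1, 2, 0, 4, 3, 0, 3, 1, 0, 2, 1, 0, 3, 1, 5, 1, 2, 4, 2, 0, 3, 10, 0, 1, 1, 2, 2, 1, 0, 3, 5, 3, 0, 0, 0, 0, 3, 1, 0, 4, 3, 9, 1, 1, 0, 1, 4, 1, 0, 0, 0, 2, 0, 1, 0, 4, 2, 0, 2, 1, 8, 1, 1, 3, 0, 1, 2, 2, 3, 3, 0, 1, 6, 3, 0, 1, 0, 6, 4, 1, 0, 4, 4, 1, 0, 0, 3, 2, 1, 0, 3, 0, 0, 0, 0, 0, 1, 3, 0, 3, 0, 0, 0, 2, 3, 7, 0, 1, 4, 5, 0, 1, 3, 5, 1, 0, 0, 5, 0, 4, 1, 1, 3, 7, 3, 1, 1, 1, 1, 2, 4, 1, 0, 1, 0, 0, 1, 7, 1, 4, 1, 0, 0, 0, 1, 3, 0, 3, 1, 0, 1, 1, 0, 0, 1, 1, 2, 1, 11, 4, 6, 0, 1, 1, 2, 1, 3, 1, 5, 1, 5, 0, 0, 3, 0, 2, 0, 3, 3, 2, 0, 1, 1, 2, 0, 0, 3, 3,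 1, 3, 1, 2, 5, 1, 0, 3, 4, 3, 1] .nil))))),
  (.cons 0 10 0 0 0 (.cons 10 0 0 .nil) [140] .nil),
  (.cons 0 25 3 0 0 (.cons 5 0 0 .nil) [81, 5, 20, 0, 3, 0, 5, 18, 43, 66, 3, 0, 2, 6, 1, 4, 1, 79, 5, 2, 1] (.cons 0 24 1 0 0 (.cons 9 1 0 .nil) [275, 5, 92, 31, 3] (.cons 0 7 2 0 0 (.cons 10 1 0 .nil) [14, 68, 5, 169, 15, 4, 3, 85, 0, 29, 7] (.cons 2 0 0 0 0 (.cons 0 39 0 .nil) [174, 55, 15, 172, 17, 44, 0, 44, 31, 69, 0, 28, 33, 3, 20, 24, 7, 3, 53, 0, 11, 5, 368, 42, 21] (.cons 2 10 0 0 0 (.cons 0 40 1 .nil) [2, 0, 0, 12, 1, 7, 2, 0, 3, 1, 8, 5, 2, 0, 4, 1, 24, 2, 1, 1, 1, 1, 1, 1, 5, 2, 5, 6, 4, 0, 1, 7, 0, 2, 3, 0, 0, 0,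 1, 0, 2, 0, 0, 1, 2, 4, 2, 4, 1, 0, 0, 0, 0, 2, 0, 3, 1, 3, 0, 1, 1, 0, 5, 0, 0, 2, 2, 0, 1, 2, 2, 7, 1, 10, 1, 0, 2, 1, 1, 1, 2, 1, 3, 0, 2, 0, 1, 2, 0, 3, 0, 5, 7, 1, 3, 1, 0, 2, 8, 6, 10, 1, 1, 0, 0, 1, 10, 0, 1, 0, 1, 3, 3, 1, 1, 3, 3, 3, 0, 1, 3, 3, 1, 11, 0, 1, 0, 1, 0, 1, 0, 0, 2, 1, 1, 0, 1, 1, 2, 3, 1, 0, 0, 1, 1, 0, 2, 1, 0, 0, 2, 1, 2, 4, 1, 5, 0, 1, 4, 0, 1, 1, 3, 7, 0, 0, 2, 3, 0, 2, 0, 7, 1, 0, 0, 1, 1, 5, 2, 0, 1, 0, 2, 1, 1, 1, 2, 0, 1, 0, 3, 1, 7, 0, 0, 0, 0, 1, 1, 3, 0, 0, 1, 0, 0, 3, 1, 0, 1, 0, 3, 1, 0, 3, 1, 0, 2, 2, 0, 3, 1, 1, 0, 3, 4, 9, 1, 3, 1, 0, 6, 4, 2, 2, 1, 1, 0, 4, 0, 0, 0, 1, 1, 3, 1, 2,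 1, 3, 1, 0, 0, 0, 0, 0, 0, 2, 0, 6, 0, 0, 5, 3, 4, 4, 1, 1, 1, 0, 0, 3, 0, 1, 0, 0, 1, 6, 0, 4, 2, 1, 1, 4, 0, 3, 2, 2, 3, 1, 1, 1, 1, 1, 2, 0, 0, 4, 0, 1, 0, 1, 2, 4, 0, 2, 2, 1, 3, 2, 0, 1, 3, 1, 1, 1, 5, 1, 0, 1, 1, 3, 0, 5, 3, 0, 1, 4, 1, 1, 1, 1, 0, 0, 0, 0, 0, 0, 1, 0, 0, 8, 3, 0, 0, 4, 1, 3, 2, 7, 10, 3, 0, 4, 1, 1, 3, 0, 2, 1, 0, 1, 3, 1, 1, 0, 0, 0, 1, 7, 1, 2, 4, 3, 0, 0, 0, 0, 1, 1, 4, 1, 1, 1, 1, 0, 11, 1, 1, 0, 2, 4, 0, 0, 1, 3, 0, 0, 1, 3, 3, 1, 3, 1, 0, 0, 2, 7, 1, 1, 3, 1, 1, 3, 0, 5, 1, 1, 1, 0] (.cons 1 0 0 0 0 (.cons 11 2 0 .nil) [5, 0, 16, 6, 2, 0, 2, 0, 3, 3, 1, 0, 3, 2, 1, 4, 1, 2, 2, 2, 1, 11, 3, 0,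 1, 0, 1, 8, 3, 5, 5, 0, 1, 0, 3, 0, 7, 4, 1, 0, 0, 0, 8, 3, 0, 2, 0, 8, 1, 2, 1, 1, 1, 2, 1, 0, 2, 2, 0, 3, 1, 1, 4, 3, 9, 6, 3, 6, 1, 2, 5, 2, 8, 1, 2, 0, 0, 1, 0, 3, 4, 2, 2, 8, 2, 0, 4, 5, 2, 9, 0, 0, 5, 5, 3, 0, 1, 0, 10, 1, 2, 0, 3, 4, 3, 2, 2, 0, 1, 7, 3, 1, 1, 1, 0, 0, 0, 0, 1, 1, 3, 0, 1, 1, 1, 0, 1, 0, 4, 1, 3, 0, 0, 4, 0, 0, 4, 1, 0, 2, 1, 2, 7, 1, 3, 3, 5, 0, 1, 1, 1, 0, 2, 4, 3, 4, 0, 0, 3, 2, 1, 0, 0, 1, 1, 1, 1, 6, 0, 2, 3, 1, 0, 0, 1, 1, 0, 0, 0, 1, 1, 3, 3, 3, 2, 0, 0, 1, 3, 1, 1, 0, 3, 0, 0, 1, 2, 0, 1, 1, 0, 2, 5, 0, 0, 0, 0, 1, 1, 4, 1, 1, 1, 1, 5, 1, 3, 0, 0, 1, 7, 0, 1, 1, 5, 0, 1, 0, 0, 2, 0, 1, 3,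 0, 0, 5, 2, 4, 2, 0, 0, 0, 0, 0, 0, 0, 2, 7, 0, 0, 1, 1, 1, 1, 1, 1, 0, 0, 5, 1, 4, 1, 3, 1, 0, 0, 1, 3, 0, 1, 1, 1, 3, 0, 0, 0, 1, 1, 0, 1, 0, 0, 2, 1, 0, 0, 1, 3, 2, 0, 0, 7, 5, 1, 0, 3, 1, 1, 1, 1, 5, 0, 1, 3, 0, 5, 0, 1, 0, 4, 2, 1, 1, 1, 1, 2, 2, 0, 1, 1, 1, 0, 1, 1, 1, 1, 0, 0, 2, 1, 0, 1, 0, 3, 0, 1, 1, 1, 9, 0, 0, 5, 0, 1, 0, 0, 2, 0, 3, 2, 1, 1, 5, 4, 0, 1, 11, 8, 3, 1, 1, 0, 0, 0, 1, 4, 1, 1, 0, 7, 0, 2, 5, 1, 1, 0, 7, 0, 9, 2, 2, 0, 3, 0, 1, 4, 4, 1, 1, 3, 1, 2, 0, 3, 0, 0, 0, 1, 0, 2, 1, 1, 4, 4, 1, 5, 2, 1, 3, 1, 0, 2, 0, 0, 0, 0] .nil)))))),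
  (.cons 0 23 6 0 0 (.cons 5 4 0 .nil) [71, 161, 11, 65] (.cons 2 11 0 0 0 (.cons 0 41 0 .nil) [3, 4, 1, 6, 4, 4, 2, 1, 5, 2, 0, 0, 0, 18, 0, 10, 2, 2, 4, 0, 1, 3, 5, 0, 3, 4, 5, 8, 13, 0, 2, 0, 1, 1, 5, 1, 1, 0, 0, 1, 1, 3, 7, 1, 7, 0, 3, 1, 7, 5, 1, 1, 7, 1, 4, 1, 1, 0, 1, 2, 0, 5, 0, 0, 2, 13, 0, 0, 8, 4, 0, 1, 3, 3, 0, 0, 1, 2, 0, 0, 15, 1, 1, 1, 3, 3, 3, 1, 1, 1, 1, 2, 1, 2, 4, 4, 0, 0, 0, 0, 2, 7, 1, 11, 8, 0, 5, 3, 2, 3, 1, 3, 1, 1, 0, 1, 0, 0, 7, 2, 2, 1, 1, 4, 0, 2, 4, 1, 1, 8, 5, 1, 0, 4, 2, 3, 0, 2, 1, 3, 3, 0, 0, 0, 1, 3, 1, 0, 0, 0, 1, 4, 1, 1, 3, 0, 6, 1, 1, 1, 0, 3, 3, 1, 3, 0, 1, 0, 2, 1, 1, 1, 1, 1, 0, 0,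 1, 1, 3, 2, 1, 1, 3, 3, 1, 0, 0, 1, 0, 0, 2, 5, 2, 0, 1, 1, 0, 1, 0, 2, 5, 0, 1, 6, 3, 1, 0, 3, 0, 0, 3, 1, 0, 0, 2, 1, 0, 2, 1, 0, 1, 0, 0, 1, 0, 5, 0, 2, 2, 2, 0, 1, 1, 3, 0, 1, 3, 5, 2, 3, 4, 0, 1, 3, 1, 0, 2, 2, 2, 4, 3, 0, 2, 0, 1, 4, 0, 3, 3, 1, 5, 0, 0, 1, 2, 1, 2, 0, 1, 0, 1, 0, 1, 2, 0, 3, 0, 3, 3, 1, 5, 0, 5, 0, 1, 1, 0, 1, 1, 0, 0, 0, 0, 0, 7, 1, 1, 1, 2, 0, 0, 1, 4, 3, 2, 1, 9, 1, 3, 7, 2, 3, 1, 1, 0, 0, 1, 4, 2, 3, 1, 0, 5, 1, 1, 0, 0, 2, 2, 0, 0, 1, 2, 1, 8, 13, 1, 3, 1, 1, 1, 3, 5, 0, 2, 0, 1, 3, 6, 0, 1, 0, 7, 0, 1, 1, 1, 1, 0, 1, 2, 1, 3, 0, 1, 1, 1, 0, 2, 1, 4, 0, 0, 0, 1, 1, 0, 1, 2, 0, 6, 0, 2, 1, 1,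 1, 2, 0, 3, 1, 3, 1, 3, 6, 1, 1, 1, 3, 9, 1, 2, 2, 2, 0, 0, 3, 0, 3, 2, 2, 3, 3, 1, 6] (.cons 1 0 0 0 0 (.cons 6 0 0 .nil) [20, 19, 73, 13, 27, 14, 0, 3, 0, 2, 9, 14, 2, 2, 6, 0, 1, 1, 1, 2, 2, 8, 2, 2, 4, 33, 29, 32, 6, 5, 0, 8, 8, 13, 34, 1, 12, 4, 1, 1, 4, 4, 1, 2, 1, 1, 6, 1, 0, 48, 19, 5, 1, 16, 1, 0, 0, 1, 0, 0, 0, 0, 6, 3, 0, 2, 8, 0, 3, 1, 6, 0, 4, 1, 1, 3, 1, 5, 5, 0, 0, 3, 2, 4, 2, 1, 2, 0, 3, 1, 0, 0, 0, 0, 0, 2, 1, 3, 0, 7, 0, 5, 0, 0, 10, 1, 7, 1, 1, 0, 0, 0, 0, 0, 11, 0, 1, 4, 3, 1, 6, 3, 4, 1, 6, 3, 0, 1, 1, 3, 15, 1, 0, 3, 7, 8, 3, 3, 0, 0, 1, 1, 2, 1, 0, 2, 2, 5, 0, 2, 1, 26, 8, 2, 1, 3, 0, 0, 0, 2, 2, 1,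 14, 4, 0, 0, 5, 0, 9, 15, 1, 17, 31, 0, 1, 3, 7, 11, 7, 18, 1, 2, 3, 0, 2, 8, 6, 0, 1, 0, 0, 0, 0, 3, 1, 2, 1, 7, 1, 0, 1, 0, 1, 0, 1, 1, 3, 1, 0, 4, 1, 6, 2, 2, 5, 4, 14, 0, 0, 0, 0, 2, 4, 6, 9, 9, 0, 11, 2, 1, 9] .nil))),
  (.cons 0 28 0 0 0 (.cons 10 2 0 .nil) [] (.cons 0 14 0 0 0 (.cons 11 1 0 .nil) [137] (.cons 0 25 0 0 0 (.cons 9 0 0 .nil) [36, 102, 3, 2, 2] (.cons 2 1 0 0 0 (.cons 0 42 0 .nil) [191, 0, 1, 3, 5, 0, 4, 1, 0, 31, 1, 14, 6, 46, 2, 3, 15, 10, 2, 35, 49, 9, 8, 1, 21, 0, 1, 9, 2, 2, 71, 0, 12, 2, 3, 0, 4, 2, 1, 0, 11, 14, 1, 8, 3, 1, 1, 0, 0, 1, 0, 1, 4, 3, 3, 3, 1, 1, 2, 1, 4, 4, 0, 3, 8, 1, 1, 0, 1, 1,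 5, 3, 4, 2, 9, 2, 3, 5, 0, 4, 11, 6, 1, 2, 3, 2, 1, 1, 0, 8, 22, 2, 0, 2, 1, 0, 8, 1, 31, 2, 2, 1, 0, 1, 15, 11, 3, 1, 0, 0, 6, 5, 1, 7, 16, 1, 1, 3, 1, 7, 5, 3, 9, 19, 0, 7, 2, 35, 6, 2, 12, 43, 1, 32, 2, 7, 2, 5, 1, 1, 2, 4, 0, 1, 1, 0, 7, 2, 2, 0, 0, 2, 1, 0, 1, 1, 1, 0, 0, 2, 23, 4, 9, 0, 4, 1, 11, 1, 5, 8, 21, 27, 0] (.cons 2 15 0 0 0 (.cons 0 43 1 .nil) [3, 2, 3, 7, 9, 5, 2, 1, 13, 11, 5, 2, 0, 2, 2, 3, 5, 0, 1, 2, 1, 1, 1, 1, 1, 0, 1, 2, 0, 3, 0, 1, 5, 4, 1, 0, 3, 1, 1, 0, 1, 1, 2, 1, 2, 1, 1, 2, 1, 1, 0, 0, 1, 1, 4, 4, 1, 0, 1, 0, 0, 0, 0, 1, 0, 0, 4, 3, 3, 1, 1, 3, 0, 1, 1, 3, 0, 0, 1, 0, 2, 0, 0, 0, 4, 1, 5, 5,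 5, 0, 1, 1, 3, 2, 5, 2, 4, 0, 3, 6, 0, 0, 2, 1, 3, 4, 2, 1, 3, 3, 7, 1, 0, 4, 1, 1, 0, 1, 0, 10, 4, 5, 10, 0, 0, 0, 0, 0, 0, 0, 5, 2, 4, 0, 0, 2, 4, 0, 1, 0, 0, 0, 0, 2, 0, 0, 1, 0, 0, 4, 0, 0, 1, 2, 0, 0, 3, 2, 1, 0, 7, 3, 0, 0, 5, 2, 2, 9, 3, 1, 4, 3, 4, 3, 1, 0, 3, 0, 3, 2, 0, 0, 0, 0, 0, 3, 1, 1, 0, 2, 0, 1, 3, 1, 4, 4, 0, 1, 2, 2, 1, 1, 1, 3, 6, 0, 0, 0, 0, 3, 2, 0, 3, 2, 1, 0, 1, 0, 2, 1, 1, 2, 0, 0, 0, 0, 1, 0, 0, 1, 4, 0, 1, 1, 1, 1, 1, 1, 0, 1, 2, 0, 4, 0, 0, 2, 1, 0, 0, 3, 1, 3, 5, 1, 0, 7, 5, 1, 5, 1, 1, 0, 1, 0, 1, 0, 0, 2, 3, 3, 1, 2, 0, 3, 0, 0, 3, 1, 0, 1, 0, 3, 4, 1, 5, 1, 2, 0, 5, 5, 0, 3, 1, 3, 0, 5, 3,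 1, 1, 3, 1, 1, 0, 0, 9, 0, 2, 1, 0, 1, 4, 1, 0, 3, 0, 4, 1, 4, 0, 2, 3, 3, 0, 1, 0, 2, 1, 1, 1, 2, 2, 2, 0, 3, 3, 1, 2, 0, 3, 1, 2, 1, 0, 4, 1, 0, 6, 5, 0, 3, 7, 0, 1, 4, 5, 4, 0, 3, 5, 5, 0, 7, 1, 2, 1, 0, 7, 1, 1, 1, 1, 0, 0, 1, 4, 2, 1, 0, 0, 1, 1, 4, 0, 2, 3, 1, 0, 0, 2, 0, 0, 4, 15, 3, 1, 3, 1, 1, 1, 1, 0, 0, 1, 0, 3, 0, 0, 1, 0, 0, 1, 0, 1, 1, 6, 0, 0, 5, 1, 7, 1, 0, 1, 3, 0, 0, 3, 1, 0, 0, 3, 7, 5, 4, 0, 1, 1, 3, 3, 0, 5, 0, 1, 1, 1, 1, 4] (.cons 1 0 0 0 0 (.cons 11 0 0 .nil) [7, 5, 3, 0, 5, 2, 1, 1, 9, 5, 6, 8, 1, 4, 2, 1, 0, 0, 12, 25, 1, 1, 1, 2, 4, 19, 3, 2, 7, 0, 3, 4, 0, 1, 1, 0, 2, 5, 1, 1, 1, 5, 0, 0, 0, 1,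 4, 1, 1, 5, 0, 1, 1, 0, 1, 0, 1, 2, 0, 0, 1, 0, 2, 0, 1, 2, 0, 2, 2, 1, 2, 7, 3, 3, 2, 2, 0, 2, 1, 0, 9, 1, 9, 0, 0, 4, 1, 1, 2, 0, 2, 10, 1, 3, 2, 4, 4, 3, 17, 0, 8, 1, 0, 1, 2, 2, 3, 1, 0, 0, 4, 4, 1, 3, 1, 1, 3, 1, 0, 5, 3, 2, 1, 2, 1, 0, 5, 1, 3, 3, 1, 3, 0, 1, 5, 5, 8, 4, 3, 6, 0, 2, 7, 3, 1, 0, 0, 1, 7, 3, 1, 2, 1, 0, 1, 0, 4, 3, 1, 0, 0, 3, 1, 0, 1, 0, 0, 0, 1, 0, 0, 1, 2, 0, 5, 3, 2, 0, 1, 1, 3, 0, 2, 0, 5, 4, 2, 1, 6, 0, 1, 1, 0, 0, 0, 0, 3, 0, 0, 1, 0, 5, 1, 3, 0, 2, 3, 6, 0, 5, 0, 0, 2, 1, 0, 1, 1, 3, 1, 3, 0, 2, 1, 1, 5, 2, 10, 3, 1, 0, 0, 1, 0, 0, 1, 1, 0, 0, 0, 0, 0, 3, 2, 0, 0, 5, 1, 1, 1, 1, 4, 0, 0, 2, 0,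 3, 1, 0, 0, 3, 5, 10, 2, 6, 0, 0, 0, 1, 3, 5, 7, 1, 1, 0, 0, 3, 1, 0, 7, 1, 2, 0, 0, 1, 6, 9, 1, 1, 1, 3, 0, 3, 1, 3, 1, 1, 5, 3, 3, 2, 3, 0, 1, 0, 2, 9, 7, 0, 2, 0, 1, 2, 3, 3, 2, 1, 1, 5, 0, 9, 4, 1, 3, 1, 0, 2, 0, 0, 3, 0, 10, 5, 0, 0, 0, 4, 0, 0, 1, 0, 0, 0, 5, 2, 0, 0, 0, 1, 3, 4, 0, 3, 1, 1, 0, 0, 3, 7, 5, 3, 0, 1, 1, 1, 0, 0, 0, 1, 1, 5, 10, 5, 1, 0, 3, 3, 8, 1, 0, 3, 0, 0, 5, 2, 3, 1, 1, 0, 0, 2, 5, 3, 3, 3, 0, 1, 0, 0, 7, 0, 1, 0, 0, 1, 3, 0] (.cons 1 0 0 0 0 (.cons 10 0 0 .nil) [5, 1, 1, 3, 0, 2, 1, 0, 1, 1, 1, 4, 1, 1, 3, 3, 1, 7, 8, 0, 2, 0, 2, 0, 6, 2, 4, 1, 1, 1, 2, 2, 0, 0, 1, 3, 5, 2, 1, 5, 9, 3, 5, 1, 3,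 1, 4, 4, 9, 0, 1, 2, 0, 1, 2, 1, 5, 5, 4, 0, 1, 3, 0, 3, 4, 2, 1, 1, 1, 0, 0, 1, 1, 10, 3, 1, 6, 2, 1, 3, 2, 0, 0, 3, 0, 1, 5, 0, 0, 7, 2, 0, 13, 3, 5, 4, 5, 2, 1, 1, 0, 3, 7, 2, 0, 6, 12, 0, 1, 2, 3, 3, 1, 0, 3, 2, 2, 1, 1, 3, 5, 0, 0, 0, 1, 6, 5, 0, 1, 1, 1, 2, 5, 1, 2, 0, 2, 0, 2, 4, 2, 2, 4, 2, 4, 0, 1, 3, 1, 7, 0, 1, 0, 5, 0, 1, 2, 5, 1, 1, 1, 2, 3, 0, 2, 1, 0, 0, 1, 0, 4, 0, 0, 0, 1, 1, 0, 0, 4, 0, 0, 0, 1, 3, 2, 3, 0, 6, 0, 3, 0, 2, 0, 0, 1, 1, 5, 0, 5, 1, 0, 12, 1, 1, 5, 1, 0, 0, 0, 3, 0, 3, 0, 1, 1, 3, 2, 2, 5, 0, 1, 7, 2, 0, 1, 0, 1, 0, 3, 7, 1, 1, 9, 1, 5, 3, 0, 1, 1, 0, 3, 0, 1, 4, 1, 3, 1, 0, 1, 0, 1, 2, 4,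 0, 0, 1, 1, 1, 3, 0, 9, 1, 3, 1, 1, 0, 1, 1, 0, 2, 0, 0, 1, 1, 3, 7, 0, 0, 3, 4, 2, 1, 1, 5, 5, 5, 1, 2, 0, 7, 1, 8, 1, 1, 1, 0, 4, 4, 0, 1, 4, 2, 0, 1, 0, 0, 1, 9, 0, 1, 1, 1, 2, 0, 3, 1, 0, 2, 9, 2, 1, 0, 5, 1, 3, 4, 0, 1, 3, 3, 3, 1, 0, 0, 1, 3, 4, 1, 0, 1, 1, 0, 0, 5, 0, 1, 7, 3, 0, 1, 0, 0, 4, 1, 0, 3, 0, 1, 0, 5, 3, 0, 0, 1, 3, 4, 5, 3, 4, 1, 0, 0, 1, 1, 0, 2, 1, 1, 5, 1, 4, 3, 1, 3, 0, 0, 1, 3, 0, 0, 2, 2, 3, 0, 4, 1, 0, 0, 0, 0, 0, 1, 0, 3, 1, 4, 1, 3, 1, 0, 1, 3, 0, 0, 1, 2, 1, 0, 1, 1, 0, 0, 0, 1, 1, 0, 0, 0, 1, 13, 0, 1] .nil))))))),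
  (.cons 0 24 2 0 0 (.cons 5 3 0 .nil) [162, 1, 2, 42, 68, 1, 5, 0, 7, 105, 3, 32] (.cons 0 27 0 0 0 (.cons 10 2 0 .nil) [] (.cons 0 11 0 0 0 (.cons 11 0 0 .nil) [8] (.cons 2 14 0 0 0 (.cons 0 44 0 .nil) [1, 0, 0, 9, 0, 0, 0, 1, 1, 0, 7, 5, 7, 2, 1, 0, 3, 3, 1, 2, 7, 0, 3, 1, 21, 1, 0, 0, 0, 2, 3, 1, 8, 3, 0, 0, 1, 5, 6, 0, 6, 4, 0, 2, 1, 0, 0, 0, 0, 0, 0, 1, 2, 0, 2, 1, 2, 2, 1, 0, 3, 0, 6, 3, 0, 7, 0, 1, 3, 0, 3, 2, 0, 1, 5, 3, 5, 6, 3, 0, 4, 1, 3, 0, 3, 3, 0, 1, 9, 3, 0, 0, 1, 1, 1, 0, 0, 2, 1, 7, 7, 1, 0, 2, 4, 1, 1, 2, 5, 0, 3, 4, 5, 3, 1, 0, 1, 3, 0, 0, 0, 0, 4, 1, 0, 1, 1, 0, 1, 0, 0, 5, 0, 0, 2, 4, 0, 3, 3, 0, 2,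 1, 1, 2, 3, 3, 3, 1, 0, 0, 1, 4, 1, 3, 1, 3, 12, 3, 0, 3, 3, 9, 0, 0, 0, 1, 2, 3, 0, 1, 1, 1, 5, 1, 4, 2, 2, 1, 1, 1, 1, 3, 1, 2, 1, 0, 0, 14, 2, 1, 5, 2, 1, 5, 3, 0, 2, 1, 0, 3, 1, 0, 1, 1, 0, 1, 5, 6, 1, 1, 1, 3, 1, 3, 1, 0, 1, 0, 0, 3, 5, 3, 0, 1, 2, 0, 1, 1, 1, 3, 1, 1, 2, 0, 11, 1, 4, 0, 0, 0, 1, 0, 1, 5, 1, 1, 3, 0, 0, 2, 1, 1, 2, 0, 0, 2, 0, 1, 2, 1, 0, 0, 1, 2, 3, 0, 0, 4, 0, 1, 7, 3, 0, 0, 0, 2, 2, 5, 1, 2, 3, 4, 4, 0, 0, 7, 2, 1, 1, 0, 0, 0, 1, 1, 1, 7, 1, 0, 5, 0, 0, 0, 1, 10, 1, 3, 1, 5, 1, 1, 1, 1, 1, 0, 1, 0, 1, 2, 0, 0, 2, 1, 3, 0, 2, 0, 1, 0, 0, 0, 0, 1, 2, 0, 6, 5, 0, 0, 0, 0, 0, 8, 0, 5, 0, 2, 0, 0, 0,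 3, 2, 0, 1, 1, 1, 1, 0, 6, 0, 1, 1, 0, 2, 3, 1, 0, 2, 9, 0, 2, 0, 0, 8, 3, 1, 5, 0, 1, 1, 1, 1, 0, 1, 1, 3, 3, 3, 3, 1, 1, 1, 1, 0, 0, 3, 1, 1, 3, 1, 1, 0, 1, 1, 1, 0, 0, 0, 0, 4, 2, 1, 1, 1, 2, 1, 1, 2, 1, 2, 2, 0, 1, 1, 2, 1, 1, 1, 7, 1, 5, 0, 1, 2, 0, 0, 2, 3, 5, 1, 0, 0, 3, 1, 1, 0, 3, 1, 1, 0, 1, 0, 1, 3, 2, 1, 0, 0, 2, 1, 1, 14, 1, 5, 3, 1, 3, 1, 3] (.cons 1 0 0 0 0 (.cons 9 1 0 .nil) [23, 23, 6, 0, 6, 19, 5, 54, 18, 14, 2, 5, 4, 18, 6, 7, 3, 6, 5, 1, 0, 0, 0, 0, 1, 0, 0, 0, 1, 3, 1, 3, 2, 6, 14, 16, 0, 3, 1, 3, 3, 4, 8, 1, 7, 4, 3, 0, 0, 3, 0, 1, 1, 3, 2, 1, 19, 3, 4, 0, 1, 1, 3, 4, 28, 3, 2, 1, 3, 1, 0, 2, 0, 1,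 0, 2, 1, 5, 2, 3, 0, 2, 1, 0, 1, 1, 1, 0, 1, 1, 1, 9, 23, 2, 1, 3, 7, 9, 3, 1, 4, 0, 1, 0, 1, 3, 12, 0, 0, 0, 0, 0, 1, 0, 0, 1, 1, 9, 0, 1, 2, 0, 2, 1, 0, 4, 3, 2, 1, 1, 0, 0, 5, 1, 0, 3, 5, 1, 0, 3, 0, 1, 3, 1, 0, 0, 0, 1, 0, 0, 1, 3, 1, 0, 0, 0, 5, 6, 1, 1, 5, 0, 0, 3, 1, 7, 0, 5, 5, 1, 0, 1, 1, 3, 0, 11, 0, 5, 2, 5, 1, 2, 1, 0, 3, 5, 0, 3, 1, 10, 3, 3, 0, 0, 1, 0, 5, 5, 0, 9, 3, 1, 1, 0, 0, 3, 1, 4, 3, 0, 1, 1, 0, 1, 1, 3, 6, 2, 0, 0, 3, 1, 0, 3, 0, 0, 1, 5, 3, 0, 10, 2, 6, 0, 0, 3, 1, 3, 2, 2, 0, 0, 1, 5, 1, 1, 0, 1, 1, 0, 0, 8, 3, 6, 0, 20, 1, 3, 1, 0, 2, 2, 0, 10, 0, 3, 3, 26, 4, 1, 1, 0, 0, 0, 0, 2, 0, 12, 0, 5, 9,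 1, 0, 0, 4, 0, 0, 1, 3, 1, 5, 1, 15, 0, 4, 0, 3, 0, 0, 1, 1, 0, 5, 0, 2, 1, 5, 4, 1, 0, 2, 1, 1, 1, 3, 2, 0, 1, 3, 0, 0, 1, 1, 2, 1, 1, 1, 1, 1, 1, 1, 0, 2, 0, 2, 1, 6, 2, 9, 3, 2, 4, 1, 0, 15, 2, 0, 2] .nil))))),
  (.cons 0 25 0 1 0 (.cons 5 8 0 .nil) [21, 21, 16, 3, 5, 69, 38, 7, 0, 20, 0, 0, 1, 1, 3, 3, 4, 4, 0, 1, 13, 8, 1, 1, 3, 4, 2, 1, 22, 3, 2, 0, 0, 15, 0, 2, 0, 45, 11, 6, 4, 25, 782, 2] (.cons 0 23 0 0 0 (.cons 11 2 0 .nil) [5, 2, 3, 42, 92, 2, 7, 0] (.cons 0 11 1 0 0 (.cons 9 0 0 .nil) [7, 154, 0, 0, 139] (.cons 2 2 0 0 0 (.cons 0 45 0 .nil) [26, 10, 0, 76, 14, 51, 4, 37, 0, 0, 3, 6, 1, 0, 26, 6, 1, 34, 28, 0,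 51, 11, 79, 0, 25, 2, 0, 5, 11, 5, 16, 46, 7, 1, 0, 2, 19, 1, 4, 1, 7, 0, 3, 1, 3, 2, 13, 1, 1, 1, 3, 3, 0, 1, 2, 2, 5, 0, 1, 4, 5, 1, 0, 0, 0, 1, 1, 3, 5, 1, 3, 3, 0, 0, 0, 0, 3, 0, 2, 0, 7, 3, 1, 8, 1, 0, 3, 1, 1, 1, 3, 1, 0, 1, 1, 1, 2, 3, 3, 1, 0, 1, 2, 12, 4, 5, 12, 3, 2, 0, 2, 11, 1, 0, 2, 1, 0, 3, 0, 0, 0, 14, 2, 0, 13, 15, 5, 0, 2, 3, 0, 3, 11, 1, 4, 0, 3, 40, 4, 0, 0, 2, 3, 2, 7, 1, 9, 0, 5, 4, 0, 1, 2, 66, 16, 1, 2, 2, 44, 6, 0, 1, 0, 3, 0, 6, 3, 0, 1, 0, 1, 0, 0, 1, 2, 0, 1, 0, 3, 1, 0, 1, 1, 1, 0, 1, 1, 1, 3, 5, 2, 0, 0, 0, 0, 5, 3, 1, 0, 0, 1, 0, 1, 5, 5, 12, 0, 3, 3, 0, 1, 0, 1, 1, 2, 2, 0, 3, 0, 0, 0, 3, 2,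 1, 1, 0, 1, 1, 1, 1, 1, 6, 2, 0, 2, 1, 8, 4, 0, 3, 0, 6, 0, 1] (.cons 2 17 0 0 0 (.cons 0 46 1 .nil) [4, 1, 3, 8, 3, 3, 0, 7, 0, 0, 1, 2, 11, 15, 1, 4, 1, 3, 4, 3, 0, 3, 2, 1, 7, 0, 0, 3, 3, 0, 0, 0, 11, 3, 1, 9, 0, 0, 3, 0, 5, 3, 0, 2, 1, 0, 1, 2, 0, 1, 0, 3, 1, 4, 5, 0, 0, 3, 5, 1, 0, 2, 3, 1, 2, 3, 1, 0, 2, 4, 0, 2, 3, 3, 0, 5, 0, 0, 3, 0, 0, 5, 2, 0, 0, 3, 1, 3, 3, 5, 1, 0, 4, 3, 0, 0, 9, 5, 0, 5, 1, 4, 3, 0, 4, 1, 2, 1, 5, 1, 3, 3, 7, 11, 10, 1, 0, 1, 3, 0, 3, 3, 1, 0, 0, 0, 5, 1, 5, 1, 2, 5, 3, 2, 1, 1, 0, 1, 1, 0, 0, 3, 3, 3, 1, 8, 0, 1, 6, 0, 2, 1, 6, 1, 3, 6, 1, 0, 3, 1, 1, 3, 2, 0, 0, 4, 1, 1, 1, 0, 1, 1, 0, 2,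 0, 11, 0, 0, 0, 6, 0, 0, 4, 1, 7, 0, 2, 1, 2, 3, 13, 0, 5, 1, 0, 0, 1, 0, 1, 1, 0, 4, 6, 2, 1, 0, 2, 3, 5, 1, 1, 3, 1, 3, 0, 0, 1, 4, 3, 1, 7, 0, 5, 1, 3, 1, 6, 7, 1, 3, 0, 0, 0, 1, 0, 1, 10, 3, 0, 0, 0, 1, 1, 4, 1, 8, 0, 5, 2, 5, 0, 0, 1, 5, 1, 0, 0, 0, 0, 1, 1, 1, 1, 0, 6, 1, 0, 0, 1, 1, 1, 2, 2, 1, 5, 6, 0, 0, 1, 0, 2, 2, 2, 1, 1, 5, 1, 4, 0, 0, 0, 2, 0, 0, 1, 0, 0, 0, 1, 1, 0, 3, 1, 12, 1, 1, 10, 2, 2, 8, 1, 1, 0, 3, 0, 2, 0, 1, 1, 1, 0, 2, 7, 1, 0, 0, 0, 1, 1, 1, 3, 7, 1, 2, 3, 3, 1, 2, 2, 0, 0, 1, 2, 5, 2, 6, 2, 5, 0, 1, 0, 0, 1, 1, 4, 1, 0, 0, 3, 0, 2, 4, 1, 0, 6, 0, 3, 0, 1, 5, 2, 0, 6, 0, 2, 1, 1, 0, 0, 0, 0, 0,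 0, 1, 1, 1, 0, 5, 1, 1, 1, 0, 3, 1, 1, 0, 0, 7, 0, 4, 0, 1, 0, 0, 2, 1, 0, 3, 1, 1, 2, 3, 3, 2, 1, 0, 5, 0, 3, 0, 0, 1, 4, 0, 3, 9, 0, 0, 3, 4, 0, 1, 0, 1, 6, 0, 3, 0, 0, 0, 1, 0, 1, 1, 1, 3, 0, 6, 1, 1, 0, 5, 3] (.cons 2 24 0 0 0 (.cons 0 46 0 (.cons 0 47 0 .nil)) [5, 0, 5, 12, 0, 2, 1, 5, 0, 6, 0, 9, 14, 1, 4, 1, 2, 7, 1, 9, 0, 5, 0, 1, 3, 0, 3, 0, 1, 3, 4, 2, 2, 1, 9, 0, 0, 3, 0, 5, 1, 3, 3, 3, 1, 2, 1, 0, 0, 0, 1, 1, 3, 1, 1, 3, 2, 1, 2, 5, 1, 3, 4, 2, 5, 1, 4, 2, 2, 0, 5, 1, 0, 0, 2, 0, 0, 3, 1, 0, 5, 0, 1, 0, 1, 2, 1, 1, 1, 7, 0, 1, 0, 1, 0, 0, 0, 0, 2, 3, 5, 2, 1, 0, 5, 0, 1, 2, 3, 1, 0, 2, 1, 1, 1, 1, 3, 1, 1, 5,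 1, 9, 0, 7, 2, 4, 0, 1, 0, 1, 1, 1, 1, 2, 0, 1, 0, 2, 1, 2, 6, 1, 0, 1, 2, 0, 3, 9, 1, 5, 0, 0, 1, 2, 4, 2, 3, 4, 2, 3, 4, 0, 0, 4, 1, 3, 4, 1, 3, 2, 1, 1, 4, 1, 1, 0, 5, 5, 1, 1, 0, 0, 0, 0, 1, 2, 0, 2, 1, 0, 1, 0, 3, 3, 0, 0, 1, 1, 0, 2, 3, 1, 0, 1, 2, 0, 1, 0, 0, 3, 1, 0, 0, 3, 0, 1, 3, 1, 1, 1, 1, 0, 1, 1, 1, 3, 0, 0, 1, 0, 10, 0, 1, 1, 2, 0, 0, 1, 0, 0, 0, 3, 5, 0, 1, 4, 0, 0, 0, 0, 0, 2, 0, 2, 1, 4, 6, 0, 3, 0, 0, 3, 0, 3, 3, 2, 1, 4, 4, 1, 3, 3, 2, 0, 0, 4, 2, 0, 1, 0, 1, 1, 2, 0, 0, 0, 1, 1, 0, 2, 2, 2, 1, 4, 1, 6, 0, 0, 2, 1, 4, 4, 3, 2, 7, 1, 5, 5, 2, 1, 1, 4, 2, 1, 0, 0, 7, 9, 1, 0, 1, 0, 4, 5, 1, 5, 5, 5, 3,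 1, 2, 1, 0, 0, 2, 4, 1, 1, 2, 2, 0, 0, 0, 7, 3, 1, 4, 1, 0, 0, 0, 13, 1, 2, 6, 0, 1, 1, 0, 1, 0, 0, 1, 1, 1, 1, 3, 2, 7, 3, 2, 5, 1, 1, 0, 0, 5, 9, 0, 3, 4, 1, 4, 4, 2, 1, 1, 1, 15, 3, 0, 0, 0, 0, 1, 1, 2, 1, 1, 1, 4, 3, 3, 2, 1, 2, 1, 0, 0, 1, 1, 3, 0, 0, 0, 2, 3, 1, 2, 0, 1, 2, 1, 1, 3, 3, 1, 2, 0, 0, 5, 1, 1, 0, 1, 5, 0, 2, 0, 1, 0, 0, 0, 1, 1, 3, 5, 2, 0, 0, 1, 4, 1, 1, 1, 0, 8, 1, 1, 1, 1, 0, 1, 2, 0, 0, 3, 0, 5, 0, 6, 1] (.cons 1 0 0 0 0 (.cons 11 0 0 .nil) [6, 8, 7, 3, 1, 1, 1, 0, 1, 7, 0, 8, 2, 17, 1, 11, 4, 0, 2, 3, 3, 0, 6, 0, 2, 0, 7, 0, 0, 5, 3, 3, 24, 4, 0, 2, 1, 3, 0, 2, 0, 2, 1, 0, 3, 0, 1, 2, 6, 1, 2, 1,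 1, 2, 1, 0, 1, 1, 6, 1, 0, 0, 8, 2, 2, 0, 0, 0, 0, 1, 0, 16, 5, 1, 0, 5, 3, 0, 0, 0, 0, 0, 0, 0, 0, 1, 1, 2, 3, 9, 4, 17, 5, 3, 3, 8, 1, 0, 12, 6, 2, 5, 3, 0, 1, 5, 2, 1, 0, 3, 7, 1, 1, 0, 2, 2, 1, 2, 0, 1, 1, 2, 2, 4, 2, 1, 1, 0, 1, 0, 3, 8, 2, 3, 3, 0, 2, 6, 0, 0, 3, 7, 0, 5, 8, 1, 0, 5, 0, 5, 1, 3, 0, 1, 2, 2, 1, 0, 1, 0, 2, 1, 0, 1, 2, 0, 1, 3, 2, 3, 2, 5, 1, 2, 15, 1, 3, 3, 4, 0, 5, 1, 1, 0, 3, 3, 0, 2, 5, 0, 0, 1, 1, 1, 1, 0, 0, 8, 1, 0, 1, 0, 0, 6, 3, 3, 1, 5, 1, 1, 1, 9, 0, 1, 1, 2, 0, 5, 2, 1, 1, 0, 5, 0, 1, 2, 2, 1, 0, 1, 5, 1, 1, 5, 3, 0, 1, 1, 0, 0, 0, 5, 1, 1, 1, 3, 0, 0, 2, 0, 3, 3, 0, 4, 4, 1, 1, 0, 0, 1,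 1, 4, 1, 0, 2, 3, 2, 1, 2, 0, 2, 1, 1, 1, 0, 1, 3, 1, 1, 0, 1, 0, 4, 1, 3, 7, 0, 7, 1, 6, 1, 5, 1, 0, 2, 0, 4, 0, 3, 0, 0, 1, 8, 6, 1, 1, 1, 1, 5, 0, 1, 0, 1, 3, 3, 4, 1, 0, 3, 1, 4, 2, 8, 1, 1, 1, 2, 2, 0, 0, 0, 0, 8, 8, 2, 2, 0, 0, 3, 1, 5, 3, 0, 7, 0, 3, 1, 7, 1, 1, 0, 0, 0, 1, 4, 2, 2, 0, 2, 3, 2, 3, 1, 1, 1, 2, 0, 4, 0, 1, 1, 1, 1, 0, 4, 1, 0, 1, 2, 3, 1, 1, 1, 3, 4, 1, 2, 0, 1, 1, 3, 1, 0, 1, 6, 2, 1, 4, 1, 1, 0, 1, 0, 13, 0, 2, 0, 1, 0, 2, 1, 1, 0, 0, 5, 0, 0, 1, 1, 1, 0, 0, 4, 0, 3, 1, 1, 0, 3, 3, 0, 1, 7, 1, 2, 2, 2, 0, 1] (.cons 1 0 0 0 0 (.cons 11 1 0 .nil) [6, 0, 0, 0, 0, 9, 0, 5, 1, 8, 0, 1, 0, 3, 1, 1, 23,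 7, 3, 8, 0, 3, 3, 1, 3, 0, 1, 3, 7, 1, 0, 1, 0, 5, 25, 1, 0, 3, 0, 1, 0, 1, 3, 3, 1, 1, 0, 3, 0, 3, 0, 2, 7, 1, 1, 1, 0, 1, 3, 0, 0, 2, 4, 1, 1, 4, 5, 4, 0, 1, 4, 1, 0, 2, 3, 1, 5, 0, 1, 2, 0, 3, 0, 0, 3, 1, 0, 1, 3, 1, 6, 1, 1, 9, 3, 5, 2, 0, 0, 3, 1, 3, 1, 0, 3, 0, 0, 5, 0, 0, 0, 2, 1, 1, 2, 0, 0, 3, 3, 0, 9, 2, 1, 2, 0, 7, 1, 1, 4, 1, 0, 0, 2, 2, 3, 0, 1, 3, 3, 2, 0, 2, 2, 1, 3, 3, 4, 0, 2, 0, 0, 3, 0, 1, 0, 3, 0, 6, 3, 3, 1, 2, 3, 9, 2, 1, 7, 2, 0, 4, 3, 1, 5, 0, 1, 1, 0, 1, 0, 4, 1, 1, 1, 3, 0, 3, 1, 2, 0, 2, 0, 1, 2, 0, 1, 2, 1, 1, 0, 0, 0, 3, 2, 3, 1, 1, 0, 1, 1, 0, 0, 0, 0, 0, 0, 0, 1, 1, 0, 0, 0, 0, 0, 1, 0, 0,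 1, 1, 0, 0, 3, 2, 2, 0, 2, 1, 2, 1, 1, 3, 1, 1, 1, 1, 1, 5, 1, 4, 0, 3, 5, 1, 7, 0, 4, 0, 4, 0, 1, 0, 0, 0, 1, 3, 1, 3, 3, 0, 1, 3, 9, 6, 0, 2, 0, 6, 2, 11, 1, 0, 0, 2, 7, 6, 0, 3, 7, 3, 3, 0, 0, 1, 0, 6, 3, 1, 5, 1, 4, 3, 7, 1, 1, 2, 2, 1, 1, 3, 0, 1, 0, 2, 2, 0, 0, 1, 4, 1, 3, 0, 5, 0, 1, 0, 2, 3, 2, 4, 1, 0, 1, 3, 0, 1, 2, 1, 1, 0, 4, 3, 0, 2, 1, 3, 2, 0, 4, 1, 7, 1, 1, 3, 0, 8, 4, 5, 7, 0, 1, 1, 4, 3, 2, 1, 0, 1, 0, 1, 3, 5, 0, 0, 0, 8, 5, 1, 1, 3, 2, 0, 7, 2, 2, 1, 1, 1, 9, 0, 1, 0, 0, 1, 1, 1, 0, 1, 1, 0, 0, 1, 0, 3, 0, 4, 1, 0, 6, 1, 0, 0, 0, 1, 5, 7, 4, 1, 4, 9, 6, 0, 1, 1, 0, 5, 3, 1, 0, 2, 1, 1, 1, 2, 7, 1, 1,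 5, 1, 1, 6, 0, 1, 0, 3, 2, 2, 2, 1, 0, 9, 5, 3, 0, 1, 1, 7, 3] (.cons 1 0 0 0 0 (.cons 10 1 0 .nil) [7, 3, 1, 6, 3, 3, 1, 0, 1, 1, 1, 2, 1, 0, 3, 3, 2, 1, 2, 11, 3, 1, 4, 4, 9, 1, 3, 2, 0, 8, 2, 10, 6, 3, 3, 0, 11, 1, 3, 5, 1, 4, 2, 1, 1, 2, 7, 1, 3, 2, 0, 6, 3, 1, 1, 6, 4, 3, 0, 1, 3, 2, 1, 1, 0, 5, 3, 0, 0, 1, 1, 5, 0, 1, 1, 2, 2, 2, 1, 1, 0, 9, 0, 0, 2, 5, 4, 1, 2, 1, 13, 0, 0, 6, 3, 0, 0, 1, 3, 1, 0, 3, 1, 1, 0, 4, 3, 1, 1, 0, 0, 3, 0, 5, 2, 1, 4, 0, 2, 1, 1, 0, 2, 1, 0, 2, 1, 2, 1, 6, 3, 0, 2, 1, 2, 3, 1, 0, 3, 2, 0, 0, 2, 1, 0, 1, 3, 1, 3, 2, 0, 1, 3, 6, 2, 0, 2, 0, 0, 2, 2, 3, 4, 1, 1, 1, 0, 4, 1, 1, 4, 4, 0, 0, 1,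 0, 0, 0, 1, 1, 2, 0, 1, 4, 0, 1, 1, 3, 7, 1, 1, 1, 0, 1, 2, 1, 1, 0, 4, 1, 0, 1, 0, 0, 1, 3, 2, 3, 7, 0, 3, 1, 1, 2, 0, 0, 0, 1, 2, 0, 3, 0, 1, 4, 1, 1, 2, 0, 0, 0, 1, 2, 3, 1, 0, 1, 0, 0, 0, 0, 1, 2, 1, 1, 1, 5, 0, 3, 0, 3, 1, 1, 1, 3, 2, 0, 1, 3, 1, 3, 1, 1, 1, 5, 0, 2, 5, 1, 0, 1, 0, 0, 1, 0, 1, 3, 1, 0, 3, 3, 0, 1, 2, 0, 0, 0, 1, 2, 3, 0, 3, 1, 1, 0, 2, 0, 1, 3, 2, 3, 2, 3, 1, 5, 1, 1, 0, 1, 6, 1, 1, 1, 1, 4, 1, 3, 1, 0, 1, 0, 0, 1, 0, 0, 1, 0, 2, 4, 9, 1, 0, 0, 4, 3, 2, 3, 1, 1, 0, 0, 0, 0, 3, 1, 1, 2, 1, 2, 0, 1, 1, 5, 0, 0, 0, 1, 1, 0, 1, 1, 0, 0, 3, 0, 0, 5, 1, 0, 1, 4, 1, 0, 11, 0, 4, 0, 1, 1, 3, 0, 0, 1, 7, 0,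 1, 1, 5, 11, 0, 2, 3, 1, 9, 0, 0, 5, 1, 3, 0, 0, 5, 2, 3, 0, 0, 6, 0, 1, 0, 1, 3, 14, 1, 0, 1, 0, 0, 0, 0, 0, 0, 3, 0, 0, 3, 1, 5, 2, 0, 1, 1, 1, 3, 0, 0, 1, 0, 5, 1, 0, 0, 1, 1, 0, 2, 2, 6, 1, 1, 0, 0, 1, 4, 0, 1, 0, 2, 0, 1, 1, 1, 1, 0, 0, 6, 6, 1, 2, 0, 0, 0, 9, 2, 1, 4, 3, 3, 1, 1, 3, 1, 2, 0, 1, 1, 0, 3, 5, 1] .nil))))))))),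
  (.cons 0 25 1 0 0 (.cons 5 4 0 .nil) [3, 310, 5, 85, 3, 51, 5] (.cons 0 10 2 0 0 (.cons 9 2 0 .nil) [1, 2, 43, 135, 5, 62, 60, 7, 0, 129, 7, 4] (.cons 0 14 1 0 0 (.cons 11 3 0 .nil) [7, 38, 115, 3] (.cons 1 0 0 0 0 (.cons 9 1 0 .nil) [15, 11, 1, 1, 1, 0, 7, 3, 31, 1, 62, 6, 18, 42, 0, 8, 4, 8, 6, 6, 1, 1, 3, 0, 5, 0, 1, 1, 8, 2, 3, 0, 5, 2, 32, 1, 0, 1, 1, 2, 11, 6, 0, 21, 1, 1, 15, 3, 3, 0, 0, 2, 1, 0, 7, 14, 5, 22, 1, 3, 6, 1, 1, 1, 2, 3, 9, 6, 4, 1, 1, 2, 0, 4, 1, 5, 0, 3, 2, 43, 1, 0, 1, 5, 14, 13, 0, 2, 1, 1, 0, 3, 5, 0, 1, 4, 7, 3, 0, 1, 2, 7, 1, 0, 1, 5, 7, 0, 1, 6, 0, 3, 0, 0, 2, 1, 1, 1, 1, 1, 4, 0, 5, 0, 1, 1,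 2, 0, 3, 0, 2, 1, 5, 0, 0, 7, 2, 3, 1, 2, 1, 4, 5, 1, 0, 2, 9, 1, 1, 5, 2, 0, 1, 0, 1, 1, 9, 5, 7, 5, 6, 11, 1, 1, 0, 1, 1, 5, 2, 3, 3, 1, 1, 0, 0, 1, 4, 1, 3, 1, 9, 16, 1, 0, 2, 7, 8, 1, 3, 0, 0, 1, 3, 3, 5, 0, 1, 3, 0, 0, 4, 3, 7, 7, 2, 0, 2, 1, 1, 3, 1, 0, 0, 0, 3, 0, 3, 2, 1, 0, 0, 0, 2, 1, 0, 0, 1, 0, 3, 2, 0, 1, 2, 3, 0, 0, 0, 4, 29, 3, 0, 0, 2, 0, 2, 1, 5, 2, 7, 7, 0, 10, 0, 2, 0, 0, 0, 0, 4, 1, 0, 0, 3, 0, 2, 5, 9, 2, 1, 4, 1, 1, 0, 4, 3, 3, 1, 0, 3, 0, 3, 1, 1, 1, 0, 1, 4, 1, 1, 0, 1, 2, 0, 2, 0, 1, 1, 3, 5, 0, 3, 0, 1, 0, 1, 3, 2, 1, 2, 1, 1, 9, 1, 4, 6, 0, 3, 2, 1, 11, 1, 0, 0, 1, 0, 0, 0, 2, 1, 1, 0, 0, 1, 0,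 1, 5, 1, 1, 0, 12, 0, 1, 1, 12, 7, 2, 0, 2, 2, 0] .nil)))),
  (.cons 0 21 0 0 0 (.cons 9 9 0 .nil) [13] (.cons 2 3 0 0 0 (.cons 0 48 0 .nil) [29, 14, 0, 0, 1, 7, 6, 3, 3, 37, 0, 3, 1, 1, 0, 0, 3, 0, 3, 12, 2, 5, 3, 0, 7, 5, 0, 2, 11, 1, 0, 1, 3, 1, 3, 0, 2, 1, 0, 4, 6, 0, 8, 0, 1, 0, 1, 1, 0, 6, 0, 1, 0, 0, 1, 3, 0, 8, 3, 1, 0, 0, 1, 5, 3, 0, 1, 1, 1, 2, 1, 0, 4, 0, 5, 1, 2, 1, 1, 7, 2, 3, 1, 1, 0, 1, 1, 6, 3, 0, 0, 4, 3, 0, 0, 5, 1, 15, 1, 13, 5, 1, 5, 2, 3, 7, 3, 5, 9, 0, 1, 3, 3, 2, 2, 1, 3, 2, 0, 1, 1, 0, 1, 0, 1, 1, 3, 0, 2, 1, 3, 2, 0, 0, 4, 0, 0, 3, 1, 3, 0, 0, 2, 3, 1, 0, 0, 0, 1, 1, 1, 2, 10, 1, 22, 1, 1, 4, 5,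 0, 4, 0, 5, 2, 1, 0, 1, 1, 1, 6, 2, 1, 1, 3, 4, 0, 2, 3, 0, 9, 7, 3, 0, 4, 1, 3, 0, 1, 3, 0, 0, 0, 1, 2, 1, 0, 1, 1, 0, 1, 8, 5, 1, 1, 3, 0, 1, 0, 1, 0, 3, 1, 1, 2, 0, 2, 3, 2, 4, 0, 0, 1, 1, 10, 1, 0, 0, 1, 3, 0, 0, 3, 0, 4, 2, 1, 0, 0, 1, 0, 1, 1, 0, 8, 0, 0, 3, 2, 3, 2, 1, 1, 0, 3, 2, 0, 1, 1, 3, 2, 1, 1, 1, 1, 0, 3, 2, 4, 2, 0, 1, 0, 1, 1, 1, 3, 0, 0, 0, 7, 2, 2, 5, 1, 0, 3, 1, 0, 1, 0, 1, 1, 1, 2, 1, 0, 1, 2, 1, 1, 0, 3, 7, 1, 0, 0, 0, 1, 7, 1, 1, 3, 1, 5, 0, 2, 2, 0, 0, 3, 4, 1, 0, 3, 7, 0, 1, 1, 5, 3, 4, 0, 1, 1, 1, 1, 1, 1, 2, 1, 1, 1, 7, 0, 0, 7, 1, 0, 1, 3, 3, 0, 2, 3, 5, 4, 3, 0, 2, 1, 1, 1, 2, 0, 1, 7, 1, 6,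 0, 1, 6, 0, 4, 3, 5, 1, 12, 1, 1, 1, 0, 0, 1, 1, 1, 0, 1, 0, 0, 0, 2, 3, 3, 5, 0, 0, 3, 0, 0, 3, 1, 10, 0, 1, 0, 1, 1, 2, 3, 2, 0, 0, 6, 0, 2, 3, 0, 1, 0, 0, 0, 1, 2, 0, 5, 0, 2, 3, 0, 1, 3, 0, 5, 0, 1, 2, 0, 1, 1, 5, 5, 0, 2, 1, 5, 1, 3, 2, 0, 1, 3, 0, 0, 2, 8, 2, 0, 1, 0, 0, 3, 0, 2, 0, 6, 1, 0, 1, 2, 2, 1, 4, 2] (.cons 2 26 0 0 0 (.cons 0 49 0 .nil) [31, 14, 3, 0, 7, 6, 3, 3, 37, 0, 3, 3, 0, 0, 3, 0, 3, 12, 3, 5, 3, 0, 7, 5, 0, 8, 5, 0, 2, 1, 1, 3, 4, 1, 3, 5, 6, 10, 0, 15, 3, 1, 0, 1, 0, 3, 15, 1, 1, 0, 1, 1, 3, 4, 1, 0, 1, 3, 0, 0, 4, 0, 10, 1, 0, 0, 1, 7, 1, 0, 1, 0, 1, 1, 1, 5, 4, 1, 0, 1, 3, 1, 1, 1, 7, 0, 15, 9,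 5, 0, 3, 0, 1, 7, 11, 20, 1, 3, 3, 1, 0, 2, 13, 3, 0, 1, 1, 1, 0, 1, 0, 1, 0, 0, 2, 1, 0, 1, 0, 0, 0, 0, 1, 3, 2, 3, 2, 2, 2, 1, 0, 0, 0, 1, 1, 1, 1, 0, 10, 0, 18, 1, 5, 4, 6, 0, 0, 0, 0, 2, 5, 3, 1, 1, 0, 0, 1, 2, 0, 0, 9, 1, 2, 1, 0, 0, 0, 5, 5, 0, 0, 10, 0, 7, 3, 1, 0, 2, 0, 0, 3, 0, 1, 3, 0, 0, 0, 0, 1, 2, 0, 2, 2, 0, 0, 2, 0, 0, 1, 0, 0, 0, 1, 0, 3, 6, 1, 3, 15, 1, 3, 7, 0, 0, 0, 1, 1, 0, 1, 3, 1, 1, 2, 1, 1, 2, 2, 0, 0, 0, 2, 1, 1, 0, 0, 1, 1, 2, 2, 0, 0, 2, 1, 3, 3, 0, 2, 0, 1, 2, 1, 1, 2, 1, 7, 2, 3, 3, 0, 1, 2, 4, 0, 2, 1, 0, 3, 0, 1, 2, 1, 0, 2, 1, 4, 2, 0, 0, 0, 0, 1, 3, 1, 1, 5, 0, 0, 5, 2, 0, 5, 0, 0, 0, 2,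 2, 1, 1, 6, 1, 1, 5, 0, 4, 4, 5, 0, 0, 0, 0, 3, 0, 0, 1, 2, 0, 1, 1, 1, 0, 0, 0, 1, 0, 3, 0, 1, 2, 1, 7, 0, 1, 1, 0, 2, 3, 1, 1, 0, 4, 1, 3, 4, 0, 2, 0, 0, 0, 3, 0, 2, 0, 1, 4, 1, 3, 3, 1, 1, 6, 0, 1, 4, 1, 0, 1, 3, 0, 5, 0, 3, 5, 3, 3, 1, 1, 1, 1, 6, 1, 3, 1, 1, 4, 7, 1, 2, 0, 5, 4, 0, 3, 6, 1, 3, 0, 3, 1, 0, 3, 0, 0, 1, 2, 0, 0, 1, 1, 1, 1, 0, 1, 1, 0, 0, 2, 3, 4, 1, 0, 0, 1, 0, 1, 0, 15, 3, 1, 1, 1, 0, 1, 0, 0, 3, 7, 2, 0, 1, 0, 4, 0, 1, 3, 0, 0, 0, 1, 0, 0, 1, 1, 3, 0, 0, 1, 0, 0, 1, 1, 2, 0, 0, 2, 2, 1, 0, 1, 2, 0, 4, 1, 0] (.cons 1 0 0 0 0 (.cons 11 2 0 .nil) [4, 1, 9, 0, 0, 0, 4, 0, 2, 2, 9, 1, 1, 2, 2, 2, 1, 2, 1,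 1, 1, 1, 2, 12, 0, 16, 4, 3, 0, 0, 3, 0, 0, 1, 4, 3, 2, 3, 0, 3, 5, 1, 1, 3, 2, 0, 14, 1, 0, 0, 1, 5, 1, 2, 0, 1, 0, 0, 0, 6, 2, 1, 0, 2, 0, 1, 0, 2, 1, 1, 0, 5, 1, 0, 1, 0, 7, 0, 0, 1, 3, 1, 3, 0, 0, 2, 1, 4, 1, 0, 1, 0, 1, 6, 6, 0, 1, 3, 0, 1, 0, 2, 7, 1, 2, 0, 1, 1, 1, 0, 5, 1, 2, 3, 4, 3, 0, 1, 2, 2, 1, 2, 3, 4, 0, 3, 6, 2, 5, 10, 1, 3, 0, 1, 2, 1, 0, 5, 11, 7, 0, 3, 0, 2, 0, 2, 3, 3, 3, 1, 3, 0, 0, 1, 1, 0, 1, 0, 1, 1, 1, 0, 0, 0, 0, 1, 0, 0, 1, 0, 3, 4, 0, 1, 0, 11, 0, 0, 2, 1, 4, 0, 0, 4, 1, 9, 0, 4, 3, 2, 3, 0, 1, 1, 5, 2, 2, 1, 5, 1, 0, 1, 3, 0, 1, 1, 3, 3, 1, 2, 3, 1, 3, 3, 1, 0, 1, 3, 2, 0, 1, 1, 1, 0, 0, 1, 1,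 1, 0, 1, 0, 4, 0, 0, 6, 3, 0, 1, 0, 0, 5, 5, 1, 0, 1, 1, 3, 0, 3, 0, 0, 1, 0, 1, 2, 1, 3, 1, 1, 1, 1, 0, 0, 3, 2, 1, 3, 2, 0, 0, 1, 2, 0, 0, 0, 1, 1, 2, 1, 3, 0, 0, 1, 3, 2, 3, 1, 7, 1, 2, 0, 1, 1, 1, 0, 1, 0, 1, 1, 1, 0, 1, 0, 0, 0, 0, 1, 5, 1, 0, 1, 1, 2, 5, 0, 0, 1, 0, 0, 0, 0, 1, 2, 2, 1, 3, 0, 2, 2, 1, 2, 0, 1, 1, 0, 5, 0, 3, 1, 2, 3, 1, 1, 3, 1, 3, 1, 3, 1, 2, 2, 4, 0, 1, 0, 0, 0, 5, 1, 1, 4, 1, 4, 1, 0, 0, 3, 1, 1, 1, 1, 2, 1, 0, 2, 1, 2, 4, 1, 0, 3, 0, 1, 2, 0, 1, 0, 1, 0, 3, 3, 2, 0, 0, 4, 0, 2, 1, 1, 4, 2, 3, 1, 1, 3, 0, 4, 0, 5, 1, 0, 1, 0, 1, 1, 4, 0, 3, 0, 2, 3, 1, 6, 2, 0, 3, 1, 1, 0, 12, 1, 1, 1, 4, 6, 0,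 0, 1, 1, 2, 1, 4, 0, 0, 2, 2, 0, 0, 3, 3, 4, 1, 0, 3, 3, 3, 3, 1, 1, 0, 0, 3, 2, 1, 3, 1, 0, 2, 0, 1, 3, 2, 0, 2, 1, 1, 0, 4, 1, 0, 1, 3, 0, 3, 0, 1, 3, 0, 1, 1, 1, 3, 0, 1, 1, 1, 1, 0, 5, 7, 0, 0, 3, 3, 0, 3, 1, 3, 1, 1, 1, 0, 1, 1, 2, 0, 2, 1, 0, 1, 5, 3, 1, 1, 1, 2, 0, 0, 1, 0, 1, 0, 2, 6, 0, 1, 2, 2] .nil)))),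
  (.cons 0 28 0 0 0 (.cons 10 3 0 .nil) [165] (.cons 0 21 1 0 0 (.cons 11 4 0 .nil) [0, 7, 3, 56, 93, 4, 7, 156, 7, 60, 79, 5, 6, 1] (.cons 1 0 0 0 0 (.cons 9 2 0 .nil) [23, 15, 1, 1, 2, 0, 1, 11, 5, 38, 0, 9, 15, 1, 0, 1, 6, 0, 28, 8, 5, 0, 3, 2, 0, 1, 5, 3, 1, 0, 5, 7, 5, 0, 7, 0, 3, 0, 1, 4, 4, 2, 6, 0, 3, 0, 1, 1, 1, 0, 1, 0, 0, 0, 1, 4, 9, 6, 7, 5, 2, 0, 0, 0, 3, 12, 3, 2, 1, 0, 0, 31, 1, 1, 1, 1, 1, 6, 2, 3, 7, 0, 0, 2, 1, 2, 0, 11, 4, 8, 4, 8, 0, 9, 2, 2, 9, 1, 0, 4, 2, 3, 3, 3, 4, 1, 3, 5, 3, 5, 3, 1, 1, 3, 3, 3, 4, 2, 2, 0, 1, 3, 10, 0, 5, 3, 0, 0, 0, 1, 0, 1, 0, 5, 1, 1, 1, 1, 2, 3, 4, 1, 0, 7, 4, 0, 5, 4, 4, 3,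 0, 1, 1, 1, 0, 1, 0, 0, 2, 1, 1, 3, 8, 0, 1, 2, 2, 1, 0, 2, 0, 2, 1, 5, 1, 0, 3, 0, 1, 4, 5, 0, 0, 1, 5, 6, 6, 0, 1, 0, 0, 0, 2, 1, 1, 0, 5, 1, 1, 0, 2, 0, 0, 2, 1, 3, 1, 0, 1, 6, 2, 1, 1, 2, 0, 0, 0, 4, 0, 3, 2, 1, 11, 0, 2, 2, 3, 7, 1, 1, 2, 2, 2, 0, 3, 4, 3, 1, 3, 7, 0, 1, 3, 1, 3, 7, 1, 2, 2, 1, 0, 1, 2, 1, 0, 0, 3, 1, 3, 2, 1, 3, 1, 3, 1, 0, 0, 0, 1, 0, 3, 3, 1, 3, 0, 1, 0, 1, 7, 3, 0, 0, 1, 2, 0, 1, 5, 1, 2, 1, 3, 11, 5, 1, 1, 1, 1, 4, 0, 1, 1, 1, 0, 0, 0, 1, 0, 1, 1, 2, 2, 1, 0, 2, 1, 9, 7, 3, 0, 3, 1, 6, 5, 2, 1, 1, 1, 3, 1, 2, 0, 1, 1, 1, 1, 8, 2, 4, 0, 3, 1, 15, 0, 2, 5, 0, 6, 5, 3, 0, 0, 12, 5, 1, 1, 2, 0, 7,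 9, 1, 0, 13, 1, 3, 3, 1, 2, 0, 0, 0, 2, 0, 0, 2, 1, 0, 0, 1, 3, 1, 1, 2, 3, 1, 0, 0, 1, 0, 7, 2, 1, 1, 0, 0, 0, 0, 1, 0, 1, 1, 1, 2, 4, 3, 0, 3, 3, 6, 0, 3, 3, 1, 5, 7, 1, 0, 0, 1, 0, 2, 0, 0, 1, 1, 0, 2, 1, 0, 4, 1, 5, 4, 0, 0, 0, 9, 1, 2, 0, 0, 2, 12, 2, 0] .nil))),
  (.cons 0 21 2 0 0 (.cons 5 7 0 .nil) [181, 1, 6, 74, 62, 0, 0, 0, 5, 2, 89, 55, 3, 1] (.cons 0 28 1 0 0 (.cons 9 2 0 .nil) [338] (.cons 0 14 2 0 0 (.cons 11 0 0 .nil) [5, 37, 126, 0, 6, 3, 0, 6, 74, 1, 60, 5, 9, 92, 46, 7, 0, 2, 0] (.cons 2 4 0 0 0 (.cons 0 50 0 .nil) [3, 1, 3, 1, 9, 1, 2, 1, 3, 7, 25, 5, 9, 2, 0, 1, 4, 1, 0, 0, 6, 2, 0, 2, 9, 14, 0, 1, 2,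 2, 0, 9, 16, 2, 6, 5, 1, 1, 5, 3, 2, 0, 1, 1, 1, 1, 2, 1, 4, 0, 2, 1, 0, 3, 0, 4, 4, 7, 1, 0, 0, 1, 1, 3, 0, 3, 0, 1, 2, 2, 2, 1, 0, 1, 0, 3, 0, 2, 1, 1, 0, 8, 6, 6, 0, 0, 1, 5, 0, 1, 2, 0, 1, 3, 2, 2, 3, 0, 7, 9, 1, 1, 2, 12, 3, 1, 3, 0, 0, 0, 2, 0, 0, 2, 1, 0, 5, 8, 5, 1, 6, 0, 1, 1, 1, 9, 1, 0, 2, 0, 0, 1, 3, 1, 0, 5, 3, 0, 1, 1, 3, 1, 9, 3, 0, 2, 1, 1, 1, 1, 5, 2, 2, 0, 4, 1, 4, 1, 5, 3, 3, 1, 1, 0, 2, 3, 2, 5, 4, 1, 1, 2, 1, 0, 7, 0, 6, 0, 1, 1, 0, 1, 1, 2, 1, 3, 4, 5, 4, 0, 0, 0, 1, 0, 0, 0, 1, 1, 0, 3, 5, 7, 3, 0, 0, 5, 3, 0, 1, 0, 3, 2, 0, 1, 1, 1, 1, 0, 1, 3, 0, 2, 1, 2, 1, 0, 0, 3, 5, 1, 1, 0, 1, 0, 1, 1, 0, 9,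 1, 3, 0, 0, 1, 2, 1, 0, 1, 0, 0, 0, 1, 0, 1, 5, 1, 0, 1, 0, 0, 4, 4, 1, 1, 1, 7, 1, 1, 1, 0, 6, 3, 1, 3, 0, 1, 0, 0, 3, 0, 1, 0, 7, 0, 2, 0, 3, 2, 2, 4, 0, 2, 2, 0, 0, 0, 1, 0, 1, 3, 1, 3, 0, 0, 0, 1, 1, 5, 4, 1, 1, 0, 4, 3, 3, 1, 1, 1, 0, 3, 1, 7, 0, 0, 0, 1, 3, 2, 0, 0, 2, 4, 6, 1, 3, 0, 0, 2, 1, 2, 0, 1, 3, 1, 1, 1, 1, 1, 1, 1, 1, 3, 3, 1, 1, 0, 5, 1, 0, 1, 3, 5, 0, 0, 1, 0, 0, 0, 2, 1, 0, 1, 6, 1, 1, 2, 1, 1, 1, 1, 1, 1, 3, 4, 0, 1, 3, 2, 4, 0, 3, 5, 2, 3, 1, 3, 2, 0, 1, 0, 2, 1, 0, 1, 0, 2, 3, 1, 1, 0, 12, 2, 2, 3, 1, 10, 1, 0, 3, 3, 5, 0, 2, 5, 4, 3, 0, 4, 0, 1, 0, 0, 5, 0, 0, 11, 0, 1, 6, 1, 3, 5, 1, 0, 2, 1, 0, 3,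 8, 0, 5, 1, 3, 0, 0, 0, 3, 1, 2, 1, 4, 1, 1, 0, 2, 3, 1, 0, 0, 5, 3, 1, 7, 3, 0, 2, 1, 0, 2, 4, 3, 4, 0, 2, 2, 4, 1, 0, 1, 0, 0, 9, 0, 0, 0, 0, 3, 1, 7, 3, 3, 4, 1, 3, 4, 2, 2, 2, 0, 1, 0, 0, 0, 0, 1, 5, 3, 1, 1, 2, 1, 0, 1, 0, 5, 3] (.cons 1 0 0 0 0 (.cons 9 0 0 .nil) [3, 1, 0, 4, 2, 1, 9, 7, 0, 37, 14, 1, 3, 0, 1, 0, 2, 12, 7, 11, 0, 2, 0, 2, 17, 21, 14, 0, 1, 5, 7, 0, 5, 4, 0, 3, 4, 2, 3, 0, 0, 2, 1, 3, 5, 3, 3, 1, 1, 1, 0, 1, 0, 0, 0, 2, 0, 0, 1, 1, 1, 1, 0, 1, 1, 2, 2, 2, 2, 10, 1, 0, 0, 4, 0, 3, 3, 4, 1, 1, 1, 2, 6, 0, 4, 1, 1, 5, 3, 11, 0, 11, 0, 0, 0, 4, 0, 8, 1, 0, 0, 3, 0, 0, 1, 9, 19, 0, 0, 1, 0, 0, 0, 0, 0, 3,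 0, 1, 8, 0, 1, 8, 2, 3, 1, 4, 1, 1, 2, 2, 1, 0, 1, 2, 2, 0, 3, 1, 0, 0, 0, 2, 1, 2, 0, 1, 1, 10, 3, 1, 2, 1, 0, 8, 5, 0, 5, 9, 5, 3, 3, 1, 1, 1, 1, 3, 3, 0, 1, 0, 5, 3, 2, 1, 0, 1, 2, 1, 0, 0, 6, 3, 9, 0, 0, 3, 4, 5, 2, 0, 0, 0, 2, 0, 0, 0, 1, 1, 0, 1, 2, 1, 3, 0, 0, 1, 3, 1, 1, 1, 3, 0, 0, 3, 0, 2, 0, 1, 1, 1, 3, 4, 2, 2, 0, 1, 3, 2, 3, 1, 3, 0, 3, 1, 3, 1, 1, 1, 9, 1, 2, 0, 2, 3, 1, 1, 1, 0, 3, 6, 2, 0, 5, 1, 4, 1, 2, 1, 0, 0, 0, 1, 3, 4, 2, 1, 0, 3, 1, 1, 1, 4, 1, 0, 1, 0, 0, 0, 2, 2, 1, 1, 2, 0, 2, 0, 2, 3, 0, 5, 1, 4, 3, 2, 2, 0, 5, 7, 7, 4, 1, 1, 1, 3, 9, 0, 0, 0, 1, 1, 0, 0, 3, 1, 3, 1, 1, 0, 1, 5, 5, 1, 1, 0, 0,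 4, 2, 4, 0, 0, 0, 1, 1, 1, 1, 1, 0, 2, 1, 1, 5, 3, 0, 0, 1, 4, 3, 0, 3, 4, 0, 1, 0, 1, 1, 4, 2, 1, 0, 1, 0, 0, 0, 1, 1, 4, 7, 1, 0, 9, 1, 0, 1, 0, 2, 0, 6, 7, 3, 0, 3, 3, 4, 6, 0, 1, 0, 1, 2, 1, 5, 5, 1, 4, 0, 0, 0, 9, 1, 5, 2, 2, 4, 2, 0, 0, 2, 1, 0, 3, 4, 2, 1, 0, 1, 3, 1, 1, 1, 0, 3, 3, 1, 0, 4, 1, 0, 1, 3, 1, 1, 3, 0, 3, 3, 0, 4, 1, 0, 0, 1, 1, 2, 1, 3, 0, 3, 1, 0, 1, 4, 2, 1, 1, 0, 0, 0, 1, 2, 1, 0, 0, 0, 1, 1, 2, 0, 1, 0, 0, 0, 0, 1, 0, 0, 3, 0, 1, 3, 1, 0, 0, 0, 0, 3, 1, 0, 0, 1, 0, 0, 0, 2, 5, 1, 0, 1, 3, 3, 5, 6, 0, 3, 0, 0, 4, 4, 15, 0, 0] .nil))))),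
  (.cons 0 28 2 0 0 (.cons 9 8 0 .nil) [250, 262] (.cons 0 14 0 0 0 (.cons 10 0 0 .nil) [10] (.cons 0 16 0 0 0 (.cons 11 0 0 .nil) [5, 4] (.cons 2 18 0 0 0 (.cons 0 51 1 .nil) [5, 7, 9, 5, 2, 2, 7, 1, 7, 2, 1, 0, 2, 2, 5, 1, 0, 3, 11, 0, 0, 2, 5, 6, 1, 2, 5, 0, 8, 1, 2, 0, 16, 5, 10, 10, 0, 1, 4, 1, 6, 0, 2, 1, 0, 3, 1, 1, 1, 1, 0, 1, 1, 1, 1, 0, 2, 5, 3, 1, 5, 3, 3, 1, 0, 1, 0, 2, 1, 1, 2, 0, 7, 2, 0, 0, 3, 3, 2, 0, 3, 9, 9, 1, 8, 1, 5, 0, 1, 4, 0, 4, 5, 2, 2, 0, 1, 7, 1, 1, 2, 1, 1, 1, 1, 4, 3, 0, 2, 7, 0, 8, 1, 0, 2, 1, 1, 2, 0, 1, 0, 0, 0, 5, 3, 1, 3, 3, 0, 0, 6, 4, 3, 2, 3, 7, 3, 2, 1, 1, 3, 4, 0, 4, 1, 0, 3, 0, 1,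 5, 0, 9, 1, 3, 0, 1, 0, 1, 0, 1, 2, 7, 0, 13, 3, 0, 2, 6, 7, 1, 0, 0, 2, 0, 11, 2, 3, 2, 5, 6, 2, 0, 5, 1, 1, 6, 1, 1, 0, 0, 1, 1, 0, 5, 1, 1, 2, 1, 0, 1, 5, 5, 0, 1, 7, 1, 3, 0, 1, 1, 3, 1, 3, 0, 1, 5, 9, 1, 5, 0, 1, 3, 1, 1, 5, 3, 0, 0, 2, 1, 0, 1, 0, 6, 7, 1, 0, 1, 0, 0, 2, 0, 0, 0, 0, 1, 7, 1, 1, 1, 3, 1, 2, 1, 1, 1, 1, 6, 0, 4, 0, 3, 3, 2, 1, 1, 2, 3, 3, 1, 1, 0, 1, 0, 1, 1, 1, 3, 2, 2, 0, 2, 0, 0, 0, 0, 0, 1, 1, 0, 0, 2, 1, 3, 7, 3, 3, 2, 0, 2, 0, 0, 5, 0, 2, 1, 3, 2, 0, 0, 1, 5, 3, 7, 0, 8, 0, 0, 0, 3, 1, 1, 2, 0, 0, 1, 3, 0, 3, 0, 3, 1, 0, 1, 7, 0, 0, 1, 0, 0, 0, 3, 0, 0, 8, 1, 1, 1, 0, 1, 1, 0, 1, 3, 0, 0, 1, 1,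 0, 4, 3, 0, 1, 5, 1, 0, 2, 0, 1, 1, 0, 0, 0, 4, 0, 4, 1, 1, 0, 3, 0, 2, 1, 1, 1, 0, 0, 0, 0, 3, 0, 2, 1, 1, 3, 0, 1, 1, 3, 5, 0, 0, 0, 3, 3, 5, 1, 7, 1, 1, 2, 1, 5, 3, 3, 1, 3, 3, 0, 4, 1, 1, 1, 2, 0, 10, 1, 0, 1, 4, 0, 2, 5, 2, 0, 0, 2, 0, 1, 0, 1, 6, 1, 1, 1, 0, 1, 0, 0, 3, 0, 2, 1, 1, 1, 0, 1, 1, 0, 3, 3, 11, 2, 0, 0, 5, 0, 2, 1, 1, 7, 0, 7, 5, 0, 2, 0, 1, 3, 4, 1, 1, 2, 2, 1, 1, 1, 0, 1, 7, 1, 1, 0, 4, 2, 0, 1, 1, 0, 7, 1, 1, 2, 2, 2, 0, 1, 5, 2, 1, 2, 1, 0, 0, 1, 1, 2, 0, 2, 0, 2, 1, 1, 2, 0, 3, 5, 0, 5, 1, 7, 1, 0, 3, 1, 1, 0, 3, 1, 7, 1, 3, 1, 1, 0] (.cons 1 0 0 0 0 (.cons 10 1 0 .nil) [7, 12, 3, 0, 1, 6, 1, 0, 0,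 3, 1, 1, 1, 1, 1, 1, 1, 4, 1, 0, 1, 2, 2, 0, 2, 5, 1, 1, 4, 1, 26, 0, 1, 0, 2, 0, 5, 3, 18, 0, 2, 7, 8, 3, 5, 4, 5, 2, 2, 0, 1, 4, 0, 0, 0, 2, 1, 1, 1, 2, 5, 0, 1, 1, 2, 0, 3, 3, 0, 1, 2, 1, 1, 0, 1, 1, 0, 1, 1, 0, 0, 4, 2, 1, 4, 6, 1, 15, 23, 2, 1, 1, 3, 1, 0, 5, 1, 11, 0, 0, 2, 7, 3, 2, 0, 3, 0, 35, 4, 1, 1, 0, 0, 1, 1, 5, 11, 0, 2, 1, 0, 2, 1, 3, 0, 0, 11, 0, 0, 3, 1, 2, 2, 4, 3, 0, 3, 1, 4, 3, 1, 1, 2, 3, 0, 3, 1, 2, 3, 4, 0, 0, 1, 0, 4, 1, 7, 0, 0, 0, 4, 0, 1, 7, 1, 0, 0, 1, 1, 1, 1, 2, 0, 1, 9, 1, 1, 3, 1, 1, 0, 0, 0, 0, 1, 0, 2, 1, 1, 4, 0, 7, 1, 1, 4, 2, 4, 0, 0, 2, 2, 6, 0, 5, 1, 2, 7, 0, 3, 1, 4, 1, 0, 0, 3, 3,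 0, 1, 3, 0, 1, 0, 2, 2, 0, 1, 0, 1, 0, 1, 0, 0, 0, 2, 0, 2, 0, 2, 0, 2, 1, 0, 0, 1, 1, 1, 3, 5, 1, 0, 0, 1, 0, 1, 1, 6, 1, 1, 1, 5, 2, 4, 4, 1, 3, 1, 0, 1, 2, 0, 1, 0, 0, 2, 2, 7, 2, 0, 1, 1, 0, 3, 1, 1, 1, 0, 2, 1, 3, 1, 1, 3, 1, 3, 0, 6, 2, 0, 1, 1, 1, 5, 0, 0, 2, 0, 5, 1, 1, 4, 2, 0, 1, 9, 1, 1, 0, 0, 1, 0, 0, 0, 1, 3, 0, 0, 0, 0, 0, 0, 1, 0, 2, 1, 4, 1, 1, 0, 2, 0, 1, 1, 5, 1, 5, 0, 0, 0, 1, 0, 1, 0, 1, 0, 1, 2, 0, 1, 0, 1, 7, 0, 3, 0, 3, 6, 7, 2, 1, 1, 1, 1, 1, 3, 1, 1, 2, 3, 3, 5, 0, 1, 6, 0, 0, 2, 5, 7, 0, 1, 0, 1, 0, 2, 0, 0, 8, 4, 2, 3, 1, 1, 0, 1, 2, 3, 0, 2, 0, 5, 0, 5, 0, 3, 1, 2, 0, 0, 0, 0, 2, 3, 7, 0, 4, 0,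 11, 0, 0, 1, 1, 4, 1, 1, 7, 2, 1, 6, 1, 1, 0, 2, 0, 7, 0, 5, 1, 3, 0, 2, 3, 1, 0, 2, 0, 1, 1, 1, 0, 3, 1, 5, 1, 5, 1, 1, 1, 1, 1, 5, 2, 0, 0, 1, 1, 1, 1, 0, 0, 2, 2, 3, 5, 3, 1, 0, 0, 0, 1, 2, 0, 5, 2, 0, 1, 1, 1, 2, 3, 0, 1, 0, 1, 10, 1, 1, 1, 1, 2, 2, 0, 10, 1, 2, 3, 1, 1, 3, 1, 2, 0, 0, 3, 1, 2, 1, 0, 0, 3, 0, 1, 2, 2, 1, 1, 1, 1, 0, 1, 2, 3, 1, 1, 1, 12, 2, 0, 4, 2] .nil)))))]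

theorem ok4 : run B sp W4 W5 G4 Y4 Y5 640 K4 D4 = true := by decide +kernel

end Vale.Agent.P236K.Cert.Pl.P96
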