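import Vale.Agent.P236K.P96.B
import Vale.Agent.P236K.P96.A5
import Vale.Agent.P236K.P96.A6

/-!
# P236K / P96 / R5 : the check of degree 5
-/

noncomputable section

namespace Vale.Agent.P236K.Cert.Pl.P96

/-- rows given by data -/
noncomputable def D5 : List DL := [.nil,
  .nil,
  .nil,
  .nil,
  .nil,
  .nil,
  .nil,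
  .nil,
  .nil,
  (.cons 2 0 0 0 0 (.cons 0 0 1 .nil) [] .nil),
  (.cons 1 0 0 0 0 (.cons 5 0 0 .nil) [] .nil),
  (.cons 2 0 0 0 0 (.cons 0 1 0 .nil) [] .nil),
  (.cons 1 0 0 0 0 (.cons 9 0 0 .nil) [0] .nil),
  (.cons 2 0 0 0 0 (.cons 0 2 1 .nil) [0] .nil),
  (.cons 1 0 0 0 0 (.cons 9 0 0 .nil) [0] .nil),
  (.cons 2 1 0 0 0 (.cons 0 3 1 .nil) [] .nil),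
  (.cons 1 0 0 0 0 (.cons 9 0 0 .nil) [0, 0] .nil),
  (.cons 2 0 0 0 0 (.cons 0 4 1 .nil) [5] .nil),
  (.cons 0 2 0 0 0 (.cons 9 0 0 .nil) [] (.cons 1 0 0 0 0 (.cons 10 0 0 .nil) [0, 0, 1] .nil)),
  (.cons 2 0 0 0 0 (.cons 0 5 0 .nil) [3, 0] .nil),
  (.cons 0 3 0 0 0 (.cons 9 0 0 .nil) [1] (.cons 0 1 0 0 0 (.cons 10 0 0 .nil) [3] .nil)),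
  (.cons 2 5 0 0 0 (.cons 0 6 0 .nil) [7, 3] (.cons 1 0 0 0 0 (.cons 5 0 0 .nil) [3, 2, 3] .nil)),
  (.cons 0 1 0 0 0 (.cons 10 0 0 .nil) [0] .nil),
  (.cons 2 6 0 0 0 (.cons 0 7 0 .nil) [] (.cons 1 0 0 0 0 (.cons 9 1 0 .nil) [4, 6, 1, 0] .nil)),
  .nil,
  (.cons 2 0 0 0 0 (.cons 0 8 1 .nil) [0, 6] (.cons 1 0 0 0 0 (.cons 9 1 0 .nil) [4, 1, 2, 3, 5] .nil)),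
  (.cons 0 2 0 0 0 (.cons 10 0 0 .nil) [8] .nil),
  (.cons 0 7 0 0 0 (.cons 9 0 0 .nil) [8] (.cons 2 1 0 0 0 (.cons 0 9 1 .nil) [2, 10] (.cons 1 0 0 0 0 (.cons 9 1 0 .nil) [2, 1, 3, 1, 3, 1, 1, 0, 2, 1, 1] .nil))),
  (.cons 0 3 0 0 0 (.cons 10 0 0 .nil) [0] .nil),
  (.cons 0 5 0 0 0 (.cons 9 0 0 .nil) [8] (.cons 0 7 0 0 0 (.cons 9 1 0 .nil) [] (.cons 1 0 0 0 0 (.cons 10 0 0 .nil) [0, 1, 0, 1, 4, 0, 1, 1, 2, 1, 4, 1, 1] .nil))),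
  .nil,
  (.cons 0 6 0 0 0 (.cons 9 0 0 .nil) [9] (.cons 0 2 0 0 0 (.cons 10 0 0 .nil) [8] .nil)),
  (.cons 0 8 0 0 0 (.cons 5 0 0 .nil) [] .nil),
  (.cons 0 2 0 0 0 (.cons 10 0 0 .nil) [1] (.cons 2 4 0 0 0 (.cons 0 10 1 .nil) [20, 10, 2, 4] .nil)),
  (.cons 0 7 0 0 0 (.cons 10 0 0 .nil) [14] (.cons 2 0 0 0 0 (.cons 0 11 0 .nil) [45, 3] .nil)),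
  .nil,
  (.cons 0 5 0 0 0 (.cons 10 0 0 .nil) [0] (.cons 0 7 2 0 0 (.cons 11 0 0 .nil) [8, 14, 3, 5] (.cons 2 1 0 0 0 (.cons 0 12 0 .nil) [55, 2] .nil))),
  .nil,
  (.cons 0 10 0 0 0 (.cons 9 0 0 .nil) [6, 12, 0] (.cons 2 2 0 0 0 (.cons 0 13 0 .nil) [2, 29, 3, 0, 28, 1, 1] (.cons 1 0 0 0 0 (.cons 11 0 0 .nil) [2, 2, 0, 6, 3, 1, 5, 1, 1, 1, 9, 3, 0, 0, 0, 0, 0, 1, 3, 3, 1, 2, 2, 2, 0] .nil))),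
  (.cons 0 6 0 0 0 (.cons 10 0 0 .nil) [2] (.cons 2 10 0 0 0 (.cons 0 14 0 .nil) [33, 3, 0, 38, 0] .nil)),
  (.cons 0 8 0 0 0 (.cons 9 0 0 .nil) [18] (.cons 0 10 1 0 0 (.cons 9 1 0 .nil) [46, 7] (.cons 1 0 0 0 0 (.cons 11 0 0 .nil) [3, 0, 1, 1, 0, 4, 3, 5, 5, 0, 0, 1, 0, 1, 3, 0, 1, 0, 0, 2, 6, 1, 1, 0, 1, 4, 1, 3, 1, 3, 0, 1, 0] .nil))),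
  .nil,
  (.cons 0 8 0 0 0 (.cons 10 0 0 .nil) [] (.cons 0 7 0 0 0 (.cons 9 1 0 .nil) [27] (.cons 0 3 0 0 0 (.cons 11 0 0 .nil) [4, 21] .nil))),
  (.cons 0 9 0 0 0 (.cons 5 0 0 .nil) [12] .nil),
  (.cons 0 3 0 0 0 (.cons 11 0 0 .nil) [0, 27] (.cons 2 4 0 0 0 (.cons 0 15 1 .nil) [0, 3, 0, 1, 0, 1, 7, 0, 0, 0, 1, 3, 0, 0, 3, 3, 2, 0, 0, 9, 3, 2, 1, 1, 1, 0, 0, 1, 1, 3, 1, 0, 2, 1, 1, 0, 1, 2, 0, 2, 1, 4, 0, 4] .nil)),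
  (.cons 0 9 0 0 0 (.cons 5 0 0 .nil) [] (.cons 2 15 0 0 0 (.cons 0 16 0 .nil) [38, 0, 3, 1, 5, 0, 4, 2, 10, 9, 13, 1, 0, 0, 2, 1, 0, 3, 0, 1, 1, 1] (.cons 1 0 0 0 0 (.cons 9 0 0 .nil) [11, 4, 0, 12, 4, 1, 0, 1, 0, 1, 0, 0, 3, 0, 0, 0, 0, 0, 0, 1, 1, 0, 0, 0, 1, 2, 3, 1, 1, 1, 3, 3, 4, 1, 3, 0, 1, 2, 1, 7, 0, 0, 0] (.cons 1 0 0 0 0 (.cons 10 2 0 .nil) [3, 3, 0, 0, 3, 0, 1, 21, 4, 0, 0, 5, 0, 2, 3, 7, 2, 4, 2, 0, 6, 0, 0, 1, 1, 0, 1, 0, 1, 1, 0, 3, 1, 1, 4, 2, 0, 3, 0] .nil)))),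
  (.cons 0 3 0 0 0 (.cons 11 0 0 .nil) [1] .nil),
  (.cons 0 5 0 0 0 (.cons 9 1 0 .nil) [2, 36] .nil),
  .nil,
  (.cons 0 4 0 0 0 (.cons 9 0 0 .nil) [] (.cons 0 7 2 0 0 (.cons 9 2 0 .nil) [44, 32, 11, 14] (.cons 2 3 0 0 0 (.cons 0 17 0 .nil) [9, 3, 0, 10, 5, 1, 15, 0, 4, 3, 3, 0, 0, 1, 1, 0, 3, 1, 5, 3, 3, 3, 0, 1, 10, 1, 3, 1, 1, 1, 4, 1, 5, 5, 1, 1, 0, 4, 5, 0, 2, 2, 0, 3] .nil))),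
  (.cons 0 9 0 0 0 (.cons 9 0 0 .nil) [13] .nil),
  (.cons 0 11 0 0 0 (.cons 10 2 0 .nil) [4] (.cons 2 4 0 0 0 (.cons 0 18 0 .nil) [20, 20, 1, 12, 2, 11, 17, 4, 4, 12, 13, 3, 0, 2, 1, 2, 0, 4, 0, 11, 2, 4, 14, 1, 7, 1] (.cons 1 0 0 0 0 (.cons 10 0 0 .nil) [3, 0, 8, 8, 1, 0, 17, 5, 0, 0, 1, 0, 0, 6, 1, 8, 3, 3, 1, 9, 4, 4, 0, 0, 5, 1, 1, 3, 0, 1, 3, 1, 0, 7, 1, 1, 0, 5, 0, 1, 2, 2, 0, 0, 1, 4, 5, 3, 0, 0, 7, 1, 0] .nil))),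
  (.cons 0 7 0 0 0 (.cons 11 0 0 .nil) [0, 47] .nil),
  (.cons 0 8 0 0 0 (.cons 10 0 0 .nil) [14] (.cons 0 13 0 0 0 (.cons 10 1 0 .nil) [1, 14, 31] .nil)),
  (.cons 0 5 0 0 0 (.cons 11 0 0 .nil) [0, 7] .nil),
  (.cons 0 8 0 0 0 (.cons 10 0 0 .nil) [0, 40, 6] (.cons 2 9 0 0 0 (.cons 0 19 1 .nil) [10, 1, 1, 2, 16, 1, 1, 22, 1, 5, 3, 0, 1, 1, 3, 3, 1, 3, 0, 11, 0, 3, 9, 1, 8, 18, 9, 0, 0, 1, 0, 3, 3, 1, 3, 7, 0, 1, 1, 1, 4, 0, 1, 1, 1, 1, 0, 0, 0, 0, 9, 0, 1, 4, 1, 0, 1, 6, 7] .nil)),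
  (.cons 0 11 0 0 0 (.cons 9 3 0 .nil) [26, 23, 4] (.cons 1 0 0 0 0 (.cons 5 0 0 .nil) [4, 1, 1, 1, 0, 5, 12, 0, 1, 29, 0, 1, 0, 0, 1, 0, 0, 1, 1, 1, 0, 0, 0, 1, 3, 0, 1, 5, 7, 1, 0, 0, 1, 1, 0, 0, 1, 1, 3, 0, 0, 2, 0, 1, 12, 2, 3, 3, 3, 1, 2, 1, 1, 3, 1, 5, 1, 1, 3, 5, 2, 2, 1, 2, 1, 1, 1, 4, 0, 0, 0, 1, 2, 4, 0, 1, 0, 5, 1, 0, 3, 3] .nil)),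
  (.cons 0 18 0 0 0 (.cons 10 1 0 .nil) [3] (.cons 0 6 0 0 0 (.cons 10 0 0 .nil) [8] .nil)),
  (.cons 1 0 0 0 0 (.cons 9 4 0 .nil) [5, 0, 7, 1, 7, 1, 0, 0, 4, 1, 2, 15, 4, 0, 5, 1, 1, 7, 2, 0, 0, 6, 1, 2, 0, 1, 5, 1, 0, 1, 1, 2, 5, 0, 2, 0, 0, 0, 1, 2, 0, 2, 7, 9, 3, 1, 1, 1, 0, 5, 1, 3, 0, 0, 0, 0, 0, 1, 1, 0, 2, 0, 0, 1, 4, 0, 1, 8, 0, 1, 1, 1, 1, 1, 5, 1, 0, 1, 0, 2, 2, 0, 4, 4, 3, 4, 3] .nil),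
  .nil,
  (.cons 0 8 2 0 0 (.cons 9 1 0 .nil) [62, 15, 1, 20, 3, 2, 2, 27, 22, 3] (.cons 0 7 0 0 0 (.cons 9 0 0 .nil) [63] (.cons 0 8 0 0 0 (.cons 11 0 0 .nil) [4] .nil))),
  (.cons 2 10 0 0 0 (.cons 0 20 0 .nil) [13, 8, 8, 0, 4, 7, 21, 1, 2, 2, 5, 3, 3, 3, 1, 7, 0, 0, 1, 3, 3, 7, 1, 2, 1, 12, 1, 2, 1, 3, 2, 1, 8, 1, 3, 2, 8, 1, 4, 3, 3, 0, 6, 1, 3, 1, 0, 0, 1, 0, 0, 1, 1, 1, 3, 5, 1, 1, 1, 0, 5, 1, 1, 0, 0, 2, 3, 1, 1, 1, 1, 5, 1, 1, 4, 2, 0, 2, 2, 0, 10, 1, 1, 0, 2, 2] .nil),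
  (.cons 0 18 0 0 0 (.cons 10 0 0 .nil) [26] (.cons 1 0 0 0 0 (.cons 10 1 0 .nil) [1, 16, 0, 12, 0, 0, 1, 1, 0, 1, 0, 1, 1, 3, 2, 0, 1, 6, 3, 11, 2, 0, 0, 0, 1, 3, 0, 3, 0, 1, 0, 1, 0, 4, 1, 3, 0, 0, 2, 1, 4, 3, 0, 0, 0, 5, 0, 0, 1, 0, 1, 1, 5, 0, 0, 0, 2, 1, 4, 1, 4, 1, 1, 1, 0, 2, 3, 0, 2, 3, 0, 3, 3, 2, 0, 1, 3, 0, 0, 2, 0, 1, 0, 8, 0, 0, 3, 1, 1, 1, 1, 1, 3, 2, 0, 1, 2, 3, 2, 1, 4, 0, 0, 2, 1, 2, 0, 0, 1, 1, 0, 0, 1, 2, 0, 0, 1, 2, 0, 2, 4, 0, 1, 0] .nil)),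
  (.cons 0 11 2 0 0 (.cons 5 36 0 .nil) [72, 0, 1, 19, 20, 1, 11, 39, 16] (.cons 0 18 0 0 0 (.cons 10 2 0 .nil) [] (.cons 2 20 0 0 0 (.cons 0 21 1 .nil) [0, 11, 3, 1, 1, 4, 3, 2, 2, 3, 2, 2, 1, 3, 18, 1, 0, 3, 1, 4, 3, 3, 1, 1, 1, 2, 1, 0, 0, 2, 0, 9, 3, 0, 6, 4, 1, 0, 5, 1, 7, 1, 7, 0, 3, 6, 3, 0, 0, 4, 17, 1, 3, 1, 1, 4, 1, 0, 0, 0, 4, 1, 3, 0, 1, 0, 0, 2, 1, 6, 9, 1, 1, 0, 1, 1, 7, 6, 4, 1, 0, 2, 0, 1, 0, 1, 0, 1, 1, 1, 3, 0, 3, 1, 2, 1, 2, 2, 3, 0, 4, 1, 5, 1, 1, 0, 2, 3] (.cons 1 0 0 0 0 (.cons 11 1 0 .nil) [5, 8, 13, 25, 1, 21, 0, 5, 0, 1, 1, 0, 1, 1, 0, 4, 1, 1, 0, 1, 0, 2, 4, 13, 1, 1, 1, 3, 3, 2, 3, 0, 0, 0, 16,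 1, 1, 19, 9, 0, 1, 3, 0, 1, 0, 0, 0, 1, 3, 1, 1, 1, 4, 1, 3, 0, 0, 2, 0, 2, 0, 0, 0, 1, 3, 1, 1, 0, 1, 1, 3, 1, 2, 2, 3, 5, 5, 1, 2, 3, 0, 2, 3, 4, 0, 1, 1, 0, 1, 0, 5, 0, 1, 4, 3, 14, 0, 0, 2, 0, 0, 1] .nil)))),
  (.cons 0 9 1 0 0 (.cons 10 1 0 .nil) [1, 6, 56, 7, 62, 24, 28, 1, 3] .nil),
  (.cons 0 18 1 0 0 (.cons 5 1 0 .nil) [20, 1, 179] (.cons 2 6 0 0 0 (.cons 0 22 1 .nil) [12, 1, 2, 1, 15, 1, 3, 9, 0, 0, 4, 2, 14, 0, 6, 7, 1, 9, 4, 0, 1, 1, 3, 2, 3, 3, 0, 8, 0, 1, 0, 2, 0, 1, 0, 7, 3, 4, 3, 3, 1, 3, 3, 0, 2, 3, 4, 2, 9, 2, 3, 1, 2, 13, 1, 1, 0, 0, 3, 4, 1, 3, 3, 0, 4, 3, 1, 3, 2, 0, 3, 0, 1, 0, 0, 1, 0, 7, 0, 0, 1,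 9, 1, 0, 1, 0, 7, 1, 0, 1, 2, 1, 4, 1, 9, 11, 2, 6, 0, 0, 0, 0, 5, 3, 4, 0, 1] (.cons 1 0 0 0 0 (.cons 5 0 0 .nil) [3, 6, 11, 12, 0, 1, 1, 1, 8, 1, 5, 2, 1, 3, 8, 1, 10, 0, 1, 2, 1, 0, 1, 5, 0, 1, 1, 1, 0, 0, 1, 1, 1, 1, 3, 12, 1, 0, 0, 0, 3, 1, 0, 2, 3, 0, 6, 1, 0, 2, 1, 1, 4, 12, 3, 1, 1, 6, 1, 4, 2, 0, 0, 1, 4, 1, 1, 2, 1, 3, 3, 0, 0, 0, 4, 1, 2, 0, 0, 1, 5, 1, 3, 1, 3, 1, 0, 3, 3, 0, 0, 1, 1, 1, 0, 0, 1, 0, 5, 2, 2, 0, 1, 1, 0, 3, 3, 0, 0, 0, 5, 4, 3, 1, 2, 0, 1, 0, 1, 0, 1, 6, 1, 0, 1, 7, 2, 4, 1, 0, 0, 0, 1, 1] .nil))),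
  (.cons 0 23 0 0 0 (.cons 9 0 0 .nil) [] (.cons 0 9 0 0 0 (.cons 10 0 0 .nil) [76] (.cons 2 20 0 0 0 (.cons 0 23 1 .nil) [22, 9, 52, 1, 0, 4, 3, 2, 3, 1, 1, 1, 3, 0, 1, 2, 1, 7, 0, 3, 3, 2, 0, 1, 1, 1, 1, 0, 3, 5, 3, 1, 0, 13, 0, 5, 3, 1, 10, 0, 0, 1, 18, 3, 0, 9, 6, 2, 0, 1, 0, 2, 4, 2, 1, 1, 1, 3, 1, 0, 15, 2, 1, 0, 1, 1, 0, 2, 3, 5, 0, 0, 2, 2, 0, 3, 5, 1, 0, 1, 0, 1, 1, 0, 3, 3, 44, 3, 10, 1, 2, 1, 1, 3, 4, 0] .nil))),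
  (.cons 0 23 1 0 0 (.cons 9 0 0 .nil) [221, 0] (.cons 2 3 0 0 0 (.cons 0 24 1 .nil) [1, 4, 1, 1, 1, 1, 10, 6, 3, 1, 8, 1, 0, 0, 1, 0, 20, 1, 2, 0, 3, 1, 1, 0, 1, 13, 5, 2, 0, 3, 1, 0, 3, 3, 1, 1, 4, 3, 3, 0, 1, 6, 0, 4, 9, 3, 0, 6, 3, 0, 10, 2, 0, 3, 2, 0, 2, 0, 0, 1, 5, 0, 1, 1, 0, 4, 0, 2, 3, 4, 1, 0, 0, 3, 1, 4, 1, 3, 0, 1, 0, 1, 3, 0, 8, 0, 1, 4, 1, 1, 0, 11, 4, 1, 3, 0, 1, 0, 1, 1, 3, 7, 5, 0, 2, 3, 2, 0, 1, 0, 1, 0, 0, 1, 1, 2, 3, 3, 0, 2, 7, 0, 0, 3, 0, 2, 1, 1, 4, 4, 0, 0, 2, 0, 0, 2, 0, 2] (.cons 1 0 0 0 0 (.cons 9 1 0 .nil) [3, 4, 1, 1, 1, 1, 2, 4, 2, 5, 5, 1, 5, 3, 2, 2, 2, 0, 11, 0, 3, 1, 0, 0, 1, 1, 0, 0, 1,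 2, 1, 1, 0, 4, 3, 3, 0, 2, 3, 0, 0, 0, 0, 1, 1, 0, 9, 0, 1, 0, 4, 3, 0, 1, 3, 3, 0, 1, 1, 5, 3, 0, 0, 0, 16, 0, 0, 9, 0, 2, 3, 3, 1, 4, 0, 1, 2, 1, 5, 5, 1, 1, 3, 1, 4, 0, 2, 1, 1, 0, 1, 2, 0, 0, 1, 0, 1, 1, 0, 1, 1, 2, 3, 1, 3, 0, 1, 3, 1, 1, 1, 1, 1, 3, 2, 0, 2, 1, 1, 5, 0, 0, 3, 3, 0, 2, 0, 3, 4, 4, 0, 1, 1, 3, 2, 1, 0, 2, 0, 6, 3, 3, 12, 0, 1, 0, 3, 3, 1, 1, 2, 3, 1] (.cons 1 0 0 0 0 (.cons 10 0 0 .nil) [2, 5, 1, 1, 1, 0, 2, 6, 7, 2, 0, 4, 4, 0, 1, 2, 4, 14, 0, 0, 1, 3, 0, 1, 0, 3, 1, 0, 6, 7, 1, 3, 1, 3, 1, 0, 0, 3, 0, 1, 6, 1, 2, 1, 0, 9, 0, 1, 5, 0, 0, 0, 3, 1, 4, 2, 1, 13, 2, 0, 1, 1, 1, 1, 1, 2, 1, 1, 0, 3, 0, 1,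 2, 7, 1, 1, 2, 1, 0, 1, 0, 1, 1, 1, 0, 3, 0, 3, 0, 0, 2, 2, 1, 0, 3, 0, 3, 1, 1, 1, 0, 1, 2, 3, 0, 1, 0, 3, 3, 1, 1, 0, 0, 0, 0, 3, 1, 3, 0, 0, 1, 4, 1, 3, 1, 0, 2, 2, 5, 3, 1, 1, 0, 1, 3, 0, 1, 0, 2, 3, 1, 3, 1, 1, 2, 0, 2, 1, 8, 0, 0, 0, 2, 1, 1, 0, 0, 0, 6] .nil)))),
  (.cons 0 10 2 0 0 (.cons 9 37 0 .nil) [227] (.cons 0 7 0 0 0 (.cons 10 0 0 .nil) [4] (.cons 2 11 0 0 0 (.cons 0 25 0 .nil) [12, 0, 5, 1, 0, 2, 18, 1, 3, 35, 11, 3, 0, 2, 0, 0, 9, 0, 0, 0, 0, 3, 0, 1, 3, 18, 0, 9, 1, 1, 1, 1, 4, 0, 1, 7, 3, 3, 1, 2, 11, 0, 1, 0, 3, 0, 0, 0, 19, 1, 0, 3, 2, 3, 0, 1, 0, 0, 0, 0, 0, 1, 1, 1, 9, 1, 2, 1, 1, 1, 3, 1, 1, 2, 0,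 1, 0, 0, 0, 1, 0, 1, 0, 3, 2, 0, 4, 1, 6, 1, 0, 2, 2, 4, 0, 1, 3, 0, 3, 0, 1, 3, 0, 0, 5, 1, 1, 4, 1, 8, 1, 0, 0, 3, 3, 1, 2, 5, 1, 3, 0, 2, 6, 1, 1, 1, 1, 3, 3, 0, 1, 3, 6] .nil))),
  (.cons 0 15 0 0 0 (.cons 10 3 0 .nil) [0, 4, 78] (.cons 2 4 0 0 0 (.cons 0 26 1 .nil) [11, 4, 4, 0, 6, 2, 9, 9, 2, 0, 8, 7, 15, 5, 0, 1, 0, 1, 1, 9, 0, 1, 0, 0, 3, 3, 2, 1, 0, 0, 21, 0, 2, 1, 2, 0, 1, 2, 4, 1, 0, 0, 14, 0, 2, 5, 2, 4, 0, 1, 3, 0, 3, 1, 1, 2, 4, 3, 0, 1, 2, 4, 0, 1, 0, 1, 4, 4, 0, 0, 1, 4, 0, 1, 1, 1, 11, 2, 1, 2, 1, 0, 2, 0, 0, 0, 1, 1, 0, 5, 0, 6, 0, 0, 0, 4, 6, 1, 0, 0, 1, 0, 0, 1, 5, 1, 2, 0, 3, 0, 0, 6, 3, 0, 1, 1, 5,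 1, 7, 0, 3, 2, 5, 0, 3, 6, 1, 4, 1, 3, 1, 2, 0, 0, 2, 0, 0, 1, 0, 1, 5, 3, 2, 3] (.cons 1 0 0 0 0 (.cons 11 0 0 .nil) [12, 9, 5, 0, 0, 1, 7, 2, 5, 5, 3, 1, 2, 1, 1, 0, 1, 0, 5, 9, 2, 1, 1, 0, 0, 1, 1, 0, 1, 0, 1, 0, 5, 3, 1, 0, 7, 0, 2, 1, 0, 0, 1, 11, 4, 2, 4, 0, 5, 1, 0, 1, 3, 14, 1, 0, 0, 5, 3, 3, 3, 6, 1, 3, 1, 0, 1, 0, 2, 3, 3, 0, 0, 1, 4, 1, 1, 0, 1, 5, 2, 1, 0, 7, 0, 4, 0, 3, 1, 5, 0, 0, 3, 0, 1, 2, 1, 0, 0, 1, 0, 2, 3, 1, 0, 2, 1, 2, 1, 3, 0, 0, 0, 3, 3, 1, 1, 1, 0, 2, 0, 5, 3, 0, 0, 3, 3, 1, 1, 0, 5, 1, 0, 0, 3, 1, 0, 2, 0, 4, 1, 3, 1, 1, 1, 0, 2, 1, 5, 1, 0, 1, 1, 0, 0, 1, 0, 0, 2, 4, 2, 4, 0, 1, 3, 1, 1, 0, 1]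 .nil))),
  (.cons 0 21 0 0 0 (.cons 5 45 0 .nil) [] (.cons 2 25 0 0 0 (.cons 0 27 1 .nil) [112, 6, 5, 1, 4, 2, 0, 1, 1, 0, 1, 0, 0, 0, 1, 2, 2, 38, 0, 6, 7, 39, 1, 1, 18, 1, 2, 0, 2, 3, 2, 3, 1, 0, 1, 3, 5, 1, 4, 1, 1, 2, 5, 2, 1, 1, 5, 3, 2, 0, 3, 3, 9, 3, 1, 1, 1, 4, 6, 1, 0, 2, 2, 1, 8, 0, 1, 2, 3, 1, 0, 9, 0, 0, 0, 1, 0, 4, 8, 0, 3, 1, 2, 8, 0, 2, 1, 9, 1, 4, 1, 2, 7, 3, 9, 1, 1] (.cons 1 0 0 0 0 (.cons 10 0 0 .nil) [11, 2, 6, 3, 13, 0, 0, 2, 1, 1, 3, 5, 4, 0, 3, 1, 5, 6, 2, 2, 2, 1, 1, 3, 2, 0, 5, 2, 1, 4, 1, 1, 3, 2, 2, 3, 0, 5, 4, 3, 2, 2, 3, 2, 1, 1, 18, 0, 1, 0, 1, 1, 0, 2, 3, 6, 5, 3, 1, 1, 1, 0, 0, 6, 0, 15, 6,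 0, 0, 1, 1, 1, 1, 1, 0, 2, 0, 1, 1, 4, 0, 0, 1, 3, 0, 1, 2, 0, 0, 2, 1, 9, 1, 0, 1, 1, 3, 0, 1, 0, 1, 0, 1, 0, 1, 1, 1, 0, 5, 0, 0, 0, 2, 1, 2, 0, 3, 0, 3, 0, 1, 0, 7, 5, 3, 0, 4, 1, 0, 3, 4, 0, 0, 3, 1, 1, 0, 0, 1, 0, 0, 12, 1, 3, 2, 0, 0, 0, 0, 0, 9, 1, 1, 1, 1, 5, 0, 0, 0, 4, 0, 0, 0, 2, 1] .nil))),
  (.cons 0 22 0 0 0 (.cons 9 1 0 .nil) [28, 1, 5, 0, 51] (.cons 0 9 0 0 0 (.cons 11 0 0 .nil) [29] (.cons 2 18 0 0 0 (.cons 0 28 0 .nil) [14, 2, 35, 25, 3, 14, 9, 8, 2, 10, 2, 0, 1, 1, 3, 2, 1, 2, 2, 3, 21, 10, 2, 2, 8, 0, 4, 7, 5, 4, 11, 3, 3, 2, 1, 2, 12, 4, 0, 3, 1, 3, 4, 7, 0, 0, 1, 8, 7, 1, 11, 1, 1, 0, 1, 1, 0, 1, 1,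 2, 1, 6, 0, 3, 1, 3, 5, 4, 1, 2, 1, 1, 1, 2, 11, 0, 1, 1, 1, 1, 0, 11, 2, 3, 7, 5, 6, 2, 2, 1, 0, 1, 2, 6, 6, 1, 5, 5, 3, 4, 7, 7, 1, 1, 5, 3, 4, 0, 0, 3, 5, 0, 2] (.cons 1 0 0 0 0 (.cons 11 1 0 .nil) [6, 7, 1, 0, 1, 1, 3, 5, 1, 9, 6, 2, 0, 4, 0, 1, 2, 3, 1, 0, 1, 2, 0, 0, 0, 6, 1, 0, 2, 0, 1, 3, 2, 0, 5, 6, 1, 1, 1, 0, 3, 1, 1, 1, 5, 1, 2, 0, 1, 1, 10, 5, 0, 1, 0, 3, 0, 0, 2, 2, 0, 0, 3, 0, 0, 1, 0, 0, 4, 0, 0, 3, 0, 1, 0, 0, 1, 2, 0, 1, 3, 1, 0, 1, 1, 0, 3, 3, 1, 2, 1, 1, 4, 0, 1, 1, 5, 0, 0, 2, 1, 0, 0, 2, 5, 0, 0, 1, 0, 4, 1, 5, 1, 4, 4, 1, 1, 3, 0, 0, 2, 0, 2, 1, 5, 1, 1, 2, 3, 6, 1, 0, 8, 1, 5, 0, 1, 1, 1, 2, 1, 0,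 1, 1, 0, 1, 2, 0, 1, 0, 0, 3, 0, 1, 1, 1, 0, 0, 0, 0, 0, 1, 1, 1, 3, 0, 1, 1, 0, 2, 1, 0, 0, 0, 0, 1, 0, 1, 2, 0, 1, 0, 0, 2, 3, 1, 0, 0, 3, 0, 1, 1, 0, 2, 1, 1, 0, 1, 1, 0, 1, 1, 0, 1, 1, 3, 2] .nil)))),
  (.cons 0 23 0 0 0 (.cons 5 0 0 .nil) [] (.cons 0 15 1 0 0 (.cons 9 1 0 .nil) [6, 44, 174, 26] (.cons 2 5 0 0 0 (.cons 0 29 1 .nil) [0, 12, 2, 1, 3, 0, 1, 5, 1, 2, 1, 3, 2, 1, 0, 10, 10, 0, 0, 3, 2, 14, 3, 2, 3, 1, 6, 0, 5, 1, 0, 1, 0, 0, 1, 1, 5, 0, 0, 1, 1, 0, 1, 4, 0, 2, 3, 0, 2, 6, 4, 1, 2, 7, 3, 10, 0, 1, 1, 0, 0, 1, 5, 2, 5, 3, 6, 1, 1, 1, 1, 3, 1, 9, 0, 8, 1, 0, 3, 3, 0, 0, 0, 1, 0, 1, 0, 2, 1, 0, 1, 0, 1, 3, 3,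 0, 1, 2, 0, 0, 0, 1, 0, 0, 2, 1, 0, 1, 0, 0, 7, 0, 7, 1, 0, 0, 0, 0, 0, 1, 1, 1, 4, 1, 0, 1, 0, 0, 2, 1, 1, 1, 1, 2, 1, 3, 2, 2, 1, 1, 0, 3, 1, 1, 1, 0, 1, 1, 2, 3, 0, 0, 2, 1, 6, 0, 1, 0, 7, 6, 3, 1, 1, 1, 0, 0, 1, 1, 0, 0, 0, 1, 1, 2, 1, 1, 0, 2, 3, 1, 1, 2, 5, 1, 1, 1, 0, 2, 7, 5, 2, 2, 3] (.cons 1 0 0 0 0 (.cons 10 0 0 .nil) [2, 1, 5, 6, 0, 4, 0, 1, 0, 3, 1, 1, 0, 1, 4, 0, 0, 12, 0, 0, 3, 4, 2, 0, 2, 6, 7, 3, 1, 3, 3, 2, 1, 0, 0, 3, 7, 1, 0, 0, 1, 1, 2, 3, 0, 2, 0, 7, 2, 3, 0, 5, 5, 3, 4, 3, 1, 1, 1, 3, 5, 9, 0, 1, 1, 0, 3, 5, 4, 4, 0, 1, 3, 1, 3, 0, 0, 5, 0, 0, 0, 0, 4, 0, 1, 1, 0, 3, 2, 3, 0, 1, 1, 1, 1, 3, 2, 0, 2,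 1, 2, 2, 2, 0, 0, 2, 3, 1, 2, 0, 0, 0, 4, 0, 0, 3, 7, 4, 2, 1, 0, 1, 1, 3, 2, 1, 0, 1, 0, 2, 0, 0, 1, 1, 1, 1, 0, 1, 2, 0, 7, 5, 1, 0, 0, 2, 1, 0, 3, 3, 0, 5, 3, 3, 0, 0, 7, 0, 1, 2, 4, 3, 0, 0, 4, 0, 0, 1, 0, 0, 4, 5, 1, 1, 1, 3, 1, 5, 5, 1, 9, 1, 1, 0, 1, 2, 1, 0] .nil)))),
  (.cons 0 25 1 0 0 (.cons 5 1 0 .nil) [259] (.cons 0 9 2 0 0 (.cons 10 0 0 .nil) [105, 28, 43, 76, 1, 0] (.cons 2 11 0 0 0 (.cons 0 30 0 .nil) [21, 0, 1, 0, 0, 5, 3, 10, 7, 14, 1, 5, 29, 1, 5, 1, 0, 17, 3, 4, 0, 5, 1, 4, 1, 0, 21, 3, 0, 3, 9, 8, 1, 0, 7, 0, 0, 0, 1, 1, 0, 37, 22, 2, 0, 5, 1, 0, 5, 0, 4, 0, 7, 2, 0, 0, 0, 2, 1, 0, 1, 2, 0, 5, 2, 0,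 0, 1, 0, 0, 0, 0, 1, 0, 0, 1, 1, 1, 1, 0, 1, 2, 0, 0, 5, 3, 1, 1, 0, 0, 3, 1, 2, 1, 0, 0, 0, 1, 5, 1, 3, 4, 3, 0, 0, 4, 2, 1, 0, 1, 1, 1, 1, 7, 1, 0, 3, 2, 3, 0, 1, 5, 0, 2, 4, 0, 0, 0, 1, 0, 2, 0, 9, 0, 0, 1, 0, 4, 0, 1, 1, 1, 9, 0, 0, 0, 0, 2, 0, 0, 0, 0, 8, 2, 6] (.cons 1 0 0 0 0 (.cons 9 0 0 .nil) [22, 16, 32, 7, 25, 2, 1, 1, 3, 1, 1, 1, 2, 0, 7, 4, 8, 3, 2, 2, 0, 0, 1, 19, 4, 1, 1, 12, 7, 3, 0, 0, 2, 1, 2, 0, 1, 0, 1, 7, 13, 12, 3, 4, 1, 11, 3, 1, 1, 3, 2, 1, 2, 0, 1, 4, 1, 2, 9, 0, 3, 1, 0, 0, 1, 3, 2, 1, 1, 1, 4, 0, 0, 3, 3, 4, 5, 3, 1, 0, 1, 3, 1, 3, 8, 5, 4, 1, 0, 3, 3, 0, 4, 1, 1, 0, 1, 4, 3, 2, 0, 1, 0, 0, 0,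 0, 0, 4, 0, 2, 0, 1, 1, 0, 2, 2, 3, 1, 0, 0, 5, 1, 0, 0, 19, 0, 0, 2, 3, 0, 0, 7, 6, 7, 3, 0, 1, 6, 3, 0, 0, 1, 3, 0, 0, 5] (.cons 1 0 0 0 0 (.cons 11 0 0 .nil) [3, 3, 6, 1, 1, 1, 5, 1, 0, 0, 0, 16, 0, 1, 1, 3, 7, 0, 0, 0, 3, 0, 4, 3, 12, 3, 3, 2, 1, 0, 0, 0, 0, 1, 1, 1, 0, 3, 0, 5, 0, 0, 1, 0, 1, 0, 4, 2, 1, 2, 2, 9, 1, 1, 4, 1, 7, 2, 0, 2, 0, 0, 1, 4, 0, 2, 0, 2, 1, 0, 2, 6, 1, 1, 2, 4, 0, 0, 1, 1, 0, 1, 1, 2, 6, 2, 1, 1, 1, 1, 1, 1, 2, 0, 3, 0, 0, 1, 0, 1, 1, 1, 0, 0, 3, 1, 3, 0, 1, 0, 3, 1, 1, 10, 0, 1, 0, 5, 1, 0, 2, 2, 3, 3, 1, 1, 3, 0, 1, 1, 4, 0, 2, 0, 4, 6, 1, 0, 1, 0, 1, 3, 1, 2, 3, 3, 5, 0, 0, 0, 0, 1, 0, 1, 0,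 0, 0, 2, 4, 5, 1, 1, 1, 0, 0, 0, 3, 0, 3, 5, 0, 3, 1, 1, 2, 2, 0, 0, 1, 1, 1, 0, 5, 0, 0, 2, 7, 1, 1, 1, 3, 3, 0, 3, 2, 1, 1, 5, 3, 5, 1, 1, 3, 0, 2, 0, 1, 1, 0, 2] .nil))))),
  (.cons 0 25 0 0 0 (.cons 10 0 0 .nil) [3, 1, 95] (.cons 0 21 0 0 0 (.cons 9 5 0 .nil) [102] (.cons 2 6 0 0 0 (.cons 0 31 1 .nil) [14, 7, 26, 4, 14, 0, 2, 3, 1, 0, 1, 47, 1, 22, 1, 1, 4, 0, 0, 0, 0, 1, 30, 2, 1, 0, 0, 6, 1, 4, 1, 13, 4, 27, 9, 13, 1, 1, 15, 3, 1, 0, 2, 1, 1, 1, 0, 6, 6, 2, 3, 1, 0, 3, 5, 5, 1, 0, 0, 1, 1, 1, 1, 5, 3, 2, 3, 1, 1, 5, 0, 1, 1, 1, 3, 0, 3, 2, 4, 1, 3, 0, 0, 2, 2, 12, 5, 2, 3, 2, 1, 7, 5, 4, 1, 0, 1, 0, 2, 0, 1, 1, 0,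 0, 1, 3, 0, 1, 0, 0, 10, 1, 3, 1, 0, 6, 1, 11, 0, 0, 2, 1, 3, 4, 3, 0, 7, 2, 10, 6, 2, 0, 9, 3, 1] .nil))),
  (.cons 0 24 0 0 0 (.cons 10 0 0 .nil) [] (.cons 0 25 2 0 0 (.cons 10 5 0 .nil) [6, 51, 48, 66, 5, 2, 4, 1, 86, 2] (.cons 1 0 0 0 0 (.cons 11 0 0 .nil) [0, 0, 12, 3, 0, 1, 8, 1, 0, 0, 3, 3, 1, 2, 1, 12, 2, 1, 2, 3, 2, 0, 1, 18, 1, 3, 1, 0, 3, 0, 1, 1, 2, 1, 1, 1, 1, 0, 0, 1, 5, 0, 1, 5, 0, 1, 1, 2, 1, 2, 0, 4, 1, 0, 1, 5, 7, 0, 1, 4, 2, 4, 3, 1, 0, 3, 0, 3, 0, 8, 3, 1, 1, 1, 1, 1, 1, 0, 1, 5, 3, 5, 2, 0, 1, 1, 1, 1, 0, 0, 3, 2, 0, 2, 0, 1, 7, 1, 0, 1, 2, 1, 1, 1, 1, 0, 2, 5, 0, 0, 2, 0, 5, 0, 1, 7, 0, 1, 1, 0, 1,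 0, 1, 2, 0, 5, 1, 1, 0, 1, 1, 0, 0, 4, 0, 0, 4, 1, 0, 1, 0, 1, 1, 3, 0, 0, 0, 1, 0, 1, 0, 3, 2, 3, 0, 3, 2, 0, 1, 0, 2, 1, 1, 0, 0, 2, 2, 2, 5, 2, 1, 0, 4, 2, 1, 1, 1, 0, 0, 0, 1, 0, 3, 4, 0, 0, 0, 0, 1, 1, 1, 0, 3, 1, 0, 1, 1, 1, 3, 0, 3, 0, 2, 0, 0, 1, 3, 2, 1, 0, 1, 2, 0, 0, 2, 0, 2, 6, 4, 1, 0, 1, 1, 3, 1, 3, 0, 1, 1, 2, 0, 1, 8, 0, 3, 5, 1] .nil))),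
  (.cons 0 22 0 0 0 (.cons 9 0 0 .nil) [] (.cons 0 11 0 0 0 (.cons 11 0 0 .nil) [2] (.cons 2 7 0 0 0 (.cons 0 32 0 (.cons 0 33 1 .nil)) [9, 5, 20, 17, 0, 5, 0, 5, 0, 3, 2, 1, 2, 24, 2, 6, 0, 2, 3, 1, 7, 5, 7, 1, 0, 1, 0, 1, 0, 2, 0, 3, 1, 5, 12, 8, 0, 0, 0, 1, 1, 1, 3, 5, 3, 9, 1, 3, 0, 0, 0, 1, 2, 1, 5, 13, 6, 9, 1, 3, 2, 0, 1, 1, 1, 0, 0, 1, 13, 1, 0, 2, 3, 4, 2, 3, 1, 4, 1, 0, 0, 6, 2, 1, 1, 1, 0, 0, 1, 0, 1, 0, 19, 3, 1, 1, 1, 0, 1, 0, 0, 2, 0, 0, 1, 4, 3, 3, 0, 0, 4, 0, 1, 0, 0, 0, 1, 4, 5, 0, 0, 1, 0, 1, 1, 0, 2, 2, 1, 0, 2, 1, 0, 2, 7, 1, 3, 1, 0, 2, 1, 7, 3, 2, 1, 0, 0, 3, 0, 1, 0, 0, 3, 1, 1, 1, 0, 1, 0, 2, 5, 1,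 4, 1, 3, 1, 0, 0, 0, 0, 2, 3, 1, 4, 1, 2, 1, 7, 1, 4, 0, 0, 0, 2, 2, 2, 0, 1, 0, 1, 1, 2, 1, 7, 0, 0, 0, 0, 5, 0, 0, 1, 2, 7] (.cons 2 25 0 0 0 (.cons 0 32 0 .nil) [4, 10, 1, 9, 21, 0, 2, 0, 0, 0, 9, 5, 2, 1, 0, 0, 4, 18, 8, 0, 1, 0, 3, 0, 1, 18, 2, 4, 0, 0, 0, 1, 1, 4, 4, 4, 14, 4, 1, 0, 0, 5, 8, 6, 10, 0, 0, 1, 0, 2, 3, 34, 0, 6, 8, 7, 4, 0, 5, 7, 1, 2, 1, 1, 0, 2, 2, 0, 1, 1, 1, 1, 3, 6, 1, 2, 0, 6, 2, 2, 1, 2, 0, 0, 0, 0, 5, 1, 2, 3, 2, 0, 5, 1, 3, 4, 1, 0, 5, 1, 1, 1, 3, 1, 5, 0, 0, 0, 11, 0, 1, 3, 0, 1, 2, 2, 1, 3, 3, 1, 0, 0, 1, 0, 1, 0, 3, 0, 2, 1, 3, 2, 4, 3, 1, 3, 1, 3, 0, 4, 0, 1, 1, 1, 1, 0, 2, 4, 1, 0, 0, 3,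 2, 4, 1, 2, 5, 2, 1, 1, 13, 1, 1, 0, 0, 0, 2, 3, 0, 2, 5, 1, 5, 2, 0, 5, 3, 1, 1, 0, 0, 2, 1, 1, 3] .nil)))),
  (.cons 0 30 0 0 0 (.cons 10 1 0 .nil) [1, 1, 103, 4] (.cons 0 20 0 0 0 (.cons 10 0 0 .nil) [42, 66] (.cons 1 0 0 0 0 (.cons 11 1 0 .nil) [0, 1, 6, 13, 1, 1, 2, 0, 16, 1, 1, 1, 7, 1, 1, 7, 1, 1, 0, 2, 1, 1, 1, 8, 4, 2, 0, 2, 0, 4, 1, 1, 2, 0, 3, 7, 1, 1, 1, 0, 1, 1, 3, 1, 0, 3, 1, 1, 2, 1, 1, 1, 1, 5, 0, 0, 5, 0, 4, 3, 1, 1, 3, 1, 2, 1, 1, 1, 1, 1, 3, 0, 0, 5, 3, 4, 7, 1, 4, 0, 2, 0, 0, 0, 4, 0, 1, 4, 2, 0, 11, 1, 1, 0, 1, 0, 0, 0, 2, 1, 0, 1, 1, 0, 0, 1, 1, 0, 2, 7, 0, 0, 4, 5, 5, 0, 1, 0, 0, 5, 1, 1, 2, 2, 3,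 2, 2, 0, 0, 0, 0, 0, 1, 0, 0, 2, 5, 1, 1, 1, 1, 0, 1, 4, 1, 3, 1, 0, 2, 0, 0, 1, 1, 1, 5, 0, 2, 1, 2, 1, 3, 2, 2, 0, 1, 3, 2, 0, 0, 2, 2, 1, 2, 1, 1, 1, 0, 1, 1, 0, 0, 5, 1, 0, 0, 1, 1, 0, 2, 0, 0, 0, 5, 0, 0, 1, 1, 0, 0, 2, 1, 2, 0, 0, 0, 0, 1, 2, 2, 7, 0, 1, 0, 3, 0, 1, 1, 0, 0, 0, 0, 5, 3, 2, 8, 0, 0, 0, 1, 1, 3, 4, 0, 1, 1, 1, 0, 1, 1, 0, 1, 0, 2, 0, 0, 0, 1, 1, 0, 0, 0, 1, 1, 0, 4, 0, 4, 0, 1, 1, 0, 5, 1, 1, 1] .nil))),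
  (.cons 0 8 0 0 0 (.cons 11 0 0 .nil) [0] (.cons 2 18 0 0 0 (.cons 0 34 0 .nil) [25, 8, 1, 1, 0, 0, 3, 14, 21, 12, 1, 20, 4, 7, 3, 6, 9, 7, 0, 0, 3, 0, 1, 2, 1, 2, 1, 0, 1, 4, 4, 1, 14, 0, 1, 1, 3, 0, 1, 3, 1, 6, 2, 0, 1, 1, 1, 0, 2, 8, 6, 5, 0, 3, 4, 14, 1, 0, 7, 3, 1, 3, 7, 3, 2, 1, 2, 10, 6, 7, 0, 1, 0, 1, 2, 5, 2, 1, 1, 2, 0, 1, 1, 9, 2, 0, 0, 0, 0, 3, 0, 1, 1, 1, 7, 1, 1, 0, 1, 2, 0, 0, 4, 3, 0, 0, 2, 4, 2, 1, 2, 0, 0, 0, 0, 3, 3, 0, 1, 0, 0, 1, 3, 1, 1, 0, 1, 1, 3, 2, 1, 6, 2, 2, 3, 0, 3, 0, 1, 0, 3, 11, 0, 1, 2, 1, 2, 0, 0, 5, 1, 0, 2, 1, 1, 1, 0, 2, 1, 5, 0, 1, 1, 11, 6, 5, 1, 7, 3, 1, 0, 12, 0, 10, 0, 0, 8, 0,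 0, 3, 0, 0, 0, 0, 1, 4, 3, 1, 0, 1, 1, 4, 0, 3, 1, 2, 1, 7, 0, 1, 3, 3, 1, 1] (.cons 1 0 0 0 0 (.cons 5 0 0 .nil) [16, 8, 1, 1, 5, 2, 0, 0, 3, 11, 0, 2, 4, 6, 4, 6, 4, 2, 15, 1, 0, 5, 1, 0, 0, 0, 1, 4, 0, 0, 5, 5, 2, 1, 0, 1, 0, 0, 2, 0, 1, 2, 1, 0, 0, 1, 1, 2, 4, 4, 7, 3, 0, 1, 0, 0, 2, 0, 3, 0, 13, 1, 2, 1, 2, 1, 7, 2, 6, 1, 0, 0, 1, 1, 0, 8, 6, 1, 3, 2, 3, 1, 0, 1, 2, 2, 0, 0, 4, 0, 0, 0, 2, 2, 0, 1, 15, 2, 0, 4, 1, 7, 0, 5, 6, 4, 1, 1, 5, 5, 4, 1, 3, 3, 0, 4, 1, 2, 1, 3, 0, 1, 1, 1, 0, 3, 1, 0, 1, 1, 1, 1, 0, 1, 2, 1, 1, 0, 3, 0, 7, 0, 1, 4, 0, 1, 3, 1, 1, 1, 5, 1, 0, 2, 1, 0, 1, 3, 1, 0, 1, 0, 0, 0, 1, 1, 6, 0, 0, 3,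 0, 1, 1, 4, 14, 2, 0, 0, 5, 1, 0, 1, 2, 0, 6, 2, 3, 1, 1, 3, 5, 2, 1, 0, 5, 0, 0, 10, 0, 2, 1, 1, 3, 0, 2, 5, 0, 1, 7, 1, 5, 2, 0, 0, 5, 2, 1, 1, 2, 0, 1, 1, 2, 4, 4, 2, 3, 1, 3] .nil))),
  (.cons 0 13 0 0 0 (.cons 11 0 0 .nil) [8, 107] (.cons 2 20 0 0 0 (.cons 0 35 1 .nil) [0, 12, 3, 0, 5, 1, 2, 3, 0, 2, 12, 2, 0, 3, 0, 1, 2, 3, 0, 4, 3, 3, 0, 1, 21, 0, 3, 2, 3, 0, 3, 1, 1, 2, 0, 5, 0, 4, 3, 0, 0, 3, 1, 0, 2, 0, 0, 3, 1, 0, 6, 0, 0, 1, 1, 5, 2, 2, 2, 0, 1, 1, 6, 0, 0, 1, 0, 0, 2, 1, 1, 10, 1, 2, 1, 1, 4, 1, 0, 0, 2, 1, 6, 6, 5, 1, 2, 0, 0, 2, 0, 3, 4, 1, 5, 0, 0, 0, 0, 1, 1, 1, 2, 4, 0, 0, 1, 3, 1, 1, 3, 1, 0, 2, 6, 3,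 4, 5, 2, 1, 1, 0, 1, 0, 1, 0, 0, 1, 2, 1, 1, 0, 1, 1, 2, 0, 0, 3, 1, 1, 2, 1, 1, 1, 0, 0, 7, 1, 4, 1, 1, 1, 9, 2, 6, 1, 0, 5, 0, 2, 3, 0, 1, 1, 4, 0, 1, 1, 0, 3, 1, 1, 1, 2, 3, 2, 0, 1, 1, 0, 0, 1, 0, 1, 1, 1, 1, 5, 1, 0, 3, 0, 1, 1, 5, 1, 1, 4, 1, 0, 7, 0, 1, 2, 2, 1, 0, 4, 1, 3, 6, 2, 0, 0, 1, 5, 3, 1, 0, 9, 3, 1, 0, 1, 1, 1, 0, 1, 2, 0, 1, 3, 1, 2, 5, 3, 1, 1, 0, 0, 13, 0, 3, 0, 0, 0, 3, 0, 3, 1, 1, 1, 3, 3, 0, 3, 3, 1, 2, 3, 1, 1, 2, 1, 5, 1] (.cons 1 0 0 0 0 (.cons 10 0 0 .nil) [14, 2, 2, 0, 5, 0, 1, 2, 3, 0, 13, 7, 2, 0, 11, 2, 3, 1, 10, 17, 9, 0, 1, 0, 1, 1, 5, 1, 0, 4, 4, 0, 7, 7, 2, 0, 0, 5, 1, 0, 0, 1, 1, 2, 0,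 1, 2, 1, 4, 7, 0, 0, 1, 2, 4, 1, 1, 2, 7, 9, 1, 9, 2, 1, 1, 1, 1, 1, 0, 1, 1, 11, 21, 1, 2, 0, 1, 2, 2, 3, 2, 2, 9, 2, 0, 2, 0, 4, 0, 1, 0, 1, 1, 0, 3, 4, 0, 1, 3, 2, 0, 0, 0, 1, 1, 0, 3, 0, 8, 3, 0, 1, 1, 1, 0, 3, 0, 2, 1, 3, 3, 0, 1, 1, 0, 2, 1, 1, 2, 2, 0, 4, 0, 1, 6, 2, 2, 1, 2, 0, 1, 1, 0, 0, 2, 2, 5, 5, 0, 2, 1, 0, 6, 2, 1, 0, 3, 1, 0, 0, 0, 0, 1, 5, 0, 2, 6, 5, 3, 4, 0, 5, 0, 2, 1, 0, 5, 0, 15, 1, 0, 5, 4, 0, 0, 1, 3, 1, 10, 3, 1, 0, 0, 1, 1, 5, 1, 0, 1, 0, 0, 7, 1, 0, 2, 1, 2, 0, 0, 0, 1, 0, 3, 1, 2, 0, 0, 1, 0, 10, 2, 0, 1, 0, 1, 0, 0, 0, 2, 2, 0, 3, 3, 1] .nil))),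
  (.cons 0 30 1 0 0 (.cons 9 1 0 .nil) [328, 5] (.cons 0 30 0 0 0 (.cons 10 1 0 .nil) [38, 6, 63, 2, 0, 5, 0] (.cons 0 23 0 0 0 (.cons 10 0 0 .nil) [40, 84] (.cons 1 0 0 0 0 (.cons 9 0 0 .nil) [2, 1, 5, 5, 0, 2, 0, 1, 1, 1, 1, 3, 1, 26, 0, 2, 2, 2, 3, 2, 4, 1, 3, 0, 0, 2, 1, 2, 4, 7, 4, 2, 1, 1, 3, 9, 2, 1, 1, 2, 0, 3, 1, 0, 0, 1, 3, 7, 3, 2, 3, 0, 0, 2, 1, 0, 1, 0, 3, 2, 0, 3, 9, 3, 0, 0, 1, 3, 0, 0, 0, 1, 0, 1, 1, 0, 1, 2, 1, 12, 1, 2, 6, 2, 9, 0, 4, 0, 9, 0, 1, 3, 3, 3, 3, 3, 0, 1, 0, 1, 1, 2, 0, 0, 0, 2, 3, 0, 2, 1, 4, 6, 1, 1, 2, 1, 0, 1, 1, 1, 0, 3, 0, 4, 1, 2, 1, 0, 0, 0, 3, 0, 0, 1, 0, 1, 3, 3, 1, 1, 1, 0, 0, 3,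 1, 0, 1, 1, 1, 0, 1, 2, 6, 1, 0, 0, 0, 1, 0, 1, 1, 7, 1, 5, 6, 0, 0, 0, 2, 2, 1, 1, 2, 3, 4, 2, 1, 3, 0, 2, 0, 1, 8, 0, 1, 0, 0, 0, 0, 1, 0, 1, 3, 1, 0, 4, 0, 3, 1, 5, 0, 13, 1, 1, 2, 3, 0, 4, 1, 0, 0, 1, 0, 0, 3, 0, 1, 2, 0, 5, 1, 1, 0, 2, 2, 6, 0, 0, 1, 2, 1, 3, 0, 1, 1, 4, 1, 4, 1, 1, 5, 0, 5, 1, 2, 4, 1, 5, 1, 1, 1, 1, 1, 1, 3, 1, 1, 0, 0, 3, 1, 1, 0, 1, 0, 2, 1, 1, 0, 0, 1, 1, 0, 0, 3, 0, 2, 1, 0, 1, 1, 0, 5] .nil)))),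
  (.cons 0 25 2 0 0 (.cons 5 63 0 .nil) [6, 121, 4, 1, 26, 2, 46, 0, 1, 3, 5, 5, 69, 1, 37] (.cons 0 9 0 0 0 (.cons 11 0 0 .nil) [7] .nil)),
  (.cons 0 24 0 0 0 (.cons 10 0 0 .nil) [3, 6] (.cons 2 25 0 0 0 (.cons 0 36 1 .nil) [1, 3, 6, 1, 2, 3, 5, 1, 9, 2, 11, 1, 6, 1, 5, 5, 1, 0, 1, 3, 2, 1, 2, 3, 27, 1, 5, 3, 2, 0, 0, 3, 1, 4, 2, 6, 3, 0, 0, 1, 1, 0, 0, 1, 1, 9, 10, 0, 1, 4, 8, 7, 0, 3, 2, 5, 1, 4, 3, 16, 1, 3, 0, 1, 5, 2, 1, 0, 3, 1, 1, 1, 3, 0, 4, 16, 12, 3, 1, 0, 1, 0, 1, 1, 8, 1, 1, 3, 5, 0, 7, 3, 1, 7, 0, 1, 7, 1, 2, 2, 1, 3, 1, 7, 2, 2, 0, 2, 0, 3, 8, 1, 2, 0, 1, 2, 0, 0, 0, 1, 7, 3, 2, 3, 1, 3, 7, 0, 1, 2, 3, 2,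 3, 0, 2, 2, 7, 0, 7, 3, 1, 1, 5, 0, 1, 0, 2, 2, 4, 0, 5, 0, 0, 6, 6, 7, 0, 3, 1, 5, 0, 5, 5, 3, 1, 0, 0, 1, 5, 0, 0, 1, 1, 3, 5, 1, 0, 1, 4, 5, 1, 1, 0, 5, 2, 0, 2, 1, 3, 0, 2, 9, 0, 1, 2, 2, 0, 5, 3, 0, 4, 0, 0, 0, 1, 0, 8, 5, 1, 2, 0, 1, 0, 6, 4, 1, 2, 1, 4, 1, 1, 4, 0, 2, 0, 1, 1, 1, 1, 0, 1, 3, 1, 0, 0, 5, 2, 2, 1, 1, 1, 2, 6, 1, 0, 2, 1, 0, 1, 1, 0, 4, 1] (.cons 1 0 0 0 0 (.cons 11 0 0 .nil) [12, 3, 0, 0, 5, 3, 1, 1, 3, 2, 0, 0, 14, 0, 0, 3, 0, 9, 1, 3, 1, 3, 0, 3, 0, 1, 2, 4, 0, 5, 7, 1, 0, 0, 5, 0, 3, 2, 2, 0, 1, 1, 0, 1, 1, 1, 3, 0, 2, 1, 3, 0, 4, 1, 2, 4, 4, 1, 3, 0, 1, 1, 0, 2, 4, 5, 1, 3, 0, 2, 4, 1, 4, 1, 1,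 0, 14, 0, 0, 0, 0, 0, 5, 1, 1, 0, 2, 2, 2, 1, 0, 0, 2, 0, 0, 0, 16, 0, 5, 0, 3, 1, 0, 1, 1, 0, 0, 2, 1, 1, 5, 3, 2, 3, 1, 1, 3, 0, 1, 4, 1, 0, 0, 3, 1, 0, 1, 0, 0, 3, 1, 0, 0, 0, 3, 2, 0, 1, 0, 1, 0, 2, 1, 3, 1, 1, 1, 1, 1, 2, 1, 1, 0, 5, 8, 0, 3, 1, 5, 0, 3, 0, 1, 1, 1, 0, 6, 0, 0, 0, 3, 3, 9, 8, 4, 4, 1, 5, 1, 0, 1, 1, 2, 2, 2, 1, 0, 0, 1, 1, 2, 1, 0, 1, 2, 2, 2, 0, 0, 5, 0, 2, 1, 0, 4, 4, 0, 0, 8, 2, 1, 0, 0, 0, 1, 5, 0, 3, 5, 1, 1, 0, 3, 1, 2, 4, 3, 1, 4, 2, 0, 6, 1, 1, 0, 0, 1, 0, 0, 0, 3, 3, 1, 1, 1, 7, 0, 0, 1, 1, 2, 5, 1, 0, 2, 2, 0, 4, 1, 3, 3, 1, 3, 0, 0, 3, 2, 0, 0, 5, 2, 1, 0, 1, 0, 1, 0, 0, 1, 5, 1, 0, 1, 0,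 2, 2, 3, 0, 1, 1, 0, 2, 1, 0, 2, 0, 1, 6, 0, 1, 1, 1, 4] .nil))),
  (.cons 1 0 0 0 0 (.cons 10 2 0 .nil) [10, 2, 1, 1, 2, 3, 5, 4, 15, 0, 3, 1, 3, 7, 0, 0, 2, 5, 1, 2, 1, 5, 0, 1, 1, 3, 0, 3, 17, 1, 4, 3, 0, 3, 1, 0, 1, 1, 1, 3, 0, 1, 0, 1, 5, 1, 5, 1, 0, 0, 3, 1, 1, 2, 3, 0, 1, 5, 1, 1, 2, 2, 1, 1, 3, 1, 2, 7, 0, 4, 3, 0, 1, 1, 1, 3, 1, 2, 0, 7, 0, 0, 1, 3, 3, 0, 1, 0, 4, 5, 3, 0, 0, 0, 0, 2, 2, 1, 1, 0, 7, 8, 0, 1, 1, 1, 2, 1, 9, 0, 2, 1, 7, 5, 0, 7, 1, 4, 0, 5, 3, 2, 0, 7, 0, 0, 1, 0, 0, 3, 1, 2, 1, 3, 5, 6, 0, 0, 0, 0, 0, 1, 1, 2, 3, 1, 0, 2, 1, 1, 1, 1, 2, 1, 0, 1, 2, 3, 1, 1, 0, 1, 0, 0, 2, 3, 0, 1, 1, 0, 2, 0, 0,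 1, 0, 4, 0, 1, 1, 3, 6, 3, 1, 0, 1, 3, 0, 0, 0, 6, 3, 4, 1, 2, 3, 5, 5, 3, 0, 1, 1, 3, 1, 3, 1, 5, 3, 1, 2, 5, 0, 3, 4, 1, 3, 0, 2, 7, 0, 2, 1, 0, 1, 1, 0, 3, 0, 1, 2, 1, 0, 1, 1, 2, 0, 3, 1, 3, 6, 0, 0, 4, 0, 4, 0, 0, 1, 1, 3, 1, 5, 4, 0, 1, 5, 1, 1, 0, 0, 1, 8, 2, 4, 1, 1, 10, 1, 1, 4, 3, 2, 1, 0, 4, 6, 0, 3, 1, 5, 5, 0, 0, 0, 6, 1, 3, 2, 0, 4, 1, 3, 0, 0, 0, 2, 3, 3, 0, 0, 1, 0, 3, 1, 0] .nil),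
  (.cons 0 20 2 0 0 (.cons 10 2 0 .nil) [0, 7, 133, 2, 26, 4, 60, 1, 1, 2, 3, 1, 4, 59, 2, 6] (.cons 2 10 0 0 0 (.cons 0 37 1 .nil) [1, 0, 11, 5, 1, 0, 4, 1, 3, 1, 3, 4, 5, 0, 1, 1, 2, 3, 2, 0, 14, 1, 2, 1, 1, 2, 1, 0, 0, 5, 1, 1, 0, 3, 7, 0, 2, 2, 0, 5, 0, 5, 0, 0, 2, 0, 4, 1, 7, 0, 0, 0, 6, 0, 2, 0, 1, 1, 1, 9, 0, 2, 1, 1, 0, 3, 1, 1, 1, 0, 0, 0, 7, 2, 2, 1, 2, 0, 0, 2, 0, 2, 1, 0, 0, 2, 1, 0, 1, 0, 8, 4, 1, 14, 4, 1, 0, 0, 0, 0, 0, 0, 3, 1, 1, 1, 2, 2, 3, 7, 1, 1, 2, 6, 3, 1, 1, 1, 0, 1, 1, 1, 0, 1, 3, 0, 0, 1, 1, 1, 8, 3, 0, 0, 2, 2, 1, 1, 0, 1, 0, 1, 1, 0, 1, 1, 5, 3, 1, 0, 2, 0, 4, 0, 1, 4, 1, 1, 0, 1, 0, 1, 3, 2,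 0, 1, 3, 0, 0, 1, 1, 0, 1, 1, 1, 0, 3, 0, 1, 1, 2, 11, 1, 1, 1, 2, 1, 0, 3, 3, 5, 3, 4, 3, 2, 3, 1, 1, 0, 3, 2, 0, 0, 5, 0, 0, 1, 0, 1, 1, 1, 0, 0, 1, 1, 0, 3, 5, 0, 0, 3, 3, 0, 1, 0, 4, 4, 1, 1, 0, 1, 0, 0, 1, 3, 1, 3, 5, 0, 1, 0, 0, 0, 1, 1, 5, 7, 1, 0, 0, 1, 1, 0, 4, 0, 1, 6, 2, 1, 1, 1, 2, 1, 0, 3, 1, 0, 1, 10, 1, 1, 0, 1, 0, 2, 1, 0, 0, 10, 0, 3, 1, 5, 3, 0, 0, 0, 1, 1, 4, 3, 2, 1, 1, 0, 5, 3, 1, 4, 1, 4, 1, 1, 1, 3, 1, 6, 0, 0, 0, 0, 1, 0, 1, 3, 0, 1, 1, 5, 1, 3, 1, 1, 4, 0, 3, 0, 1, 0, 1, 1, 3, 1, 2, 2, 0, 0, 0, 2, 1, 1, 0, 0] (.cons 1 0 0 0 0 (.cons 10 1 0 .nil) [3, 15, 0, 5, 3, 1, 3, 9, 2, 0, 0, 5, 1, 2, 7, 1, 14,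 4, 1, 5, 1, 0, 6, 1, 7, 2, 2, 5, 3, 0, 6, 3, 1, 1, 9, 4, 3, 0, 0, 1, 10, 1, 0, 3, 6, 0, 1, 3, 5, 2, 2, 6, 3, 7, 0, 2, 1, 0, 1, 0, 1, 0, 4, 2, 0, 0, 0, 1, 0, 2, 1, 0, 1, 1, 1, 2, 0, 18, 6, 5, 2, 0, 3, 1, 3, 7, 2, 4, 3, 2, 1, 0, 1, 1, 2, 4, 2, 1, 3, 0, 0, 1, 0, 0, 1, 0, 4, 3, 6, 5, 0, 1, 1, 7, 0, 0, 3, 3, 4, 9, 1, 9, 3, 0, 0, 0, 4, 0, 1, 1, 0, 1, 1, 3, 1, 0, 1, 0, 1, 3, 1, 5, 0, 1, 3, 1, 0, 0, 0, 0, 1, 4, 1, 1, 7, 4, 1, 0, 1, 5, 1, 0, 1, 1, 0, 0, 1, 1, 1, 0, 1, 2, 0, 1, 9, 0, 5, 2, 1, 2, 1, 0, 0, 0, 9, 5, 7, 6, 1, 2, 1, 0, 0, 0, 5, 0, 0, 1, 0, 3, 1, 1, 3, 2, 0, 2, 1, 0, 1, 0, 1, 1, 2, 0, 0, 0, 0, 0, 3, 1, 0, 1, 0, 1, 8, 3,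 3, 0, 0, 1, 2, 5, 5, 0, 5, 3, 0, 0, 0, 3, 0, 0, 2, 4, 3, 0, 0, 3, 0, 0, 0, 0, 4, 0, 1, 6, 0, 1, 1, 1, 2, 1, 0, 5, 4, 1, 0, 2, 0, 1, 1, 0, 2, 1, 4, 1, 1, 1, 3, 2, 1, 0, 0, 3, 1, 0, 1, 2, 3, 1, 0, 3, 1, 0, 4, 1, 0, 2, 3, 0, 4, 1, 3, 1, 0, 1, 3, 1, 1, 0, 3, 1] .nil))),
  (.cons 0 30 0 0 0 (.cons 9 7 0 .nil) [] (.cons 0 20 0 0 0 (.cons 10 2 0 .nil) [132] (.cons 2 22 0 0 0 (.cons 0 38 0 .nil) [23, 2, 4, 6, 11, 3, 9, 1, 1, 1, 0, 23, 9, 0, 39, 3, 1, 1, 2, 0, 2, 1, 1, 0, 3, 1, 15, 0, 1, 7, 5, 2, 4, 7, 2, 3, 0, 1, 6, 14, 4, 1, 11, 1, 2, 0, 4, 4, 5, 5, 2, 1, 8, 5, 0, 0, 1, 0, 3, 0, 1, 2, 1, 3, 1, 1, 5, 0, 7, 1, 2, 1, 2, 3, 1, 3, 0,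 2, 1, 1, 0, 2, 0, 1, 4, 3, 1, 3, 0, 10, 21, 7, 3, 1, 1, 1, 3, 5, 0, 3, 4, 1, 0, 5, 1, 1, 0, 0, 1, 3, 9, 1, 0, 0, 1, 1, 1, 0, 2, 0, 1, 0, 2, 1, 1, 1, 0, 0, 2, 1, 1, 5, 2, 1, 0, 4, 1, 5, 0, 3, 1, 2, 0, 0, 2, 0, 1, 1, 5, 0, 1, 1, 0, 12, 3, 0, 0, 2, 1, 10, 0, 0, 0, 3, 2, 2, 2, 1, 1, 0, 7, 9, 3, 5, 0, 1, 1, 1, 0, 1, 2, 0, 1, 1, 0, 1, 0, 1, 1, 1, 3, 0, 0, 1, 1, 1, 2, 1, 1, 1, 0, 7, 2, 2, 0, 1, 1, 3, 0, 0, 1, 1, 1, 9, 0, 3, 0, 5, 6, 1, 3, 4, 2, 3, 1, 1, 2, 11, 1, 5, 0, 0, 7, 12, 6, 10, 1, 3, 1, 1, 8, 1, 1, 0, 0, 2, 1, 0, 1, 0, 1, 0, 1, 0, 0, 0, 1, 1, 0, 1, 2, 0, 1, 0, 4, 0, 1, 1, 0, 0, 3, 1, 2, 1, 1, 0, 0, 11, 0, 4, 0, 0] (.cons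 1 0 0 0 0 (.cons 10 0 0 .nil) [4, 10, 5, 1, 2, 5, 3, 0, 7, 4, 15, 2, 0, 8, 0, 2, 1, 1, 5, 5, 0, 0, 16, 16, 2, 9, 0, 0, 0, 0, 0, 1, 1, 6, 0, 2, 3, 0, 6, 3, 0, 1, 2, 1, 0, 1, 3, 1, 0, 3, 0, 1, 2, 11, 0, 6, 4, 0, 1, 1, 0, 2, 0, 4, 0, 1, 0, 0, 7, 2, 12, 0, 8, 0, 1, 2, 1, 1, 1, 1, 0, 0, 1, 0, 0, 0, 7, 1, 6, 9, 10, 0, 0, 1, 1, 3, 1, 0, 1, 3, 0, 0, 2, 5, 2, 5, 11, 4, 3, 8, 1, 1, 3, 0, 0, 1, 1, 0, 0, 4, 1, 3, 2, 0, 0, 3, 3, 0, 0, 1, 0, 1, 1, 1, 0, 0, 1, 1, 0, 2, 1, 1, 0, 0, 0, 1, 0, 0, 1, 0, 3, 0, 0, 1, 0, 1, 0, 0, 4, 0, 0, 2, 0, 3, 1, 0, 1, 6, 0, 0, 3, 1, 2, 0, 7, 1, 1, 0, 2, 1, 1, 0, 6, 0, 4, 1, 3, 1, 0, 2, 1, 1, 0, 1, 1, 3, 0,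 1, 2, 0, 3, 2, 3, 2, 0, 1, 3, 4, 0, 0, 2, 1, 0, 0, 1, 1, 0, 0, 1, 7, 2, 3, 1, 0, 0, 9, 4, 2, 5, 0, 1, 0, 0, 1, 0, 4, 4, 1, 1, 0, 1, 0, 1, 8, 8, 5, 6, 0, 0, 3, 5, 0, 0, 1, 0, 0, 2, 5, 0, 0, 1, 1, 5, 3, 0, 1, 0, 2, 1, 0, 3, 2, 2, 1, 0, 2, 0, 0, 2, 3, 0, 1, 5, 1, 11, 1, 1, 2, 2, 2, 1, 1, 2, 0, 1, 1, 8, 0, 0, 1, 1, 2, 0, 2, 3, 1, 0, 2, 1, 3, 0, 1, 3, 1, 0, 1, 2, 5, 4, 0, 1, 2, 1] .nil)))),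
  (.cons 0 26 0 0 0 (.cons 10 0 0 .nil) [129, 0, 11] .nil),
  (.cons 0 30 2 0 0 (.cons 5 0 0 .nil) [78, 79, 1, 2, 29, 2, 58, 1, 6, 1, 1, 2, 7, 69, 47] (.cons 0 11 0 0 0 (.cons 11 0 0 .nil) [4, 11] (.cons 2 12 0 0 0 (.cons 0 39 1 .nil) [2, 5, 0, 8, 0, 2, 0, 1, 0, 1, 10, 6, 1, 0, 11, 0, 3, 3, 0, 7, 1, 1, 6, 2, 3, 2, 2, 1, 13, 5, 0, 0, 5, 3, 8, 3, 2, 0, 3, 2, 1, 0, 3, 1, 1, 1, 1, 2, 0, 2, 0, 1, 4, 0, 0, 3, 1, 1, 3, 4, 2, 2, 3, 6, 1, 1, 1, 19, 0, 1, 1, 1, 2, 4, 1, 1, 1, 2, 0, 6, 1, 0, 1, 1, 1, 0, 1, 1, 0, 0, 3, 4, 1, 1, 4, 7, 1, 1, 0, 2, 2, 1, 1, 5, 3, 1, 2, 0, 2, 0, 0, 2, 1, 1, 1, 1, 0, 0, 1, 0, 1, 0, 0, 3, 0, 1, 1, 0, 1, 4,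 1, 0, 0, 4, 4, 0, 0, 4, 0, 1, 3, 2, 6, 0, 3, 13, 3, 5, 0, 0, 0, 2, 3, 0, 1, 7, 0, 1, 1, 1, 1, 0, 2, 1, 7, 3, 0, 5, 5, 1, 1, 1, 0, 1, 4, 2, 6, 0, 8, 0, 0, 1, 6, 0, 5, 1, 0, 2, 3, 3, 7, 0, 0, 1, 2, 0, 1, 0, 3, 2, 1, 1, 2, 0, 1, 0, 0, 1, 4, 0, 1, 3, 0, 1, 0, 1, 3, 5, 1, 0, 0, 1, 0, 3, 4, 0, 0, 3, 1, 1, 3, 8, 4, 1, 0, 1, 1, 2, 1, 1, 5, 1, 1, 2, 3, 2, 3, 3, 0, 1, 1, 1, 1, 0, 1, 0, 2, 1, 0, 0, 1, 4, 6, 1, 0, 1, 0, 0, 6, 0, 2, 1, 0, 2, 1, 1, 5, 1, 2, 0, 0, 0, 1, 3, 2, 3, 13, 1, 1, 3, 1, 1, 0, 6, 1, 2, 2, 2, 2, 2, 2, 6, 5, 1, 2, 0, 1, 4, 0, 1, 0, 0, 3, 0, 0, 0, 1, 0, 0, 1, 2, 5, 9, 0, 0, 3, 1, 3, 3, 1, 4, 1, 3, 6, 1, 1, 4, 2, 0,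 1, 0, 2, 1, 11, 2, 1, 1, 0, 2, 1, 1, 2, 3, 1, 3] .nil))),
  (.cons 0 21 0 0 0 (.cons 5 1 0 .nil) [8, 137] (.cons 0 26 0 0 0 (.cons 10 1 0 .nil) [0, 1, 1, 142] (.cons 0 20 1 0 0 (.cons 11 1 0 .nil) [1, 3, 1, 5, 143, 126, 54, 64, 3, 0, 1] (.cons 0 27 0 0 0 (.cons 10 0 0 .nil) [2, 11] (.cons 2 0 0 0 0 (.cons 0 40 0 .nil) [184, 1, 71, 3, 0, 112, 11, 43, 3, 1, 6, 0, 2, 14, 0, 7, 1, 0, 29, 1, 6, 11, 15, 5, 17, 1, 5, 11, 2, 1, 16, 5, 1, 1, 1, 0, 0, 1, 1, 8, 2, 3, 2, 17, 1, 0, 0, 1, 0, 0, 4, 1, 0, 0, 3, 3, 5, 1, 9, 0, 2, 0, 3, 1, 0, 2, 7, 2, 3, 0, 1, 1, 5, 0, 0, 0, 0, 1, 8, 19, 2, 0, 28, 2, 1, 1, 16, 0, 1, 17, 20, 1, 9, 13, 5, 3,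 4, 2, 0, 0, 0, 40, 22, 9, 2, 44, 1, 9, 0, 5, 1, 2, 0, 10, 3, 3, 0, 1, 3, 0, 11, 1, 38, 17, 24] (.cons 1 0 0 0 0 (.cons 11 0 0 .nil) [5, 1, 3, 1, 5, 7, 1, 1, 4, 3, 2, 3, 22, 2, 0, 0, 3, 5, 2, 0, 7, 4, 8, 3, 3, 3, 3, 2, 4, 19, 0, 1, 0, 1, 0, 3, 2, 1, 1, 1, 2, 0, 1, 1, 0, 0, 1, 3, 4, 0, 1, 0, 4, 1, 1, 3, 3, 0, 6, 1, 2, 1, 1, 1, 4, 1, 6, 5, 0, 2, 5, 2, 1, 1, 3, 1, 4, 1, 1, 0, 3, 0, 0, 1, 5, 3, 2, 11, 1, 7, 2, 0, 3, 0, 1, 1, 1, 1, 0, 5, 3, 7, 2, 2, 1, 0, 10, 0, 3, 2, 1, 6, 1, 7, 3, 5, 2, 1, 2, 1, 0, 0, 0, 0, 1, 1, 6, 0, 2, 0, 0, 1, 0, 1, 3, 1, 1, 2, 3, 1, 3, 0, 0, 4, 1, 0, 1, 3, 1, 0, 3, 0, 2, 0, 1, 1, 1, 2, 2, 2, 0, 2, 1, 0,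 1, 4, 1, 1, 3, 1, 3, 0, 7, 1, 1, 0, 0, 0, 0, 0, 0, 0, 0, 2, 1, 1, 1, 0, 4, 1, 1, 0, 0, 0, 1, 1, 2, 1, 2, 1, 1, 2, 5, 3, 1, 3, 3, 0, 0, 0, 2, 1, 1, 0, 3, 5, 1, 2, 0, 0, 5, 0, 0, 2, 0, 0, 1, 2, 1, 1, 1, 1, 0, 1, 1, 1, 0, 1, 1, 1, 1, 0, 5, 0, 2, 0, 3, 2, 0, 3, 10, 0, 1, 3, 2, 4, 0, 0, 2, 0, 0, 5, 2, 3, 0, 1, 1, 3, 1, 1, 2, 1, 1, 2, 0, 1, 0, 1, 0, 0, 0, 1, 1, 5, 1, 0, 2, 2, 0, 5, 1, 0, 1, 2, 3, 2, 4, 3, 1, 0, 5, 1, 3, 3, 2, 3, 0, 0, 6, 2, 6, 1, 1, 0, 0, 1, 1, 1, 1, 0, 0, 3, 4, 8, 1, 3, 3, 3, 6, 4, 0, 0, 3, 5, 1, 0, 1, 0, 0, 1, 1, 3, 4, 1, 0, 1, 2, 0, 1, 2, 1, 1, 1, 0, 0, 0, 1, 0, 1, 0, 1, 2, 1, 3, 0, 1, 1, 2, 0, 0, 1, 2, 1,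 6, 1, 0, 0, 2, 2, 1, 0, 2, 1, 0, 0, 5, 1, 0] .nil)))))),
  (.cons 0 26 1 0 0 (.cons 5 4 0 .nil) [0, 146, 0, 0, 1, 138, 3, 71, 42, 0, 10] (.cons 2 9 0 0 0 (.cons 0 41 0 (.cons 0 42 1 .nil)) [1, 1, 10, 0, 0, 0, 7, 7, 0, 29, 3, 0, 1, 2, 1, 0, 1, 0, 1, 5, 0, 0, 1, 1, 0, 2, 0, 2, 0, 0, 0, 1, 0, 1, 0, 0, 3, 1, 1, 1, 10, 0, 3, 2, 2, 1, 4, 4, 2, 2, 1, 1, 2, 5, 1, 0, 1, 1, 1, 1, 0, 0, 1, 1, 0, 1, 4, 3, 10, 1, 0, 1, 0, 1, 4, 1, 2, 1, 4, 0, 16, 5, 3, 0, 2, 2, 0, 1, 2, 6, 1, 0, 1, 0, 0, 0, 4, 3, 1, 1, 0, 0, 0, 1, 15, 3, 6, 0, 1, 2, 1, 1, 3, 0, 0, 9, 0, 0, 2, 1, 0, 0, 1, 0, 3, 0, 1, 0, 6, 1, 0, 0, 0, 3, 4, 0, 7, 0, 0, 0, 0, 3, 3, 3,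 2, 1, 1, 0, 1, 0, 1, 2, 0, 0, 1, 1, 1, 5, 0, 4, 1, 1, 1, 4, 1, 5, 1, 1, 2, 4, 1, 0, 3, 3, 2, 0, 3, 0, 0, 5, 2, 0, 0, 3, 0, 0, 3, 0, 0, 5, 0, 1, 0, 1, 5, 8, 3, 0, 5, 0, 0, 1, 0, 5, 3, 0, 0, 0, 0, 0, 1, 1, 1, 1, 0, 0, 1, 0, 3, 1, 1, 2, 1, 1, 2, 0, 3, 1, 1, 1, 3, 1, 0, 0, 1, 4, 1, 4, 1, 4, 1, 0, 7, 1, 3, 1, 0, 1, 4, 0, 1, 5, 3, 2, 3, 2, 1, 0, 3, 3, 0, 1, 0, 0, 2, 2, 1, 3, 2, 1, 1, 0, 2, 1, 2, 1, 1, 3, 1, 1, 0, 0, 1, 0, 3, 1, 3, 3, 0, 1, 3, 2, 0, 0, 1, 1, 1, 0, 0, 2, 1, 0, 0, 0, 0, 2, 2, 1, 0, 2, 0, 3, 1, 4, 2, 7, 0, 0, 1, 0, 1, 3, 0, 0, 0, 1, 0, 0, 4, 0, 0, 1, 0, 1, 11, 0, 0, 9, 0, 0, 0, 1, 11, 0, 1, 4, 0, 1, 4, 5, 2, 0, 6,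 3, 1, 2, 3, 1, 5, 1, 1, 0, 2, 3, 3, 3, 0, 1, 1, 1, 5, 1, 1, 3, 0, 1, 2, 2, 2, 0, 3, 4, 2, 7, 1, 1, 3, 1, 3, 1, 3, 2, 0, 1, 0, 1, 1, 6, 1, 1, 0, 0, 6, 3, 1, 3, 0] (.cons 2 14 0 0 0 (.cons 0 41 0 .nil) [16, 4, 2, 12, 31, 0, 8, 1, 0, 33, 0, 0, 3, 2, 26, 3, 3, 0, 7, 1, 0, 0, 2, 0, 3, 1, 0, 0, 1, 0, 1, 5, 0, 6, 1, 2, 3, 0, 5, 2, 0, 11, 2, 5, 1, 0, 0, 3, 1, 27, 4, 1, 0, 1, 2, 0, 0, 0, 2, 0, 3, 0, 0, 2, 0, 3, 6, 0, 23, 7, 0, 1, 0, 5, 1, 2, 1, 1, 8, 1, 1, 2, 6, 9, 1, 1, 1, 4, 4, 1, 7, 0, 2, 2, 5, 0, 2, 8, 0, 2, 1, 3, 3, 1, 13, 0, 0, 16, 3, 1, 0, 1, 3, 0, 1, 1, 3, 1, 1, 1, 3, 1, 3, 1, 0, 3, 7, 1, 1, 1, 0, 1, 1, 1, 1, 3, 2, 0, 3,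 0, 4, 0, 3, 1, 1, 3, 1, 1, 1, 5, 15, 1, 0, 3, 1, 6, 0, 1, 0, 0, 3, 1, 0, 1, 2, 3, 0, 1, 0, 3, 0, 2, 5, 1, 2, 0, 2, 1, 1, 1, 1, 1, 1, 1, 1, 10, 5, 0, 2, 4, 1, 0, 1, 3, 1, 1, 7, 3, 1, 2, 5, 2, 3, 4, 0, 2, 6, 0, 0, 0, 2, 0, 2, 5, 3, 1, 3, 5, 10, 0, 7, 0, 0, 2, 1, 0, 1, 1, 0, 1, 0, 1, 0, 0, 1, 0, 3, 0, 3, 0, 1, 2, 1, 1, 1, 1, 3, 2, 21, 3, 0, 0, 0, 0, 0, 0, 1, 0, 9, 0, 0, 0, 0, 3, 18, 5, 0, 0, 2, 1, 1, 2, 16, 1, 2, 0, 2, 1, 2, 1, 0, 0, 0, 0, 1, 0, 5, 0, 4, 0, 2, 1, 1, 5, 1, 2, 8, 2, 2, 3, 9, 1, 1, 0, 1, 1, 3, 4, 1, 1, 0, 3, 0, 1, 1, 1, 0, 6, 5, 1, 1, 2, 0, 1, 3, 11] (.cons 1 0 0 0 0 (.cons 10 0 0 .nil) [4, 15, 1, 6, 0, 33, 1,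 8, 1, 4, 0, 1, 3, 0, 4, 1, 0, 0, 1, 3, 1, 10, 3, 2, 4, 1, 8, 0, 1, 1, 7, 3, 10, 0, 1, 0, 1, 1, 1, 0, 2, 0, 2, 1, 0, 1, 12, 1, 7, 2, 1, 3, 5, 2, 0, 1, 0, 4, 1, 0, 1, 0, 1, 3, 4, 9, 2, 4, 1, 0, 0, 1, 1, 2, 0, 5, 3, 1, 1, 6, 2, 5, 3, 1, 1, 0, 1, 2, 3, 3, 0, 4, 3, 2, 1, 0, 0, 0, 2, 9, 0, 2, 4, 0, 6, 1, 1, 0, 1, 0, 1, 3, 0, 1, 8, 2, 0, 4, 1, 1, 0, 0, 0, 3, 1, 5, 1, 3, 0, 0, 3, 1, 3, 0, 0, 9, 0, 2, 2, 3, 6, 1, 4, 2, 2, 4, 2, 3, 2, 3, 3, 2, 2, 0, 3, 2, 0, 1, 1, 1, 1, 2, 4, 2, 1, 0, 0, 0, 0, 1, 5, 0, 6, 1, 0, 0, 3, 5, 1, 0, 0, 4, 0, 0, 1, 2, 0, 2, 1, 1, 7, 9, 1, 0, 0, 1, 8, 1, 1, 0, 0, 1, 0, 0, 1, 3, 3, 0, 0, 1, 1, 1, 3, 3, 0, 2,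 9, 1, 2, 1, 5, 1, 5, 4, 8, 3, 0, 1, 0, 2, 2, 0, 1, 1, 1, 1, 0, 6, 1, 0, 1, 0, 0, 0, 1, 7, 2, 0, 1, 1, 0, 1, 5, 0, 8, 1, 2, 8, 1, 1, 0, 1, 1, 0, 3, 1, 0, 0, 3, 1, 0, 3, 0, 2, 0, 2, 3, 0, 0, 0, 7, 1, 6, 0, 3, 2, 0, 6, 3, 1, 0, 1, 0, 0, 4, 1, 0, 2, 1, 0, 1, 4, 0, 0, 1, 1, 6, 0, 0, 1, 1, 1, 1, 0, 0, 1, 4, 0, 2, 2, 1, 5, 1, 1, 6, 0, 3, 2, 3, 2, 5, 0, 1, 2, 7, 1, 3, 2, 3, 1, 3, 0, 1, 2, 4, 1, 0, 0, 0, 1, 1, 1, 0, 0, 3, 5, 1, 0, 3, 0, 3, 7, 4, 0, 3, 1, 9, 0, 1, 2, 0, 4, 0, 0] .nil)))),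
  (.cons 0 23 0 0 0 (.cons 10 3 0 .nil) [0, 5, 87] (.cons 0 26 0 0 0 (.cons 10 0 0 .nil) [0, 15, 71, 6, 61] (.cons 2 1 0 0 0 (.cons 0 43 1 .nil) [164, 0, 3, 7, 1, 3, 0, 3, 0, 1, 1, 1, 9, 1, 6, 2, 2, 3, 0, 1, 1, 5, 3, 1, 5, 1, 1, 0, 1, 0, 3, 1, 1, 1, 1, 1, 0, 5, 2, 3, 1, 0, 0, 8, 0, 4, 0, 5, 4, 2, 1, 5, 2, 3, 0, 4, 4, 0, 2, 2, 0, 3, 5, 17, 0, 3, 0, 0, 4, 0, 5, 11, 3, 8, 1, 5, 1, 1, 1, 4, 5, 1, 3, 1, 5, 2, 0, 1, 0, 1, 0, 0, 0, 2, 56, 11, 3, 0, 0, 10, 1, 0, 0, 0, 4, 2, 2, 3, 1, 1, 0, 15, 2, 0, 2, 4, 0, 0, 0, 1, 3, 0, 0, 3, 1, 0, 1, 0, 0, 0, 0, 1, 1, 0, 3, 4, 1, 4, 3, 0, 0, 2, 1, 0, 1, 0, 3, 0, 0, 0, 1, 1, 3, 4, 1, 3, 1, 1,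 0, 1, 2, 3, 3, 5, 15, 13, 1, 0, 0, 1, 2, 4, 0, 3, 1, 10, 1, 0, 4, 0, 0, 1, 5, 10, 2, 0, 0, 0, 0, 1, 2, 0, 0, 1, 0, 2, 3, 0, 4, 3, 3, 2, 5, 0, 0, 0, 0, 0, 0, 1, 4, 3, 1, 1, 1, 1, 0, 4, 2, 2, 1, 1, 3, 0, 1, 4, 1, 3, 1, 1, 1, 1, 4, 0, 19, 33, 6, 0, 29, 0, 5, 0, 22, 7, 1, 0, 0, 1, 3, 1, 0, 1, 1, 3, 3, 0, 0, 0, 0, 1, 2, 1, 1, 1, 0, 3, 4, 8, 5, 0, 2, 4, 1, 1, 3, 0, 2, 3, 3, 1, 1, 4, 2, 1, 1, 1, 1, 0, 1] (.cons 1 0 0 0 0 (.cons 6 0 0 .nil) [25, 64, 52, 9, 20, 7, 4, 4, 0, 0, 4, 32, 3, 0, 2, 0, 5, 0, 4, 2, 39, 4, 0, 6, 5, 4, 2, 25, 0, 3, 94, 0, 0, 7, 0, 11, 2, 1, 1, 6, 3, 69, 2, 3, 1, 1, 2, 4, 0, 6, 0, 8, 0, 3, 1, 0, 16, 5, 5, 2,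 4, 1, 3, 2, 2, 1, 1, 1, 3, 1, 1, 3, 0, 0, 4, 1, 0, 5, 1, 0, 1, 0, 1, 8, 7, 1, 2, 0, 9, 5, 2, 1, 3, 0, 1, 0, 1, 3, 3, 13, 7, 10, 3, 1, 0, 1, 0, 2, 1, 9, 5, 7, 3, 1, 6, 5, 2, 0, 2, 3, 5, 5, 0, 11, 24, 6, 9, 2, 0, 1, 2, 0, 1, 2, 3, 5, 0, 3, 10, 1, 1, 2, 0, 23, 1, 7, 4, 3, 19, 5, 32, 0, 28, 3, 6, 11, 1, 2, 1, 0, 1, 1, 2, 1, 1, 3, 6, 3, 1, 0, 0, 0, 1, 5, 2, 1, 0, 0, 3, 1, 3, 23, 0, 0, 2, 3, 3, 5, 7, 0, 0, 1, 11, 1, 12, 2] (.cons 1 0 0 0 0 (.cons 11 3 0 .nil) [6, 3, 11, 1, 2, 6, 1, 2, 1, 2, 2, 1, 3, 6, 6, 3, 0, 3, 0, 12, 5, 0, 1, 2, 1, 6, 2, 3, 8, 1, 3, 3, 1, 9, 15, 1, 2, 1, 1, 3, 2, 0, 3, 3, 0, 2, 1, 3, 3, 4, 0, 3, 3, 3, 9, 2,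 0, 1, 0, 1, 0, 0, 1, 1, 3, 2, 1, 0, 0, 1, 6, 3, 5, 6, 1, 4, 0, 3, 2, 0, 3, 3, 3, 0, 2, 3, 3, 3, 0, 0, 0, 4, 1, 5, 15, 1, 4, 0, 3, 0, 0, 0, 5, 0, 1, 8, 3, 1, 1, 0, 0, 0, 2, 1, 7, 4, 2, 2, 2, 1, 1, 1, 1, 2, 1, 1, 3, 4, 0, 1, 0, 1, 2, 2, 3, 1, 1, 1, 1, 1, 6, 1, 0, 2, 1, 1, 1, 1, 3, 1, 0, 0, 1, 1, 3, 0, 1, 5, 0, 9, 2, 3, 1, 0, 1, 2, 3, 1, 0, 1, 1, 2, 1, 1, 1, 0, 1, 2, 5, 1, 1, 4, 2, 2, 2, 3, 0, 1, 1, 3, 3, 5, 1, 1, 2, 0, 5, 6, 1, 0, 1, 0, 1, 1, 1, 1, 1, 5, 4, 7, 1, 1, 3, 1, 3, 1, 0, 0, 0, 0, 1, 3, 1, 0, 1, 1, 1, 0, 1, 0, 0, 3, 3, 3, 0, 0, 3, 1, 3, 1, 2, 0, 0, 1, 2, 5, 0, 6, 0, 2, 2, 3, 1, 2, 2, 0, 0, 0, 0, 0, 0, 1, 0, 1, 1,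 3, 2, 0, 0, 0, 0, 1, 0, 0, 1, 1, 2, 1, 1, 1, 1, 2, 1, 0, 10, 1, 0, 8, 1, 2, 0, 1, 1, 1, 0, 0, 1, 3, 1, 4, 4, 1, 1, 0, 0, 1, 1, 1, 2, 1, 2, 3, 0, 9, 2, 1, 0, 1, 1, 5, 0, 2, 5, 2, 1, 0, 1, 3, 1, 3, 5, 0, 0, 2, 8, 0, 0, 1, 1, 6, 3, 0, 3, 1, 1, 5, 2, 1, 3, 0, 0, 0, 0, 1, 2, 2, 0, 3, 1, 0, 0, 0, 1, 1, 6, 0, 7, 1, 2, 0, 1, 0, 3, 0, 2, 1, 0, 1, 1, 2, 0, 5, 2, 1, 1, 1, 4, 1, 3, 0, 0, 1, 1, 1, 1, 0, 0, 2, 1, 1, 5, 0, 0, 0, 1, 0, 2, 0, 0, 0, 3, 6, 2, 0, 0] .nil))))),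
  (.cons 0 30 0 0 0 (.cons 5 10 0 .nil) [5, 3, 141, 5, 0, 0] (.cons 0 31 0 0 0 (.cons 9 10 0 .nil) [163] (.cons 0 26 1 0 0 (.cons 10 1 0 .nil) [1, 9, 298, 62, 64, 5] (.cons 2 11 0 0 0 (.cons 0 44 1 (.cons 0 46 0 .nil)) [0, 0, 1, 5, 0, 1, 9, 2, 7, 4, 0, 3, 1, 11, 1, 9, 3, 1, 0, 0, 1, 0, 0, 0, 1, 0, 2, 0, 3, 3, 1, 0, 1, 6, 1, 1, 3, 0, 0, 2, 0, 1, 1, 19, 4, 0, 1, 0, 1, 2, 0, 0, 0, 1, 5, 4, 1, 2, 3, 0, 0, 0, 0, 0, 1, 3, 3, 5, 1, 1, 1, 1, 0, 0, 3, 0, 0, 0, 1, 1, 1, 1, 1, 1, 1, 1, 3, 0, 4, 0, 1, 4, 1, 4, 0, 7, 0, 0, 0, 1, 0, 1, 1, 0, 3, 0, 0, 2, 1, 1, 1, 7, 1, 13, 0, 2, 0, 0, 1, 1, 7, 2, 1, 0, 2, 0, 1, 4, 1, 6, 2, 10, 1, 4, 5,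 1, 3, 3, 1, 0, 1, 3, 0, 0, 0, 2, 1, 1, 1, 0, 1, 1, 0, 1, 1, 1, 2, 2, 0, 1, 1, 1, 1, 0, 0, 1, 2, 2, 2, 0, 0, 1, 1, 0, 0, 0, 0, 0, 0, 2, 2, 1, 0, 0, 0, 2, 1, 5, 4, 4, 3, 3, 7, 2, 0, 1, 1, 9, 0, 0, 1, 0, 1, 4, 0, 1, 1, 4, 2, 1, 1, 3, 1, 0, 0, 0, 3, 2, 1, 3, 3, 1, 1, 2, 1, 0, 2, 1, 5, 2, 1, 5, 2, 0, 0, 1, 0, 7, 2, 1, 4, 1, 1, 0, 0, 0, 1, 0, 1, 1, 0, 0, 0, 0, 7, 0, 0, 0, 1, 1, 1, 3, 3, 0, 0, 0, 2, 1, 6, 8, 1, 1, 4, 3, 0, 1, 2, 1, 0, 1, 0, 3, 0, 0, 2, 3, 1, 2, 4, 1, 1, 11, 1, 1, 0, 1, 1, 0, 3, 3, 1, 2, 1, 0, 0, 1, 0, 0, 0, 1, 1, 1, 2, 1, 1, 4, 0, 0, 3, 1, 1, 1, 2, 1, 0, 2, 1, 2, 2, 1, 4, 0, 0, 4, 1, 1, 5, 3, 2, 1, 0, 1, 0, 1,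 1, 7, 1, 3, 1, 0, 1, 1, 3, 2, 0, 0, 1, 2, 0, 2, 3, 3, 3, 2, 0, 3, 0, 1, 2, 2, 0, 0, 0, 0, 5, 8, 1, 0, 1, 1, 4, 2, 4, 4, 9, 0, 2, 1, 1, 0, 3, 0, 2, 0, 1, 0, 0, 1, 2, 0, 0, 3, 0, 1, 3, 5, 1, 3, 2, 3, 0, 0, 0, 1, 0, 0, 0, 3, 1, 1, 0, 1, 2, 2, 0, 0, 3, 0, 2, 1, 1, 1, 1, 5, 0, 0, 5, 6, 1, 5, 0, 0, 1, 1, 5, 3, 3, 1, 4, 0, 1, 3, 1, 2, 0, 1, 0, 3, 0] (.cons 2 15 0 0 0 (.cons 0 44 1 .nil) [15, 4, 2, 0, 0, 1, 2, 3, 0, 1, 2, 1, 3, 12, 9, 8, 1, 1, 0, 8, 1, 0, 1, 2, 2, 1, 3, 0, 3, 0, 7, 5, 0, 0, 24, 1, 0, 1, 3, 3, 0, 1, 0, 1, 3, 1, 5, 5, 3, 0, 3, 0, 5, 6, 1, 1, 7, 5, 1, 1, 1, 1, 0, 1, 1, 2, 0, 3, 4, 1, 2, 0, 2, 0, 1, 1, 1, 2, 5, 1, 1,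 1, 0, 5, 0, 0, 1, 3, 1, 0, 4, 2, 2, 4, 3, 14, 0, 2, 1, 2, 1, 3, 0, 1, 5, 0, 2, 0, 7, 1, 0, 0, 7, 3, 0, 5, 4, 1, 0, 5, 1, 4, 1, 0, 1, 0, 0, 0, 0, 1, 0, 2, 1, 4, 0, 0, 1, 2, 0, 0, 0, 2, 0, 4, 0, 1, 0, 0, 0, 1, 1, 0, 0, 1, 0, 2, 2, 1, 0, 1, 0, 0, 1, 0, 0, 1, 0, 1, 0, 3, 1, 3, 2, 0, 8, 1, 0, 1, 0, 1, 0, 5, 1, 2, 1, 1, 2, 1, 1, 0, 1, 1, 0, 2, 1, 0, 0, 2, 11, 2, 1, 2, 1, 1, 4, 0, 1, 3, 0, 1, 1, 0, 0, 1, 1, 1, 1, 0, 0, 7, 1, 3, 1, 1, 0, 2, 6, 5, 4, 1, 2, 0, 1, 0, 0, 1, 1, 1, 0, 1, 3, 1, 1, 3, 1, 1, 3, 2, 5, 0, 1, 0, 0, 4, 3, 1, 1, 3, 4, 0, 1, 0, 0, 0, 2, 1, 2, 1, 1, 1, 0, 3, 0, 1, 1, 1, 5, 3, 0, 0, 1, 0, 1, 1, 0, 0, 0, 1, 3, 0,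 0, 0, 1, 2, 2, 0, 5, 1, 4, 0, 1, 3, 4, 6, 1, 4, 0, 7, 0, 1, 0, 1, 0, 1, 1, 1, 2, 2, 2, 5, 0, 1, 1, 1, 1, 2, 0, 1, 0, 1, 0, 1, 0, 0, 6, 0, 1, 1, 3, 1, 3, 0, 0, 1, 3, 1, 1, 1, 1, 4, 1, 3, 0, 4, 1, 0, 1, 2, 4, 1, 1, 1, 2, 1, 1, 3, 0, 1, 1, 1, 0, 1, 1, 2, 1, 1, 1, 7, 3, 1, 0, 7, 0, 0, 1, 0, 5, 0, 2, 1, 1, 1, 1, 1, 0, 1, 3, 0, 1, 0, 0, 1, 5, 7, 1, 1, 2, 0, 0, 1, 5, 1, 5, 1, 3, 0, 1, 1, 0, 2, 1, 1, 3, 0, 0, 0, 1, 0, 2, 3, 1, 5, 0, 0, 1, 0, 0, 1, 3, 0, 1, 3, 0, 3, 1, 1, 1, 2, 0, 1, 0, 1, 1, 1, 3, 3, 0, 1, 3, 5, 0] (.cons 2 16 0 0 0 (.cons 0 45 1 .nil) [4, 0, 1, 5, 3, 6, 4, 2, 0, 0, 1, 2, 1, 3, 0, 2, 7, 1, 8, 3, 1, 0, 1, 0, 3, 0,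 1, 0, 3, 0, 0, 0, 1, 2, 0, 0, 4, 0, 0, 0, 10, 0, 1, 0, 19, 11, 1, 6, 0, 1, 0, 1, 0, 1, 0, 0, 0, 2, 3, 3, 0, 0, 0, 4, 2, 3, 0, 5, 0, 0, 1, 5, 0, 2, 0, 0, 0, 0, 0, 1, 5, 0, 3, 2, 0, 3, 0, 0, 4, 1, 5, 1, 2, 3, 11, 2, 0, 3, 3, 1, 0, 0, 1, 1, 2, 1, 7, 0, 2, 1, 1, 1, 2, 2, 0, 0, 1, 1, 5, 1, 4, 0, 0, 1, 1, 1, 2, 3, 23, 1, 0, 0, 2, 3, 0, 1, 3, 3, 0, 0, 3, 8, 1, 0, 8, 6, 1, 3, 4, 0, 2, 1, 5, 0, 2, 3, 3, 0, 0, 1, 1, 3, 3, 1, 0, 0, 0, 3, 1, 2, 0, 0, 1, 0, 1, 0, 1, 3, 2, 0, 2, 0, 1, 0, 1, 3, 3, 1, 0, 4, 1, 1, 5, 1, 0, 1, 0, 0, 5, 0, 7, 2, 1, 0, 1, 1, 2, 0, 1, 2, 2, 0, 7, 0, 3, 2, 10, 0, 0, 2, 1, 3, 1, 2, 5, 3, 7, 0, 0, 0, 2, 3, 1, 0,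 1, 0, 0, 0, 1, 2, 0, 4, 3, 1, 3, 0, 3, 2, 0, 0, 2, 0, 6, 1, 1, 2, 3, 3, 2, 1, 1, 1, 1, 1, 1, 0, 1, 2, 1, 0, 0, 1, 3, 0, 0, 1, 1, 0, 1, 0, 0, 0, 5, 2, 3, 0, 0, 1, 2, 0, 2, 1, 3, 5, 0, 1, 7, 3, 1, 0, 0, 2, 0, 1, 0, 3, 1, 1, 1, 0, 2, 2, 0, 0, 2, 3, 2, 5, 2, 1, 0, 1, 1, 1, 0, 0, 0, 1, 0, 1, 3, 1, 1, 3, 1, 0, 1, 4, 3, 0, 2, 3, 0, 5, 1, 0, 1, 1, 1, 2, 5, 1, 1, 1, 3, 2, 1, 0, 1, 3, 3, 3, 1, 1, 1, 1, 3, 1, 0, 0, 1, 2, 1, 1, 0, 1, 1, 1, 7, 0, 3, 1, 0, 1, 1, 0, 0, 2, 0, 0, 0, 3, 7, 1, 3, 1, 5, 0, 0, 3, 0, 0, 0, 0, 1, 0, 0, 1, 6, 1, 3, 3, 1, 1, 2, 3, 3, 1, 1, 3, 0, 1, 1, 0, 1, 0, 1, 2, 5, 1, 2, 1, 1, 2, 1, 2, 1, 3, 0, 3, 1, 0, 1, 0,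 3, 1, 4, 0, 1, 0, 1, 0, 2, 0, 0, 1, 1] (.cons 1 0 0 0 0 (.cons 9 3 0 .nil) [6, 2, 6, 0, 5, 0, 0, 1, 1, 5, 2, 1, 2, 3, 0, 2, 1, 5, 1, 13, 1, 3, 2, 3, 1, 0, 3, 0, 3, 0, 1, 5, 6, 1, 0, 0, 1, 1, 4, 2, 0, 19, 4, 4, 0, 0, 1, 1, 0, 4, 0, 2, 1, 3, 2, 1, 1, 1, 1, 0, 1, 0, 0, 4, 9, 1, 1, 2, 0, 0, 0, 0, 1, 1, 3, 0, 0, 3, 3, 3, 1, 4, 0, 0, 2, 0, 3, 1, 3, 4, 1, 0, 6, 3, 1, 8, 1, 1, 0, 5, 1, 1, 0, 1, 0, 1, 1, 4, 1, 1, 3, 0, 1, 9, 1, 3, 2, 1, 1, 0, 9, 1, 1, 4, 0, 10, 5, 3, 2, 6, 0, 6, 0, 2, 3, 0, 1, 0, 1, 5, 2, 0, 0, 0, 5, 2, 1, 1, 6, 0, 0, 9, 3, 1, 0, 3, 2, 1, 0, 0, 0, 1, 0, 2, 1, 1, 2, 0, 1, 15, 1, 0, 2, 0, 1, 4, 3, 0, 1, 1, 0, 1, 1,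 5, 0, 0, 3, 0, 0, 1, 1, 0, 0, 0, 0, 0, 1, 0, 0, 3, 0, 2, 3, 0, 1, 0, 0, 0, 0, 3, 1, 0, 1, 2, 2, 0, 0, 2, 0, 2, 0, 2, 1, 1, 1, 0, 1, 0, 0, 1, 3, 2, 0, 1, 1, 2, 3, 0, 3, 0, 1, 1, 1, 0, 1, 1, 1, 1, 3, 2, 7, 2, 3, 0, 2, 0, 0, 0, 1, 1, 0, 0, 3, 1, 1, 1, 3, 0, 0, 5, 0, 7, 2, 1, 0, 0, 4, 0, 0, 3, 5, 0, 0, 3, 1, 2, 2, 0, 0, 3, 3, 13, 1, 1, 2, 0, 1, 0, 1, 1, 1, 1, 0, 1, 7, 1, 1, 1, 1, 1, 1, 0, 3, 1, 0, 2, 0, 0, 4, 1, 0, 3, 0, 1, 0, 2, 4, 1, 0, 5, 5, 1, 0, 1, 1, 0, 3, 3, 2, 0, 0, 3, 1, 1, 0, 0, 1, 0, 3, 1, 0, 8, 0, 0, 0, 0, 0, 1, 1, 0, 1, 0, 2, 0, 0, 2, 0, 1, 6, 2, 2, 3, 1, 1, 4, 0, 2, 1, 0, 1, 2, 9, 0, 0, 0, 0, 2, 4, 1, 1, 2, 0,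 0, 3, 5, 2, 3, 1, 2, 0, 1, 0, 0, 0, 1, 3, 0, 3, 0, 0, 1, 0, 0, 2, 3, 0, 1, 2, 3, 0, 2, 0, 2, 5, 0, 2, 1, 2, 0, 0, 0, 0, 0, 0, 1, 2, 3, 0, 5, 0, 3, 1, 0, 1, 3, 0, 3, 0, 1, 1, 2, 0, 3, 2, 1, 1, 3] (.cons 1 0 0 0 0 (.cons 10 0 0 .nil) [8, 0, 7, 6, 2, 3, 3, 0, 0, 2, 0, 0, 1, 3, 2, 0, 7, 17, 0, 4, 11, 3, 3, 2, 7, 2, 0, 0, 0, 3, 0, 2, 2, 25, 2, 0, 0, 3, 3, 2, 0, 0, 0, 0, 0, 2, 1, 2, 2, 1, 1, 2, 0, 0, 2, 1, 3, 1, 4, 1, 8, 1, 5, 2, 0, 0, 1, 0, 5, 1, 1, 5, 3, 1, 8, 2, 1, 1, 2, 0, 0, 3, 3, 11, 1, 3, 3, 5, 3, 0, 0, 4, 0, 0, 0, 2, 1, 3, 2, 1, 0, 1, 0, 1, 1, 2, 0, 2, 3, 1, 7, 1, 0, 5, 4, 5, 2, 0, 3, 0, 4, 2, 1, 1, 0, 4, 0, 1, 7, 7, 5,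 1, 3, 0, 0, 1, 1, 0, 2, 4, 2, 3, 0, 1, 1, 1, 0, 1, 0, 0, 1, 2, 7, 1, 0, 1, 0, 0, 3, 6, 6, 1, 0, 0, 1, 1, 2, 0, 2, 0, 3, 2, 3, 2, 0, 1, 0, 3, 0, 0, 1, 3, 0, 1, 1, 3, 1, 5, 0, 0, 0, 4, 0, 1, 1, 1, 1, 1, 1, 1, 0, 3, 3, 9, 1, 1, 1, 0, 2, 2, 2, 3, 2, 0, 1, 1, 0, 5, 0, 5, 0, 1, 1, 1, 0, 1, 0, 0, 1, 1, 5, 1, 0, 0, 1, 1, 1, 0, 2, 7, 2, 1, 1, 2, 1, 0, 1, 1, 0, 0, 3, 1, 4, 1, 3, 1, 3, 0, 0, 1, 0, 0, 3, 0, 0, 0, 9, 0, 0, 2, 3, 1, 1, 3, 0, 3, 0, 2, 0, 0, 3, 0, 2, 2, 2, 1, 1, 3, 0, 2, 3, 2, 3, 0, 5, 5, 0, 2, 0, 0, 0, 5, 0, 0, 1, 1, 1, 7, 1, 1, 0, 1, 1, 2, 1, 1, 4, 3, 0, 1, 0, 0, 1, 0, 9, 2, 1, 0, 1, 5, 1, 3, 1, 3, 3, 4, 0, 1, 1, 5, 2,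 1, 0, 2, 2, 1, 5, 1, 3, 2, 0, 1, 3, 4, 3, 3, 1, 1, 0, 5, 0, 9, 1, 3, 0, 1, 3, 0, 3, 1, 0, 0, 0, 1, 7, 1, 3, 0, 5, 6, 1, 1, 0, 0, 2, 2, 1, 1, 2, 0, 1, 5, 3, 1, 1, 0, 0, 7, 0, 1, 0, 1, 0, 0, 2, 1, 2, 0, 1, 1, 3, 3, 0, 0, 3, 0, 0, 0, 0, 1, 0, 1, 9, 0, 2, 0, 1, 0, 3, 0, 1, 1, 1, 1, 2, 0, 0] .nil)))))))),
  (.cons 0 34 0 0 0 (.cons 5 4 0 .nil) [] (.cons 0 30 1 0 0 (.cons 5 8 0 .nil) [52, 104, 4, 233, 0, 1, 48, 0, 0, 0, 3] (.cons 0 13 2 0 0 (.cons 5 85 0 .nil) [55, 105, 5, 21, 54, 0, 1, 66, 2, 78, 2, 42, 5, 1, 0] (.cons 0 24 0 0 0 (.cons 11 2 0 .nil) [6, 0, 1, 161, 1] (.cons 2 2 0 0 0 (.cons 0 47 1 .nil) [5, 8, 0, 1, 4, 3, 2,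 3, 1, 5, 4, 0, 21, 1, 2, 3, 1, 0, 0, 0, 1, 2, 0, 3, 0, 1, 1, 3, 2, 1, 3, 0, 12, 0, 5, 44, 2, 7, 3, 2, 4, 0, 2, 3, 1, 5, 9, 0, 1, 2, 1, 3, 2, 0, 5, 1, 1, 2, 1, 5, 5, 2, 0, 3, 23, 4, 6, 4, 1, 1, 0, 1, 1, 3, 4, 8, 2, 1, 0, 4, 0, 4, 7, 2, 0, 5, 1, 0, 1, 2, 3, 0, 0, 1, 4, 8, 0, 0, 0, 3, 4, 2, 17, 1, 0, 0, 2, 0, 2, 0, 5, 1, 3, 1, 2, 1, 1, 1, 0, 1, 0, 0, 0, 0, 1, 1, 3, 7, 0, 1, 1, 4, 2, 0, 1, 0, 0, 0, 1, 0, 4, 11, 5, 0, 1, 1, 3, 0, 0, 1, 0, 1, 6, 0, 1, 1, 1, 4, 3, 0, 1, 0, 3, 1, 1, 0, 1, 6, 4, 0, 1, 1, 0, 0, 2, 1, 0, 1, 2, 0, 2, 0, 0, 1, 0, 1, 1, 4, 2, 0, 0, 2, 1, 1, 2, 1, 0, 0, 2, 0, 1, 2, 2, 1, 0, 0, 1, 0, 0, 1, 2, 0, 0, 0, 5,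 0, 1, 2, 1, 1, 0, 0, 1, 1, 0, 2, 2, 1, 1, 1, 1, 3, 1, 0, 1, 2, 2, 7, 1, 0, 1, 0, 4, 3, 1, 0, 0, 3, 5, 1, 0, 0, 1, 1, 1, 7, 1, 3, 1, 7, 2, 0, 0, 5, 3, 0, 1, 0, 4, 3, 0, 3, 2, 0, 2, 2, 1, 3, 4, 0, 2, 0, 0, 1, 5, 2, 1, 1, 3, 2, 2, 1, 3, 0, 1, 1, 1, 0, 0, 8, 1, 0, 0, 1, 5, 1, 1, 0, 1, 1, 1, 3, 2, 0, 3, 1, 1, 1, 0, 0, 5, 0, 14, 3, 0, 1, 0, 6, 5, 1, 6, 5, 0, 1, 1, 0, 1, 2, 9, 0, 1, 5, 1, 1, 0, 0, 1, 2, 19, 2, 1, 0, 1, 0, 0, 5, 0, 2, 3, 0, 0, 1, 3, 3, 0, 0, 0, 1, 1, 0, 0, 2, 0, 1, 1, 3, 2, 3, 3, 0, 0, 1, 0, 5, 3, 0, 1, 0, 1, 6, 1, 0, 1, 3, 1, 2, 0, 1, 1, 1, 1, 0, 4, 5, 0, 0, 0, 0, 3, 0, 2, 4, 1, 1, 6, 3, 0, 3, 0, 0, 3, 3, 0, 2,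 1] (.cons 1 0 0 0 0 (.cons 6 0 0 .nil) [16, 13, 6, 18, 43, 26, 11, 4, 0, 10, 1, 26, 7, 7, 1, 0, 3, 4, 0, 0, 1, 2, 0, 1, 0, 3, 12, 3, 3, 0, 2, 1, 2, 3, 2, 0, 2, 0, 3, 27, 12, 8, 1, 3, 0, 3, 1, 2, 3, 2, 0, 7, 7, 1, 0, 0, 27, 1, 1, 0, 0, 9, 27, 24, 5, 0, 1, 13, 6, 9, 0, 3, 1, 0, 0, 0, 8, 5, 0, 2, 8, 18, 12, 0, 4, 3, 4, 1, 0, 0, 3, 2, 1, 6, 0, 1, 3, 0, 2, 0, 0, 6, 3, 8, 0, 3, 1, 1, 4, 1, 1, 0, 2, 1, 1, 0, 5, 1, 1, 0, 0, 0, 0, 1, 2, 0, 1, 0, 10, 0, 1, 3, 1, 0, 1, 1, 2, 1, 2, 1, 0, 8, 2, 1, 0, 1, 2, 0, 0, 1, 11, 1, 4, 3, 0, 1, 1, 5, 6, 6, 7, 6, 0, 1, 3, 0, 2, 0, 1, 0, 1, 0, 1, 9, 1, 3, 3, 2, 0, 2, 1, 1, 2, 3, 0, 2, 0, 1, 0, 3,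 5, 5, 0, 3, 2, 0, 1, 0, 1, 1, 1, 2, 1, 0, 7, 1, 2, 1, 1, 2, 0, 2, 3, 2, 0, 0, 5, 1, 2, 3, 0, 0, 2, 1, 1, 3, 1, 2, 3, 1, 2, 3, 5, 3, 2, 1, 2, 13, 7, 2, 1, 3, 3, 0, 5, 4, 2, 0, 2, 3, 17, 0, 0, 5, 1, 13, 10, 14, 1, 0, 1, 4, 3, 7, 0, 1, 0, 1, 3, 11, 1, 3, 7, 0, 2, 1, 3, 2, 0, 1, 3, 4, 1, 7, 0, 2, 3, 3, 5, 1, 0, 0, 5, 2, 0, 1, 1, 5, 1, 2, 2, 2, 7, 9, 2, 7, 1, 8, 1, 2, 3] (.cons 1 0 0 0 0 (.cons 11 0 0 .nil) [2, 3, 3, 1, 3, 0, 2, 1, 6, 2, 3, 1, 0, 11, 19, 1, 2, 3, 0, 1, 1, 0, 5, 6, 1, 1, 2, 2, 0, 3, 1, 2, 0, 0, 3, 1, 0, 0, 1, 2, 20, 4, 1, 2, 2, 2, 3, 0, 5, 2, 1, 5, 7, 1, 0, 0, 1, 1, 5, 0, 1, 1, 1, 0, 1, 9, 1, 4, 1, 1, 4, 1, 0,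 4, 0, 0, 2, 2, 1, 1, 1, 0, 8, 3, 2, 0, 0, 1, 0, 0, 0, 3, 1, 0, 0, 0, 0, 0, 3, 0, 0, 5, 0, 4, 1, 3, 0, 0, 4, 2, 0, 1, 9, 0, 1, 1, 2, 0, 0, 2, 0, 1, 0, 10, 3, 0, 2, 0, 5, 1, 2, 0, 2, 0, 0, 3, 3, 2, 6, 0, 2, 1, 1, 5, 0, 1, 0, 0, 1, 0, 0, 2, 0, 0, 1, 0, 1, 9, 0, 5, 0, 2, 0, 1, 1, 3, 3, 1, 0, 0, 0, 1, 0, 0, 0, 2, 6, 1, 2, 1, 0, 2, 2, 0, 0, 0, 1, 0, 0, 0, 1, 1, 2, 1, 2, 2, 0, 2, 2, 1, 0, 3, 1, 1, 4, 1, 3, 0, 2, 1, 3, 2, 2, 5, 1, 6, 2, 2, 15, 0, 1, 1, 7, 4, 3, 3, 4, 1, 4, 1, 0, 0, 1, 0, 4, 2, 0, 1, 1, 3, 1, 0, 0, 1, 1, 1, 5, 2, 4, 3, 1, 0, 6, 0, 2, 2, 3, 0, 5, 1, 2, 3, 1, 0, 0, 0, 0, 3, 2, 0, 1, 1, 3, 1, 1, 2, 1, 6, 0, 3, 5, 1,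 1, 0, 3, 5, 2, 1, 0, 2, 1, 3, 0, 0, 1, 3, 1, 4, 0, 2, 1, 2, 1, 0, 0, 1, 0, 4, 2, 1, 7, 0, 1, 3, 0, 3, 3, 3, 0, 0, 0, 0, 0, 2, 0, 4, 1, 1, 1, 2, 1, 1, 1, 2, 3, 1, 0, 0, 0, 0, 2, 0, 2, 5, 4, 0, 3, 0, 1, 1, 5, 2, 3, 8, 1, 5, 1, 1, 3, 2, 0, 0, 3, 1, 1, 3, 3, 0, 5, 0, 1, 0, 0, 2, 0, 2, 3, 1, 0, 0, 2, 3, 1, 3, 4, 1, 0, 1, 0, 1, 1, 3, 5, 1, 0, 2, 0, 3, 4, 0, 0, 0, 3, 1, 1, 0, 0, 0, 5, 0, 1, 0, 1, 0, 8, 2, 1, 1, 3, 0, 1, 1, 1, 0, 1, 5, 1, 3, 1, 7, 0, 1, 0, 3, 0, 3, 0, 1, 0, 3, 0, 0, 5, 1, 0, 1, 0, 3, 2, 0, 0, 0, 0, 0, 1, 1, 4] .nil))))))),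
  (.cons 0 25 0 0 0 (.cons 5 88 0 .nil) [] (.cons 0 31 0 0 0 (.cons 9 1 0 .nil) [] (.cons 0 21 0 0 0 (.cons 9 10 0 .nil) [15, 80] (.cons 0 15 0 0 0 (.cons 11 3 0 .nil) [8] (.cons 2 17 0 0 0 (.cons 0 48 1 .nil) [2, 1, 1, 23, 1, 1, 3, 1, 0, 0, 3, 1, 1, 0, 0, 1, 1, 0, 0, 5, 1, 1, 0, 1, 0, 1, 0, 0, 7, 1, 1, 1, 16, 1, 1, 1, 1, 3, 1, 0, 0, 9, 0, 1, 1, 0, 3, 0, 1, 0, 13, 3, 0, 2, 3, 3, 0, 0, 0, 4, 0, 0, 0, 1, 1, 3, 3, 2, 3, 1, 2, 1, 1, 0, 2, 2, 0, 0, 0, 0, 1, 0, 0, 1, 2, 3, 1, 0, 0, 1, 1, 1, 3, 2, 1, 0, 1, 1, 0, 1, 0, 0, 3, 3, 2, 3, 4, 3, 1, 0, 1, 0, 2, 3, 1, 1, 2, 1, 2, 1, 0, 1, 1, 1, 1, 7, 0, 0, 2, 1, 1, 0, 2, 3, 4, 3, 1, 3,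 11, 3, 0, 1, 5, 1, 1, 3, 1, 1, 1, 3, 1, 0, 1, 1, 5, 5, 4, 1, 2, 5, 2, 0, 3, 7, 0, 2, 13, 1, 0, 3, 0, 0, 1, 0, 3, 0, 1, 0, 3, 0, 0, 3, 0, 1, 0, 0, 1, 1, 1, 1, 2, 4, 1, 1, 0, 3, 0, 0, 1, 1, 1, 1, 3, 3, 1, 5, 2, 0, 0, 1, 1, 0, 1, 1, 0, 0, 1, 1, 1, 0, 4, 1, 0, 2, 2, 0, 1, 0, 4, 1, 0, 2, 0, 0, 0, 1, 2, 3, 0, 1, 2, 0, 0, 0, 0, 1, 3, 5, 0, 1, 3, 1, 2, 6, 5, 0, 1, 0, 0, 1, 5, 1, 1, 2, 7, 0, 2, 0, 3, 3, 1, 4, 1, 1, 1, 2, 0, 2, 1, 0, 0, 0, 3, 1, 0, 0, 1, 1, 3, 0, 0, 1, 1, 2, 1, 5, 0, 2, 5, 0, 1, 2, 1, 0, 2, 1, 1, 4, 1, 6, 0, 1, 0, 0, 4, 6, 2, 0, 0, 1, 5, 3, 2, 2, 0, 0, 5, 1, 3, 2, 0, 2, 1, 0, 1, 0, 2, 4, 5, 1, 0, 6, 4, 3, 0, 0, 1,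 1, 1, 1, 5, 1, 1, 1, 3, 0, 1, 3, 1, 0, 1, 0, 0, 3, 1, 0, 5, 1, 1, 3, 3, 0, 0, 1, 0, 7, 0, 0, 2, 2, 1, 0, 0, 5, 0, 1, 1, 3, 0, 1, 3, 0, 1, 0, 1, 3, 0, 1, 5, 0, 0, 2, 0, 2, 2, 1, 2, 1, 0, 0, 0, 1, 0, 0, 3, 8, 2, 2, 1, 1, 5, 0, 3, 0, 3, 0, 0, 5, 4, 3, 1, 1, 4, 1, 3, 1, 1, 1, 1, 1, 1, 1, 0, 0, 0, 0, 2, 1, 1, 1, 3, 3, 2, 0, 0, 7, 1, 3, 0, 0, 1, 1, 1, 6, 4, 0, 0, 1, 0, 0, 3, 1, 0, 0, 1, 0, 2, 3, 1, 1, 0, 0, 1, 1, 1, 0, 5, 1, 1, 0, 3, 1, 0, 0, 4, 0, 1, 1, 3, 0, 1, 1, 2, 0, 0, 5, 1, 1, 0, 1, 0, 2, 3] .nil))))),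
  (.cons 0 31 1 0 0 (.cons 5 90 0 .nil) [168, 160, 59, 2, 0] (.cons 0 25 0 0 0 (.cons 9 2 0 .nil) [5] (.cons 0 27 1 0 0 (.cons 10 5 0 .nil) [160, 12, 161, 55, 5, 1, 70] (.cons 0 32 0 0 0 (.cons 11 0 0 .nil) [9, 2, 162, 0, 0] (.cons 2 3 0 0 0 (.cons 0 49 1 .nil) [7, 9, 3, 7, 3, 5, 4, 0, 0, 0, 26, 0, 0, 0, 0, 0, 3, 6, 1, 0, 0, 1, 1, 1, 1, 0, 0, 3, 2, 1, 5, 0, 3, 1, 1, 1, 0, 1, 1, 3, 26, 1, 0, 1, 9, 1, 1, 0, 0, 7, 0, 0, 0, 1, 0, 1, 2, 3, 3, 0, 5, 2, 1, 0, 0, 1, 0, 1, 0, 2, 0, 0, 3, 0, 0, 0, 0, 3, 0, 0, 0, 0, 0, 3, 1, 0, 3, 3, 6, 4, 18, 1, 0, 0, 8, 4, 1, 2, 0, 1, 3, 0, 0, 2, 0, 6, 4, 1, 4, 2, 0, 0, 0, 0, 2, 0, 1, 1, 0, 2, 1,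 0, 1, 1, 1, 5, 2, 2, 1, 2, 5, 5, 0, 1, 7, 5, 1, 2, 3, 4, 0, 1, 1, 1, 0, 2, 0, 0, 3, 0, 1, 1, 1, 1, 3, 1, 1, 1, 1, 1, 1, 3, 3, 0, 3, 3, 0, 1, 1, 1, 3, 1, 2, 0, 0, 3, 1, 0, 0, 3, 0, 0, 2, 0, 3, 3, 7, 0, 1, 3, 0, 1, 0, 0, 0, 0, 0, 1, 0, 1, 1, 1, 2, 3, 2, 0, 3, 1, 3, 0, 1, 2, 0, 0, 1, 3, 0, 0, 2, 6, 2, 1, 0, 4, 1, 0, 3, 3, 0, 1, 0, 0, 2, 1, 3, 0, 2, 3, 1, 1, 0, 3, 1, 1, 0, 0, 0, 1, 1, 4, 0, 3, 0, 0, 4, 0, 4, 0, 1, 0, 2, 0, 1, 3, 1, 7, 6, 1, 0, 6, 0, 2, 0, 1, 3, 1, 3, 0, 2, 1, 1, 2, 0, 2, 1, 0, 2, 1, 3, 1, 2, 1, 0, 1, 0, 2, 3, 0, 0, 3, 1, 3, 1, 1, 4, 2, 1, 3, 1, 2, 5, 3, 0, 4, 1, 0, 2, 0, 0, 0, 18, 2, 3, 0, 0, 0, 1, 1, 0, 0,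 1, 1, 1, 0, 2, 1, 1, 1, 1, 0, 1, 0, 4, 5, 3, 1, 1, 2, 1, 1, 0, 1, 3, 7, 0, 2, 1, 0, 1, 5, 0, 1, 1, 1, 1, 2, 1, 0, 0, 3, 0, 3, 1, 3, 1, 0, 0, 8, 1, 3, 3, 0, 0, 0, 0, 0, 1, 0, 0, 3, 1, 0, 1, 1, 1, 0, 1, 1, 0, 1, 3, 1, 3, 7, 3, 1, 0, 1, 0, 1, 3, 1, 1, 4, 1, 1, 2, 1, 5, 0, 7, 1, 4, 3, 6, 0, 0, 2, 1, 2, 3, 2, 1, 3, 3, 1, 5, 0, 0, 0, 4, 1, 6, 0, 0, 2, 0, 1, 1, 3, 2, 4, 0, 4, 1, 5, 0, 3, 1, 3, 0, 3, 1, 1, 0, 0, 0, 4, 1, 6, 0, 0, 0, 0, 1, 3, 1, 2, 4, 0, 0, 0, 0, 1, 1, 2, 1, 3, 3, 0, 5, 0, 3, 0, 3, 1, 1, 1, 4, 1, 1] (.cons 1 0 0 0 0 (.cons 9 11 0 .nil) [18, 1, 10, 3, 5, 3, 6, 10, 0, 26, 4, 11, 7, 1, 5, 1, 4, 0, 0, 17, 30, 1, 2, 2,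 1, 0, 2, 6, 1, 7, 7, 0, 3, 1, 3, 0, 5, 1, 1, 2, 1, 1, 3, 0, 1, 0, 0, 3, 3, 1, 3, 1, 1, 1, 0, 0, 4, 8, 0, 17, 6, 0, 0, 2, 0, 2, 1, 1, 0, 5, 7, 1, 0, 1, 0, 16, 8, 17, 2, 0, 5, 3, 3, 39, 20, 5, 10, 0, 2, 1, 0, 0, 4, 1, 1, 3, 0, 1, 1, 2, 4, 4, 3, 5, 2, 2, 2, 5, 1, 0, 2, 10, 4, 1, 6, 7, 0, 1, 1, 0, 1, 2, 3, 0, 1, 1, 0, 0, 1, 0, 1, 0, 5, 1, 1, 2, 6, 1, 0, 1, 3, 2, 3, 1, 4, 4, 0, 1, 0, 3, 0, 0, 3, 1, 4, 1, 0, 6, 1, 1, 2, 2, 1, 0, 1, 0, 0, 5, 0, 1, 0, 0, 5, 3, 1, 3, 0, 1, 3, 0, 1, 3, 1, 0, 6, 0, 2, 4, 0, 2, 1, 0, 1, 0, 1, 1, 1, 5, 1, 0, 2, 0, 5, 1, 1, 2, 6, 0, 0, 0, 0, 0, 2, 2, 2, 2, 3, 0, 4, 0, 0, 1, 1, 3, 1, 3, 0, 1, 2, 1, 2,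 0, 1, 1, 3, 0, 1, 1, 3, 0, 0, 1, 0, 0, 1, 1, 0, 1, 1, 5, 0, 0, 0, 0, 1, 1, 1, 3, 3, 0, 0, 0, 0, 0, 2, 0, 4, 0, 0, 1, 2, 0, 1, 2, 0, 2, 5, 1, 2, 1, 5, 1, 4, 1, 4, 3, 0, 1, 0, 0, 4, 5, 0, 0, 1, 5, 0, 4, 1, 3, 5, 0, 3, 2, 2, 3, 3, 2, 1, 0, 0, 3, 3, 3, 2, 4, 1, 0, 14, 0, 0, 7, 3, 0, 1, 3, 3, 1, 0, 7, 1, 5, 6, 6, 0, 3, 2, 3, 2, 0, 1, 0, 0, 0, 1, 1, 1, 0, 0, 1, 0, 0, 3, 5, 4, 0, 1, 5, 2, 2, 2, 1, 0, 0, 1, 2, 2, 1, 2, 3, 0, 0, 4, 5, 0, 1, 4, 1, 1, 1, 1, 2, 3, 2, 0, 1, 1, 1, 1, 5, 3, 5, 0, 0, 0, 2, 2, 0, 4, 2, 1, 1, 2, 3, 0, 5, 6, 0, 1, 1, 3, 1, 1, 0, 5, 3] (.cons 1 0 0 0 0 (.cons 9 1 0 .nil) [2, 0, 1, 0, 8, 1, 1, 2, 1, 3, 0, 4,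 3, 0, 1, 0, 7, 2, 0, 13, 0, 1, 0, 0, 1, 4, 2, 3, 1, 0, 0, 1, 1, 0, 1, 1, 2, 1, 0, 1, 0, 3, 1, 0, 3, 11, 3, 18, 0, 0, 5, 1, 8, 2, 0, 0, 0, 2, 1, 0, 0, 0, 1, 1, 1, 0, 2, 0, 1, 9, 1, 0, 0, 0, 0, 1, 6, 1, 3, 0, 3, 6, 3, 1, 1, 1, 0, 2, 3, 0, 1, 0, 0, 5, 7, 1, 0, 0, 2, 1, 1, 6, 0, 0, 0, 2, 2, 0, 5, 1, 0, 1, 0, 3, 1, 2, 2, 2, 2, 1, 5, 6, 1, 3, 5, 1, 1, 0, 1, 1, 2, 1, 0, 0, 1, 1, 1, 1, 4, 3, 1, 19, 8, 1, 1, 1, 0, 1, 0, 0, 1, 2, 0, 0, 1, 1, 2, 1, 1, 2, 1, 0, 1, 0, 0, 5, 0, 1, 0, 2, 0, 3, 0, 0, 1, 3, 0, 1, 0, 1, 0, 1, 1, 3, 0, 1, 0, 0, 0, 1, 6, 0, 0, 1, 0, 1, 0, 6, 3, 1, 2, 3, 2, 1, 0, 1, 1, 0, 4, 2, 0, 2, 1, 0, 1, 2, 0, 3, 1, 1,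 2, 2, 5, 0, 6, 3, 1, 0, 3, 0, 3, 0, 0, 1, 0, 2, 1, 1, 5, 1, 0, 1, 1, 1, 0, 1, 1, 4, 1, 0, 4, 2, 1, 2, 1, 0, 3, 3, 2, 3, 0, 1, 1, 1, 0, 1, 3, 1, 2, 0, 3, 1, 0, 1, 4, 0, 1, 0, 1, 0, 1, 3, 2, 0, 2, 1, 0, 1, 1, 1, 3, 0, 0, 1, 1, 1, 1, 0, 1, 3, 2, 0, 0, 0, 4, 1, 4, 6, 0, 0, 4, 4, 3, 1, 0, 0, 1, 3, 1, 0, 6, 8, 4, 1, 1, 1, 1, 0, 2, 1, 5, 1, 3, 0, 2, 0, 0, 3, 1, 3, 0, 0, 5, 0, 4, 0, 0, 0, 3, 1, 2, 3, 9, 0, 1, 1, 0, 2, 0, 1, 5, 1, 0, 0, 0, 3, 1, 0, 3, 1, 1, 1, 0, 1, 1, 1, 0, 0, 0, 0, 1, 0, 4, 1, 1, 1, 3, 7, 0, 2, 0, 0, 1, 1, 0, 4, 1, 1, 0, 1, 0, 1, 1, 0, 1, 1, 0, 1, 3, 1, 1, 5, 3, 0, 2, 1, 1, 0, 2, 0, 2, 1, 1, 2, 1, 3, 9, 1, 0, 5,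 2, 2, 0, 3, 3, 0, 3, 2, 2, 5, 0, 3, 0, 1, 3, 0, 6, 6, 0, 0, 1, 1, 2, 2, 3, 3, 2, 2, 1, 0, 0, 1, 0, 3, 2, 0, 3, 2, 0, 2, 1, 7, 3, 1, 1, 2, 3, 0, 0, 3, 2, 2, 1, 1, 1, 1, 0, 1, 1, 0, 0, 0, 1, 0, 1, 0, 4, 2, 1, 0, 0, 1, 3, 6, 0, 0, 5, 5, 1, 0, 1, 1, 1, 2, 0, 2, 3] .nil))))))),
  (.cons 0 34 1 0 0 (.cons 5 81 0 .nil) [339, 0, 149, 9, 0] (.cons 0 27 2 0 0 (.cons 5 89 0 .nil) [0, 188, 5, 0, 2, 60, 3, 62, 2, 98, 57, 9, 0] (.cons 2 23 0 0 0 (.cons 0 50 1 .nil) [2, 3, 13, 12, 8, 2, 27, 0, 2, 2, 6, 4, 7, 2, 0, 1, 1, 3, 21, 1, 0, 1, 5, 13, 1, 30, 5, 1, 0, 2, 1, 0, 6, 0, 1, 1, 1, 7, 3, 1, 1, 1, 8, 8, 1, 1, 1, 1, 1, 0, 0, 0, 1, 1, 1,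 0, 1, 0, 1, 0, 5, 2, 1, 1, 2, 0, 0, 7, 2, 1, 17, 3, 0, 4, 1, 1, 0, 3, 1, 1, 0, 1, 0, 1, 4, 0, 0, 0, 2, 1, 1, 0, 3, 8, 0, 9, 0, 5, 0, 2, 0, 1, 3, 2, 1, 2, 6, 1, 7, 1, 7, 2, 3, 1, 2, 0, 0, 1, 1, 2, 1, 2, 0, 1, 1, 5, 2, 0, 1, 0, 2, 9, 0, 0, 0, 0, 0, 0, 1, 5, 0, 0, 2, 0, 0, 5, 3, 0, 1, 0, 5, 0, 1, 1, 0, 3, 1, 1, 0, 1, 4, 2, 3, 6, 0, 0, 0, 9, 0, 2, 0, 0, 0, 0, 1, 3, 0, 3, 0, 5, 1, 0, 7, 3, 2, 7, 1, 1, 1, 0, 1, 3, 8, 0, 1, 2, 3, 1, 3, 3, 0, 0, 1, 1, 1, 3, 2, 0, 1, 0, 4, 0, 4, 1, 4, 1, 0, 0, 0, 5, 0, 1, 1, 0, 2, 5, 1, 1, 3, 2, 1, 4, 1, 0, 5, 2, 7, 3, 5, 1, 1, 0, 0, 7, 1, 1, 1, 0, 1, 3, 3, 1, 1, 2, 3, 3, 4, 1, 1, 1, 1, 2, 3, 1,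 1, 0, 5, 7, 2, 0, 0, 1, 1, 0, 3, 5, 5, 6, 2, 0, 0, 4, 1, 0, 1, 1, 0, 5, 1, 0, 0, 0, 1, 0, 1, 2, 4, 0, 4, 1, 2, 2, 2, 0, 6, 0, 1, 2, 1, 0, 2, 5, 0, 1, 1, 2, 0, 1, 1, 0, 0, 1, 0, 2, 3, 0, 5, 3, 3, 3, 3, 1, 1, 0, 16, 0, 1, 1, 1, 1, 1, 2, 0, 2, 0, 5, 17, 1, 2, 1, 0, 0, 8, 1, 5, 7, 2, 0, 0, 2, 3, 2, 11, 0, 4, 2, 1, 5, 3, 1, 5, 9, 0, 0, 1, 1, 0, 0, 1, 0, 0, 0, 2, 0, 0, 0, 0, 0, 1, 1, 1, 3, 1, 0, 3, 1, 0, 2, 0, 3, 2, 1, 1, 0, 1, 0, 3, 1, 7, 0, 1, 0, 2, 2, 5, 1, 0, 0, 0, 1, 0, 1, 1, 1, 2, 1, 1, 1, 2, 1, 0, 1, 0, 7, 1, 5, 1, 4, 0, 1, 2, 0, 1, 0, 1, 3, 0, 4, 0, 1, 3, 9, 3, 1, 1, 0, 0, 0, 1, 3, 3, 2, 0, 1, 3, 0, 1, 5, 3, 2] .nil))),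
  (.cons 0 34 0 0 0 (.cons 5 94 0 .nil) [] (.cons 0 32 0 0 0 (.cons 10 5 0 .nil) [11, 1, 83, 81] (.cons 0 28 0 0 0 (.cons 11 0 0 .nil) [6, 5, 4, 161] (.cons 0 21 1 0 0 (.cons 11 3 0 .nil) [1, 3, 183, 3, 154, 0, 1, 2, 106, 45, 0] (.cons 2 4 0 0 0 (.cons 0 51 1 .nil) [4, 0, 17, 1, 1, 1, 4, 10, 3, 3, 1, 1, 1, 4, 1, 3, 1, 0, 9, 0, 1, 1, 21, 7, 1, 3, 2, 2, 3, 2, 4, 0, 2, 9, 6, 1, 0, 23, 1, 0, 5, 0, 5, 0, 0, 0, 1, 0, 1, 3, 0, 3, 0, 1, 0, 0, 2, 4, 0, 2, 1, 3, 0, 0, 3, 2, 0, 0, 1, 2, 1, 1, 3, 3, 3, 0, 2, 1, 2, 1, 1, 2, 0, 1, 1, 13, 2, 0, 3, 2, 2, 1, 1, 2, 1, 3, 1, 0, 3, 1, 0, 5, 1, 0, 7, 0, 0, 4, 1, 0, 2, 3, 0, 0, 1, 0, 2, 0, 1,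 9, 4, 3, 0, 0, 0, 0, 0, 2, 5, 2, 0, 0, 0, 0, 1, 13, 0, 2, 0, 7, 0, 1, 1, 0, 2, 3, 2, 4, 0, 0, 0, 1, 0, 0, 1, 1, 1, 2, 1, 1, 2, 0, 0, 0, 2, 1, 2, 0, 3, 0, 0, 3, 0, 1, 1, 0, 1, 3, 0, 0, 1, 2, 1, 1, 1, 3, 3, 0, 1, 1, 5, 2, 4, 2, 2, 1, 2, 0, 0, 5, 0, 1, 1, 1, 2, 1, 2, 1, 8, 1, 1, 10, 0, 1, 2, 1, 3, 1, 0, 3, 0, 1, 1, 2, 1, 0, 1, 0, 1, 7, 5, 1, 0, 0, 0, 0, 0, 3, 1, 0, 5, 1, 0, 3, 4, 1, 0, 0, 1, 0, 2, 0, 0, 0, 0, 0, 5, 0, 1, 1, 0, 2, 5, 0, 0, 0, 0, 1, 1, 1, 0, 4, 1, 4, 0, 3, 3, 0, 1, 0, 3, 1, 1, 0, 1, 0, 3, 2, 3, 2, 1, 1, 1, 0, 1, 0, 1, 1, 1, 0, 3, 0, 4, 1, 0, 1, 1, 4, 1, 1, 2, 1, 4, 4, 2, 1, 0, 1, 0, 0, 0, 3, 2, 1, 1, 0, 3, 0,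 2, 0, 1, 1, 3, 4, 1, 2, 0, 1, 1, 0, 5, 0, 7, 1, 6, 1, 0, 5, 1, 0, 0, 2, 1, 2, 1, 1, 3, 1, 1, 8, 0, 1, 1, 0, 0, 4, 4, 2, 1, 3, 1, 1, 1, 1, 1, 1, 0, 1, 0, 1, 0, 1, 7, 0, 3, 6, 3, 1, 0, 1, 0, 3, 3, 1, 0, 5, 1, 0, 0, 6, 1, 3, 1, 1, 5, 5, 1, 1, 2, 1, 1, 2, 3, 0, 1, 0, 0, 2, 1, 2, 0, 3, 0, 0, 1, 2, 1, 0, 2, 0, 0, 1, 1, 2, 3, 1, 1, 1, 1, 2, 0, 1, 3, 1, 5, 0, 1, 1, 1, 5, 1, 0, 4, 1, 0, 0, 2, 1, 5, 3, 1, 0, 1, 1, 1, 0, 2, 0, 4, 0, 7, 0, 0, 1, 2, 3, 1, 3, 1, 2, 0, 3, 0, 1, 3, 1, 3, 0, 1, 1, 0, 0, 1, 0, 4, 0, 3, 0, 2, 8, 1, 0, 1, 2, 1, 0, 0, 2, 0, 5, 1, 1, 0, 0, 1, 1, 1, 1, 0, 0, 1, 1, 0, 0, 0, 3, 1, 0, 3, 0, 0, 2, 0, 0, 0, 1, 1, 4,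 0, 1, 0, 2, 0, 3, 3, 2, 2, 1, 3] (.cons 1 0 0 0 0 (.cons 9 13 0 .nil) [26, 11, 13, 1, 1, 0, 3, 3, 1, 7, 1, 0, 2, 14, 0, 17, 1, 7, 11, 8, 3, 5, 0, 0, 2, 1, 0, 1, 7, 13, 7, 1, 3, 8, 0, 0, 7, 0, 2, 3, 2, 9, 3, 0, 1, 0, 1, 1, 1, 1, 0, 0, 0, 0, 4, 3, 5, 5, 1, 1, 10, 0, 1, 1, 1, 1, 4, 1, 18, 12, 3, 0, 7, 5, 3, 3, 0, 3, 0, 5, 0, 3, 0, 1, 1, 3, 3, 0, 1, 2, 2, 0, 1, 1, 14, 4, 6, 3, 0, 2, 7, 1, 3, 0, 0, 13, 7, 11, 3, 0, 1, 1, 5, 2, 2, 0, 3, 0, 0, 0, 7, 0, 2, 3, 1, 1, 4, 0, 2, 0, 3, 6, 1, 0, 2, 2, 2, 3, 14, 3, 3, 0, 0, 8, 8, 1, 1, 0, 0, 1, 1, 3, 1, 0, 1, 0, 1, 0, 0, 1, 0, 3, 5, 0, 0, 1, 0, 3, 0, 1, 0, 3, 1, 1, 0, 1, 1, 0, 1, 9, 5,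 0, 3, 0, 0, 0, 0, 0, 1, 5, 0, 2, 1, 0, 2, 5, 3, 0, 1, 2, 1, 1, 0, 1, 2, 1, 0, 0, 7, 2, 0, 0, 0, 1, 3, 9, 1, 0, 3, 1, 0, 2, 1, 1, 0, 3, 0, 1, 0, 0, 5, 1, 1, 0, 1, 1, 1, 0, 7, 5, 0, 0, 4, 1, 1, 1, 6, 1, 0, 0, 0, 1, 1, 3, 1, 1, 0, 0, 0, 0, 0, 0, 0, 1, 5, 1, 1, 8, 1, 2, 1, 0, 1, 5, 1, 1, 1, 5, 0, 0, 6, 5, 1, 0, 1, 1, 0, 0, 1, 9, 1, 0, 1, 1, 2, 3, 0, 5, 1, 1, 1, 3, 0, 1, 0, 0, 0, 0, 1, 3, 3, 1, 2, 0, 1, 1, 8, 5, 0, 3, 0, 1, 1, 2, 1, 2, 2, 1, 1, 0, 1, 2, 1, 0, 3, 0, 0, 0, 0, 2, 2, 1, 0, 1, 0, 1, 1, 1, 1, 1, 3, 0, 2, 0, 1, 3, 12, 2, 0, 0, 0, 0, 1, 0, 0, 0, 1, 0, 1, 0, 2, 1, 2, 0, 6, 0, 1, 3, 2, 2, 1, 1, 1, 1, 1, 1, 4, 3, 0, 3,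 1, 1, 0, 1, 1, 1, 2, 3, 3, 1, 8, 2, 3, 2, 3, 1, 1, 0, 6, 0, 0, 1, 0, 0, 1, 0, 1, 1, 4, 1, 1, 0, 0, 5, 1, 3, 1, 1, 2, 1, 2, 0, 1, 1, 1, 1, 4, 0, 2, 1, 5, 0, 1, 11, 1, 1, 1, 1, 5, 5, 2, 1, 1, 1, 0, 0, 1, 9, 4, 3, 2, 0, 0, 0, 0, 3, 0, 0, 5, 2, 0, 1, 0, 2, 1, 11, 0, 1, 1, 0, 3, 3, 1, 0, 2, 0, 1, 0, 0, 0, 5, 1] (.cons 1 0 0 0 0 (.cons 11 1 0 .nil) [3, 3, 10, 0, 1, 5, 1, 1, 4, 3, 2, 1, 6, 0, 1, 1, 0, 0, 3, 1, 3, 1, 3, 0, 0, 3, 3, 1, 6, 3, 9, 1, 5, 3, 0, 3, 3, 0, 1, 3, 2, 1, 1, 1, 2, 0, 6, 1, 0, 4, 21, 1, 0, 0, 3, 1, 0, 1, 6, 0, 0, 0, 6, 5, 1, 1, 3, 0, 1, 3, 8, 1, 0, 0, 0, 4, 0, 1, 1, 2, 0, 1, 1, 0, 0, 3, 1, 3, 0, 1, 0, 3, 0, 0,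 3, 1, 3, 0, 3, 0, 5, 1, 4, 3, 0, 1, 1, 2, 3, 8, 0, 6, 2, 1, 2, 1, 1, 1, 1, 1, 0, 0, 2, 4, 2, 1, 3, 3, 2, 5, 2, 2, 1, 3, 0, 1, 1, 0, 1, 2, 0, 0, 0, 3, 0, 1, 0, 0, 1, 3, 4, 2, 0, 12, 6, 1, 0, 14, 8, 0, 0, 0, 2, 0, 2, 1, 0, 3, 0, 0, 1, 0, 1, 1, 1, 3, 1, 3, 3, 1, 1, 0, 1, 1, 1, 0, 1, 3, 0, 1, 0, 1, 4, 1, 1, 2, 1, 2, 0, 4, 0, 1, 2, 0, 0, 1, 1, 3, 0, 1, 5, 1, 3, 3, 2, 3, 3, 1, 0, 1, 2, 3, 0, 1, 5, 4, 4, 0, 0, 0, 1, 1, 1, 3, 3, 0, 1, 0, 0, 4, 1, 2, 1, 6, 1, 4, 0, 1, 1, 0, 2, 0, 1, 0, 1, 1, 5, 0, 2, 2, 3, 0, 0, 0, 1, 0, 0, 0, 1, 2, 1, 11, 1, 0, 3, 0, 1, 3, 3, 3, 1, 0, 5, 0, 6, 5, 3, 2, 1, 5, 1, 3, 1, 0, 3, 1, 1, 5, 1, 0, 1, 4, 2,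 0, 3, 0, 1, 0, 1, 0, 1, 0, 5, 3, 1, 2, 2, 0, 1, 2, 1, 0, 3, 0, 0, 1, 0, 1, 1, 1, 0, 1, 1, 3, 1, 3, 3, 1, 1, 2, 4, 0, 0, 0, 0, 1, 1, 0, 0, 1, 1, 1, 0, 1, 1, 3, 3, 1, 0, 0, 1, 1, 0, 0, 0, 2, 3, 1, 2, 0, 0, 0, 0, 4, 5, 0, 7, 1, 1, 5, 3, 0, 1, 1, 1, 1, 3, 1, 1, 1, 1, 0, 1, 0, 0, 2, 0, 1, 0, 1, 1, 3, 2, 0, 1, 2, 4, 0, 1, 1, 0, 2, 0, 4, 4, 2, 4, 0, 1, 1, 3, 1, 0, 0, 1, 3, 1, 0, 3, 5, 2, 1, 2, 1, 0, 0, 2, 0, 3, 2, 0, 4, 0, 1, 1, 1, 1, 1, 0, 4, 1, 1, 0, 1, 3, 1, 2, 2, 1, 2, 2, 4, 0, 1, 1, 0, 4, 1, 1, 3, 0, 0, 5, 0, 0, 1, 1, 1, 1, 1, 0, 1, 1, 4, 0, 1, 0, 0, 4, 1, 0, 2, 0, 2, 2, 0, 1, 1, 3, 2, 1, 5, 3, 0, 0, 1, 0, 0, 4, 5, 6, 0, 0,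 1, 0, 1, 1, 2, 1, 0, 1, 0, 0, 3, 1, 0, 2, 2, 2, 7, 0, 1, 1, 1, 3, 1, 1, 1, 3, 5, 2, 0, 3, 5, 1, 0, 0, 0, 0, 5, 1, 0, 0, 6] .nil)))))))]

theorem ok5 : run B sp W5 W6 G5 Y5 Y6 663 K5 D5 = true := by decide +kernel

end Vale.Agent.P236K.Cert.Pl.P96
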