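import Vale.Agent.P236K.P96.B
import Vale.Agent.P236K.P96.A6
import Vale.Agent.P236K.P96.A7

/-!
# P236K / P96 / R6 : the check of degree 6
-/

noncomputable section

namespace Vale.Agent.P236K.Cert.Pl.P96

/-- rows given by data -/
noncomputable def D6 : List DL := [.nil,
  .nil,
  .nil,
  .nil,
  .nil,
  .nil,
  .nil,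
  .nil,
  .nil,
  .nil,
  (.cons 2 0 0 0 0 (.cons 0 0 0 .nil) [] .nil),
  .nil,
  (.cons 2 0 0 0 0 (.cons 0 1 0 .nil) [] (.cons 1 0 0 0 0 (.cons 5 0 0 .nil) [] .nil)),
  (.cons 0 1 0 0 0 (.cons 9 0 0 .nil) [1] .nil),
  (.cons 2 1 0 0 0 (.cons 0 2 0 .nil) [] (.cons 1 0 0 0 0 (.cons 5 0 0 .nil) [4] .nil)),
  .nil,
  (.cons 2 2 0 0 0 (.cons 0 3 0 .nil) [] (.cons 1 0 0 0 0 (.cons 9 0 0 .nil) [2, 2] .nil)),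
  .nil,
  (.cons 2 0 0 0 0 (.cons 0 4 0 .nil) [] (.cons 1 0 0 0 0 (.cons 9 0 0 .nil) [2, 1, 1, 3] .nil)),
  (.cons 0 3 0 0 0 (.cons 10 0 0 .nil) [5] .nil),
  (.cons 1 0 0 0 0 (.cons 9 0 0 .nil) [3, 1, 2, 3] .nil),
  (.cons 0 1 0 0 0 (.cons 10 0 0 .nil) [1] (.cons 2 3 0 0 0 (.cons 0 5 1 .nil) [0, 7, 5] .nil)),
  (.cons 0 4 0 0 0 (.cons 9 1 0 .nil) [6] (.cons 1 0 0 0 0 (.cons 9 0 0 .nil) [1, 7, 0, 1, 0, 0] .nil)),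
  (.cons 2 4 0 0 0 (.cons 0 6 1 .nil) [9, 0, 6] .nil),
  (.cons 0 2 0 0 0 (.cons 9 1 0 .nil) [5] (.cons 1 0 0 0 0 (.cons 9 0 0 .nil) [8, 2, 1, 0] .nil)),
  (.cons 2 5 0 0 0 (.cons 0 7 1 .nil) [] .nil),
  (.cons 1 0 0 0 0 (.cons 9 0 0 .nil) [10, 3] .nil),
  (.cons 2 3 0 0 0 (.cons 0 8 0 .nil) [13, 1, 8, 3] .nil),
  (.cons 0 6 0 0 0 (.cons 9 0 0 .nil) [] (.cons 1 0 0 0 0 (.cons 10 0 0 .nil) [1, 12, 1, 0, 7, 1, 2, 1, 0] .nil)),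
  (.cons 2 1 0 0 0 (.cons 0 9 1 .nil) [1, 6, 4, 12, 1, 11] .nil),
  (.cons 0 4 0 0 0 (.cons 10 0 0 .nil) [2] (.cons 1 0 0 0 0 (.cons 10 1 0 .nil) [0, 2, 0, 2, 0, 0, 0, 3, 0, 10, 0, 2, 2, 0] .nil)),
  (.cons 0 7 0 0 0 (.cons 9 0 0 .nil) [] .nil),
  (.cons 0 2 0 0 0 (.cons 10 1 0 .nil) [2] .nil),
  (.cons 0 5 0 0 0 (.cons 9 2 0 .nil) [12] .nil),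
  .nil,
  (.cons 0 3 0 0 0 (.cons 9 0 0 .nil) [17] .nil),
  (.cons 0 6 0 0 0 (.cons 10 1 0 .nil) [1] .nil),
  .nil,
  (.cons 0 4 0 0 0 (.cons 10 0 0 .nil) [] (.cons 2 1 0 0 0 (.cons 0 10 0 .nil) [1, 3, 10, 8, 1, 12, 1, 2, 1, 0, 0, 10, 1, 1, 1, 8, 1, 0] .nil)),
  (.cons 0 7 0 0 0 (.cons 9 0 0 .nil) [] .nil),
  (.cons 0 0 1 0 0 (.cons 9 0 0 .nil) [6, 15, 1] (.cons 2 2 0 0 0 (.cons 0 11 0 .nil) [7, 23, 4, 5, 4, 0, 3, 7, 5, 8, 3, 1, 1, 6, 4] .nil)),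
  (.cons 0 5 0 0 0 (.cons 10 1 0 .nil) [0] (.cons 1 0 0 0 0 (.cons 11 0 0 .nil) [0, 3, 1, 0, 11, 3, 1, 0, 2, 1, 3, 2, 10, 0, 2, 0, 2, 8, 7, 3, 1, 6, 1, 0, 0] .nil)),
  (.cons 0 8 0 0 0 (.cons 9 0 0 .nil) [] .nil),
  (.cons 0 3 0 0 0 (.cons 11 0 0 .nil) [3] .nil),
  (.cons 0 6 0 0 0 (.cons 9 1 0 .nil) [22] .nil),
  (.cons 2 3 0 0 0 (.cons 0 12 0 .nil) [5, 26, 0, 1, 2, 1, 2, 3, 3, 5, 4, 4, 3, 3, 7, 1, 0, 1, 2, 0, 3, 3, 4, 3, 2, 2, 4] (.cons 2 9 0 0 0 (.cons 0 13 1 .nil) [7, 31, 5, 15, 22, 4, 4, 0, 1, 3, 1, 8, 6, 8, 0] (.cons 1 0 0 0 0 (.cons 5 13 0 .nil) [9, 0, 6, 3, 1, 1, 15, 0, 4, 6, 1, 2, 4, 5, 6, 1, 1, 7, 3, 0, 1, 3, 8,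 5, 0, 2, 5, 1] .nil))),
  (.cons 0 4 0 0 0 (.cons 9 0 0 .nil) [29] (.cons 1 0 0 0 0 (.cons 10 0 0 .nil) [6, 12, 2, 3, 0, 3, 3, 4, 1, 3, 2, 1, 0, 2, 0, 2, 0, 1, 1, 0, 1, 3, 1, 3, 3, 1, 3, 2, 0, 1, 3, 0, 1, 0, 1, 0, 1, 2, 0, 1, 1, 5, 6] .nil)),
  (.cons 0 7 0 0 0 (.cons 10 1 0 .nil) [] .nil),
  (.cons 0 8 2 0 0 (.cons 10 1 0 .nil) [1, 0, 25, 1, 0, 8, 10, 1, 4, 1, 19, 0] (.cons 0 4 0 0 0 (.cons 11 0 0 .nil) [4] .nil)),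
  .nil,
  (.cons 0 8 0 0 0 (.cons 9 0 0 .nil) [] .nil),
  (.cons 0 5 0 0 0 (.cons 9 3 0 .nil) [34] (.cons 2 3 0 0 0 (.cons 0 14 0 .nil) [1, 5, 1, 7, 2, 1, 5, 1, 0, 3, 21, 1, 2, 1, 7, 4, 1, 1, 7, 5, 4, 0, 0, 0, 0, 0, 0, 3, 0, 2, 3, 7, 0, 0, 2, 0, 4, 0, 0, 3, 1, 2, 4, 0, 3, 0, 7, 2] (.cons 1 0 0 0 0 (.cons 9 1 0 .nil) [10, 1, 2, 0, 3, 5, 19, 2, 10, 0, 8, 1, 3, 1, 9, 0, 0, 0, 7, 1, 0, 0, 1, 0, 0, 2, 1, 4, 3, 3, 1, 3, 0, 1, 0, 1, 6, 2, 1, 0, 1, 1, 0, 1, 0, 0, 2, 6] .nil))),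
  (.cons 0 10 0 0 0 (.cons 10 0 0 .nil) [41, 1] .nil),
  (.cons 0 8 1 0 0 (.cons 9 0 0 .nil) [14] .nil),
  (.cons 0 10 0 0 0 (.cons 10 0 0 .nil) [] (.cons 0 4 0 0 0 (.cons 10 1 0 .nil) [5] (.cons 0 6 0 0 0 (.cons 11 0 0 .nil) [1, 5] .nil))),
  (.cons 0 15 0 0 0 (.cons 9 0 0 .nil) [39] .nil),
  (.cons 0 4 0 0 0 (.cons 11 0 0 .nil) [0] (.cons 2 5 0 0 0 (.cons 0 15 1 .nil) [0, 3, 3, 0, 4, 4, 2, 3, 4, 4, 4, 1, 1, 0, 9, 0, 2, 1, 0, 0, 1, 5, 1, 4, 1, 0, 0, 7, 1, 0, 1, 6, 3, 3, 2, 3, 2, 7, 0, 1, 0, 2, 0, 1, 1, 5, 3, 3, 2, 0, 2, 1, 0, 2, 1, 2, 0, 1, 1, 3, 0, 8, 1, 9, 5, 3, 1, 0] (.cons 1 0 0 0 0 (.cons 5 21 0 .nil) [7, 1, 9, 9, 2,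 0, 19, 13, 0, 0, 12, 2, 5, 4, 9, 21, 2, 4, 1, 2, 4, 1, 11, 4, 4, 2, 0, 1, 9, 1, 1, 0, 3, 1, 1, 1, 4, 3, 1, 4, 2, 4, 0, 4] .nil))),
  (.cons 0 7 0 0 0 (.cons 9 0 0 .nil) [] (.cons 0 19 0 0 0 (.cons 9 1 0 .nil) [7, 37, 0] (.cons 1 0 0 0 0 (.cons 10 1 0 .nil) [16, 4, 1, 12, 0, 0, 9, 0, 1, 0, 7, 1, 0, 0, 0, 2, 0, 15, 2, 5, 3, 6, 1, 9, 2, 0, 6, 1, 0, 0, 1, 0, 2, 2, 0, 0, 0, 4, 5, 1, 0, 1, 4, 3, 3, 0, 0, 4, 1, 1, 0, 0, 1, 1, 1, 0, 0, 3, 0, 2, 3, 1, 1, 1, 2, 1, 1, 0, 2, 0, 1] .nil))),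
  (.cons 2 5 0 0 0 (.cons 0 16 1 .nil) [8, 1, 15, 22, 7, 1, 23, 12, 8, 4, 3, 27, 0, 8, 1, 0, 3, 0, 1, 1, 3, 3, 2, 0, 1, 0, 3, 10, 0, 0, 1, 4, 0, 6, 1, 0, 14, 4, 14] (.cons 1 0 0 0 0 (.cons 5 0 0 .nil) [8, 1, 0, 3, 4, 0, 1, 2, 6, 1, 16, 1, 0, 1, 2, 3, 3, 3, 4, 5, 0, 0, 2, 0, 0, 1, 5, 2, 2, 7, 0, 4, 4, 4, 0, 0, 6, 0, 1, 4, 0, 0, 2, 3, 3, 2, 1, 1, 0, 1, 4, 1, 0, 1, 0, 1, 2, 0, 0, 2, 0, 4, 2, 1, 4, 0, 11, 2, 0, 7, 0, 1, 1] .nil)),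
  (.cons 0 8 0 0 0 (.cons 9 0 0 .nil) [47] (.cons 0 6 0 0 0 (.cons 10 1 0 .nil) [4, 42] .nil)),
  (.cons 0 15 0 0 0 (.cons 9 1 0 .nil) [50] (.cons 1 0 0 0 0 (.cons 9 4 0 .nil) [1, 7, 2, 21, 1, 17, 1, 1, 2, 0, 0, 0, 14, 2, 0, 7, 4, 1, 0, 6, 7, 1, 0, 5, 5, 1, 3, 0, 2, 0, 6, 3, 1, 2, 0, 0, 6, 0, 0, 2, 3, 0, 1, 1, 4, 3, 1, 1, 1, 1, 0, 0, 0, 0, 3, 1, 2, 4, 1, 1, 1, 3, 1, 0, 2, 1, 0, 0, 1, 2, 1, 6, 2, 7, 2, 2, 2, 0] .nil)),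
  (.cons 0 14 0 0 0 (.cons 10 0 0 .nil) [] (.cons 0 6 0 0 0 (.cons 10 1 0 .nil) [4] .nil)),
  (.cons 0 19 0 0 0 (.cons 9 3 0 .nil) [45, 2] (.cons 2 4 0 0 0 (.cons 0 17 0 .nil) [9, 5, 39, 9, 5, 4, 3, 0, 6, 1, 0, 1, 6, 9, 17, 2, 2, 2, 3, 0, 2, 2, 17, 0, 0, 1, 0, 3, 9, 5, 5, 0, 2, 0, 1, 1, 0, 0, 11, 0, 2, 5, 1, 1, 0, 2, 0, 1, 1, 0, 2, 3, 5, 0, 2, 4, 0, 3, 2, 2, 4, 4, 0, 11] (.cons 1 0 0 0 0 (.cons 9 1 0 .nil) [19, 5, 1, 1, 2, 7, 10, 7, 4, 3, 0, 7, 1, 0, 0, 1, 3, 0, 0, 1, 1, 1, 2, 3, 0, 6, 2, 0, 3, 0, 0, 3, 1, 5, 2, 1, 0, 0, 4, 2, 6, 3, 3, 2, 1, 2, 0, 0, 6, 0, 3, 0, 2, 2, 2, 3, 4, 0, 1, 4, 1, 1, 0, 0, 1, 3, 0, 3, 1, 0, 0, 1, 20,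 1, 7, 1, 1, 0, 1, 0, 2, 4, 4, 2, 4, 1, 0, 0] .nil))),
  (.cons 0 14 0 0 0 (.cons 10 2 0 .nil) [] (.cons 0 15 0 0 0 (.cons 10 3 0 .nil) [1, 3, 50] (.cons 2 0 0 0 0 (.cons 0 18 1 .nil) [9, 1, 7, 26, 13, 2, 1, 2, 11, 1, 3, 0, 3, 1, 2, 5, 2, 2, 2, 0, 3, 0, 3, 1, 8, 1, 1, 1, 1, 2, 3, 3, 1, 0, 17, 2, 1, 2, 1, 1, 0, 1, 1, 5, 0, 1, 0, 7, 1, 4, 1, 1, 1, 1, 2, 2, 1, 0, 1, 0, 1, 2, 0, 5, 0, 8, 1, 0, 1, 3, 1, 0, 2, 3, 1, 4, 1, 0, 1, 1, 6, 0, 1, 5, 2, 0, 2, 1, 0, 0, 3, 3] (.cons 1 0 0 0 0 (.cons 11 0 0 .nil) [6, 3, 1, 3, 1, 32, 8, 1, 3, 0, 0, 0, 9, 2, 1, 0, 1, 1, 12, 4, 2, 4, 3, 1, 1, 8, 0, 12, 3, 1, 1, 9, 5, 0, 1, 1, 6, 0, 4, 2, 3, 1,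 3, 0, 0, 6, 0, 2, 1, 4, 1, 0, 1, 3, 4, 1, 1, 9, 1, 0, 0, 1, 0, 5, 6, 2, 0, 1, 0, 3, 0, 1, 1, 1, 4, 1, 0, 7, 0, 0, 4, 0, 1] .nil)))),
  (.cons 0 14 1 0 0 (.cons 9 3 0 .nil) [57, 0, 51, 16, 0] (.cons 1 0 0 0 0 (.cons 9 1 0 .nil) [0, 4, 19, 0, 4, 0, 0, 4, 0, 3, 0, 5, 0, 3, 0, 0, 1, 3, 0, 2, 4, 0, 0, 0, 1, 0, 2, 5, 0, 1, 7, 3, 0, 1, 0, 0, 3, 3, 1, 1, 4, 3, 4, 0, 1, 2, 1, 0, 1, 0, 1, 2, 9, 0, 2, 1, 5, 2, 0, 1, 3, 0, 4, 5, 0, 1, 0, 0, 0, 3, 1, 4, 1, 1, 1, 0, 0, 0, 3, 2, 1, 1, 1, 1, 0, 1, 2, 3, 3, 4, 3, 0, 1, 1, 1, 3, 2, 1, 1, 1, 0, 0, 1, 5, 2, 4, 1, 4, 2, 1, 1, 0, 5, 0] (.cons 1 0 0 0 0 (.cons 11 0 0 .nil) [7, 3, 19, 10, 7, 0, 8,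 0, 5, 1, 0, 0, 2, 0, 1, 4, 1, 0, 3, 0, 7, 2, 1, 8, 1, 0, 3, 2, 7, 1, 0, 1, 1, 1, 2, 1, 0, 1, 1, 0, 12, 5, 1, 9, 0, 1, 1, 1, 3, 1, 0, 5, 0, 1, 2, 0, 0, 0, 1, 1, 0, 1, 1, 1, 4, 1, 1, 1, 0, 0, 1, 0, 2, 0, 0, 0, 2, 3, 0, 2, 2, 5, 0, 0, 9, 2, 3, 0, 2, 5, 1, 1, 1, 1, 3, 3, 3, 2, 1, 0, 1, 1, 5, 1] .nil))),
  (.cons 0 10 0 0 0 (.cons 10 1 0 .nil) [3, 0] (.cons 2 7 0 0 0 (.cons 0 19 1 .nil) [0, 2, 3, 2, 0, 1, 0, 16, 0, 5, 1, 1, 3, 12, 6, 0, 1, 3, 0, 2, 2, 1, 0, 2, 5, 0, 4, 3, 3, 1, 3, 2, 3, 1, 2, 0, 3, 2, 6, 2, 4, 0, 1, 2, 3, 1, 0, 1, 3, 1, 3, 2, 0, 0, 1, 1, 2, 1, 2, 0, 1, 2, 11, 1, 0, 5, 1, 0, 1, 1, 4, 3, 1, 0, 0, 1, 2, 1, 0, 1, 3,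 4, 1, 2, 0, 8, 3, 9, 7, 7, 0, 1, 0, 2, 0, 1, 3, 1, 4, 6, 2, 1, 0, 2, 2, 1, 2] .nil)),
  (.cons 0 20 0 0 0 (.cons 9 2 0 .nil) [5] (.cons 1 0 0 0 0 (.cons 9 3 0 .nil) [1, 0, 3, 4, 0, 0, 2, 0, 3, 0, 1, 2, 1, 1, 0, 3, 0, 1, 1, 0, 0, 7, 1, 1, 0, 3, 0, 2, 0, 0, 1, 1, 1, 3, 0, 1, 1, 4, 3, 4, 1, 1, 0, 0, 0, 5, 0, 2, 0, 0, 0, 1, 1, 3, 0, 0, 1, 1, 2, 1, 3, 1, 0, 5, 2, 0, 0, 3, 1, 1, 1, 0, 0, 2, 2, 2, 1, 1, 2, 3, 0, 1, 8, 4, 1, 6, 0, 0, 2, 3, 1, 2, 0, 0, 7, 1, 1, 1, 2, 2, 1, 1, 2, 0, 2, 0, 1, 3, 0, 1, 6, 1, 1, 6, 0, 0, 2, 10, 1, 4, 1, 1, 2, 3, 5, 3, 1, 1, 2, 3, 1, 0, 1, 0, 1] (.cons 1 0 0 0 0 (.cons 11 1 0 .nil) [2, 3, 0, 1, 0, 0, 3,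 1, 0, 0, 1, 8, 0, 2, 1, 0, 2, 1, 0, 5, 1, 0, 0, 5, 1, 3, 0, 1, 3, 3, 1, 0, 0, 0, 1, 0, 0, 1, 0, 1, 1, 1, 0, 3, 4, 0, 0, 9, 0, 0, 0, 3, 4, 3, 3, 1, 1, 1, 1, 0, 3, 7, 0, 0, 0, 1, 0, 1, 1, 0, 0, 2, 0, 0, 1, 3, 1, 1, 4, 0, 5, 0, 7, 3, 1, 1, 1, 2, 0, 0, 1, 5, 0, 4, 0, 1, 3, 0, 7, 9, 0, 3, 11, 0, 0, 1, 1, 0, 0, 1, 0, 1, 1, 0, 1, 1, 4, 0, 2, 0, 7, 9, 1, 5, 0, 0, 1, 1, 1, 5, 3, 1, 2] .nil))),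
  (.cons 0 20 1 0 0 (.cons 5 0 0 .nil) [145] (.cons 2 6 0 0 0 (.cons 0 20 1 (.cons 0 21 1 .nil)) [8, 4, 1, 21, 8, 17, 6, 3, 1, 2, 2, 0, 8, 9, 0, 0, 2, 2, 3, 5, 9, 13, 4, 1, 1, 2, 9, 0, 1, 1, 1, 9, 0, 8, 5, 0, 3, 0, 2, 1, 1, 1, 2, 5, 1, 1, 2, 1, 3, 0, 1, 0, 0, 0, 3, 1, 7, 1, 3, 2, 1, 0, 0, 3, 0, 3, 1, 1, 7, 3, 5, 4, 0, 1, 1, 0, 1, 0, 4, 0, 4, 5, 2, 15, 7, 3, 0, 3, 1, 1, 1, 2, 1, 1, 0, 5, 3, 5] (.cons 2 8 0 0 0 (.cons 0 21 1 .nil) [2, 2, 0, 1, 4, 0, 3, 8, 1, 12, 0, 0, 2, 1, 9, 2, 0, 2, 3, 3, 11, 2, 0, 0, 1, 0, 2, 4, 5, 4, 1, 1, 2, 0, 0, 0, 2, 1, 0, 2, 6, 13, 5, 4, 1, 1, 0, 0, 1, 1, 4, 1, 1, 0, 1, 5, 5, 0, 3, 2, 1, 1, 1, 3, 0,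 2, 0, 2, 0, 1, 0, 3, 1, 1, 1, 1, 2, 0, 0, 3, 0, 1, 0, 1, 2, 1, 0, 0, 0, 1, 3, 1, 0, 0, 0, 1, 3, 6, 1, 2, 1, 2, 0, 6, 1, 0, 0, 0, 7, 3, 2, 3, 8, 4, 2, 1, 0, 0, 1, 1, 1, 6, 2, 1, 0, 1] .nil))),
  (.cons 0 16 0 0 0 (.cons 9 0 0 .nil) [4, 54] (.cons 0 17 0 0 0 (.cons 9 3 0 .nil) [1, 5, 49, 5] (.cons 1 0 0 0 0 (.cons 10 0 0 .nil) [2, 6, 0, 0, 7, 12, 0, 3, 0, 3, 1, 5, 5, 4, 3, 3, 1, 2, 5, 0, 9, 2, 1, 2, 0, 7, 3, 1, 0, 1, 0, 0, 3, 3, 0, 1, 1, 11, 0, 0, 0, 0, 1, 1, 2, 4, 0, 4, 0, 0, 0, 5, 0, 5, 2, 0, 0, 3, 3, 1, 0, 0, 2, 1, 1, 3, 2, 0, 1, 1, 2, 0, 1, 0, 6, 3, 1, 0, 2, 1, 4, 2, 1, 1, 0, 0, 5, 0, 3, 0, 0, 3, 2, 3, 1, 0, 0, 1, 1, 2,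 0, 0, 1, 4, 5, 1, 0, 0, 0, 1, 3, 1, 5, 1, 2, 3, 1, 3, 0, 0, 1, 1, 1, 0, 0, 3, 1, 1, 1, 0, 0, 1, 1, 1, 4, 6, 1, 0, 1] .nil))),
  (.cons 0 16 0 0 0 (.cons 10 1 0 .nil) [2] (.cons 2 3 0 0 0 (.cons 0 22 1 .nil) [16, 3, 1, 1, 0, 7, 0, 6, 1, 0, 3, 5, 25, 2, 0, 9, 0, 1, 5, 6, 19, 3, 1, 1, 5, 19, 0, 1, 17, 3, 3, 6, 0, 2, 1, 2, 6, 1, 0, 2, 6, 1, 5, 1, 3, 5, 0, 2, 1, 0, 1, 0, 0, 5, 1, 1, 0, 0, 0, 1, 3, 1, 0, 1, 7, 0, 4, 1, 1, 7, 2, 6, 0, 6, 3, 3, 0, 7, 0, 0, 3, 0, 0, 2, 2, 1, 0, 1, 1, 7, 5, 6, 0, 1, 3, 0, 1, 1, 1, 7, 1, 2, 9, 4, 0, 4] .nil)),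
  (.cons 0 17 0 0 0 (.cons 9 0 0 .nil) [66] (.cons 0 7 0 0 0 (.cons 10 0 0 .nil) [6] (.cons 2 10 0 0 0 (.cons 0 23 0 .nil) [20, 1, 2, 21, 5, 18, 8, 2, 3, 9, 2, 0, 4, 2, 0, 20, 2, 0, 1, 14, 8, 1, 3, 10, 2, 1, 3, 2, 3, 2, 9, 3, 1, 2, 0, 1, 1, 5, 0, 2, 1, 0, 1, 1, 2, 1, 1, 0, 0, 3, 4, 5, 0, 0, 1, 0, 0, 1, 1, 0, 5, 1, 0, 0, 1, 3, 0, 1, 2, 0, 1, 1, 0, 4, 4, 4, 0, 2, 1, 3, 5, 0, 0, 0, 2, 1, 0, 2, 0, 0, 1, 1, 0, 1, 0, 6, 1, 2, 0, 1, 3, 1, 3, 3, 1, 0, 1, 0, 4, 1, 0, 1, 5, 3, 4, 0, 1, 6, 2, 0, 4, 2] (.cons 1 0 0 0 0 (.cons 11 0 0 .nil) [5, 1, 2, 3, 1, 1, 3, 3, 28, 0, 5, 6, 0, 0, 3, 0, 1, 1, 0, 0, 0, 2, 7, 15, 3, 0, 5, 1, 2, 3, 0, 0,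 0, 1, 0, 2, 3, 4, 1, 2, 5, 5, 5, 0, 3, 2, 2, 0, 2, 4, 15, 2, 0, 0, 0, 2, 3, 0, 5, 0, 1, 2, 1, 1, 3, 1, 0, 0, 3, 0, 1, 7, 1, 7, 4, 0, 1, 3, 2, 0, 0, 0, 4, 1, 0, 3, 5, 6, 2, 3, 5, 3, 0, 0, 0, 1, 1, 0, 2, 0, 4, 1, 2, 0, 1, 0, 0, 1, 0, 1, 0, 1, 3, 5, 9, 3, 5, 0, 0, 0, 1, 0, 5, 1, 5, 0, 0, 5, 0, 5, 9] .nil)))),
  (.cons 0 21 0 0 0 (.cons 5 1 0 .nil) [1, 67] (.cons 2 4 0 0 0 (.cons 0 24 1 .nil) [9, 0, 2, 7, 1, 9, 0, 3, 1, 0, 0, 5, 9, 9, 3, 1, 1, 4, 5, 1, 3, 0, 4, 5, 0, 1, 0, 0, 1, 0, 3, 2, 11, 1, 1, 1, 0, 5, 0, 6, 0, 7, 2, 1, 0, 3, 0, 0, 3, 0, 1, 1, 1, 1, 0, 2, 1, 0, 1, 0, 1, 3, 1, 0, 0, 7, 1, 2, 3, 1, 2, 9, 1, 2, 2, 1, 0, 7, 3,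 3, 6, 4, 2, 4, 4, 0, 1, 1, 1, 0, 2, 0, 1, 1, 2, 0, 0, 1, 8, 1, 0, 2, 0, 1, 1, 2, 1, 2, 0, 0, 0, 0, 2, 0, 1, 5, 1, 0, 3, 8, 1, 0, 5, 4, 0, 0, 10, 1, 3, 1, 5, 0, 0, 0, 1, 0, 0, 1, 0, 0, 0, 7, 2, 2, 2, 1, 3, 1, 2] (.cons 1 0 0 0 0 (.cons 10 0 0 .nil) [10, 0, 2, 2, 3, 4, 4, 6, 0, 0, 2, 1, 2, 3, 8, 1, 3, 0, 1, 3, 2, 1, 1, 1, 3, 1, 0, 1, 3, 3, 1, 0, 1, 2, 4, 2, 9, 1, 0, 1, 7, 0, 7, 0, 3, 3, 4, 3, 0, 1, 0, 5, 2, 2, 0, 0, 0, 3, 2, 3, 1, 4, 0, 6, 0, 5, 3, 2, 2, 1, 0, 3, 0, 0, 3, 0, 3, 2, 0, 0, 9, 0, 2, 1, 1, 0, 4, 0, 3, 4, 2, 0, 0, 4, 1, 3, 3, 0, 0, 4, 0, 0, 2, 5, 5, 3, 1, 0, 0, 0, 1, 0, 4, 4, 1, 1, 1, 0, 0, 0, 6, 1, 1, 7, 0, 2, 1,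 2, 1, 2, 1, 1, 1, 0, 4, 1, 0, 1, 0, 2, 1, 0, 0, 2, 1, 1, 1, 1, 0, 7, 1, 1, 0, 0, 1, 0] .nil))),
  (.cons 0 20 0 0 0 (.cons 5 37 0 .nil) [] (.cons 0 5 2 0 0 (.cons 9 1 0 .nil) [38, 153, 2, 1, 1] (.cons 0 20 1 0 0 (.cons 11 1 0 .nil) [2, 6, 64, 60, 1, 35, 16, 2, 1, 0] (.cons 2 7 0 0 0 (.cons 0 25 1 .nil) [1, 0, 10, 0, 1, 1, 2, 3, 9, 9, 0, 5, 1, 11, 11, 5, 0, 2, 0, 4, 1, 0, 1, 3, 5, 1, 3, 0, 3, 0, 0, 1, 2, 4, 1, 1, 2, 5, 0, 5, 4, 4, 1, 2, 2, 0, 1, 0, 7, 0, 1, 3, 1, 1, 0, 0, 1, 0, 2, 3, 0, 4, 0, 1, 1, 0, 1, 13, 1, 0, 2, 1, 1, 1, 1, 3, 0, 0, 3, 1, 0, 4, 2, 1, 1, 0, 1, 2, 0, 3, 1, 1, 2, 1, 0, 1, 0, 2, 1, 0, 2, 0, 7, 0, 1, 1, 0,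 0, 4, 3, 3, 2, 2, 4, 3, 0, 0, 5, 0, 3, 0, 6, 5, 2, 5, 0, 1, 3, 0, 3, 2, 0, 0, 2, 0, 0, 14, 4, 1, 1, 2, 1, 1, 3, 0, 0, 2, 1, 7, 1, 5, 3, 1, 1] (.cons 1 0 0 0 0 (.cons 11 2 0 .nil) [2, 1, 6, 0, 0, 2, 0, 0, 1, 2, 2, 5, 8, 1, 4, 0, 6, 2, 6, 0, 0, 3, 7, 1, 6, 0, 1, 1, 2, 0, 0, 1, 0, 0, 0, 1, 0, 0, 2, 2, 1, 0, 0, 4, 2, 2, 1, 3, 1, 10, 5, 8, 2, 1, 0, 1, 0, 1, 0, 0, 0, 5, 2, 7, 5, 1, 2, 2, 1, 1, 1, 1, 1, 0, 0, 0, 1, 0, 0, 2, 1, 5, 6, 1, 0, 1, 1, 2, 2, 2, 0, 2, 1, 0, 3, 0, 1, 1, 3, 0, 0, 1, 3, 1, 0, 0, 3, 9, 2, 1, 1, 3, 0, 0, 0, 1, 1, 5, 1, 3, 5, 2, 0, 1, 0, 1, 0, 0, 1, 2, 2, 1, 0, 1, 0, 0, 1, 4, 1, 0, 1, 3, 3, 0, 0, 3, 1, 1, 4, 3,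 3, 8, 1, 1, 1, 2, 1, 0, 1, 1, 3, 1, 3, 5, 3, 4, 2] .nil))))),
  (.cons 0 16 2 0 0 (.cons 9 36 0 .nil) [79, 0, 2, 0, 15, 3, 31, 0, 0, 61, 1, 2] (.cons 0 14 0 0 0 (.cons 9 1 0 .nil) [7, 71] (.cons 2 5 0 0 0 (.cons 0 27 1 .nil) [1, 1, 3, 0, 7, 0, 3, 5, 10, 9, 5, 2, 2, 3, 0, 6, 2, 1, 7, 2, 3, 6, 0, 5, 6, 0, 3, 0, 0, 2, 0, 3, 0, 3, 2, 5, 0, 3, 3, 1, 3, 0, 18, 0, 6, 0, 2, 3, 6, 1, 3, 0, 4, 0, 0, 0, 1, 0, 1, 0, 3, 1, 0, 1, 1, 7, 1, 1, 1, 3, 3, 1, 1, 1, 0, 1, 0, 0, 0, 1, 1, 1, 1, 1, 0, 3, 0, 1, 3, 1, 1, 0, 0, 0, 1, 2, 1, 0, 1, 0, 7, 1, 7, 3, 4, 0, 8, 2, 0, 1, 1, 0, 0, 1, 1, 1, 0, 9, 2, 3, 0, 7, 3, 1, 9, 0, 0, 3, 2, 0, 3, 1, 2, 3,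 9, 1, 0, 2, 0, 0, 5, 1, 3, 1, 0, 0, 3, 0, 2, 0, 4, 0, 5, 8, 9, 0, 1] (.cons 2 27 0 0 0 (.cons 0 26 0 .nil) [4, 12, 9, 8, 11, 5, 0, 1, 1, 3, 1, 16, 7, 0, 0, 2, 11, 0, 1, 1, 1, 6, 1, 1, 3, 0, 0, 9, 2, 0, 0, 5, 1, 2, 7, 1, 0, 2, 1, 1, 2, 2, 2, 14, 5, 1, 1, 2, 1, 0, 0, 1, 3, 2, 1, 0, 0, 0, 8, 1, 1, 1, 0, 12, 2, 2, 0, 1, 1, 1, 1, 0, 0, 0, 1, 0, 1, 0, 1, 4, 0, 5, 7, 0, 1, 0, 1, 0, 0, 2, 0, 0, 2, 0, 0, 0, 3, 2, 2, 0, 1, 6, 3, 1, 0, 0, 0, 0, 1, 2, 1, 2, 1, 0, 0, 4, 0, 0, 1, 5, 3, 0, 2, 0, 0, 3, 1, 2, 0, 1, 0, 0, 1, 2, 1, 1, 2, 1, 2, 1, 1, 1, 1, 7, 2, 0, 1, 4, 0, 5, 3, 2, 1, 1, 0, 13, 4] .nil)))),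
  (.cons 0 21 0 0 0 (.cons 10 3 0 .nil) [3, 22, 43, 1, 3] (.cons 0 19 0 0 0 (.cons 10 1 0 .nil) [73] .nil)),
  (.cons 0 16 2 0 0 (.cons 5 1 0 .nil) [88, 3, 21, 33, 3, 0, 5, 35, 27] (.cons 0 20 2 0 0 (.cons 9 1 0 .nil) [0, 87, 4, 17, 3, 34] (.cons 0 10 0 0 0 (.cons 9 0 0 .nil) [85] (.cons 2 6 0 0 0 (.cons 0 28 1 .nil) [1, 3, 10, 2, 1, 4, 0, 0, 3, 0, 1, 3, 9, 1, 1, 1, 3, 1, 0, 0, 1, 1, 5, 1, 6, 1, 0, 5, 1, 0, 2, 0, 5, 4, 0, 0, 4, 1, 0, 0, 6, 0, 1, 7, 13, 0, 5, 3, 0, 3, 2, 0, 0, 2, 2, 1, 5, 2, 2, 4, 0, 7, 1, 0, 7, 13, 1, 1, 0, 0, 1, 3, 3, 1, 0, 9, 1, 1, 0, 3, 3, 1, 0, 2, 1, 1, 0, 0, 0, 0, 3, 0, 0, 1, 1, 1, 3, 1, 0, 1, 0, 1, 1,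 0, 0, 1, 3, 5, 1, 5, 1, 5, 4, 0, 0, 3, 0, 1, 1, 2, 5, 13, 1, 0, 1, 3, 3, 0, 0, 3, 0, 2, 0, 0, 5, 1, 5, 1, 0, 3, 1, 1, 1, 4, 2, 1, 3, 0, 0, 2, 9, 1, 0, 5, 1, 0, 3, 2, 5, 2, 0, 0, 1, 1, 0, 1, 0, 5, 3, 1, 0, 0, 0, 1, 1, 2, 1, 1, 1, 1, 2, 1, 1, 0, 4, 4] (.cons 1 0 0 0 0 (.cons 11 0 0 .nil) [5, 0, 7, 0, 2, 1, 1, 1, 2, 2, 7, 5, 8, 3, 3, 0, 1, 0, 0, 0, 1, 0, 5, 5, 0, 0, 3, 0, 0, 0, 0, 0, 0, 3, 0, 7, 1, 1, 2, 2, 1, 0, 1, 2, 1, 0, 6, 0, 1, 3, 2, 1, 0, 2, 1, 5, 0, 1, 3, 0, 0, 4, 0, 4, 1, 4, 0, 1, 3, 5, 1, 0, 1, 0, 2, 0, 2, 0, 0, 0, 3, 0, 0, 0, 1, 1, 1, 1, 0, 1, 4, 2, 2, 6, 1, 0, 1, 0, 1, 1, 4, 0, 0, 2, 0, 0, 0, 0, 0, 0, 3, 1, 2, 0,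 3, 3, 0, 1, 5, 1, 0, 1, 0, 3, 1, 1, 1, 0, 0, 0, 1, 3, 2, 3, 1, 0, 0, 1, 1, 0, 2, 1, 1, 1, 3, 2, 2, 1, 1, 0, 2, 0, 3, 0, 1, 0, 1, 1, 1, 1, 1, 1, 3, 0, 2, 5, 3, 2, 0, 0, 0, 9, 2, 12, 1, 4, 0, 5, 8, 1, 1, 1, 0, 1, 0, 4, 1, 3, 3, 2, 2, 3, 1, 6, 0, 3, 2, 5, 2] .nil))))),
  (.cons 0 21 2 0 0 (.cons 5 46 0 .nil) [88, 1, 55, 8, 68] (.cons 0 20 0 0 0 (.cons 9 2 0 .nil) [] (.cons 0 15 0 0 0 (.cons 10 1 0 .nil) [83, 5] (.cons 0 19 0 0 0 (.cons 10 4 0 .nil) [0, 7, 74, 5] .nil)))),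
  (.cons 0 23 0 0 0 (.cons 5 1 0 .nil) [88, 0] (.cons 0 15 1 0 0 (.cons 9 3 0 .nil) [1, 4, 27, 50, 4, 75, 2, 64, 4] (.cons 2 7 0 0 0 (.cons 0 29 1 .nil) [1, 13, 2, 3, 3, 2, 12, 3, 4, 0, 0, 1, 2, 5, 2, 3, 1, 16, 3, 0, 1, 1, 0, 0, 2, 0, 1, 0, 1, 0, 4, 2, 4, 4, 0, 0, 1, 1, 2, 4, 1, 10, 0, 0, 7, 1, 3, 1, 4, 0, 1, 1, 0, 4, 1, 3, 1, 0, 3, 3, 15, 0, 6, 0, 1, 1, 0, 3, 0, 2, 3, 4, 5, 3, 1, 1, 7, 0, 7, 3, 1, 2, 3, 0, 0, 6, 2, 0, 3, 1, 1, 1, 1, 5, 1, 0, 4, 1, 0, 3, 1, 1, 0, 2, 3, 1, 2, 1, 0, 0, 2, 1, 1, 1, 1, 1, 0, 1, 3, 0, 1, 1, 1, 1, 6, 3, 2, 1, 3, 3, 0, 1, 0, 1, 0, 1, 3, 1, 4, 1, 3, 1, 4, 1, 1, 1, 2, 3, 2, 0, 1, 1, 1, 0, 2, 0, 5,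 0, 1, 2, 1, 3, 2, 3, 1, 1, 9, 2, 1, 0, 7, 0, 1, 0, 1, 3, 1, 0, 0, 1, 1, 1, 0, 1, 0, 0, 1, 1, 0, 2, 7, 1, 0, 2, 1, 1, 8, 1, 1, 0] (.cons 1 0 0 0 0 (.cons 11 1 0 .nil) [2, 0, 1, 6, 1, 1, 0, 3, 1, 1, 2, 1, 1, 9, 0, 1, 1, 3, 5, 1, 9, 1, 2, 0, 4, 5, 0, 3, 3, 1, 1, 1, 0, 1, 0, 0, 2, 2, 7, 1, 3, 3, 2, 3, 2, 1, 0, 1, 0, 4, 1, 0, 8, 0, 4, 0, 0, 2, 0, 4, 0, 0, 1, 0, 3, 2, 2, 1, 1, 0, 1, 2, 2, 2, 0, 3, 0, 1, 0, 1, 1, 0, 0, 1, 4, 0, 0, 0, 0, 1, 0, 0, 0, 1, 0, 2, 1, 0, 3, 9, 3, 0, 0, 4, 3, 0, 2, 1, 0, 0, 7, 1, 0, 2, 1, 0, 1, 5, 1, 0, 0, 1, 0, 0, 1, 1, 1, 0, 0, 0, 2, 2, 0, 5, 4, 3, 5, 1, 1, 4, 1, 0, 2, 1, 2, 4, 0, 1, 1, 6, 0, 1, 0, 4, 3,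 2, 3, 2, 1, 1, 0, 0, 7, 1, 2, 4, 1, 0, 1, 0, 9, 1, 2, 1, 2, 2, 2, 2, 4, 0, 1, 2, 0, 0, 2, 1, 0, 2, 3, 1, 3, 0, 5, 0, 0, 4, 1, 0, 0, 0, 0, 1, 2, 0, 2, 1, 2, 1, 5, 1, 5, 1, 3, 1, 0, 0, 1] .nil)))),
  (.cons 0 21 0 0 0 (.cons 9 1 0 .nil) [41, 1] (.cons 0 10 0 0 0 (.cons 11 0 0 .nil) [2] (.cons 2 17 0 0 0 (.cons 0 30 1 .nil) [17, 8, 66, 2, 4, 0, 2, 0, 1, 2, 4, 6, 1, 2, 5, 2, 1, 0, 3, 20, 3, 3, 0, 3, 11, 0, 6, 0, 10, 2, 0, 5, 14, 2, 1, 2, 1, 0, 1, 0, 1, 6, 2, 1, 6, 8, 3, 7, 0, 3, 3, 1, 0, 4, 1, 0, 0, 1, 2, 1, 7, 3, 1, 3, 0, 2, 0, 0, 1, 0, 1, 0, 1, 4, 1, 1, 2, 0, 1, 0, 2, 0, 1, 8, 1, 2, 0, 0, 1, 0, 1, 1, 1, 0, 0, 1, 2, 0, 4, 1,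 3, 2, 7, 1, 1, 0, 4, 1, 0, 5, 2, 1, 2, 0, 2, 1, 3, 2, 1, 0, 1, 0, 7, 1, 6, 0, 11, 3, 0, 1, 4, 0, 3, 0, 4, 3, 0, 1, 0, 5, 6, 7, 0, 3, 1, 1, 6, 1, 4, 1, 7, 3, 1, 3, 0, 2, 6, 7, 2, 3] .nil))),
  (.cons 0 23 0 0 0 (.cons 5 0 0 .nil) [] (.cons 0 25 0 0 0 (.cons 9 5 0 .nil) [1] (.cons 0 21 1 0 0 (.cons 9 7 0 .nil) [174, 85] (.cons 0 14 0 0 0 (.cons 10 0 0 .nil) [98] (.cons 2 27 0 0 0 (.cons 0 31 0 .nil) [22, 3, 1, 1, 1, 3, 32, 1, 3, 1, 33, 0, 0, 0, 0, 0, 2, 1, 3, 5, 1, 3, 2, 0, 3, 0, 1, 0, 1, 3, 9, 14, 1, 0, 5, 5, 1, 19, 5, 0, 0, 2, 0, 1, 23, 1, 0, 4, 0, 5, 0, 7, 1, 7, 1, 0, 0, 0, 5, 8, 2, 1, 8, 3, 1, 1, 1, 9, 0, 6, 5, 0, 1, 5,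 2, 2, 0, 1, 0, 2, 2, 1, 0, 1, 3, 2, 1, 0, 1, 3, 2, 4, 1, 2, 6, 3, 0, 0, 2, 0, 1, 4, 6, 1, 1, 1, 0, 4, 0, 0, 0, 1, 1, 3, 0, 3, 1, 1, 3, 5, 2, 2, 3, 1, 2, 0, 0, 3, 0, 2, 0, 0, 2, 2, 0, 0, 17, 4, 0, 9, 0, 2, 1, 0, 0, 9, 5, 3, 0, 0, 3, 1, 2, 1, 1, 4, 0, 1, 4, 5, 3, 8, 3, 0, 3, 7, 2, 5, 1, 0] (.cons 1 0 0 0 0 (.cons 11 1 0 .nil) [6, 1, 1, 5, 2, 1, 1, 2, 0, 1, 1, 2, 0, 1, 1, 4, 1, 2, 2, 2, 7, 1, 2, 0, 2, 1, 3, 0, 7, 3, 0, 1, 2, 3, 0, 0, 1, 7, 2, 2, 0, 0, 5, 2, 3, 1, 0, 1, 1, 0, 0, 0, 2, 0, 1, 0, 4, 0, 0, 7, 0, 0, 1, 0, 2, 0, 2, 0, 1, 3, 0, 6, 0, 10, 1, 0, 1, 1, 1, 0, 4, 0, 1, 1, 1, 3, 0, 7, 0, 0, 3, 3, 2, 1, 0, 0, 2, 3, 0, 3, 0,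 3, 0, 7, 1, 13, 0, 3, 9, 1, 0, 0, 8, 4, 2, 4, 3, 3, 1, 1, 3, 1, 2, 2, 0, 0, 3, 1, 0, 2, 1, 1, 3, 2, 0, 1, 4, 2, 2, 1, 1, 2, 0, 0, 5, 3, 2, 0, 0, 0, 2, 0, 1, 1, 1, 1, 2, 0, 1, 8, 0, 1, 1, 4, 0, 1, 2, 1, 0, 2, 1, 1, 7, 0, 1, 0, 0, 0, 0, 0, 1, 3, 3, 0, 2, 1, 3, 1, 5, 6, 3, 1, 1, 2, 0, 5, 5, 8, 0, 0, 1, 5, 3, 1, 1, 0, 2, 2, 0, 1, 1, 0, 0, 0, 0, 3, 2, 0, 0, 0, 1, 1, 2, 3, 10, 0] .nil)))))),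
  (.cons 0 23 1 0 0 (.cons 5 3 0 .nil) [231, 31, 1, 1] (.cons 0 10 2 0 0 (.cons 9 5 0 .nil) [36, 56, 4, 4, 33, 36, 52, 30] (.cons 2 8 0 0 0 (.cons 0 32 0 .nil) [3, 8, 7, 0, 9, 0, 17, 5, 3, 5, 1, 4, 5, 12, 4, 3, 7, 1, 5, 0, 1, 0, 0, 0, 3, 0, 0, 0, 2, 1, 5, 0, 7, 0, 2, 3, 18, 0, 3, 1, 2, 0, 7, 0, 0, 1, 1, 0, 0, 8, 5, 1, 3, 0, 3, 4, 3, 6, 1, 0, 0, 1, 0, 0, 1, 0, 3, 1, 0, 1, 1, 0, 3, 1, 0, 3, 1, 0, 1, 2, 6, 5, 0, 2, 5, 1, 3, 5, 0, 2, 0, 0, 0, 1, 0, 1, 2, 6, 0, 4, 2, 0, 1, 1, 3, 8, 0, 0, 2, 2, 1, 1, 0, 3, 3, 1, 6, 1, 3, 1, 0, 3, 0, 1, 1, 1, 1, 1, 0, 1, 1, 3, 0, 5, 1, 3, 0, 0, 3, 1, 1, 2, 0, 0, 1, 0, 4, 0, 1, 3, 3, 1, 0, 3, 1, 1,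 3, 3, 0, 1, 0, 1, 1, 6, 2, 0, 3, 12, 1, 0, 8, 0, 5, 5, 7, 2, 0, 2, 0, 1, 0, 3, 1, 1, 3, 1, 1, 3, 0, 1, 0, 1, 2, 1, 1, 3, 0, 0, 0, 10, 1, 1, 3, 3, 1, 3, 0, 2, 6, 1, 3, 1, 3, 2, 0, 1] .nil))),
  (.cons 0 21 2 0 0 (.cons 9 28 0 .nil) [112, 65, 15, 47, 27] (.cons 0 21 0 0 0 (.cons 10 0 0 .nil) [11, 1] (.cons 0 15 0 0 0 (.cons 10 4 0 .nil) [12] (.cons 1 0 0 0 0 (.cons 10 1 0 .nil) [4, 14, 1, 5, 1, 3, 1, 0, 0, 1, 7, 21, 7, 4, 0, 0, 4, 21, 1, 2, 2, 1, 0, 0, 1, 1, 6, 1, 3, 2, 1, 0, 2, 1, 1, 1, 1, 1, 3, 7, 5, 8, 1, 6, 1, 1, 2, 0, 0, 9, 4, 13, 5, 1, 4, 6, 7, 3, 0, 2, 0, 4, 0, 3, 1, 0, 0, 0, 1, 1, 1, 0, 0, 1, 1, 0, 0, 0, 1, 1, 3, 2,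 0, 0, 0, 1, 1, 0, 0, 3, 1, 5, 3, 1, 1, 1, 0, 0, 5, 0, 3, 0, 1, 0, 3, 2, 1, 1, 1, 1, 1, 1, 2, 5, 1, 0, 5, 3, 1, 0, 2, 0, 1, 1, 0, 1, 0, 2, 0, 3, 1, 1, 0, 1, 1, 1, 0, 1, 0, 5, 4, 2, 5, 2, 1, 1, 0, 2, 1, 0, 5, 1, 0, 1, 3, 1, 0, 0, 3, 5, 0, 5, 0, 1, 0, 0, 1, 8, 0, 0, 0, 0, 1, 2, 1, 1, 3, 1, 1, 1, 2, 0, 0, 5, 2, 1, 3, 0, 1, 1, 1, 3, 1, 1, 3, 0, 1, 2, 6, 1, 0, 0, 1, 8, 1, 1, 0, 2, 0, 0, 1, 3, 5, 0, 0, 3, 1, 1, 3, 2, 1, 3, 0, 0, 0, 0, 0, 1, 6, 0, 1, 1, 7, 0, 0, 2, 5, 2, 4] (.cons 1 0 0 0 0 (.cons 11 0 0 .nil) [1, 3, 4, 5, 1, 0, 2, 2, 0, 4, 1, 2, 0, 0, 0, 1, 3, 10, 1, 4, 0, 1, 1, 5, 2, 2, 1, 3, 4, 0, 0, 1, 0, 2, 11, 3, 1, 3, 2, 3,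 1, 1, 1, 2, 7, 0, 0, 0, 1, 2, 0, 3, 1, 0, 0, 0, 0, 3, 4, 6, 0, 1, 2, 0, 0, 1, 2, 3, 2, 1, 0, 3, 1, 0, 1, 1, 1, 0, 0, 3, 6, 0, 5, 1, 3, 0, 0, 0, 0, 0, 8, 1, 2, 1, 0, 6, 1, 0, 1, 0, 3, 1, 0, 3, 1, 4, 1, 1, 1, 3, 3, 1, 4, 1, 5, 0, 7, 2, 3, 0, 2, 2, 5, 0, 1, 1, 0, 1, 1, 3, 2, 1, 2, 0, 2, 3, 1, 0, 1, 2, 0, 0, 0, 0, 9, 1, 2, 1, 1, 1, 3, 0, 0, 2, 0, 1, 3, 1, 1, 0, 3, 1, 1, 1, 0, 1, 2, 1, 3, 1, 3, 1, 0, 2, 0, 1, 1, 0, 1, 3, 1, 0, 0, 5, 1, 0, 1, 4, 3, 2, 1, 4, 2, 0, 4, 2, 0, 1, 9, 2, 1, 0, 3, 0, 1, 0, 2, 1, 0, 3, 1, 0, 2, 2, 3, 1, 6, 1, 1, 2, 4, 1, 0, 4, 1, 1, 0, 3, 1, 1, 0, 4, 0, 3, 0, 0, 2, 1, 2, 0, 3, 0, 3, 1, 1, 5, 0, 1, 0, 1,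 0, 5, 7, 1, 1] .nil))))),
  (.cons 0 22 0 0 0 (.cons 5 53 0 .nil) [105] (.cons 0 33 0 0 0 (.cons 10 0 0 .nil) [13] (.cons 2 8 0 0 0 (.cons 0 33 1 .nil) [3, 5, 1, 0, 2, 3, 0, 7, 1, 0, 2, 0, 0, 1, 9, 2, 8, 6, 2, 1, 4, 0, 0, 0, 1, 13, 7, 5, 1, 0, 5, 0, 3, 0, 5, 0, 4, 1, 4, 0, 4, 0, 0, 0, 0, 3, 0, 7, 3, 3, 0, 2, 2, 0, 0, 3, 1, 0, 2, 4, 2, 3, 3, 1, 0, 1, 5, 2, 1, 7, 8, 2, 2, 6, 1, 0, 3, 3, 1, 0, 5, 0, 1, 1, 0, 3, 2, 1, 1, 0, 0, 3, 0, 1, 0, 3, 1, 2, 14, 2, 0, 5, 0, 0, 1, 0, 1, 0, 1, 6, 0, 1, 0, 4, 1, 0, 1, 3, 0, 1, 5, 1, 5, 1, 9, 2, 3, 0, 3, 1, 0, 0, 1, 0, 6, 1, 0, 5, 1, 1, 0, 4, 0, 1, 1, 0, 1, 2, 0, 2, 5, 3, 1, 0, 2, 7, 0, 2, 5,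 0, 2, 0, 1, 3, 0, 5, 3, 0, 2, 1, 2, 0, 0, 0, 1, 3, 1, 3, 4, 4, 2, 0, 1, 3, 1, 0, 5, 1, 1, 3, 1, 1, 0, 0, 0, 0, 3, 0, 0, 5, 1, 0, 2, 2, 0, 6, 0, 3, 3, 1, 0, 1, 0, 4, 0, 3, 0, 3, 6, 2, 2, 0, 2, 3, 4, 0, 2, 0, 1, 0, 1, 3, 1, 0, 0, 1, 0, 1, 1, 1, 7, 0, 1, 0, 0, 3, 1, 0] .nil))),
  (.cons 0 9 0 0 0 (.cons 9 0 0 .nil) [105] (.cons 0 15 0 0 0 (.cons 11 1 0 .nil) [1, 3, 0, 37, 51, 4, 2] (.cons 2 17 0 0 0 (.cons 0 34 1 .nil) [0, 8, 1, 1, 0, 3, 2, 2, 0, 1, 1, 1, 1, 8, 0, 0, 1, 5, 10, 2, 5, 0, 0, 1, 4, 5, 4, 3, 3, 3, 0, 1, 0, 1, 3, 0, 3, 0, 0, 1, 1, 3, 1, 1, 1, 2, 0, 0, 2, 1, 0, 3, 1, 3, 1, 1, 0, 3, 1, 0, 2, 0, 3, 1, 2, 0, 0, 1, 1, 3,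 1, 2, 1, 2, 0, 0, 0, 0, 0, 4, 4, 2, 3, 1, 0, 5, 3, 1, 4, 0, 2, 0, 0, 0, 1, 3, 0, 1, 1, 0, 7, 1, 0, 1, 3, 3, 1, 1, 0, 1, 0, 0, 6, 0, 4, 0, 3, 1, 1, 2, 1, 0, 0, 6, 1, 1, 0, 1, 1, 2, 1, 1, 1, 1, 3, 6, 2, 1, 3, 1, 0, 0, 0, 2, 0, 1, 0, 1, 2, 1, 0, 0, 2, 1, 1, 3, 1, 1, 0, 0, 0, 0, 0, 5, 0, 0, 1, 5, 1, 5, 1, 1, 1, 0, 3, 1, 4, 7, 1, 1, 1, 0, 1, 1, 0, 0, 0, 1, 1, 0, 0, 0, 7, 0, 6, 3, 1, 0, 2, 7, 2, 3, 0, 3, 4, 1, 1, 2, 0, 1, 0, 1, 3, 2, 0, 3, 0, 0, 1, 0, 1, 1, 1, 3, 1, 1, 2, 1, 0, 2, 2, 0, 0, 0, 0, 0, 1, 5, 0, 0, 7, 2, 0, 3, 1, 4, 1, 0, 0, 7, 0, 0, 3, 0, 1, 1, 4, 2, 3, 1, 1, 3, 0, 1, 3, 5, 1, 1, 0, 1, 0, 6, 1, 4, 1, 0, 0, 0, 1, 0,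 8, 1, 0, 1, 2, 1, 7, 0, 4] (.cons 1 0 0 0 0 (.cons 10 3 0 .nil) [14, 0, 0, 6, 0, 1, 2, 0, 2, 11, 2, 4, 1, 1, 5, 5, 4, 0, 0, 3, 8, 10, 4, 2, 3, 0, 0, 5, 1, 2, 3, 1, 2, 7, 1, 6, 1, 0, 1, 1, 1, 0, 0, 3, 1, 3, 3, 1, 14, 6, 0, 0, 1, 4, 0, 2, 0, 0, 2, 0, 3, 2, 2, 8, 4, 6, 5, 1, 2, 13, 4, 2, 1, 1, 2, 1, 3, 1, 3, 0, 0, 1, 1, 1, 4, 1, 1, 2, 0, 0, 1, 4, 0, 1, 5, 1, 0, 2, 7, 1, 0, 7, 0, 2, 5, 0, 3, 3, 5, 0, 1, 0, 9, 0, 0, 1, 1, 3, 2, 3, 0, 1, 0, 0, 1, 7, 0, 0, 0, 3, 0, 1, 1, 0, 0, 3, 0, 1, 0, 3, 0, 1, 3, 0, 1, 1, 1, 3, 1, 1, 0, 1, 2, 0, 4, 3, 4, 1, 2, 2, 0, 0, 0, 3, 1, 0, 1, 0, 1, 0, 5, 1, 1, 3, 4, 1, 1, 0, 2, 5, 0, 0, 3, 0, 2, 1, 0,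 0, 2, 3, 3, 0, 2, 9, 5, 2, 5, 2, 7, 3, 0, 3, 7, 4, 6, 0, 1, 2, 9, 3, 1, 1, 1, 3, 2, 5, 3, 1, 2, 2, 1, 3, 0, 0, 6, 1, 0, 0, 4, 2, 2, 0, 1, 1, 2, 1, 5, 3, 0, 0, 2, 0] (.cons 1 0 0 0 0 (.cons 11 0 0 .nil) [5, 3, 4, 1, 4, 3, 0, 1, 3, 1, 3, 10, 1, 0, 0, 3, 0, 1, 5, 3, 1, 0, 3, 0, 4, 2, 2, 0, 2, 0, 0, 1, 0, 4, 0, 1, 0, 0, 0, 0, 0, 3, 0, 0, 0, 1, 2, 2, 0, 3, 0, 1, 1, 0, 3, 3, 0, 1, 0, 0, 1, 0, 1, 0, 2, 4, 1, 2, 2, 1, 1, 1, 1, 3, 1, 0, 0, 1, 3, 2, 4, 4, 1, 3, 3, 9, 1, 0, 2, 0, 6, 2, 1, 0, 0, 4, 0, 1, 2, 3, 1, 1, 4, 0, 0, 0, 1, 2, 4, 1, 6, 1, 4, 0, 1, 1, 1, 0, 6, 3, 6, 3, 5, 4, 3, 3, 0, 1, 0, 1, 2, 1, 0, 0, 1, 4, 0, 7, 11, 1, 1, 0,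 1, 0, 5, 0, 2, 0, 7, 3, 0, 1, 1, 1, 2, 4, 2, 1, 0, 2, 0, 0, 0, 1, 3, 1, 5, 5, 1, 3, 4, 0, 6, 0, 1, 3, 0, 1, 5, 1, 2, 0, 0, 2, 1, 1, 0, 6, 6, 3, 6, 7, 1, 1, 9, 0, 3, 2, 1, 0, 3, 0, 2, 2, 2, 0, 0, 1, 1, 0, 1, 0, 2, 3, 3, 1, 1, 2, 0, 0, 5, 0, 0, 1, 3, 3, 0, 0, 2, 3, 1, 1, 2, 1, 3, 5, 2, 1, 0, 1, 2, 5, 1, 2, 0, 6, 1, 1, 0, 1, 2, 1, 1, 1, 1, 0, 10, 1, 0, 1, 3, 4, 1, 1, 0, 2, 0] .nil))))),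
  (.cons 0 22 0 0 0 (.cons 5 2 0 .nil) [8, 102, 0] (.cons 2 14 0 0 0 (.cons 0 35 0 .nil) [1, 8, 12, 3, 0, 2, 0, 0, 1, 1, 12, 0, 1, 10, 3, 1, 4, 2, 3, 1, 1, 0, 2, 0, 8, 0, 4, 10, 0, 1, 1, 0, 0, 6, 1, 0, 5, 1, 1, 5, 0, 0, 1, 0, 0, 2, 2, 1, 5, 10, 3, 11, 0, 4, 6, 3, 1, 0, 5, 2, 9, 3, 1, 4, 4, 2, 0, 25, 5, 1, 3, 5, 2, 0, 0, 2, 1, 1, 1, 1, 4, 4, 5, 0, 0, 3, 8, 5, 2, 1, 3, 0, 3, 1, 0, 1, 1, 2, 1, 0, 2, 6, 1, 0, 1, 1, 3, 2, 8, 0, 6, 3, 0, 0, 2, 0, 1, 0, 1, 0, 3, 1, 2, 0, 0, 4, 0, 0, 0, 0, 3, 1, 3, 3, 2, 2, 1, 1, 0, 0, 3, 1, 8, 0, 2, 0, 1, 1, 7, 1, 3, 3, 1, 0, 2, 2, 0, 0, 1, 1, 3, 4, 2, 2, 6, 0, 0, 1, 3, 0, 1, 0, 1, 1, 3, 1, 1, 4,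 1, 2, 1, 0, 3, 7, 1, 16, 13, 0, 0, 2, 0, 0, 2, 3, 1, 3, 1, 0, 1, 1, 12, 0, 3, 2, 2, 3, 3, 3, 1, 2, 0, 1, 4, 1, 5, 1, 3, 7, 0, 0, 2, 1, 2, 0, 0, 1, 0, 4, 3, 1, 2, 7, 4, 6, 0, 2] .nil)),
  (.cons 0 22 1 0 0 (.cons 9 1 0 .nil) [305, 1] (.cons 0 23 0 0 0 (.cons 10 5 0 .nil) [5, 103, 5] (.cons 2 33 0 0 0 (.cons 0 36 0 .nil) [3, 16, 0, 2, 0, 0, 1, 1, 2, 2, 1, 3, 41, 36, 2, 1, 0, 0, 2, 0, 1, 1, 17, 3, 1, 2, 4, 3, 4, 0, 1, 1, 0, 1, 1, 1, 2, 3, 1, 1, 8, 0, 1, 4, 11, 0, 3, 1, 11, 3, 1, 3, 3, 1, 1, 0, 5, 0, 2, 3, 1, 14, 11, 5, 1, 1, 9, 6, 6, 12, 0, 5, 2, 1, 10, 3, 2, 1, 2, 3, 2, 0, 3, 3, 1, 4, 1, 4, 2, 1, 3, 1, 1, 0, 0, 1, 1, 0, 1, 1,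 1, 2, 0, 1, 2, 5, 2, 1, 7, 5, 3, 1, 1, 0, 3, 2, 0, 0, 1, 10, 0, 0, 1, 2, 2, 2, 1, 0, 1, 1, 1, 1, 0, 2, 2, 1, 3, 1, 0, 1, 4, 3, 1, 3, 0, 3, 2, 3, 1, 1, 2, 1, 1, 0, 0, 3, 1, 0, 3, 0, 6, 5, 1, 1, 2, 3, 1, 2, 5, 0, 3, 1, 1, 0, 3, 2, 10, 1, 4, 2, 7, 1, 8, 3, 0, 0, 1, 0, 1, 1, 1, 1, 0, 1, 9, 0, 0, 1, 1, 1, 0, 9, 5, 1, 1, 3, 1, 1, 1, 0, 0, 0, 2, 0, 2, 3, 1, 1, 0, 0, 1, 4, 1, 3, 0, 0, 0, 0, 3, 1, 2, 1, 0, 2, 1, 4, 1, 0, 0, 3, 0, 0, 2] (.cons 1 0 0 0 0 (.cons 10 0 0 .nil) [4, 2, 3, 9, 4, 0, 5, 2, 3, 1, 2, 9, 4, 3, 1, 1, 0, 3, 11, 2, 1, 0, 1, 1, 3, 1, 0, 9, 4, 1, 2, 0, 0, 1, 1, 10, 1, 0, 0, 0, 3, 3, 0, 4, 0, 1, 3, 0, 0, 0, 1, 1, 3,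 1, 2, 1, 2, 3, 0, 1, 6, 0, 1, 2, 0, 1, 2, 1, 1, 0, 0, 3, 1, 1, 5, 1, 3, 2, 0, 1, 1, 2, 2, 1, 5, 0, 0, 1, 2, 3, 10, 1, 6, 6, 1, 4, 1, 7, 1, 1, 6, 2, 0, 1, 1, 2, 2, 1, 3, 1, 0, 0, 1, 4, 1, 1, 12, 2, 2, 0, 2, 3, 6, 1, 4, 5, 2, 1, 2, 2, 8, 0, 1, 3, 3, 0, 1, 1, 5, 2, 2, 5, 0, 1, 1, 1, 0, 1, 3, 3, 3, 1, 1, 1, 4, 0, 0, 0, 6, 0, 0, 1, 0, 0, 1, 1, 1, 2, 0, 1, 3, 0, 0, 0, 0, 5, 0, 3, 1, 0, 2, 3, 5, 0, 0, 0, 3, 1, 2, 0, 1, 8, 4, 1, 2, 1, 0, 0, 1, 4, 3, 3, 5, 0, 8, 0, 0, 0, 0, 4, 2, 6, 4, 0, 3, 1, 0, 2, 1, 1, 0, 11, 2, 0, 1, 11, 3, 1, 3, 0, 2, 1, 3, 0, 0, 1, 1, 1, 0, 3, 1, 1, 1, 0, 0, 1, 1, 1, 0, 2, 0, 0, 3, 1, 1, 1, 0, 3, 1, 4, 3, 0,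 1, 1, 1, 1, 0, 2, 1, 1, 0, 3, 0, 0, 1, 0, 0, 1, 1, 1, 3, 1, 0, 1, 1] (.cons 1 0 0 0 0 (.cons 11 0 0 .nil) [2, 5, 4, 1, 1, 5, 7, 3, 0, 0, 3, 0, 3, 0, 6, 4, 2, 1, 0, 1, 1, 9, 0, 1, 2, 0, 3, 0, 0, 0, 2, 10, 1, 0, 0, 2, 1, 4, 1, 3, 0, 2, 1, 0, 0, 1, 2, 3, 6, 1, 0, 1, 1, 1, 1, 5, 2, 0, 2, 3, 1, 3, 0, 0, 6, 0, 0, 0, 1, 6, 2, 1, 3, 0, 0, 1, 1, 7, 4, 0, 0, 0, 0, 0, 0, 0, 1, 3, 3, 1, 0, 0, 1, 1, 1, 5, 5, 0, 1, 3, 2, 0, 7, 1, 1, 1, 3, 1, 0, 0, 0, 0, 0, 1, 2, 3, 2, 2, 0, 1, 2, 0, 2, 0, 1, 4, 0, 0, 2, 0, 1, 1, 0, 1, 0, 0, 3, 1, 5, 1, 0, 0, 1, 0, 2, 0, 0, 2, 0, 2, 2, 3, 0, 3, 0, 6, 2, 4, 1, 1, 2, 0, 4, 1, 1, 0, 1, 0, 3, 1, 0, 1, 2, 0,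 3, 5, 1, 0, 1, 0, 2, 0, 4, 0, 3, 0, 1, 1, 5, 1, 1, 0, 0, 1, 1, 0, 0, 1, 0, 0, 3, 0, 0, 5, 1, 0, 3, 5, 1, 1, 1, 2, 4, 1, 0, 0, 2, 2, 0, 7, 2, 0, 1, 1, 0, 1, 2, 3, 1, 1, 0, 2, 1, 0, 1, 1, 0, 0, 3, 1, 0, 1, 5, 2, 0, 1, 0, 5, 1, 0, 2, 3, 2, 1, 3, 1, 0, 1, 0, 1, 2, 1, 2, 5, 2, 6, 1, 2, 1, 3, 3, 7, 2, 2, 3, 6, 0, 1, 1, 3, 0, 1, 0, 5, 1, 3, 2, 1, 1, 1, 0, 0, 0, 0, 5, 10, 0, 3, 1, 1, 0, 0, 5, 4, 3] .nil))))),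
  (.cons 0 19 0 0 0 (.cons 9 0 0 .nil) [] .nil),
  (.cons 0 23 0 0 0 (.cons 10 1 0 .nil) [2, 1, 7, 107, 6] .nil),
  (.cons 0 23 1 0 0 (.cons 5 2 0 .nil) [1, 124, 98, 1, 4, 92] (.cons 0 22 2 0 0 (.cons 9 2 0 .nil) [165, 0, 48, 64] (.cons 0 9 0 0 0 (.cons 9 8 0 .nil) [] (.cons 2 11 0 0 0 (.cons 0 37 0 .nil) [25, 4, 12, 21, 0, 1, 0, 1, 8, 9, 2, 1, 2, 0, 0, 39, 2, 0, 0, 6, 1, 7, 5, 3, 0, 0, 0, 6, 1, 1, 8, 2, 27, 1, 5, 2, 13, 2, 14, 1, 1, 1, 8, 1, 3, 12, 0, 21, 5, 3, 0, 4, 3, 0, 1, 0, 7, 1, 0, 2, 2, 1, 0, 2, 0, 12, 0, 0, 1, 1, 0, 5, 4, 5, 4, 3, 0, 0, 1, 0, 0, 3, 2, 1, 1, 0, 1, 1, 2, 1, 3, 4, 1, 2, 3, 0, 4, 2, 0, 0, 1, 7, 0, 0,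 0, 1, 0, 0, 3, 1, 0, 1, 1, 4, 3, 5, 1, 1, 0, 0, 0, 1, 5, 0, 2, 0, 4, 1, 1, 1, 2, 5, 1, 0, 3, 0, 0, 2, 3, 3, 3, 8, 0, 0, 3, 3, 1, 2, 1, 0, 2, 2, 5, 9, 0, 1, 3, 7, 9, 1, 7, 4, 3, 1, 0, 5, 2, 2, 1, 0, 0, 0, 0, 0, 3, 0, 1, 1, 0, 6, 0, 2, 0, 1, 7, 0, 2, 2, 1, 2, 1, 2, 1, 3, 8, 4, 0, 6, 2, 1, 0, 0, 0, 0, 3, 4, 1, 5, 0, 4, 0, 0, 0, 0, 0, 3, 0, 0, 1, 0, 1, 0, 2, 2, 3, 0, 0, 0, 1, 7, 0, 3, 6, 1, 1, 4, 1, 1, 1, 2, 3, 1, 0, 0, 0, 0, 0, 2, 1, 2, 0, 2, 2, 0, 8, 2, 1, 0, 0, 4] (.cons 1 0 0 0 0 (.cons 10 1 0 .nil) [5, 0, 0, 14, 5, 1, 3, 1, 3, 2, 1, 0, 1, 7, 1, 2, 0, 0, 0, 3, 8, 4, 4, 1, 1, 0, 1, 1, 0, 4, 0, 0, 1, 0, 5, 3, 0, 0, 6, 5, 1,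 1, 0, 1, 2, 0, 5, 0, 4, 3, 2, 7, 4, 1, 0, 1, 0, 0, 1, 1, 3, 4, 0, 1, 2, 0, 15, 1, 0, 3, 1, 4, 3, 2, 0, 2, 4, 0, 0, 3, 0, 0, 2, 1, 2, 3, 2, 1, 5, 3, 4, 3, 3, 1, 5, 0, 3, 1, 3, 2, 1, 3, 1, 1, 0, 1, 1, 5, 6, 2, 0, 9, 1, 0, 0, 1, 0, 1, 3, 1, 3, 1, 1, 0, 0, 2, 2, 0, 4, 2, 0, 0, 0, 1, 4, 1, 0, 2, 1, 0, 2, 1, 0, 0, 3, 0, 0, 0, 0, 3, 2, 0, 1, 3, 0, 4, 1, 3, 1, 1, 2, 0, 0, 7, 5, 0, 1, 1, 1, 1, 1, 0, 4, 7, 5, 3, 1, 5, 1, 0, 4, 0, 3, 2, 5, 1, 0, 3, 2, 1, 2, 0, 0, 0, 1, 1, 0, 4, 9, 0, 6, 1, 0, 1, 5, 3, 2, 5, 8, 2, 1, 3, 0, 4, 0, 0, 4, 0, 2, 0, 0, 2, 4, 5, 0, 5, 3, 4, 2, 3, 3, 0, 1, 3, 1, 2, 1, 5, 0, 2, 0, 2, 0, 0, 1, 1, 0, 10, 0, 2, 3,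 1, 0, 0, 2, 0, 3, 0, 7, 1, 2, 10, 0, 0, 0, 6, 2, 1, 0, 1, 3, 1, 1, 0, 2, 0, 5, 1, 1, 0, 2, 2, 1, 5, 5, 2, 0, 1, 0, 0, 1, 5, 4, 0, 0, 3, 1, 1, 1, 2, 5, 3, 1, 0, 5, 3, 1, 1, 1, 1] .nil))))),
  (.cons 0 22 0 0 0 (.cons 9 5 0 .nil) [9, 41] (.cons 0 10 0 0 0 (.cons 11 0 0 .nil) [3] (.cons 2 20 0 0 0 (.cons 0 38 0 .nil) [0, 1, 13, 2, 0, 2, 2, 0, 0, 25, 3, 7, 0, 3, 1, 1, 0, 5, 2, 1, 0, 5, 1, 0, 4, 1, 0, 4, 11, 0, 3, 1, 0, 1, 0, 0, 1, 3, 5, 4, 4, 0, 2, 2, 0, 3, 0, 2, 0, 2, 1, 9, 3, 5, 0, 2, 0, 7, 1, 1, 1, 0, 3, 1, 3, 2, 1, 1, 2, 0, 1, 0, 7, 1, 1, 1, 0, 1, 1, 2, 0, 6, 1, 1, 1, 0, 4, 2, 1, 2, 0, 0, 3, 0, 3, 3, 3, 6, 0, 7, 0, 1, 0, 1,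 1, 1, 0, 0, 4, 4, 5, 1, 0, 3, 1, 1, 9, 0, 1, 0, 1, 8, 3, 1, 2, 0, 2, 0, 0, 1, 5, 0, 1, 3, 1, 2, 0, 0, 1, 1, 2, 4, 0, 5, 0, 3, 0, 1, 1, 3, 0, 0, 4, 1, 1, 1, 1, 6, 1, 0, 5, 2, 1, 0, 2, 0, 3, 0, 1, 1, 0, 1, 7, 3, 0, 4, 4, 1, 2, 2, 2, 0, 2, 2, 5, 4, 1, 0, 1, 7, 4, 1, 2, 0, 1, 1, 0, 0, 1, 0, 1, 0, 0, 5, 4, 2, 0, 1, 1, 0, 0, 0, 0, 1, 2, 5, 0, 5, 1, 0, 0, 6, 1, 4, 3, 0, 0, 1, 6, 3, 0, 1, 0, 1, 0, 0, 0, 0, 0, 0, 0, 0, 3, 1, 0, 1, 1, 0, 1, 0, 1, 1, 2, 0, 0, 7, 1, 1, 0, 3, 2, 1, 1, 1, 1, 2, 1, 0, 0, 1, 1, 1, 1, 0, 0, 6, 0, 0, 2, 6, 0, 1, 3, 3, 0, 0, 3, 0, 0, 0, 2, 0, 1, 0, 2, 1, 0, 1, 2, 1, 1, 0, 2, 1, 1, 1, 0, 4, 0, 0, 0, 1, 2, 1,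 5, 4, 1, 2, 0, 1, 1, 3, 1, 2, 1, 4, 1, 0, 0, 3, 2, 1, 1, 0, 1, 1, 1, 0, 0, 3, 5, 7, 4] .nil))),
  (.cons 0 25 0 0 0 (.cons 5 1 0 .nil) [0, 5, 3, 116, 1] (.cons 2 0 0 0 0 (.cons 0 39 0 .nil) [159, 3, 1, 1, 1, 0, 5, 27, 10, 0, 3, 0, 182, 4, 0, 0, 6, 84, 6, 1, 2, 15, 0, 2, 0, 0, 1, 0, 10, 0, 0, 7, 2, 8, 4, 16, 0, 1, 0, 19, 1, 0, 1, 3, 5, 0, 1, 2, 2, 4, 5, 4, 2, 4, 2, 5, 0, 3, 0, 0, 1, 41, 3, 15, 1, 29, 3, 3, 2, 4, 7, 2, 2, 1, 4, 2, 2, 10, 43, 37, 25, 0, 0, 9, 5, 3, 5, 0, 1, 3, 4, 1, 5, 4, 0, 1, 7, 14, 6, 4, 0, 15, 0, 2, 6, 10, 21, 1] (.cons 2 12 0 0 0 (.cons 0 40 1 .nil) [16, 4, 4, 4, 2, 0, 0, 92, 3, 4, 2, 7, 0, 1, 0, 1, 2, 1,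 1, 0, 0, 1, 8, 0, 2, 1, 0, 1, 0, 4, 1, 1, 1, 8, 5, 1, 1, 1, 0, 3, 14, 2, 1, 1, 2, 0, 1, 1, 0, 5, 2, 3, 2, 1, 3, 3, 0, 3, 3, 11, 1, 3, 1, 1, 2, 1, 0, 0, 1, 1, 0, 2, 0, 7, 4, 1, 1, 1, 0, 4, 4, 1, 1, 0, 4, 3, 1, 1, 0, 1, 2, 3, 0, 1, 1, 8, 11, 8, 3, 8, 4, 5, 5, 5, 3, 1, 5, 1, 6, 0, 0, 1, 6, 2, 3, 0, 1, 3, 1, 3, 3, 0, 1, 7, 1, 0, 0, 8, 1, 1, 0, 0, 0, 2, 1, 0, 0, 1, 1, 4, 1, 0, 7, 1, 0, 4, 0, 0, 0, 1, 1, 0, 0, 5, 2, 0, 0, 0, 3, 1, 3, 5, 1, 0, 1, 1, 0, 1, 0, 1, 1, 3, 3, 0, 0, 1, 0, 1, 7, 3, 0, 0, 2, 6, 0, 0, 1, 1, 0, 0, 4, 3, 6, 6, 5, 4, 5, 3, 1, 2, 0, 0, 1, 1, 1, 1, 1, 0, 0, 1, 0, 7, 0, 1, 3, 0, 0, 0, 1, 0, 3, 4, 0, 14, 5, 3, 9,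 3, 5, 23, 25, 8, 4, 0, 0, 1, 5, 3, 3, 6, 0, 5, 2, 0, 0, 0, 0, 2, 0, 0, 3, 1, 6, 5, 5, 1, 2, 1, 2, 5, 0, 1, 0, 5, 4, 0, 5, 1, 0, 0, 2, 7, 3] (.cons 1 0 0 0 0 (.cons 11 0 0 .nil) [18, 1, 0, 3, 0, 7, 2, 0, 1, 0, 0, 15, 16, 0, 19, 3, 5, 2, 18, 2, 6, 0, 2, 3, 0, 0, 0, 3, 0, 1, 1, 2, 0, 0, 4, 0, 0, 1, 0, 0, 0, 1, 0, 4, 0, 1, 2, 0, 1, 1, 2, 3, 1, 1, 1, 0, 3, 1, 16, 1, 0, 3, 2, 2, 1, 2, 2, 1, 1, 2, 7, 0, 0, 0, 1, 0, 1, 10, 1, 3, 2, 3, 0, 0, 3, 0, 0, 1, 0, 0, 8, 0, 3, 2, 6, 0, 0, 1, 3, 2, 2, 3, 1, 0, 1, 1, 2, 3, 0, 1, 0, 1, 0, 7, 3, 3, 4, 2, 0, 0, 7, 7, 0, 3, 1, 1, 3, 5, 8, 1, 2, 0, 1, 5, 1, 3, 2, 3, 15, 5, 2, 0, 0, 0, 0, 1, 3, 2,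 4, 0, 1, 1, 0, 3, 0, 0, 1, 1, 9, 1, 1, 4, 0, 1, 0, 1, 6, 4, 2, 4, 0, 4, 1, 0, 2, 0, 2, 3, 0, 0, 1, 2, 0, 7, 0, 0, 0, 2, 3, 3, 0, 4, 3, 1, 1, 1, 1, 3, 1, 0, 0, 1, 3, 0, 0, 0, 1, 6, 0, 0, 1, 0, 9, 2, 1, 8, 2, 3, 0, 0, 3, 6, 4, 1, 1, 1, 8, 2, 1, 1, 2, 0, 5, 0, 1, 5, 2, 3, 1, 0, 3, 5, 6, 3, 1, 5, 1, 6, 0, 1, 2, 0, 2, 1, 5, 0, 1, 6, 2, 1, 3, 3, 1, 1, 1, 0, 0, 1, 0, 1, 3, 4, 1, 3, 3, 1, 0, 0, 1, 0, 1, 1, 1, 1, 0, 4, 0, 1, 5, 2, 7, 1, 0, 1, 0, 1, 7, 5, 0, 1, 1, 1, 1, 3, 0, 0, 1, 3, 0, 0, 1, 3, 4, 0, 2, 1, 3, 0, 1, 7] (.cons 1 0 0 0 0 (.cons 10 1 0 .nil) [4, 11, 3, 2, 1, 3, 1, 0, 0, 4, 0, 0, 0, 5, 2, 2, 2, 4, 1, 1, 0, 0, 0, 0, 0,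 1, 1, 5, 7, 3, 0, 0, 1, 2, 1, 0, 11, 15, 1, 3, 0, 1, 2, 1, 2, 5, 3, 1, 0, 4, 1, 0, 1, 0, 1, 0, 0, 0, 2, 0, 2, 4, 3, 3, 2, 10, 1, 1, 4, 0, 2, 1, 0, 1, 1, 0, 1, 2, 1, 0, 2, 3, 0, 0, 1, 3, 0, 3, 2, 0, 2, 0, 4, 3, 1, 1, 1, 4, 1, 0, 0, 1, 1, 2, 0, 2, 6, 6, 0, 2, 1, 0, 3, 0, 0, 1, 1, 0, 5, 1, 0, 0, 1, 1, 6, 1, 0, 0, 2, 0, 0, 1, 0, 2, 4, 2, 3, 3, 0, 0, 8, 1, 0, 3, 6, 2, 0, 1, 10, 0, 1, 0, 1, 5, 5, 4, 1, 0, 1, 0, 1, 1, 2, 1, 1, 1, 1, 2, 1, 3, 3, 0, 5, 7, 0, 1, 1, 2, 4, 1, 2, 3, 0, 1, 1, 3, 1, 0, 5, 0, 6, 7, 4, 0, 0, 2, 2, 0, 2, 0, 1, 2, 2, 1, 0, 1, 6, 0, 0, 4, 0, 0, 2, 1, 1, 7, 0, 11, 1, 1, 2, 0, 5, 4, 0, 2, 4, 0, 3, 2, 0, 1, 4, 2,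 4, 0, 1, 4, 0, 0, 0, 2, 1, 0, 2, 2, 0, 3, 2, 1, 0, 1, 0, 3, 2, 1, 0, 4, 6, 0, 4, 1, 1, 1, 0, 0, 4, 0, 2, 1, 0, 3, 6, 2, 2, 7, 2, 0, 0, 3, 0, 1, 0, 3, 0, 0, 3, 0, 3, 0, 0, 5, 0, 3, 1, 3, 4, 3, 0, 1, 1, 1, 1, 3, 0, 0, 0, 0, 5, 2, 3, 1, 3, 0, 0, 1, 0, 0, 1, 1, 0, 0, 1, 1, 4, 0, 1, 5, 1, 3, 0, 2, 0, 1, 5, 0, 2, 0, 1, 1, 1, 0, 0, 1, 0, 1, 0, 3, 4, 1, 3] .nil))))),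
  (.cons 0 28 0 0 0 (.cons 5 6 0 .nil) [124, 8] (.cons 0 25 1 0 0 (.cons 5 65 0 .nil) [1, 57, 75, 0, 116, 2, 2, 49] (.cons 2 9 0 0 0 (.cons 0 41 0 (.cons 0 42 0 .nil)) [0, 4, 7, 7, 0, 0, 0, 2, 3, 0, 3, 0, 4, 1, 0, 1, 0, 9, 3, 2, 0, 12, 11, 1, 4, 4, 1, 1, 0, 19, 1, 6, 1, 0, 0, 0, 2, 3, 4, 3, 0, 1, 3, 0, 1, 1, 0, 1, 0, 7, 0, 4, 3, 0, 1, 0, 1, 3, 1, 0, 0, 0, 1, 3, 8, 7, 0, 1, 2, 0, 1, 0, 1, 1, 5, 10, 1, 1, 1, 1, 1, 9, 2, 2, 9, 1, 1, 1, 3, 0, 3, 2, 7, 0, 0, 4, 4, 13, 4, 0, 0, 0, 1, 0, 2, 1, 0, 1, 2, 1, 5, 17, 1, 3, 3, 0, 3, 2, 0, 1, 0, 2, 1, 1, 0, 3, 1, 1, 10, 0, 0, 3, 1, 4, 1, 1, 0, 1, 1, 3, 0, 1, 1, 0, 1, 1, 2, 1, 2, 0, 4, 0,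 1, 5, 1, 2, 1, 4, 1, 1, 1, 2, 5, 1, 4, 2, 2, 1, 0, 1, 0, 1, 6, 2, 0, 5, 2, 0, 3, 1, 2, 3, 1, 3, 1, 1, 1, 2, 7, 0, 1, 1, 3, 2, 0, 1, 1, 1, 5, 3, 1, 0, 0, 0, 5, 1, 3, 3, 3, 6, 1, 0, 1, 0, 3, 1, 0, 0, 1, 2, 2, 2, 0, 0, 3, 1, 7, 4, 0, 2, 1, 3, 2, 3, 0, 0, 2, 1, 3, 3, 0, 1, 0, 5, 1, 0, 1, 1, 1, 0, 2, 0, 1, 1, 1, 3, 0, 0, 1, 1, 4, 1, 5, 5, 1, 0, 0, 1, 2, 3, 5, 5, 8, 0, 1, 1, 1, 0, 3, 3, 6, 2, 0, 7, 2, 0, 3, 1, 7, 0, 4, 1, 0, 1, 1, 1, 1, 1, 0, 5, 1, 1, 1, 0, 0, 4, 5, 1, 0, 6, 3, 1, 1, 5, 5, 0, 0, 2, 0, 0, 1, 0, 3, 4, 3, 0, 0, 2, 0, 1, 1, 0, 0, 2, 2, 1, 0, 2, 1, 0, 10, 0, 0, 1, 0, 0, 3, 1, 0] (.cons 2 16 0 0 0 (.cons 0 42 1 .nil)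 [3, 12, 1, 4, 0, 0, 0, 7, 5, 1, 4, 0, 1, 1, 10, 3, 3, 1, 3, 8, 2, 4, 0, 1, 4, 5, 2, 1, 1, 16, 0, 0, 4, 0, 0, 3, 3, 1, 4, 0, 0, 1, 0, 1, 3, 0, 0, 4, 6, 1, 1, 0, 2, 2, 0, 0, 0, 0, 1, 0, 1, 3, 0, 1, 1, 1, 5, 0, 11, 1, 0, 2, 4, 2, 2, 2, 8, 0, 5, 0, 5, 1, 15, 2, 1, 0, 2, 2, 0, 3, 4, 12, 2, 1, 1, 1, 1, 0, 2, 2, 1, 2, 0, 0, 0, 6, 1, 1, 0, 1, 0, 0, 1, 0, 0, 1, 4, 0, 3, 0, 1, 6, 1, 0, 1, 0, 2, 0, 3, 1, 1, 1, 3, 0, 3, 2, 0, 1, 0, 1, 3, 3, 2, 1, 0, 0, 0, 1, 1, 1, 0, 0, 4, 1, 3, 0, 1, 6, 3, 1, 2, 0, 0, 3, 1, 0, 1, 2, 1, 0, 1, 0, 1, 1, 0, 3, 0, 3, 5, 0, 1, 0, 5, 0, 1, 10, 1, 3, 0, 1, 0, 3, 0, 0, 1, 3, 0, 3, 1, 0, 0, 0, 0, 3, 0, 0, 0, 3,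 0, 0, 7, 1, 4, 4, 1, 1, 2, 13, 1, 0, 5, 2, 2, 5, 0, 1, 2, 6, 0, 0, 0, 0, 2, 1, 9, 0, 1, 1, 1, 3, 1, 0, 2, 4, 1, 2, 1, 1, 0, 1, 1, 0, 0, 1, 5, 0, 1, 2, 2, 4, 0, 1, 2, 2, 1, 1, 1, 2, 1, 0, 1, 2, 5, 3, 5, 5, 3, 9, 3, 3, 1, 0, 0, 1, 1, 2, 0, 0, 2, 4, 1, 1, 0, 8, 2, 0, 1, 2, 1, 8, 0, 0, 1, 0, 0, 3, 1, 1, 3, 0, 1, 2, 1, 0, 2, 1, 2, 0, 2, 5, 1, 2, 0, 1, 1, 1, 0, 2, 1, 1, 0, 1, 1, 0, 3, 2, 0, 0, 4, 0, 1, 1, 4, 0, 1, 6, 3, 1, 1, 1, 0, 1, 3, 0, 0, 1, 1, 1, 0, 2, 1, 2, 0] (.cons 1 0 0 0 0 (.cons 6 0 0 .nil) [20, 11, 4, 71, 0, 31, 17, 0, 4, 3, 1, 1, 3, 0, 3, 0, 4, 2, 1, 3, 2, 0, 1, 1, 1, 1, 3, 0, 5, 2, 1, 2, 4, 1, 22, 0, 3, 5, 21, 1,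 12, 11, 3, 2, 2, 1, 9, 3, 2, 8, 23, 0, 8, 1, 1, 5, 7, 0, 0, 1, 0, 3, 2, 3, 8, 1, 10, 13, 20, 2, 0, 3, 9, 0, 1, 0, 2, 3, 3, 0, 0, 0, 1, 5, 1, 1, 1, 0, 3, 1, 3, 3, 9, 11, 3, 0, 2, 1, 1, 4, 1, 0, 0, 3, 2, 1, 5, 1, 1, 4, 0, 0, 3, 0, 0, 3, 0, 0, 1, 2, 1, 0, 1, 3, 6, 1, 0, 1, 0, 1, 3, 8, 1, 4, 3, 1, 1, 2, 3, 2, 0, 17, 0, 2, 0, 10, 2, 0, 1, 0, 0, 0, 0, 0, 7, 6, 1, 0, 18, 5, 2, 0, 1, 0, 0, 0, 3, 3, 1, 0, 1, 9, 0, 2, 3, 1, 5, 1, 0, 1, 6, 7, 12, 2, 1, 10, 2, 6, 1, 0, 3, 0, 1, 2, 2, 1, 2, 17, 1, 0, 3, 1, 1, 4, 0, 3, 1, 0, 2, 0, 3, 0, 3, 1, 2, 5, 1, 0, 0, 1, 1, 0, 0, 1, 5, 1, 0, 2, 2, 0, 1, 5, 0, 2, 1, 1, 6, 2, 3, 0, 0, 0, 6, 1, 9, 8,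 5, 5, 2, 1, 3, 2] (.cons 1 0 0 0 0 (.cons 10 1 0 .nil) [12, 12, 0, 1, 5, 5, 2, 0, 4, 1, 0, 1, 0, 13, 2, 5, 8, 8, 3, 1, 2, 6, 33, 1, 1, 1, 0, 9, 7, 0, 0, 3, 0, 0, 3, 9, 8, 1, 4, 0, 1, 1, 1, 1, 2, 1, 3, 0, 5, 3, 6, 2, 2, 0, 0, 3, 2, 3, 3, 1, 7, 0, 1, 3, 0, 4, 5, 3, 5, 5, 0, 3, 3, 0, 0, 7, 1, 0, 1, 13, 3, 2, 1, 1, 1, 3, 5, 0, 4, 2, 0, 3, 4, 0, 0, 0, 1, 0, 2, 0, 8, 1, 1, 3, 0, 1, 2, 8, 11, 6, 0, 1, 1, 5, 0, 5, 1, 4, 4, 0, 10, 1, 0, 0, 5, 0, 2, 8, 3, 1, 1, 1, 0, 1, 0, 3, 1, 1, 1, 3, 0, 0, 3, 1, 1, 2, 3, 1, 3, 2, 0, 6, 0, 1, 0, 2, 0, 3, 2, 1, 0, 3, 0, 0, 1, 0, 1, 0, 0, 3, 0, 4, 0, 1, 6, 0, 1, 0, 2, 3, 2, 3, 4, 3, 1, 0, 3, 8, 0,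 1, 1, 1, 0, 2, 0, 1, 1, 3, 4, 4, 0, 8, 7, 0, 3, 1, 2, 0, 3, 5, 1, 2, 1, 0, 6, 2, 1, 2, 4, 1, 2, 4, 1, 0, 0, 1, 4, 0, 1, 3, 2, 0, 8, 1, 1, 3, 0, 1, 3, 3, 0, 0, 0, 0, 1, 2, 3, 2, 0, 1, 7, 3, 1, 0, 0, 5, 1, 9, 1, 1, 0, 6, 1, 0, 1, 1, 2, 0, 2, 0, 1, 1, 0, 3, 1, 3, 1, 1, 0, 0, 0, 1, 1, 3, 1, 0, 1, 0, 2, 0, 0, 2, 0, 1, 4, 1, 1, 5, 3, 0, 6, 1, 1, 3, 0, 0, 0, 5, 1, 0, 1, 0, 1, 1, 0, 0, 5, 0, 5, 2, 0, 1, 3, 1, 2, 0, 1, 4] .nil)))))),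
  (.cons 0 19 0 0 0 (.cons 11 2 0 .nil) [1, 0, 0, 2, 40, 3, 73, 7, 3] (.cons 2 1 0 0 0 (.cons 0 43 0 .nil) [23, 6, 3, 64, 15, 4, 52, 3, 1, 3, 10, 0, 29, 3, 1, 0, 0, 3, 38, 5, 0, 1, 1, 10, 8, 2, 0, 0, 28, 2, 1, 39, 10, 0, 1, 19, 1, 0, 6, 3, 0, 0, 18, 9, 14, 6, 4, 2, 1, 4, 1, 5, 2, 5, 2, 3, 3, 2, 11, 3, 0, 1, 0, 3, 3, 0, 0, 1, 4, 0, 1, 0, 1, 1, 6, 5, 5, 0, 4, 1, 2, 0, 1, 1, 0, 4, 0, 1, 0, 3, 0, 3, 0, 2, 5, 1, 3, 0, 0, 1, 2, 3, 0, 7, 7, 0, 0, 1, 1, 6, 0, 0, 9, 1, 3, 0, 15, 12, 2, 4, 1, 1, 1, 4, 12, 0, 1, 4, 0, 0, 3, 0, 3, 2, 9, 8, 2, 5, 4, 3, 0, 2, 0, 9, 0, 3, 3, 0, 3, 0, 2, 19, 1, 4, 0, 3, 0, 16, 11, 0, 1, 4, 1, 0, 3, 19, 6,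 5, 0, 1, 4, 3, 4, 1, 1, 1, 1, 1, 10, 0, 1, 2, 0, 1, 3, 1, 3, 3, 0, 0, 7, 3, 15, 4, 3, 2, 1, 12, 1, 3, 6, 1, 14, 5, 5, 8, 1, 0] (.cons 2 13 0 0 0 (.cons 0 44 1 .nil) [3, 1, 1, 4, 1, 2, 0, 0, 1, 0, 3, 0, 1, 3, 0, 1, 5, 1, 0, 5, 6, 4, 8, 1, 7, 1, 1, 1, 14, 0, 2, 2, 5, 13, 4, 1, 1, 1, 2, 5, 1, 0, 3, 3, 4, 1, 0, 3, 3, 1, 2, 0, 0, 0, 3, 2, 2, 0, 0, 0, 1, 1, 0, 1, 1, 1, 1, 8, 1, 0, 3, 3, 3, 2, 2, 0, 1, 0, 0, 3, 0, 3, 2, 1, 0, 3, 2, 0, 1, 6, 1, 1, 1, 0, 1, 1, 1, 9, 0, 2, 4, 5, 1, 0, 5, 15, 3, 1, 1, 1, 0, 1, 0, 2, 0, 0, 2, 1, 0, 1, 3, 1, 4, 1, 5, 2, 0, 3, 1, 1, 0, 1, 1, 6, 1, 2, 3, 1, 0, 3, 0, 6, 0, 4, 1, 3, 1, 0, 2, 3, 2, 0, 0, 1,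 1, 1, 0, 1, 1, 1, 4, 2, 0, 1, 0, 2, 0, 0, 0, 0, 1, 0, 1, 0, 1, 4, 3, 1, 6, 3, 0, 1, 0, 3, 1, 0, 1, 0, 0, 1, 1, 2, 1, 1, 2, 1, 3, 1, 2, 0, 0, 0, 0, 0, 1, 1, 0, 5, 0, 0, 0, 0, 5, 1, 1, 1, 1, 1, 0, 2, 1, 2, 4, 4, 0, 1, 1, 1, 1, 1, 1, 1, 0, 1, 3, 0, 1, 0, 3, 3, 2, 1, 1, 3, 2, 7, 3, 1, 0, 3, 0, 6, 4, 7, 1, 0, 9, 0, 0, 0, 7, 4, 1, 1, 1, 2, 3, 0, 2, 3, 0, 5, 3, 1, 3, 7, 1, 9, 2, 0, 2, 0, 3, 0, 0, 3, 0, 1, 2, 1, 0, 5, 0, 1, 1, 5, 0, 2, 3, 1, 1, 3, 2, 0, 10, 1, 1, 2, 0, 1, 4, 0, 5, 6, 3, 1, 0, 1, 1, 1, 0, 7, 1, 1, 1, 0, 2, 0, 0, 3, 1, 0, 0, 1, 0, 4, 5, 5, 0, 1, 4, 2, 1, 0, 3, 0, 11, 0, 1, 1, 1, 0, 0, 0, 2, 1, 0, 11, 0, 2, 0, 0, 1,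 0, 5, 1, 0, 3, 4, 0, 0, 1, 0, 0, 0, 0, 1, 0, 7, 0, 0, 5, 0] (.cons 1 0 0 0 0 (.cons 9 4 0 .nil) [4, 0, 0, 6, 4, 0, 1, 1, 2, 0, 1, 2, 2, 4, 0, 1, 12, 4, 3, 3, 1, 0, 0, 3, 0, 2, 2, 2, 1, 4, 1, 0, 1, 1, 0, 14, 1, 3, 2, 0, 1, 1, 0, 3, 2, 5, 1, 1, 1, 1, 8, 0, 1, 3, 0, 0, 2, 1, 1, 2, 5, 1, 1, 1, 3, 1, 1, 1, 1, 1, 2, 2, 0, 1, 6, 1, 4, 2, 3, 7, 3, 0, 1, 1, 0, 3, 3, 5, 1, 1, 2, 2, 0, 2, 3, 0, 0, 1, 8, 0, 1, 0, 4, 0, 3, 1, 1, 1, 16, 0, 1, 0, 5, 0, 1, 3, 4, 1, 1, 0, 0, 0, 0, 2, 1, 4, 1, 3, 0, 2, 1, 1, 1, 1, 3, 1, 0, 1, 1, 1, 2, 3, 1, 1, 1, 0, 3, 3, 1, 7, 0, 2, 2, 2, 0, 0, 4, 6, 0, 1, 2, 1, 5, 0, 3, 0, 1, 1, 2, 0, 1, 4, 0, 3, 1, 0, 3,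 0, 0, 0, 1, 0, 0, 1, 0, 1, 3, 1, 0, 0, 0, 0, 0, 0, 2, 2, 1, 2, 2, 1, 0, 0, 0, 3, 1, 1, 2, 2, 0, 5, 1, 0, 0, 1, 0, 1, 0, 0, 1, 1, 0, 0, 0, 2, 1, 1, 5, 0, 0, 0, 1, 0, 0, 0, 0, 0, 2, 1, 5, 1, 0, 0, 0, 4, 0, 3, 1, 3, 1, 0, 0, 1, 2, 3, 0, 3, 0, 0, 0, 1, 2, 0, 1, 0, 1, 1, 1, 0, 1, 6, 1, 3, 2, 1, 0, 1, 1, 0, 4, 1, 1, 1, 5, 0, 6, 0, 1, 1, 4, 6, 1, 0, 1, 1, 0, 4, 1, 0, 0, 0, 1, 5, 0, 0, 1, 3, 0, 1, 4, 4, 0, 2, 7, 0, 2, 6, 6, 1, 0, 4, 3, 2, 4, 1, 7, 1, 2, 1, 2, 0, 1, 1, 3, 2, 8, 3, 4, 3, 0, 0, 2, 0, 5, 2, 1, 1, 0, 3, 0, 1, 1, 1, 2, 1, 5, 11, 12, 5, 8, 1, 3, 1, 3, 0, 0, 1, 1, 1, 0, 0, 0, 1, 1, 2, 1, 0, 9, 1, 3, 0, 1, 0, 0, 0, 3, 1, 0,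 0, 1, 1, 2, 0] (.cons 1 0 0 0 0 (.cons 11 0 0 .nil) [4, 1, 1, 1, 6, 1, 0, 0, 3, 0, 3, 2, 3, 2, 0, 2, 16, 6, 2, 1, 0, 0, 5, 1, 1, 1, 0, 0, 1, 1, 3, 0, 1, 1, 0, 1, 3, 5, 7, 0, 2, 3, 2, 2, 0, 0, 7, 4, 1, 1, 2, 3, 7, 5, 0, 0, 2, 3, 0, 0, 1, 0, 3, 2, 3, 1, 0, 2, 7, 0, 2, 3, 1, 0, 1, 5, 1, 1, 1, 1, 0, 5, 3, 0, 1, 3, 1, 0, 4, 3, 0, 0, 0, 1, 5, 0, 1, 3, 0, 5, 0, 1, 1, 0, 8, 0, 0, 0, 1, 3, 8, 3, 0, 0, 1, 1, 0, 2, 0, 2, 1, 1, 0, 3, 1, 9, 0, 1, 0, 1, 2, 1, 0, 3, 1, 0, 0, 0, 0, 4, 0, 0, 1, 0, 2, 1, 0, 0, 1, 0, 0, 0, 1, 2, 1, 1, 3, 0, 1, 0, 0, 3, 1, 0, 0, 1, 2, 4, 1, 1, 5, 1, 1, 1, 6, 6, 1, 2, 2, 0, 0, 0, 1, 2, 1, 1, 3, 0, 1, 1, 0, 0,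 0, 2, 1, 1, 0, 1, 1, 2, 1, 0, 0, 5, 0, 0, 0, 0, 0, 0, 3, 0, 0, 0, 2, 0, 0, 3, 6, 2, 1, 0, 2, 0, 1, 0, 1, 1, 1, 0, 0, 1, 2, 0, 1, 3, 0, 1, 0, 0, 2, 0, 7, 5, 0, 0, 4, 0, 1, 6, 0, 0, 1, 3, 3, 1, 5, 1, 0, 7, 3, 1, 0, 5, 1, 2, 1, 1, 0, 0, 2, 5, 0, 3, 0, 2, 0, 3, 2, 0, 2, 0, 2, 0, 1, 1, 2, 0, 0, 1, 7, 5, 2, 1, 1, 0, 2, 2, 4, 0, 0, 1, 1, 0, 1, 0, 3, 2, 1, 4, 1, 0, 0, 4, 2, 5, 0, 1, 2, 3, 0, 0, 0, 9, 2, 0, 0, 1, 7, 0, 3, 7, 0, 0, 0, 5, 0, 0, 2, 5, 0, 3, 0, 0, 1, 0, 0, 1, 3, 0, 3, 3, 0, 0, 3, 0, 0, 1, 5, 0, 3, 6, 1, 0, 3, 0, 1, 1, 2, 1, 15, 1, 0, 0, 1, 3, 0, 1, 0, 1, 0, 2, 0, 0, 2, 1, 1, 0, 1, 0, 5, 2, 1, 2, 0, 2, 1, 1, 0, 0, 0, 7,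 0] .nil))))),
  (.cons 0 28 0 0 0 (.cons 5 7 0 .nil) [5, 124, 5, 1, 0] (.cons 0 30 0 0 0 (.cons 5 73 0 .nil) [6, 125, 9] (.cons 0 35 0 0 0 (.cons 5 74 0 .nil) [0, 6, 131, 3] (.cons 0 16 0 0 0 (.cons 10 0 0 .nil) [] (.cons 1 0 0 0 0 (.cons 9 1 0 .nil) [19, 16, 3, 5, 3, 0, 1, 9, 0, 7, 16, 26, 1, 7, 18, 28, 5, 0, 1, 0, 3, 6, 5, 7, 1, 1, 1, 2, 1, 0, 1, 3, 4, 0, 0, 0, 1, 1, 1, 0, 3, 2, 27, 4, 4, 5, 3, 4, 4, 0, 3, 2, 6, 17, 3, 1, 1, 1, 3, 0, 0, 1, 0, 1, 0, 1, 6, 14, 1, 8, 1, 4, 5, 0, 1, 1, 2, 1, 0, 1, 10, 0, 0, 1, 2, 3, 1, 0, 4, 0, 2, 3, 9, 0, 1, 1, 1, 0, 1, 2, 2, 1, 1, 3, 2, 0, 1, 0, 1, 0, 1, 0, 4, 0, 1, 1, 0, 1, 2, 0, 0, 0, 0,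 3, 1, 0, 3, 1, 1, 4, 1, 1, 3, 0, 0, 2, 1, 3, 3, 5, 1, 0, 1, 1, 1, 2, 0, 1, 1, 1, 0, 1, 3, 0, 1, 1, 0, 6, 3, 0, 0, 1, 0, 2, 3, 7, 0, 1, 0, 2, 3, 5, 1, 0, 3, 1, 5, 0, 4, 1, 1, 1, 1, 0, 2, 0, 0, 1, 0, 1, 1, 0, 3, 1, 5, 0, 1, 0, 2, 1, 2, 1, 0, 13, 2, 0, 0, 0, 1, 0, 2, 6, 1, 6, 1, 0, 1, 0, 0, 2, 2, 3, 1, 3, 2, 0, 8, 3, 1, 3, 0, 1, 1, 5, 0, 1, 1, 2, 2, 3, 2, 0, 3, 1, 3, 2, 3, 0, 0, 1, 1, 5, 12, 1, 1, 0, 5, 3, 3, 3, 5, 1, 20, 2, 2, 0, 0, 1, 1, 0, 2, 2, 5, 0, 0, 0, 1, 5, 1, 3, 2, 4, 0, 1, 0, 1, 1, 3, 0, 3, 0, 0, 3, 2, 3, 3, 1, 1, 2, 1, 1, 3, 0, 0, 5, 2, 3, 6, 1, 0, 0, 3, 2, 2, 0, 1, 0, 2, 1, 7, 0, 1, 3, 2, 2, 0, 0, 0, 0, 0, 8, 1,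 1, 3, 3, 0, 6, 2, 0, 2, 0] .nil))))),
  (.cons 0 28 1 0 0 (.cons 5 1 0 .nil) [272, 5, 4, 55, 3, 46, 2, 4, 0] (.cons 0 10 0 0 0 (.cons 11 3 0 .nil) [9, 1, 133] (.cons 0 20 0 0 0 (.cons 9 0 0 .nil) [150] (.cons 0 17 0 0 0 (.cons 11 0 0 .nil) [2, 4, 3, 3, 48, 3, 71, 8] (.cons 2 2 0 0 0 (.cons 0 45 0 .nil) [28, 0, 1, 0, 9, 3, 2, 1, 1, 5, 24, 23, 0, 0, 1, 7, 29, 6, 0, 2, 1, 1, 0, 2, 0, 0, 1, 0, 1, 3, 0, 11, 3, 2, 1, 3, 1, 1, 0, 10, 3, 0, 2, 1, 1, 4, 4, 38, 1, 0, 0, 3, 4, 3, 2, 3, 0, 16, 2, 3, 4, 1, 0, 1, 5, 3, 39, 2, 4, 1, 0, 0, 1, 1, 5, 1, 3, 3, 2, 5, 0, 1, 1, 3, 1, 0, 2, 2, 4, 0, 13, 0, 0, 1, 0, 1, 0, 4, 1, 14, 5, 1, 6, 3, 0,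 1, 2, 3, 3, 2, 3, 3, 5, 6, 0, 0, 4, 0, 5, 0, 0, 1, 1, 2, 3, 2, 1, 0, 1, 6, 3, 1, 3, 1, 0, 0, 3, 1, 7, 0, 3, 6, 0, 2, 0, 2, 0, 0, 1, 0, 0, 1, 1, 1, 1, 1, 6, 0, 1, 1, 0, 2, 0, 1, 3, 1, 1, 0, 0, 0, 0, 1, 0, 1, 0, 1, 0, 2, 0, 1, 1, 0, 1, 0, 0, 1, 1, 0, 0, 0, 1, 0, 0, 5, 3, 0, 3, 1, 9, 0, 1, 2, 1, 9, 2, 10, 1, 5, 2, 0, 5, 3, 1, 2, 1, 2, 3, 2, 2, 1, 1, 3, 0, 1, 3, 0, 1, 3, 4, 3, 0, 0, 0, 0, 3, 0, 1, 7, 0, 1, 5, 1, 0, 2, 14, 4, 1, 1, 2, 0, 1, 2, 0, 0, 1, 0, 10, 2, 1, 4, 1, 1, 1, 4, 5, 1, 0, 0, 12, 3, 7, 1, 1, 0, 0, 3, 3, 1, 0, 0, 1, 1, 1, 8, 0, 5, 0, 1, 0, 1, 0, 1, 2, 1, 0, 1, 0, 2, 0, 1, 0, 0, 0, 3, 1, 1, 5, 1, 5, 13, 9, 0, 0, 0,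 1, 1, 1, 2, 0, 1, 0, 1, 1, 1, 2, 1, 1, 1, 2, 0, 9, 3, 1, 1, 11, 1, 0, 0] (.cons 2 14 0 0 0 (.cons 0 46 0 .nil) [4, 1, 0, 3, 2, 13, 0, 0, 1, 2, 1, 6, 1, 8, 1, 2, 4, 4, 1, 1, 0, 2, 1, 0, 0, 1, 3, 4, 10, 3, 3, 2, 4, 4, 0, 1, 4, 0, 3, 5, 0, 1, 1, 1, 1, 0, 1, 0, 1, 0, 1, 1, 1, 2, 2, 5, 3, 8, 7, 1, 1, 0, 1, 1, 1, 1, 0, 1, 0, 0, 0, 1, 0, 0, 1, 1, 1, 1, 3, 3, 7, 1, 0, 1, 9, 2, 1, 7, 11, 3, 2, 1, 1, 7, 8, 2, 1, 2, 3, 1, 4, 1, 3, 3, 3, 1, 3, 3, 7, 1, 1, 0, 2, 1, 5, 1, 1, 0, 1, 3, 1, 0, 1, 1, 7, 1, 3, 1, 1, 0, 1, 1, 4, 4, 0, 6, 1, 0, 0, 0, 1, 0, 19, 1, 4, 0, 1, 5, 0, 2, 0, 0, 6, 2, 3, 5, 0, 5, 1, 0, 0, 7, 0, 0, 2, 2, 0, 3, 1, 0, 3, 0,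 1, 0, 2, 9, 1, 1, 0, 0, 5, 1, 2, 1, 1, 1, 1, 0, 0, 1, 0, 1, 5, 2, 0, 3, 0, 5, 2, 0, 1, 0, 2, 0, 2, 1, 3, 0, 0, 0, 0, 0, 2, 1, 1, 1, 5, 0, 0, 0, 1, 0, 1, 1, 1, 5, 2, 3, 1, 3, 0, 1, 3, 1, 1, 3, 0, 3, 1, 0, 1, 0, 2, 3, 0, 1, 4, 3, 0, 0, 2, 2, 2, 2, 1, 0, 5, 2, 2, 3, 0, 4, 1, 5, 0, 1, 2, 0, 0, 6, 1, 3, 0, 1, 1, 0, 0, 2, 4, 0, 0, 5, 3, 0, 4, 1, 1, 1, 0, 0, 2, 1, 1, 1, 0, 1, 0, 0, 0, 9, 3, 6, 0, 2, 2, 0, 1, 0, 0, 0, 2, 11, 2, 0, 4, 7, 0, 1, 1, 1, 2, 0, 5, 4, 0, 0, 5, 2, 0, 3, 3, 0, 1, 0, 2, 0, 0, 0, 0, 3, 1, 1, 1, 1, 0, 3, 1, 0, 1, 2, 2, 1, 1, 1, 0, 1, 4, 7, 1, 0, 0, 1, 3, 0, 1, 0, 0, 1, 1, 2, 0, 0, 1, 2, 0, 0, 1, 1, 3, 2, 2, 5,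 4, 1, 0, 0, 1, 0, 3, 1, 0, 0, 3, 3, 0, 1, 0, 3, 3, 1, 0, 1, 0, 0, 2, 5, 1, 0, 0, 0, 4, 5, 0, 0] (.cons 1 0 0 0 0 (.cons 11 1 0 .nil) [5, 17, 0, 3, 0, 2, 0, 1, 2, 1, 2, 1, 0, 1, 1, 0, 0, 3, 0, 1, 0, 13, 1, 2, 0, 1, 1, 8, 6, 0, 0, 0, 0, 3, 2, 3, 5, 3, 0, 3, 3, 1, 1, 1, 1, 0, 4, 3, 1, 0, 2, 1, 0, 1, 3, 0, 3, 0, 3, 0, 1, 4, 0, 2, 9, 5, 5, 1, 1, 1, 0, 0, 1, 1, 3, 0, 0, 2, 1, 1, 2, 2, 1, 1, 0, 0, 0, 6, 0, 0, 0, 0, 1, 0, 4, 2, 2, 2, 2, 1, 1, 2, 0, 3, 1, 2, 4, 2, 3, 4, 3, 0, 0, 3, 5, 1, 5, 0, 6, 2, 1, 4, 1, 1, 0, 1, 1, 1, 0, 1, 1, 1, 3, 3, 2, 0, 5, 1, 0, 3, 1, 0, 1, 0, 0, 1, 0, 0, 4, 5, 4, 2, 1, 7, 0, 0, 1, 1, 0, 5, 2, 0, 5, 0, 4,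 1, 1, 3, 0, 1, 1, 6, 0, 1, 0, 1, 0, 0, 2, 1, 3, 3, 0, 1, 0, 3, 0, 4, 1, 4, 0, 1, 0, 1, 0, 1, 0, 1, 3, 2, 0, 1, 3, 3, 0, 1, 0, 2, 2, 2, 0, 0, 3, 0, 2, 7, 2, 0, 1, 1, 1, 2, 2, 0, 4, 1, 1, 1, 0, 0, 2, 1, 0, 6, 1, 1, 3, 2, 0, 2, 0, 0, 0, 0, 1, 2, 1, 0, 0, 2, 4, 3, 0, 5, 6, 1, 0, 2, 0, 0, 0, 2, 1, 0, 0, 0, 8, 0, 2, 1, 14, 4, 1, 5, 5, 0, 5, 1, 1, 0, 0, 3, 0, 0, 1, 1, 0, 1, 1, 1, 0, 1, 0, 2, 1, 1, 2, 0, 4, 2, 0, 2, 0, 1, 1, 0, 0, 0, 0, 0, 0, 0, 0, 4, 1, 1, 2, 0, 1, 2, 1, 0, 0, 7, 0, 1, 5, 4, 0, 1, 1, 0, 0, 1, 2, 3, 1, 1, 0, 3, 0, 0, 0, 1, 3, 0, 1, 2, 1, 2, 0, 1, 0, 1, 0, 5, 2, 2, 2, 2, 1, 0, 1, 1, 0, 0, 7, 2, 1, 2, 2, 1, 0, 2, 1,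 3, 2, 0, 1, 0, 3, 1, 0, 1, 1, 1, 1, 1, 0, 0, 0, 1, 3, 0, 1, 1, 0, 3, 1, 2, 0, 1, 0, 0, 0, 1, 0, 2, 0, 3, 2, 0, 2, 0, 2, 1, 1, 3, 1, 4, 5, 5, 1, 0, 3, 5, 0, 1, 1, 0, 0, 0, 4, 0, 0, 6, 3] .nil))))))),
  (.cons 0 21 0 0 0 (.cons 9 4 0 .nil) [6, 141] (.cons 0 28 0 0 0 (.cons 11 3 0 .nil) [0, 135, 3, 6, 1] (.cons 1 0 0 0 0 (.cons 9 1 0 .nil) [17, 10, 1, 1, 1, 1, 1, 0, 5, 7, 21, 3, 1, 1, 4, 18, 1, 2, 2, 0, 0, 5, 1, 22, 14, 2, 3, 1, 8, 3, 1, 1, 1, 1, 0, 1, 10, 9, 0, 3, 1, 1, 0, 1, 2, 0, 0, 0, 3, 0, 2, 0, 1, 1, 0, 6, 40, 3, 0, 19, 0, 0, 3, 18, 0, 1, 3, 1, 1, 1, 0, 0, 0, 0, 1, 0, 1, 0, 3, 8, 16, 4, 9, 2, 7, 6, 1, 0, 2, 0, 7, 0, 1,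 0, 3, 0, 2, 6, 13, 5, 4, 1, 5, 2, 1, 1, 0, 1, 1, 6, 2, 0, 1, 2, 3, 0, 1, 0, 3, 1, 4, 2, 2, 3, 2, 3, 1, 0, 4, 1, 3, 2, 0, 1, 3, 2, 5, 3, 3, 0, 0, 5, 1, 4, 6, 0, 0, 5, 0, 9, 3, 3, 1, 1, 6, 0, 0, 0, 2, 0, 1, 6, 1, 0, 0, 0, 1, 1, 2, 1, 2, 1, 1, 1, 0, 1, 1, 3, 2, 2, 1, 0, 1, 0, 3, 0, 2, 1, 1, 2, 0, 2, 0, 2, 2, 0, 0, 0, 1, 2, 1, 1, 2, 3, 0, 5, 2, 4, 0, 1, 1, 2, 3, 3, 0, 6, 1, 3, 0, 0, 3, 0, 0, 2, 1, 5, 2, 1, 0, 1, 1, 2, 1, 4, 7, 2, 0, 4, 1, 4, 1, 3, 0, 3, 0, 1, 3, 3, 0, 1, 1, 0, 1, 1, 1, 1, 5, 2, 0, 0, 12, 0, 0, 2, 1, 0, 5, 1, 0, 0, 0, 3, 25, 0, 2, 0, 1, 0, 0, 0, 0, 2, 0, 6, 0, 0, 3, 4, 1, 1, 1, 1, 0, 0, 2, 0, 1, 1, 1, 1, 3, 2,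 0, 1, 0, 3, 0, 2, 0, 5, 0, 3, 0, 1, 1, 1, 3, 1, 0, 1, 0, 0, 0, 0, 1, 0, 2, 1, 0, 2, 5, 0, 3, 0, 1, 5, 2, 1, 2, 1, 1, 1, 1, 3, 1, 1, 1, 0, 1, 15, 1, 1, 2, 3, 3, 0, 1, 1, 13, 1, 1, 3, 2, 6, 0, 0, 0, 2] .nil))),
  (.cons 0 24 0 0 0 (.cons 5 79 0 .nil) [79, 72] (.cons 0 28 1 0 0 (.cons 10 0 0 .nil) [7, 1, 72, 3, 214, 69, 0, 1, 1, 40, 0, 0, 2, 1] (.cons 0 8 2 0 0 (.cons 10 2 0 .nil) [0, 8, 69, 0, 0, 89, 37, 75, 9, 1, 5, 67, 0, 2, 2, 37, 8, 1] (.cons 2 3 0 0 0 (.cons 0 47 0 .nil) [0, 16, 5, 1, 0, 2, 0, 0, 0, 3, 5, 1, 7, 0, 2, 3, 2, 0, 25, 0, 1, 1, 0, 1, 7, 1, 2, 4, 1, 0, 1, 0, 1, 1, 1, 2, 5, 19, 5, 6, 3, 2, 1, 1, 0, 0, 1, 1, 0,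 6, 1, 3, 0, 1, 0, 0, 1, 1, 2, 2, 1, 1, 0, 0, 1, 1, 1, 1, 4, 1, 1, 2, 1, 0, 1, 2, 7, 0, 0, 13, 0, 0, 3, 4, 1, 4, 1, 0, 0, 1, 3, 1, 6, 0, 3, 5, 1, 3, 0, 7, 8, 1, 2, 3, 1, 1, 0, 1, 4, 0, 0, 0, 2, 4, 1, 1, 5, 4, 7, 1, 0, 1, 0, 9, 0, 2, 1, 1, 0, 1, 1, 0, 0, 5, 1, 0, 1, 2, 3, 2, 3, 1, 1, 3, 4, 0, 7, 0, 3, 0, 1, 11, 1, 1, 0, 1, 3, 1, 2, 1, 0, 1, 2, 0, 3, 1, 2, 2, 1, 3, 1, 1, 0, 1, 2, 0, 1, 0, 0, 5, 2, 1, 0, 5, 0, 1, 1, 1, 4, 5, 0, 1, 0, 2, 2, 2, 1, 0, 2, 5, 0, 1, 1, 1, 1, 3, 4, 2, 4, 3, 0, 1, 0, 2, 3, 0, 0, 1, 0, 1, 2, 3, 1, 1, 0, 11, 1, 1, 0, 0, 2, 3, 3, 1, 5, 3, 1, 1, 1, 0, 0, 7, 1, 1, 1, 1, 1, 2, 0, 1, 2, 1, 1, 2, 1, 3, 0, 3,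 1, 1, 0, 3, 3, 0, 0, 1, 0, 0, 1, 3, 0, 2, 1, 0, 0, 3, 2, 0, 1, 1, 0, 9, 3, 0, 3, 1, 1, 0, 2, 0, 0, 0, 0, 2, 0, 0, 1, 4, 1, 0, 0, 0, 1, 0, 1, 2, 1, 1, 0, 0, 1, 2, 1, 0, 3, 2, 3, 2, 5, 1, 1, 0, 0, 0, 1, 0, 6, 1, 2, 1, 4, 2, 1, 9, 0, 3, 1, 3, 1, 0, 0, 1, 1, 0, 4, 0, 0, 1, 2, 1, 0, 1, 0, 1, 0, 5, 0, 1, 2, 0, 0, 0, 0, 1, 1, 1, 6, 5, 0, 0, 5, 0, 0, 1, 0, 1, 1, 0, 1, 1, 1, 0, 1, 3, 0, 2, 0, 2, 0, 1, 3, 3, 1, 1, 2, 8, 1, 4, 3, 0, 0, 1, 1, 0, 1, 0, 2, 1, 0, 0, 0, 0, 1, 8, 3, 1, 2, 0, 0, 0, 2, 2, 0, 0, 8, 1, 0, 1, 3, 7, 0, 15, 7, 3, 1, 3, 0, 0, 1, 0, 1, 6, 1, 0, 5, 3, 1] (.cons 2 9 0 0 0 (.cons 0 48 1 .nil) [2, 2, 0, 3, 1, 1, 5, 3,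 6, 1, 6, 0, 2, 3, 1, 1, 0, 1, 6, 3, 0, 22, 5, 1, 1, 1, 0, 3, 1, 0, 2, 0, 1, 0, 0, 0, 0, 3, 0, 1, 1, 1, 1, 1, 1, 10, 0, 1, 3, 0, 3, 2, 3, 1, 1, 3, 6, 0, 0, 3, 1, 0, 0, 2, 0, 0, 0, 1, 4, 1, 1, 1, 0, 1, 0, 2, 0, 1, 1, 1, 2, 1, 0, 1, 1, 3, 0, 0, 0, 1, 7, 7, 1, 4, 0, 1, 1, 0, 0, 0, 1, 1, 10, 0, 0, 3, 2, 8, 5, 2, 2, 1, 1, 1, 13, 3, 2, 0, 1, 1, 7, 3, 1, 1, 1, 1, 7, 0, 3, 0, 3, 3, 0, 0, 3, 1, 4, 0, 4, 5, 0, 0, 1, 2, 0, 3, 5, 1, 5, 8, 2, 3, 1, 3, 4, 0, 1, 0, 2, 0, 0, 1, 0, 3, 0, 1, 2, 2, 5, 3, 5, 7, 1, 0, 1, 1, 3, 1, 1, 0, 0, 0, 1, 0, 0, 2, 5, 1, 1, 0, 2, 0, 1, 2, 1, 0, 0, 3, 1, 1, 4, 1, 1, 2, 0, 1, 0, 1, 0, 3, 0, 0, 0, 0, 0, 1, 1,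 1, 5, 3, 1, 0, 3, 1, 0, 0, 3, 1, 1, 2, 1, 0, 0, 7, 0, 0, 1, 0, 0, 0, 1, 1, 0, 4, 0, 0, 1, 4, 2, 0, 0, 1, 0, 4, 0, 2, 0, 0, 4, 0, 5, 0, 0, 0, 0, 1, 0, 1, 2, 5, 6, 0, 2, 3, 1, 1, 1, 0, 0, 1, 0, 1, 0, 2, 2, 0, 0, 2, 0, 1, 0, 4, 0, 0, 0, 2, 1, 3, 5, 2, 4, 0, 1, 1, 1, 0, 1, 3, 2, 4, 0, 2, 4, 9, 1, 0, 3, 2, 3, 0, 0, 1, 0, 1, 1, 0, 3, 3, 5, 2, 3, 1, 1, 3, 0, 5, 2, 0, 3, 2, 3, 0, 1, 5, 2, 2, 0, 0, 2, 0, 1, 0, 6, 2, 0, 1, 1, 3, 5, 4, 5, 4, 1, 1, 2, 3, 0, 0, 1, 1, 0, 0, 6, 2, 0, 1, 0, 1, 1, 3, 0, 4, 1, 0, 2, 4, 1, 0, 3, 0, 0, 2, 5, 1, 1, 5, 0, 5, 3, 3, 0, 0, 1, 0, 2, 0, 0, 1, 3, 0, 0, 0, 1, 5, 0, 1, 2, 0, 1, 0, 0, 0, 3, 1, 0, 1, 1,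 1, 3, 4, 3, 1, 7, 5, 1, 1, 0, 2, 0, 1, 1, 0, 1, 0, 1, 2, 0, 1, 7, 2, 0, 0, 0, 5, 1, 1, 2, 1, 5] (.cons 1 0 0 0 0 (.cons 11 0 0 .nil) [6, 1, 1, 3, 0, 2, 0, 1, 1, 1, 0, 1, 1, 2, 7, 2, 0, 4, 4, 2, 3, 2, 0, 21, 1, 3, 0, 1, 4, 2, 10, 1, 0, 0, 0, 2, 0, 0, 3, 1, 2, 0, 9, 2, 0, 2, 3, 0, 0, 0, 0, 0, 1, 4, 4, 1, 0, 3, 3, 0, 1, 1, 3, 2, 0, 1, 1, 2, 5, 0, 0, 2, 0, 1, 1, 0, 0, 1, 3, 1, 3, 1, 5, 3, 0, 5, 2, 8, 3, 0, 0, 5, 0, 0, 3, 1, 0, 0, 3, 3, 1, 1, 3, 4, 2, 6, 1, 0, 3, 0, 6, 1, 0, 0, 0, 2, 0, 2, 0, 1, 0, 0, 0, 1, 3, 6, 6, 1, 0, 3, 1, 1, 2, 1, 3, 3, 5, 1, 0, 1, 0, 5, 0, 0, 0, 5, 3, 1, 0, 1, 0, 1, 10, 0, 1, 1, 3, 4, 4, 0, 2, 1, 1, 1, 5,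 1, 2, 0, 0, 1, 0, 1, 7, 2, 8, 0, 0, 0, 2, 0, 1, 1, 0, 1, 1, 3, 3, 1, 1, 4, 5, 3, 0, 0, 0, 2, 1, 1, 0, 0, 0, 1, 2, 0, 7, 0, 0, 0, 0, 1, 3, 0, 2, 0, 1, 0, 0, 1, 3, 1, 5, 0, 1, 2, 4, 0, 2, 1, 2, 1, 0, 0, 0, 1, 0, 0, 3, 1, 5, 4, 0, 5, 0, 0, 0, 2, 3, 1, 1, 2, 0, 2, 1, 1, 1, 1, 0, 3, 4, 0, 0, 1, 2, 1, 7, 1, 1, 1, 3, 1, 0, 5, 2, 1, 3, 0, 0, 1, 0, 2, 0, 0, 7, 1, 0, 3, 0, 0, 0, 2, 1, 0, 3, 1, 2, 0, 2, 0, 1, 2, 1, 7, 4, 1, 1, 1, 3, 3, 4, 3, 9, 3, 0, 2, 3, 5, 3, 1, 0, 0, 0, 0, 0, 2, 3, 2, 0, 3, 0, 3, 1, 0, 0, 0, 1, 0, 3, 0, 2, 1, 10, 1, 6, 1, 1, 1, 11, 4, 0, 0, 6, 0, 1, 4, 1, 1, 0, 1, 0, 3, 5, 2, 0, 0, 0, 0, 2, 1, 1, 2, 2, 1, 1, 3, 0,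 0, 2, 5, 1, 1, 2, 1, 1, 3, 1, 1, 0, 1, 0, 0, 0, 3, 1, 8, 0, 1, 3, 0, 2, 1, 1, 3, 0, 2, 0, 5, 1, 0, 1, 2, 4, 0, 3, 1, 3, 2, 0, 1, 2, 3, 2, 2, 0, 1, 1, 1, 0, 0, 1, 5, 0, 0, 0, 1, 3, 1, 0, 1, 1, 0, 0, 2, 0, 7, 1, 0, 0, 1, 1, 1, 0, 2, 2, 0, 8] .nil))))))]

theorem ok6 : run B sp W6 W7 G6 Y6 Y7 598 K6 D6 = true := by decide +kernel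

end Vale.Agent.P236K.Cert.Pl.P96
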