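import Vale.Agent.P236K.P96.B
import Vale.Agent.P236K.P96.A7
import Vale.Agent.P236K.P96.A8

/-!
# P236K / P96 / R7 : the check of degree 7
-/

noncomputable section

namespace Vale.Agent.P236K.Cert.Pl.P96

/-- rows given by data -/
noncomputable def D7 : List DL := [.nil,
  .nil,
  .nil,
  .nil,
  .nil,
  .nil,
  .nil,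
  .nil,
  .nil,
  .nil,
  .nil,
  .nil,
  (.cons 2 0 0 0 0 (.cons 0 0 1 .nil) [] .nil),
  (.cons 1 0 0 0 0 (.cons 5 0 0 .nil) [] .nil),
  (.cons 2 0 0 0 0 (.cons 0 1 0 .nil) [] .nil),
  (.cons 1 0 0 0 0 (.cons 9 0 0 .nil) [0] .nil),
  (.cons 2 0 0 0 0 (.cons 0 2 1 .nil) [0] .nil),
  (.cons 1 0 0 0 0 (.cons 9 0 0 .nil) [0] .nil),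
  (.cons 2 1 0 0 0 (.cons 0 3 1 .nil) [] .nil),
  (.cons 1 0 0 0 0 (.cons 9 0 0 .nil) [0, 0] .nil),
  (.cons 2 0 0 0 0 (.cons 0 4 1 .nil) [5] .nil),
  (.cons 0 2 0 0 0 (.cons 9 0 0 .nil) [] (.cons 1 0 0 0 0 (.cons 10 0 0 .nil) [0, 0, 1] .nil)),
  (.cons 2 0 0 0 0 (.cons 0 5 0 .nil) [3, 0] .nil),
  (.cons 0 3 0 0 0 (.cons 9 0 0 .nil) [1] (.cons 0 1 0 0 0 (.cons 10 0 0 .nil) [3] .nil)),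
  (.cons 2 5 0 0 0 (.cons 0 6 0 .nil) [7, 3] (.cons 1 0 0 0 0 (.cons 5 0 0 .nil) [3, 2, 3] .nil)),
  (.cons 0 1 0 0 0 (.cons 10 0 0 .nil) [0] .nil),
  (.cons 2 6 0 0 0 (.cons 0 7 0 .nil) [] (.cons 1 0 0 0 0 (.cons 9 1 0 .nil) [4, 6, 1, 0] .nil)),
  .nil,
  (.cons 2 0 0 0 0 (.cons 0 8 1 .nil) [0] (.cons 1 0 0 0 0 (.cons 9 1 0 .nil) [4, 1, 2, 3, 5] .nil)),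
  (.cons 0 2 0 0 0 (.cons 10 0 0 .nil) [8] .nil),
  (.cons 0 7 0 0 0 (.cons 9 0 0 .nil) [8] (.cons 2 1 0 0 0 (.cons 0 9 1 .nil) [2, 10] (.cons 1 0 0 0 0 (.cons 9 1 0 .nil) [2, 1, 3, 1, 3, 0, 1, 0, 2, 1, 1] .nil))),
  (.cons 0 3 0 0 0 (.cons 10 0 0 .nil) [0] .nil),
  (.cons 0 5 0 0 0 (.cons 9 0 0 .nil) [8] (.cons 0 7 0 0 0 (.cons 9 1 0 .nil) [] (.cons 1 0 0 0 0 (.cons 10 0 0 .nil) [0, 1, 0, 1, 4, 0, 1, 1, 1, 0, 1, 0, 2, 1, 1] .nil))),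
  .nil,
  (.cons 0 6 0 0 0 (.cons 9 0 0 .nil) [9] (.cons 0 2 0 0 0 (.cons 10 0 0 .nil) [8] .nil)),
  (.cons 0 8 0 0 0 (.cons 5 0 0 .nil) [] .nil),
  (.cons 0 2 0 0 0 (.cons 10 0 0 .nil) [1] .nil),
  (.cons 0 4 0 0 0 (.cons 10 0 0 .nil) [] .nil),
  .nil,
  (.cons 0 4 0 0 0 (.cons 10 0 0 .nil) [] .nil),
  (.cons 0 5 0 0 0 (.cons 10 1 0 .nil) [17] .nil),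
  (.cons 2 2 0 0 0 (.cons 0 10 0 .nil) [4, 20, 1, 3, 0, 29] .nil),
  .nil,
  (.cons 0 8 0 0 0 (.cons 10 0 0 .nil) [] .nil),
  .nil,
  (.cons 0 7 0 0 0 (.cons 9 1 0 .nil) [2, 19] (.cons 2 3 0 0 0 (.cons 0 11 1 .nil) [1, 8, 5, 0, 1, 5, 1, 8, 0, 0, 1, 3, 0, 0, 3, 0, 0, 7, 2, 1, 0, 0, 3, 0, 12] .nil)),
  (.cons 0 9 0 0 0 (.cons 5 0 0 .nil) [] (.cons 0 7 0 0 0 (.cons 10 0 0 .nil) [] (.cons 2 0 0 0 0 (.cons 0 12 0 .nil) [5, 0, 12, 7, 1, 2, 0, 2, 2, 10, 1, 2, 1, 3, 1, 1, 0, 5, 1, 1, 1, 0, 2, 0, 11, 0, 0] (.cons 1 0 0 0 0 (.cons 5 1 0 .nil) [4, 1, 2, 0, 5, 17, 1, 1, 5, 4, 4, 1, 0, 0, 1, 1, 6, 1, 2, 1, 0, 0, 0, 1, 0, 1, 0, 1, 0, 4] .nil)))),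
  (.cons 0 3 0 0 0 (.cons 11 0 0 .nil) [0, 25] .nil),
  (.cons 0 0 2 0 0 (.cons 9 2 0 .nil) [25, 0, 20, 0, 9, 1] (.cons 0 8 0 0 0 (.cons 10 0 0 .nil) [] (.cons 1 0 0 0 0 (.cons 9 0 0 .nil) [5, 1, 1, 2, 2, 0, 3, 3, 2, 0, 0, 0, 0, 1, 0, 1, 3, 1, 2, 0, 0, 1, 2, 0, 0, 7, 0, 2, 1, 0, 7, 0, 1, 1, 1, 2, 5, 4, 3] .nil))),
  (.cons 0 3 0 0 0 (.cons 11 0 0 .nil) [3] .nil),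
  (.cons 0 5 0 0 0 (.cons 9 0 0 .nil) [30] .nil),
  (.cons 2 1 0 0 0 (.cons 0 13 0 .nil) [4, 27, 2, 3, 1, 1, 1, 0, 1, 1, 1, 2, 3, 1, 1, 2, 4, 0, 10, 1, 1, 0, 0, 0, 1, 1, 1, 1, 0, 0, 3, 7] (.cons 1 0 0 0 0 (.cons 5 0 0 .nil) [6, 3, 10, 0, 5, 2, 2, 2, 0, 1, 3, 11, 1, 0, 2, 3, 5, 6, 1, 3, 0, 3, 1, 0, 1, 2, 7, 8, 1, 1, 1, 1, 0] .nil)),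
  (.cons 0 6 0 0 0 (.cons 9 0 0 .nil) [27] (.cons 0 9 0 0 0 (.cons 9 1 0 .nil) [26] (.cons 0 1 1 0 0 (.cons 10 1 0 .nil) [1, 2, 8, 17, 42] .nil))),
  (.cons 0 12 0 0 0 (.cons 5 2 0 .nil) [] .nil),
  (.cons 0 9 0 0 0 (.cons 9 2 0 .nil) [] (.cons 1 0 0 0 0 (.cons 10 2 0 .nil) [3, 2, 3, 0, 1, 1, 8, 4, 1, 1, 3, 1, 0, 1, 1, 1, 5, 2, 0, 3, 6, 1, 1, 0, 0, 1, 1, 2, 1, 3, 6, 1, 0, 0, 5, 0, 1, 0, 1, 1, 1, 1, 0, 0, 0, 1, 2, 0, 0, 1, 2, 1, 0, 1, 1, 5, 7, 0, 0] .nil)),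
  (.cons 0 7 0 0 0 (.cons 11 0 0 .nil) [0] .nil),
  (.cons 2 12 0 0 0 (.cons 0 14 1 .nil) [9, 37, 8, 0, 0, 14, 12, 1, 1, 20, 6, 19, 4, 4, 6, 1, 1, 1, 5, 9] .nil),
  (.cons 2 5 0 0 0 (.cons 0 15 1 .nil) [1, 3, 1, 1, 0, 1, 0, 5, 5, 1, 0, 8, 1, 2, 0, 1, 2, 0, 1, 2, 1, 2, 2, 0, 3, 0, 2, 1, 5, 0, 1, 2, 1, 3, 0, 6, 3, 2, 3, 4, 1, 1, 1, 1, 1, 0, 1, 6, 0, 1, 0, 1, 4, 5, 0, 6, 0, 3, 1, 1, 5] (.cons 1 0 0 0 0 (.cons 5 0 0 .nil) [6, 7, 1, 5, 9, 15, 1, 1, 5, 0, 0, 0, 0, 16, 12, 0, 1, 25, 0, 0, 0, 4, 3, 0, 2, 4, 1, 6, 3, 1, 2, 1, 0, 11, 4, 3] (.cons 1 0 0 0 0 (.cons 9 3 0 .nil) [8, 2, 0, 1, 10, 1, 0, 11, 2, 1, 2, 1, 3, 1, 0, 3, 1, 6, 2, 1,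 0, 0, 5, 1, 1, 21, 0, 0, 5, 1, 2, 0, 2, 3, 1, 2, 1, 0, 0, 7, 5, 1, 1, 0, 0, 0, 1, 0, 2, 2, 0, 3, 1, 0, 1] .nil))),
  (.cons 2 9 0 0 0 (.cons 0 16 0 .nil) [10, 41, 1, 3, 1, 4, 14, 0, 5, 0, 5, 1, 0, 2, 6, 4, 6, 2, 0, 0, 4, 0, 0, 3, 4, 0, 2, 1, 1, 1, 0, 4, 1, 3, 1, 3, 0, 7, 0, 23] .nil),
  (.cons 0 8 0 0 0 (.cons 9 3 0 .nil) [39] (.cons 1 0 0 0 0 (.cons 5 0 0 .nil) [4, 1, 1, 2, 0, 3, 17, 15, 3, 0, 0, 7, 1, 5, 3, 7, 6, 7, 1, 5, 13, 0, 9, 1, 1, 4, 0, 1, 1, 7, 0, 0, 0, 0, 0, 2, 1, 4, 1, 1, 0, 2, 3, 9, 8, 3, 1, 0, 1, 3] (.cons 1 0 0 0 0 (.cons 9 1 0 .nil) [1, 5, 1, 0, 1, 0, 3, 1, 2, 3, 0, 2, 0, 6, 0, 3, 1, 1, 3, 4, 1, 1, 0, 3, 0, 0,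 1, 1, 0, 0, 0, 2, 1, 4, 0, 1, 1, 0, 0, 1, 2, 1, 0, 1, 2, 0, 5, 2, 13, 3, 1, 1, 0, 1, 1, 0, 0, 3, 0, 2, 0, 2, 0, 1, 1, 0, 3, 3, 1, 2, 2, 0, 2, 1, 0, 0, 2, 5] .nil))),
  (.cons 0 6 0 0 0 (.cons 10 1 0 .nil) [3] (.cons 2 8 0 0 0 (.cons 0 17 0 .nil) [11, 1, 4, 20, 4, 0, 3, 1, 2, 3, 5, 0, 0, 1, 8, 23, 0, 19, 2, 1, 1, 1, 2, 1, 5, 3, 1, 3, 1, 0, 5, 1, 2, 1, 1, 1, 5, 2, 0, 0, 0, 6, 4, 3, 1, 4, 0, 0, 0] (.cons 1 0 0 0 0 (.cons 10 0 0 .nil) [4, 0, 4, 4, 0, 8, 1, 3, 2, 1, 4, 0, 3, 0, 0, 0, 5, 2, 0, 4, 0, 9, 1, 0, 5, 0, 3, 3, 1, 4, 10, 1, 1, 0, 1, 0, 1, 0, 0, 3, 1, 2, 0, 0, 1, 5, 1, 1, 3, 1, 1, 5, 0, 0, 0, 0, 3, 7, 2, 0, 1, 5, 1, 1, 1, 1,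 1, 3, 3, 0, 0, 1] .nil))),
  (.cons 0 13 0 0 0 (.cons 9 1 0 .nil) [3, 31, 4] (.cons 0 9 2 0 0 (.cons 10 0 0 .nil) [49, 10, 3, 15, 3, 34, 0] (.cons 1 0 0 0 0 (.cons 9 3 0 .nil) [3, 9, 3, 5, 1, 0, 1, 1, 0, 0, 9, 1, 4, 1, 0, 0, 3, 0, 0, 1, 0, 4, 3, 1, 0, 0, 2, 1, 0, 0, 5, 11, 0, 3, 3, 1, 3, 0, 3, 7, 1, 1, 0, 1, 2, 1, 2, 5, 5, 1, 1, 0, 2, 2, 0, 1, 0, 4, 0, 1, 1, 3, 0, 1, 0, 3, 1, 3, 1, 5, 2, 7, 3, 0, 3] .nil))),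
  (.cons 2 3 0 0 0 (.cons 0 18 1 .nil) [9, 3, 5, 7, 1, 1, 0, 0, 8, 2, 2, 5, 1, 1, 4, 2, 0, 0, 2, 0, 0, 4, 3, 0, 0, 0, 1, 7, 7, 13, 1, 0, 1, 0, 3, 0, 1, 1, 1, 4, 1, 0, 0, 2, 1, 0, 1, 0, 3, 3, 0, 1, 0, 3, 1, 4, 0, 3, 0, 3, 1, 3, 0, 0, 3, 2, 1, 1, 1, 5, 3, 2, 2, 1, 4, 2, 5] .nil),
  (.cons 0 15 0 0 0 (.cons 9 0 0 .nil) [] (.cons 0 7 0 0 0 (.cons 9 1 0 .nil) [45] (.cons 2 4 0 0 0 (.cons 0 19 1 .nil) [13, 43, 0, 8, 4, 0, 1, 55, 3, 9, 1, 0, 2, 6, 0, 1, 1, 0, 5, 3, 3, 1, 4, 5, 0, 5, 1, 10, 2, 0, 3, 1, 3, 0, 0, 9, 1, 4] (.cons 1 0 0 0 0 (.cons 10 1 0 .nil) [4, 13, 0, 12, 2, 2, 7, 0, 5, 5, 0, 1, 1, 0, 1, 1, 3, 3, 1, 1, 0, 4, 2, 2, 5, 3,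 0, 2, 1, 0, 3, 1, 5, 0, 2, 2, 3, 0, 0, 1, 2, 0, 0, 3, 4, 1, 3, 1, 1, 8, 0, 1, 2, 1, 1, 0, 2, 0, 0, 1, 1, 0, 1, 4, 0, 0, 0, 1, 4, 6, 0, 4, 0, 3, 1, 0, 8, 5, 0] .nil)))),
  (.cons 2 0 0 0 0 (.cons 0 21 1 .nil) [4, 0, 30, 13, 10, 9, 0, 1, 1, 0, 3, 1, 9, 10, 8, 2, 0, 11, 14, 0, 0, 5, 0, 1, 3, 3, 2, 3, 0, 0, 0, 0, 1, 10, 1, 1, 2, 11, 1, 2, 0, 1, 3, 0, 5, 0, 3, 5, 4, 12, 1, 7, 0, 1] (.cons 2 3 0 0 0 (.cons 0 20 1 .nil) [9, 0, 0, 3, 23, 10, 8, 2, 5, 1, 0, 1, 1, 3, 1, 1, 1, 7, 1, 4, 4, 0, 4, 0, 0, 2, 11, 2, 0, 6, 0, 4, 1, 0, 2, 3, 1, 5, 1, 0, 1, 1, 0, 2, 0, 4, 3, 1, 8, 1, 0, 3, 0, 7, 0, 3, 0, 0, 1, 0, 6, 5, 6, 1, 3, 0, 0, 7, 1, 0] (.cons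 1 0 0 0 0 (.cons 10 1 0 .nil) [13, 7, 0, 7, 1, 6, 1, 11, 0, 1, 1, 4, 0, 0, 0, 4, 0, 2, 1, 0, 1, 1, 0, 6, 3, 0, 4, 9, 3, 0, 5, 1, 4, 3, 7, 0, 0, 0, 0, 3, 0, 0, 0, 1, 2, 1, 1, 1, 11, 0, 1, 1, 1, 1, 1, 1, 3, 4, 1, 2, 1, 0, 1, 1, 1, 1, 2, 0, 0, 0, 0, 2, 7, 0, 2, 8, 3, 1, 4, 1] .nil))),
  (.cons 0 13 0 0 0 (.cons 9 0 0 .nil) [1, 55] (.cons 1 0 0 0 0 (.cons 10 1 0 .nil) [1, 12, 1, 4, 10, 1, 4, 5, 0, 1, 4, 1, 1, 1, 5, 2, 1, 1, 0, 3, 0, 0, 1, 2, 2, 1, 5, 1, 4, 1, 3, 5, 2, 0, 0, 0, 1, 3, 2, 1, 0, 0, 2, 2, 3, 1, 2, 0, 0, 1, 1, 0, 5, 0, 8, 0, 3, 0, 0, 4, 2, 0, 0, 3, 1, 1, 0, 1, 1, 0, 3, 0, 0, 1, 3, 3, 5, 0, 1, 0, 1, 3, 0, 4, 0, 1, 1, 0,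 1, 1, 1, 2, 1, 3, 3, 1, 0, 1] .nil)),
  (.cons 0 16 0 0 0 (.cons 5 0 0 .nil) [] (.cons 2 1 0 0 0 (.cons 0 23 1 .nil) [4, 2, 0, 1, 8, 8, 9, 19, 0, 0, 0, 1, 2, 6, 0, 2, 2, 14, 5, 1, 1, 0, 1, 6, 5, 1, 1, 8, 19, 0, 0, 0, 7, 2, 1, 0, 0, 3, 0, 0, 0, 1, 0, 2, 2, 0, 3, 0, 5, 1, 0, 5, 2, 4, 0, 0, 3, 2, 1, 1, 1, 1, 1, 0, 3, 11, 0, 0, 1, 11, 0, 0, 6, 0, 2] (.cons 2 8 0 0 0 (.cons 0 22 0 .nil) [12, 0, 9, 9, 8, 15, 3, 0, 1, 1, 1, 1, 21, 2, 9, 3, 0, 0, 2, 6, 1, 5, 0, 0, 4, 2, 3, 15, 0, 1, 1, 9, 1, 5, 1, 1, 2, 0, 1, 1, 1, 1, 4, 7, 2, 1, 6, 5, 1, 0, 4, 1, 0, 0, 3, 3, 3, 1, 8, 0, 1, 1, 0, 0, 11, 2, 11, 0] (.cons 1 0 0 0 0 (.cons 10 1 0 .nil) [6,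 0, 6, 2, 2, 0, 8, 9, 14, 11, 0, 0, 0, 1, 3, 0, 1, 1, 0, 1, 0, 1, 1, 6, 4, 1, 0, 4, 6, 3, 2, 1, 2, 0, 4, 5, 11, 0, 0, 3, 1, 3, 7, 0, 1, 0, 1, 10, 2, 0, 1, 2, 1, 0, 1, 4, 2, 5, 0, 0, 1, 0, 1, 1, 1, 1, 1, 0, 1, 2, 1, 0, 2, 2, 0, 2, 0, 1, 0, 4, 0, 1, 3, 0, 0, 3, 3, 0, 1] (.cons 1 0 0 0 0 (.cons 11 1 0 .nil) [10, 7, 11, 2, 3, 6, 0, 11, 2, 2, 0, 1, 0, 2, 0, 5, 0, 8, 7, 1, 0, 2, 0, 1, 0, 1, 0, 8, 5, 1, 1, 4, 4, 0, 3, 3, 7, 3, 0, 1, 1, 2, 0, 1, 3, 0, 0, 2, 0, 0, 0, 9, 1, 1, 0, 1, 0, 1, 2, 1, 2, 6, 0, 3, 5, 1, 0, 0, 1, 1, 2, 0, 7, 1, 1, 0, 1, 0, 0, 1, 8, 1, 8, 0, 3, 0, 0, 0, 0, 1] .nil))))),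
  (.cons 0 12 0 0 0 (.cons 10 1 0 .nil) [7, 45, 3] .nil),
  (.cons 2 6 0 0 0 (.cons 0 24 1 .nil) [9, 5, 5, 11, 1, 6, 3, 1, 13, 7, 1, 6, 12, 4, 0, 4, 1, 5, 1, 0, 4, 2, 0, 0, 7, 1, 3, 2, 2, 7, 3, 1, 19, 1, 0, 5, 9, 0, 3, 1, 1, 0, 0, 2, 3, 1, 1, 0, 1, 0, 4, 1, 2, 0, 0, 0, 3, 6, 3, 0, 4, 2, 1, 3, 4, 4, 1, 2, 8, 1, 1, 1, 9, 0, 1, 1, 0, 3, 2, 0, 2, 1] (.cons 1 0 0 0 0 (.cons 5 1 0 .nil) [23, 8, 1, 15, 3, 6, 10, 0, 1, 0, 1, 1, 3, 2, 1, 1, 0, 3, 0, 1, 1, 3, 1, 0, 6, 0, 0, 1, 1, 0, 3, 5, 7, 1, 15, 2, 1, 3, 1, 8, 0, 0, 3, 0, 1, 2, 1, 0, 3, 0, 2, 0, 1, 1, 3, 1, 0, 0, 0, 0, 19, 7, 1, 0, 1, 0, 3, 0, 0, 6, 1, 2, 1, 1, 3, 0, 3, 2, 1, 0, 1, 4,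 0, 3, 0, 1, 3, 1, 7, 1, 1, 1, 2, 1, 1, 0, 0, 3] (.cons 1 0 0 0 0 (.cons 11 1 0 .nil) [7, 0, 4, 11, 4, 12, 3, 3, 2, 9, 1, 0, 0, 1, 2, 1, 2, 1, 7, 0, 1, 1, 2, 6, 0, 1, 0, 7, 5, 0, 4, 6, 1, 3, 1, 2, 6, 2, 0, 1, 8, 0, 1, 5, 0, 3, 0, 1, 1, 1, 3, 2, 0, 5, 0, 6, 1, 0, 0, 1, 3, 5, 1, 1, 1, 0, 1, 0, 1, 1, 0, 0, 0, 1, 1, 3, 0, 0, 3, 0, 0, 0, 0, 2, 1, 3, 1, 1, 3, 3, 0, 3, 2, 2, 0, 1, 3, 1, 0, 3, 0, 0, 0, 1, 1, 1, 1, 1, 0] .nil))),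
  (.cons 0 9 0 0 0 (.cons 10 0 0 .nil) [6] (.cons 0 12 0 0 0 (.cons 10 1 0 .nil) [0, 7, 50] .nil)),
  (.cons 0 15 0 0 0 (.cons 9 4 0 .nil) [1, 60] (.cons 2 3 0 0 0 (.cons 0 25 1 .nil) [66, 2, 5, 0, 0, 4, 9, 0, 2, 1, 2, 0, 1, 24, 1, 10, 4, 1, 1, 3, 4, 10, 5, 0, 16, 11, 2, 3, 1, 1, 1, 0, 3, 7, 2, 0, 3, 1, 0, 0, 7, 1, 6, 0, 6, 1, 1, 2, 0, 1, 0, 1, 4, 0, 2, 1, 2, 1, 1, 0, 4, 11, 17, 6, 10, 1, 0, 2, 0] (.cons 1 0 0 0 0 (.cons 9 0 0 .nil) [3, 4, 1, 1, 3, 1, 0, 4, 10, 7, 6, 11, 4, 5, 5, 0, 1, 0, 0, 3, 0, 1, 1, 2, 2, 0, 3, 4, 1, 1, 0, 0, 0, 1, 1, 1, 1, 1, 2, 2, 0, 0, 1, 1, 1, 0, 0, 3, 2, 0, 2, 1, 2, 0, 3, 0, 0, 0, 2, 3, 3, 0, 0, 0, 1,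 0, 3, 0, 0, 3, 1, 4, 0, 5, 0, 1, 1, 1, 1, 3, 1, 0, 0, 3, 1, 0, 2, 2, 4, 0, 1, 1, 1, 6, 3, 1, 1, 1, 0, 1, 2, 2, 1, 2, 0, 0, 1, 0, 0, 1, 5, 3, 1, 0, 0, 2, 4, 3, 1, 1, 10, 1, 0, 3, 3, 2, 0, 0, 1, 1, 1] (.cons 1 0 0 0 0 (.cons 11 1 0 .nil) [7, 0, 0, 1, 1, 3, 1, 2, 4, 0, 1, 0, 5, 1, 3, 2, 1, 2, 13, 0, 7, 0, 3, 2, 0, 8, 0, 2, 0, 0, 0, 3, 6, 3, 4, 1, 2, 0, 1, 0, 1, 4, 6, 8, 4, 0, 2, 1, 3, 0, 0, 3, 0, 4, 0, 1, 1, 1, 2, 0, 0, 2, 1, 1, 0, 10, 0, 2, 0, 1, 0, 0, 2, 3, 1, 1, 1, 0, 1, 0, 0, 1, 0, 1, 2, 0, 0, 1, 0, 4, 1, 0, 1, 1, 4, 1, 2, 0, 2, 1, 1, 0, 0, 5, 1, 5, 0, 1, 0, 7, 1, 0, 3, 0, 3, 1, 1, 1, 0, 2, 1, 0, 2, 2, 0, 1, 0, 0] .nil)))),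
  (.cons 0 14 0 0 0 (.cons 10 0 0 .nil) [] (.cons 0 7 0 0 0 (.cons 10 1 0 .nil) [4] (.cons 2 15 0 0 0 (.cons 0 26 0 .nil) [2, 7, 7, 3, 5, 1, 6, 1, 1, 7, 4, 1, 11, 2, 0, 1, 0, 0, 1, 3, 0, 1, 1, 1, 9, 1, 1, 3, 0, 3, 6, 3, 3, 0, 0, 3, 3, 2, 1, 0, 9, 0, 0, 7, 1, 0, 4, 16, 0, 0, 0, 1, 0, 0, 4, 0, 1, 2, 2, 2, 1, 0, 0, 0, 3, 1, 1, 1, 1, 0, 13, 3, 1, 0, 0, 1, 0, 1, 1, 0, 1, 1, 2, 0, 1, 0, 1, 0, 1, 0, 0, 0, 0, 0, 2, 0, 3, 0, 1, 0, 1, 3, 0, 0, 4, 0, 5, 2, 0, 1, 3, 0, 2, 3, 1, 0, 1, 5, 3, 2, 2, 0, 1, 1, 1, 2, 1, 0, 1, 5] .nil))),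
  (.cons 0 17 0 0 0 (.cons 5 2 0 .nil) [65] (.cons 0 19 0 0 0 (.cons 9 0 0 .nil) [] (.cons 0 12 2 0 0 (.cons 10 0 0 .nil) [70, 111] (.cons 2 4 0 0 0 (.cons 0 27 1 .nil) [1, 16, 0, 1, 31, 22, 1, 2, 0, 0, 3, 10, 0, 1, 1, 2, 21, 1, 11, 0, 0, 11, 1, 4, 3, 3, 7, 0, 2, 0, 4, 0, 17, 0, 6, 1, 1, 1, 2, 0, 1, 1, 1, 5, 2, 1, 0, 0, 0, 1, 7, 1, 1, 1, 0, 1, 0, 0, 0, 0, 1, 0, 5, 1, 2, 1, 0, 5, 1, 1, 1, 0, 0, 2, 1, 0, 1, 1, 0, 2, 6, 1, 0, 1, 1, 1, 0, 13, 2, 1, 0, 1, 13, 1, 1, 8, 0, 1, 1, 3, 2, 3, 0, 6, 1] (.cons 1 0 0 0 0 (.cons 11 2 0 .nil) [3, 5, 6, 1, 0, 7, 1, 5, 7, 1, 1, 4, 0, 9, 1, 4, 0, 1, 0, 0, 7, 3, 1, 0, 1, 1, 1, 0, 1, 0, 1, 1, 0, 1,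 1, 1, 1, 5, 4, 2, 0, 8, 14, 3, 2, 1, 0, 0, 0, 3, 1, 2, 0, 0, 0, 0, 1, 0, 0, 0, 1, 3, 0, 0, 2, 0, 3, 0, 0, 6, 1, 2, 0, 0, 0, 1, 1, 2, 0, 0, 4, 5, 1, 0, 1, 0, 0, 1, 0, 1, 0, 7, 1, 1, 0, 1, 1, 1, 0, 0, 2, 6, 3, 3, 1, 0, 1, 0, 1, 2, 1, 2, 1, 1, 3, 0, 1, 0, 0, 0, 2, 2, 0, 3, 0, 3, 1, 0, 1, 1, 2, 2, 0, 2, 1, 2, 1, 5, 3, 3, 3, 2, 0, 3, 0] (.cons 1 0 0 0 0 (.cons 11 0 0 .nil) [2, 1, 6, 1, 0, 1, 0, 1, 1, 3, 7, 7, 9, 1, 1, 1, 1, 14, 0, 1, 3, 3, 5, 2, 1, 0, 0, 2, 2, 0, 5, 0, 2, 0, 3, 0, 1, 1, 1, 2, 3, 1, 0, 0, 1, 6, 1, 0, 2, 2, 0, 0, 0, 1, 2, 1, 3, 1, 1, 0, 1, 1, 1, 7, 1, 1, 1, 0, 1, 7, 3, 3, 1, 1, 0, 5, 1, 3, 3, 1, 1, 0, 1, 0, 1, 1, 0,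 1, 3, 1, 0, 0, 0, 0, 0, 0, 1, 2, 3, 1, 2, 1, 0, 1, 0, 0, 0, 1, 1, 1, 2, 0, 0, 3, 1, 0, 6, 2, 1, 0, 1, 1, 1, 0, 1, 0, 3, 1, 1, 6, 0, 10, 1, 0, 0, 1, 3, 0, 5, 1, 1, 0, 2, 1, 2, 1, 3, 1, 2, 0] .nil)))))),
  (.cons 0 16 0 0 0 (.cons 10 0 0 .nil) [] (.cons 0 12 0 0 0 (.cons 11 0 0 .nil) [4, 65] .nil)),
  (.cons 0 17 0 0 0 (.cons 9 0 0 .nil) [70] (.cons 0 8 0 0 0 (.cons 9 1 0 .nil) [71] (.cons 1 0 0 0 0 (.cons 11 0 0 .nil) [4, 3, 3, 3, 0, 0, 3, 1, 2, 10, 1, 7, 0, 2, 1, 1, 1, 1, 0, 5, 1, 1, 1, 1, 2, 1, 1, 0, 2, 5, 0, 6, 2, 0, 0, 2, 2, 0, 9, 0, 5, 5, 6, 3, 0, 0, 1, 1, 1, 1, 0, 4, 2, 0, 0, 0, 0, 1, 1, 0, 5, 1, 3, 1, 0, 5, 1, 4, 1, 1, 6,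 1, 1, 0, 0, 1, 0, 0, 1, 3, 2, 2, 0, 0, 3, 4, 1, 1, 4, 1, 5, 0, 0, 1, 0, 6, 1, 1, 0, 1, 3, 1, 1, 3, 0, 1, 1, 1, 0, 1, 0, 3, 5, 0, 1, 1, 2, 1, 2, 1, 1, 0, 1, 4, 0, 3, 0, 1, 1, 0, 1, 5, 0, 0, 0, 5, 1, 2, 3, 2, 5, 1, 0, 3, 7, 4, 0, 0, 0, 3, 0, 1, 3, 4, 1] .nil))),
  (.cons 0 20 0 0 0 (.cons 5 0 0 .nil) [33] (.cons 0 13 2 0 0 (.cons 5 38 0 .nil) [74, 23, 28, 2, 2, 31] (.cons 0 14 0 0 0 (.cons 10 3 0 .nil) [6] (.cons 2 5 0 0 0 (.cons 0 28 1 .nil) [16, 4, 1, 1, 5, 2, 15, 2, 5, 1, 3, 7, 0, 6, 1, 3, 0, 0, 4, 2, 0, 0, 0, 1, 0, 0, 2, 1, 1, 0, 3, 2, 3, 3, 4, 5, 5, 3, 9, 3, 2, 5, 2, 8, 2, 0, 1, 3, 0, 1, 2, 1, 3, 0, 5, 2, 2, 3, 0, 1, 2, 1,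 1, 1, 3, 2, 2, 1, 1, 2, 2, 0, 2, 2, 3, 0, 0, 5, 1, 0, 1, 4, 1, 3, 3, 0, 0, 3, 1, 3, 3, 3, 1, 1, 3, 1, 1, 3, 5, 1, 2, 0, 0, 1, 1, 1, 2, 3, 0, 1, 1, 0, 0, 1, 2, 2, 3, 3, 6, 1, 3, 0, 0, 12, 0, 3, 7, 0, 3, 2, 3, 2, 1, 1, 1, 0, 1, 5, 1, 0, 3, 1, 0, 1] .nil)))),
  (.cons 0 14 1 0 0 (.cons 9 1 0 .nil) [35] (.cons 1 0 0 0 0 (.cons 11 0 0 .nil) [0, 0, 1, 5, 1, 0, 0, 0, 1, 0, 0, 1, 7, 9, 2, 5, 6, 1, 4, 10, 1, 1, 0, 2, 0, 7, 1, 2, 0, 1, 0, 0, 1, 0, 1, 7, 2, 0, 2, 0, 3, 5, 1, 2, 1, 1, 1, 0, 0, 1, 0, 0, 2, 3, 0, 1, 0, 1, 0, 1, 3, 6, 1, 1, 1, 4, 1, 6, 0, 1, 0, 1, 0, 1, 2, 1, 2, 0, 0, 0, 3, 2, 1, 3, 0, 4, 0, 3, 0, 1, 1, 1, 1, 0, 3, 3, 2, 3,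 1, 2, 1, 5, 2, 1, 1, 2, 0, 3, 0, 1, 0, 1, 1, 8, 1, 0, 2, 0, 3, 0, 6, 1, 6, 2, 1, 0, 2, 1, 1, 4, 1, 1, 1, 5, 0, 1, 1, 1, 7, 1, 7, 0, 8, 2, 2, 1, 1, 0, 2, 2, 0, 0, 1, 0, 1, 0, 1, 2, 3, 2, 1, 0, 1, 1, 3, 3, 1, 2, 3, 0, 1] .nil)),
  (.cons 0 9 0 0 0 (.cons 10 0 0 .nil) [] (.cons 2 6 0 0 0 (.cons 0 29 1 .nil) [6, 4, 6, 4, 8, 3, 7, 2, 0, 3, 3, 1, 0, 0, 1, 0, 4, 5, 12, 0, 1, 1, 3, 0, 3, 5, 1, 3, 0, 2, 1, 2, 2, 1, 7, 0, 10, 1, 5, 1, 2, 0, 0, 1, 5, 0, 2, 0, 1, 2, 1, 8, 3, 3, 0, 1, 0, 1, 0, 0, 2, 1, 7, 0, 5, 2, 9, 1, 2, 1, 1, 0, 1, 0, 0, 1, 3, 1, 3, 0, 0, 1, 2, 3, 0, 3, 3, 0, 3, 0, 1, 1, 2, 2, 7, 1, 0, 0, 0, 0, 3, 2, 4, 2, 3, 0, 0, 1, 9,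 0, 0, 1, 0, 1, 4, 0, 4, 1, 3, 0, 1, 0, 1, 2, 2, 4, 2, 2, 0, 0, 2, 1, 0, 1, 1, 2, 1, 3, 2, 0, 5, 0, 3, 7, 1, 4, 0, 1, 0, 4, 1, 9, 2, 0, 0, 1, 2, 1, 0, 0, 1] .nil)),
  (.cons 0 15 0 0 0 (.cons 9 1 0 .nil) [] (.cons 0 19 0 0 0 (.cons 10 0 0 .nil) [76] (.cons 0 12 0 0 0 (.cons 11 0 0 .nil) [5, 2] (.cons 0 16 0 0 0 (.cons 11 1 0 .nil) [12, 71, 0] .nil)))),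
  (.cons 0 15 1 0 0 (.cons 9 4 0 .nil) [30, 2, 40, 2, 113, 30, 5] (.cons 0 12 1 0 0 (.cons 9 5 0 .nil) [36, 45, 3, 108] (.cons 2 7 0 0 0 (.cons 0 30 1 .nil) [12, 17, 11, 5, 0, 2, 2, 0, 0, 7, 0, 1, 10, 3, 2, 7, 1, 0, 2, 0, 2, 7, 3, 1, 0, 3, 2, 2, 3, 0, 1, 4, 2, 1, 3, 2, 0, 0, 0, 1, 2, 1, 0, 1, 1, 6, 2, 1, 0, 1, 1, 7, 1, 2, 6, 14, 4, 1, 0, 1, 2, 1, 0, 4, 2, 0, 0, 0, 3, 0, 0, 1, 1, 0, 0, 1, 5, 0, 2, 2, 1, 0, 1, 0, 2, 1, 3, 1, 0, 5, 5, 0, 3, 1, 5, 0, 0, 4, 1, 1, 1, 2, 2, 0, 1, 5, 0, 2, 5, 1, 2, 1, 0, 0, 0, 5, 1, 1, 0, 1, 0, 0, 2, 0, 1, 0, 1, 1, 3, 0, 2, 1, 1, 1, 0, 5, 2, 0, 0, 2, 3, 6, 3, 0, 0, 0, 0, 7, 0, 3, 3, 1, 0, 1, 4, 0, 1,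 10, 3, 0, 1, 1, 1, 0, 0, 0, 0, 1, 9, 2, 0, 0, 1, 1, 0, 0, 0, 7, 2] (.cons 1 0 0 0 0 (.cons 5 0 0 .nil) [23, 6, 0, 7, 3, 5, 5, 3, 3, 0, 2, 0, 1, 1, 10, 15, 0, 3, 1, 1, 1, 1, 3, 0, 0, 3, 1, 1, 0, 1, 4, 0, 1, 4, 1, 2, 1, 1, 1, 1, 7, 0, 0, 5, 2, 1, 0, 1, 13, 0, 6, 0, 13, 13, 3, 1, 2, 1, 2, 1, 1, 0, 1, 0, 9, 7, 1, 0, 1, 2, 1, 3, 3, 7, 2, 0, 3, 1, 1, 7, 1, 0, 1, 3, 0, 1, 0, 1, 0, 0, 1, 0, 2, 1, 4, 0, 3, 0, 0, 0, 1, 1, 1, 1, 1, 0, 0, 0, 3, 0, 3, 3, 1, 4, 0, 0, 0, 1, 1, 1, 3, 2, 0, 1, 3, 1, 1, 4, 2, 1, 3, 1, 1, 0, 2, 0, 1, 0, 0, 3, 2, 1, 0, 1, 3, 0, 0, 7, 1, 1, 3, 0, 0, 0, 1, 0, 0, 1, 1, 12, 1, 2, 0, 2, 1, 0, 10, 2, 3, 0, 0, 9, 0, 0,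 1, 0, 1, 1, 1] .nil)))),
  (.cons 0 17 0 0 0 (.cons 10 2 0 .nil) [1] (.cons 0 12 2 0 0 (.cons 5 1 0 .nil) [98, 2, 23, 80, 25] (.cons 0 13 0 0 0 (.cons 11 1 0 .nil) [10, 80] .nil))),
  (.cons 0 21 0 0 0 (.cons 9 1 0 .nil) [9, 77, 1] (.cons 2 8 0 0 0 (.cons 0 31 1 (.cons 0 32 1 .nil)) [16, 7, 1, 8, 16, 13, 0, 22, 0, 10, 0, 4, 1, 0, 10, 1, 0, 1, 0, 0, 0, 2, 3, 11, 9, 2, 1, 1, 1, 1, 3, 6, 1, 1, 2, 1, 10, 4, 0, 7, 5, 4, 2, 0, 1, 0, 0, 0, 1, 1, 2, 4, 1, 1, 1, 0, 7, 5, 2, 0, 2, 0, 4, 0, 1, 1, 1, 1, 2, 1, 5, 1, 0, 3, 1, 1, 3, 1, 3, 0, 1, 0, 0, 1, 1, 0, 1, 3, 0, 4, 0, 1, 3, 9, 1, 0, 0, 2, 4, 1, 0, 1, 0, 0, 3, 6, 3, 0, 0, 5, 0, 3, 2, 5,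 1, 4, 2, 4, 0, 7, 2, 3, 3, 1, 3, 0, 0, 1, 1, 1, 0, 4, 12, 1, 11, 0, 1, 0, 9, 0, 8, 3, 1, 5, 1, 0, 2, 6, 0, 1, 1, 5, 0, 1, 0, 0, 0, 0, 1, 0, 0, 0, 5, 0, 1, 0, 1, 0, 4, 0] (.cons 2 12 0 0 0 (.cons 0 31 0 .nil) [23, 6, 7, 1, 1, 8, 3, 12, 3, 21, 1, 6, 1, 0, 2, 0, 1, 1, 6, 3, 1, 2, 1, 1, 0, 1, 0, 0, 0, 9, 9, 5, 4, 3, 2, 3, 1, 1, 1, 3, 2, 3, 2, 5, 0, 0, 1, 0, 1, 0, 0, 4, 5, 3, 3, 0, 2, 0, 3, 1, 0, 6, 1, 9, 0, 2, 3, 0, 0, 0, 0, 1, 3, 0, 2, 0, 0, 6, 2, 3, 4, 0, 1, 1, 0, 3, 1, 1, 2, 7, 0, 5, 3, 1, 1, 0, 3, 0, 0, 0, 1, 0, 0, 2, 0, 1, 2, 4, 0, 1, 1, 0, 1, 1, 3, 0, 0, 4, 1, 1, 0, 6, 0, 2, 1, 1, 0, 0, 2, 1, 1, 2, 0, 3, 0, 0, 0, 0, 0, 1, 2,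 1, 5, 0, 1, 2, 1, 2, 1, 11, 1, 0, 3, 1, 3, 0, 0, 10, 0, 0, 3, 0, 1, 0, 2, 6, 0, 0, 1, 5, 0, 6, 7, 3, 0, 0, 0, 1, 1, 1, 1, 0, 17] (.cons 1 0 0 0 0 (.cons 10 1 0 .nil) [24, 0, 70, 7, 0, 5, 1, 1, 23, 1, 0, 4, 8, 5, 10, 1, 3, 6, 9, 1, 5, 12, 8, 9, 8, 2, 6, 1, 1, 1, 1, 1, 41, 2, 0, 2, 10, 1, 0, 0, 0, 1, 5, 0, 2, 3, 2, 2, 0, 0, 2, 4, 0, 0, 3, 1, 2, 1, 4, 1, 0, 0, 2, 2, 4, 1, 0, 0, 1, 1, 0, 5, 0, 3, 2, 0, 1, 0, 7, 0, 0, 1, 0, 1, 1, 1, 5, 1, 4, 1, 4, 1, 0, 1, 1, 5, 0, 0, 1, 0, 1, 2, 1, 0, 1, 13, 9, 1, 0, 1, 0, 8, 1, 7, 3, 8, 0, 1, 2, 1, 3, 1, 0, 0, 3, 0, 1, 1, 1, 0, 0, 3, 0, 1, 0, 0, 0, 0] (.cons 1 0 0 0 0 (.cons 5 0 0 .nil) [12, 0, 6,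 1, 2, 1, 1, 1, 3, 3, 1, 8, 3, 3, 5, 2, 1, 1, 2, 0, 9, 1, 3, 0, 4, 1, 1, 4, 3, 5, 6, 0, 0, 1, 0, 0, 1, 0, 1, 0, 0, 0, 0, 4, 5, 3, 2, 1, 3, 0, 0, 1, 3, 5, 1, 1, 1, 2, 9, 3, 1, 2, 0, 5, 1, 5, 12, 0, 5, 1, 1, 0, 2, 2, 1, 0, 1, 5, 0, 1, 4, 1, 4, 1, 0, 3, 2, 0, 3, 2, 1, 1, 0, 0, 3, 0, 1, 0, 2, 0, 3, 3, 1, 3, 0, 2, 0, 3, 5, 1, 0, 1, 0, 7, 0, 0, 3, 1, 1, 0, 0, 0, 1, 0, 5, 1, 0, 0, 3, 5, 1, 1, 1, 9, 0, 0, 2, 0, 0, 1, 0, 1, 1, 5, 7, 4, 1, 9, 0, 0, 3, 0, 1, 3, 1, 0, 4, 0, 4, 3, 2, 8, 3, 8, 0, 4, 4, 0, 0, 1, 5, 4, 1, 0, 0, 2, 0, 3, 0, 3, 1, 3, 2, 1, 0, 1, 0, 0, 5, 0, 3, 1, 1, 1, 5, 1] .nil))))),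
  (.cons 0 13 0 0 0 (.cons 11 0 0 .nil) [6, 87, 1] (.cons 1 0 0 0 0 (.cons 10 0 0 .nil) [12, 0, 0, 1, 5, 0, 2, 3, 0, 25, 1, 0, 4, 0, 0, 2, 16, 5, 0, 1, 1, 0, 1, 0, 0, 0, 1, 0, 0, 6, 2, 1, 0, 4, 0, 0, 1, 2, 0, 0, 3, 0, 1, 1, 1, 1, 3, 3, 1, 5, 2, 2, 1, 0, 4, 0, 1, 8, 2, 0, 1, 2, 5, 0, 0, 0, 0, 3, 4, 0, 1, 1, 1, 2, 0, 1, 0, 1, 1, 11, 5, 7, 5, 0, 5, 0, 0, 0, 2, 0, 2, 1, 2, 1, 1, 0, 1, 8, 0, 0, 1, 0, 5, 2, 0, 2, 7, 1, 1, 2, 2, 3, 0, 1, 1, 1, 1, 0, 4, 1, 0, 1, 0, 0, 0, 5, 1, 0, 0, 3, 0, 5, 2, 0, 5, 0, 0, 3, 0, 0, 0, 1, 3, 0, 0, 8, 13, 2, 1, 1, 0, 1, 5, 0, 2, 0, 3, 0, 1, 1, 3, 0, 0, 7, 1, 0, 5, 0, 5, 8, 2, 1, 0, 1, 3, 1, 2, 2, 4, 1,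 0, 0, 3, 0, 3, 0, 0, 3, 0, 1, 0, 0, 1, 1, 1, 0, 2, 2, 0, 2, 8, 1, 3, 1, 0, 1] .nil)),
  (.cons 0 20 0 0 0 (.cons 9 0 0 .nil) [93] (.cons 0 21 0 0 0 (.cons 9 5 0 .nil) [0, 93] (.cons 2 14 0 0 0 (.cons 0 33 0 .nil) [21, 1, 0, 3, 5, 1, 17, 24, 4, 17, 14, 1, 1, 5, 1, 1, 3, 0, 6, 13, 1, 1, 3, 5, 4, 11, 2, 0, 7, 0, 3, 0, 1, 0, 18, 0, 4, 5, 4, 4, 4, 1, 2, 0, 1, 3, 3, 5, 6, 1, 11, 0, 8, 11, 1, 7, 1, 3, 3, 0, 0, 6, 0, 1, 7, 3, 1, 1, 0, 1, 2, 2, 2, 1, 0, 0, 2, 1, 2, 1, 4, 0, 1, 1, 0, 2, 2, 1, 4, 2, 1, 0, 2, 5, 2, 3, 2, 0, 0, 3, 0, 1, 0, 2, 1, 2, 3, 0, 1, 1, 3, 3, 5, 0, 2, 0, 0, 3, 1, 0, 1, 0, 0, 3, 0, 1, 6, 0, 3, 2, 0, 2, 2, 6, 1, 3, 0,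 2, 3, 0, 1, 7, 12, 6, 0, 3, 2, 1, 0, 1, 1, 2, 3, 2, 3, 5, 2, 1, 0, 1, 1, 3, 0, 0, 0, 1, 6, 0, 1, 1, 6, 1, 0] (.cons 2 15 0 0 0 (.cons 0 33 1 (.cons 0 34 0 .nil)) [18, 2, 1, 1, 1, 1, 4, 1, 0, 19, 0, 7, 1, 15, 19, 7, 4, 1, 0, 7, 0, 3, 1, 7, 1, 1, 1, 6, 0, 0, 0, 1, 1, 3, 0, 2, 10, 2, 0, 0, 0, 0, 2, 2, 0, 5, 1, 13, 3, 5, 0, 3, 0, 3, 13, 1, 1, 0, 0, 0, 0, 0, 3, 1, 0, 0, 3, 0, 0, 1, 11, 4, 2, 4, 3, 0, 2, 0, 0, 2, 3, 0, 1, 0, 1, 5, 3, 3, 1, 3, 0, 2, 1, 5, 0, 7, 0, 1, 0, 0, 0, 5, 0, 0, 1, 1, 1, 1, 0, 5, 5, 1, 3, 7, 0, 5, 1, 0, 8, 1, 0, 1, 1, 0, 1, 3, 1, 0, 6, 2, 1, 1, 3, 1, 0, 6, 0, 2, 0, 0, 2, 0, 1, 4, 3, 1, 5, 1, 0, 1, 1, 1, 0, 0, 0,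 2, 6, 0, 3, 6, 3, 1, 4, 1, 3, 2, 5, 7, 1, 4, 0, 2, 0, 0, 1, 0, 1, 1, 1, 0, 1, 8, 1, 2, 5, 0, 3, 1, 1, 6, 0, 1, 2, 1, 3, 1, 0] (.cons 1 0 0 0 0 (.cons 11 0 0 .nil) [6, 6, 2, 1, 1, 2, 1, 3, 1, 5, 2, 10, 1, 1, 1, 1, 0, 0, 2, 0, 1, 1, 1, 0, 0, 1, 1, 2, 0, 4, 2, 2, 1, 6, 1, 1, 1, 1, 1, 1, 2, 1, 3, 1, 1, 3, 0, 0, 1, 1, 1, 1, 0, 1, 0, 0, 0, 0, 0, 0, 3, 0, 3, 1, 0, 0, 1, 2, 1, 3, 0, 3, 2, 5, 2, 1, 3, 2, 6, 7, 1, 5, 1, 0, 1, 11, 5, 4, 1, 9, 0, 2, 1, 1, 2, 0, 7, 1, 1, 0, 2, 3, 6, 1, 0, 4, 8, 1, 0, 3, 0, 0, 0, 2, 2, 1, 1, 1, 1, 7, 0, 0, 0, 0, 11, 1, 2, 4, 0, 2, 3, 3, 0, 1, 9, 3, 1, 2, 0, 1, 3, 0, 2, 5, 1, 1, 1, 1, 1, 2, 0, 1, 2, 0, 2, 0,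 4, 0, 7, 1, 0, 1, 9, 0, 1, 1, 1, 2, 1, 1, 0, 0, 1, 0, 3, 7, 0, 1, 1, 0, 3, 0, 1, 4, 1, 2, 5, 0, 3, 1, 1, 2, 1, 0, 0, 1, 3, 4, 0, 1, 2, 1, 0, 0, 1, 0, 1, 0, 1, 1, 0, 1, 1, 0, 2, 0, 0, 2, 3, 1, 0, 1, 1, 5, 0, 5, 0, 1, 1, 1, 1, 1, 0, 2, 1, 0] .nil))))),
  (.cons 0 19 0 0 0 (.cons 5 1 0 .nil) [] (.cons 0 9 0 0 0 (.cons 11 0 0 .nil) [4, 3] (.cons 0 16 1 0 0 (.cons 11 1 0 .nil) [0, 0, 1, 1, 0, 0, 1, 83, 6, 138, 27, 0, 0] (.cons 1 0 0 0 0 (.cons 10 1 0 .nil) [4, 15, 0, 4, 0, 1, 1, 1, 1, 7, 1, 38, 26, 2, 0, 3, 0, 0, 1, 1, 0, 3, 6, 1, 0, 4, 1, 0, 2, 1, 1, 1, 1, 11, 5, 6, 0, 2, 1, 0, 16, 0, 0, 0, 0, 4, 5, 3, 0, 1, 1, 3, 3, 1, 4, 2, 3, 2,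 2, 3, 1, 3, 0, 1, 4, 0, 6, 2, 3, 0, 1, 5, 5, 2, 1, 1, 0, 2, 0, 0, 6, 0, 1, 0, 1, 1, 1, 1, 2, 0, 2, 1, 6, 11, 0, 2, 0, 1, 1, 1, 0, 0, 2, 0, 0, 1, 1, 2, 6, 1, 7, 0, 3, 2, 1, 3, 0, 0, 0, 0, 5, 1, 3, 3, 0, 4, 1, 1, 1, 2, 1, 1, 1, 1, 0, 2, 0, 1, 0, 0, 0, 3, 1, 2, 2, 1, 2, 1, 1, 0, 0, 0, 1, 3, 0, 1, 5, 0, 10, 1, 0, 5, 2, 10, 1, 3, 0, 1, 1, 0, 7, 9, 0, 0, 1, 0, 1, 7, 0, 2, 0, 1, 0, 3, 0, 0, 1, 1, 0, 0, 4, 1, 2, 5, 0, 0, 9, 0, 0, 1, 0, 1, 1, 3, 2, 3, 1, 0, 0, 0, 2] .nil)))),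
  (.cons 0 13 2 0 0 (.cons 9 2 0 .nil) [44, 61, 74, 2, 0, 88] (.cons 0 27 1 0 0 (.cons 5 0 0 .nil) [190, 78, 1, 7] (.cons 2 14 0 0 0 (.cons 0 35 0 .nil) [11, 1, 1, 1, 2, 1, 5, 0, 5, 3, 12, 3, 1, 1, 2, 3, 0, 1, 1, 0, 5, 2, 2, 0, 8, 0, 3, 5, 2, 1, 0, 1, 0, 0, 0, 4, 7, 1, 1, 1, 0, 0, 0, 0, 0, 0, 1, 1, 0, 0, 1, 1, 1, 0, 0, 2, 0, 1, 1, 0, 7, 3, 0, 0, 0, 1, 1, 1, 1, 0, 0, 0, 0, 0, 0, 0, 6, 0, 0, 0, 1, 2, 1, 3, 11, 1, 0, 11, 1, 0, 1, 0, 5, 0, 5, 1, 0, 1, 1, 1, 1, 2, 1, 0, 2, 1, 3, 1, 0, 1, 1, 7, 3, 0, 0, 0, 0, 0, 0, 3, 1, 3, 8, 0, 7, 0, 0, 1, 0, 0, 0, 3, 0, 0, 0, 1, 2, 0, 3, 2, 1, 1, 4, 0, 0, 6, 4, 5, 0, 1, 1, 4, 0, 0, 1, 1, 1, 0, 1,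 0, 1, 0, 1, 0, 2, 0, 1, 0, 3, 1, 0, 0, 0, 1, 0, 1, 1, 1, 0, 0, 1, 1, 1, 1, 1, 0, 1, 2, 0, 1, 0, 1, 2, 1, 5, 0, 2, 3, 1, 6, 1, 2, 0, 1, 3, 1, 0, 7, 1, 0, 1, 1, 0, 3, 3, 0, 0, 4, 0, 4, 1, 0, 1, 1, 1, 1, 1, 1, 1, 0, 1, 0, 2, 0, 0, 2, 1, 1, 4, 0, 0, 1, 0, 0, 0, 0, 5, 4, 1, 0, 3, 1, 3, 2, 1, 1, 1, 0, 1, 5, 0, 1, 0, 0, 0, 2, 1, 5, 0, 2, 1, 0, 3, 1, 1, 1] (.cons 2 16 0 0 0 (.cons 0 35 1 (.cons 0 36 0 .nil)) [2, 9, 1, 1, 1, 4, 1, 3, 8, 14, 1, 0, 1, 0, 0, 3, 0, 1, 0, 0, 3, 1, 1, 0, 0, 1, 2, 9, 0, 3, 3, 0, 3, 1, 1, 1, 1, 2, 3, 0, 1, 1, 1, 0, 1, 1, 3, 1, 1, 1, 0, 1, 1, 1, 1, 1, 0, 1, 1, 8, 1, 1, 0, 7, 1, 0, 1, 1, 2, 1, 2, 0, 7, 2, 10, 1,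 1, 1, 0, 3, 1, 1, 1, 1, 1, 0, 0, 1, 0, 5, 4, 0, 1, 1, 0, 2, 2, 1, 1, 6, 0, 0, 0, 2, 1, 0, 3, 1, 3, 1, 2, 1, 0, 0, 7, 0, 6, 2, 1, 0, 2, 0, 0, 1, 1, 3, 5, 0, 3, 0, 0, 1, 4, 0, 0, 1, 3, 1, 1, 1, 0, 0, 0, 0, 6, 1, 0, 1, 2, 0, 7, 3, 5, 1, 0, 1, 1, 5, 4, 1, 1, 0, 1, 0, 1, 6, 2, 2, 0, 2, 2, 1, 0, 1, 5, 2, 1, 1, 1, 2, 0, 1, 4, 1, 6, 1, 2, 2, 1, 0, 1, 1, 0, 1, 0, 1, 2, 0, 3, 0, 1, 0, 1, 2, 2, 3, 1, 0, 2, 0, 1, 2, 2, 5, 0, 0, 1, 4, 5, 1, 1, 2, 0, 6, 3, 0, 3, 0, 1, 0, 3, 3, 2, 0, 0, 0, 0, 0, 0, 5, 1, 1, 2, 1, 5, 1, 4, 1, 1, 2, 3, 1, 1, 4, 1, 0, 4, 1, 5, 0] (.cons 1 0 0 0 0 (.cons 11 0 0 .nil) [14, 0, 0, 0, 4, 1, 0, 3, 1, 2, 2, 1, 13, 0,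 0, 0, 2, 0, 0, 0, 1, 5, 6, 2, 11, 0, 3, 6, 1, 1, 1, 3, 7, 0, 3, 2, 0, 3, 1, 0, 1, 2, 8, 1, 1, 0, 3, 0, 1, 1, 5, 7, 0, 1, 1, 3, 1, 0, 0, 3, 0, 5, 1, 1, 7, 1, 0, 3, 1, 2, 0, 0, 1, 2, 0, 4, 1, 4, 3, 1, 1, 0, 1, 1, 2, 0, 8, 3, 0, 1, 10, 2, 3, 1, 3, 1, 1, 0, 0, 4, 1, 0, 1, 5, 2, 1, 2, 1, 1, 7, 1, 1, 0, 4, 1, 4, 0, 0, 4, 0, 3, 0, 1, 0, 0, 6, 2, 4, 1, 0, 1, 0, 0, 6, 3, 0, 1, 4, 2, 1, 0, 4, 1, 1, 0, 0, 0, 1, 1, 1, 0, 3, 0, 0, 0, 5, 0, 0, 2, 6, 1, 3, 1, 0, 0, 1, 9, 0, 0, 4, 3, 2, 1, 2, 3, 1, 1, 3, 1, 1, 0, 0, 1, 11, 1, 3, 2, 5, 1, 1, 3, 1, 1, 0, 0, 0, 0, 0, 1, 1, 1, 0, 0, 0, 3, 0, 0, 1, 1, 0, 3, 0, 0, 5, 2, 0, 1, 3, 1, 0, 0, 3, 1, 0, 0,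 0, 1, 0, 1, 1, 0, 1, 1, 1, 0, 2, 7, 2, 0, 0, 8, 3, 5, 5, 1, 3, 1] .nil))))),
  (.cons 0 30 0 0 0 (.cons 5 55 0 .nil) [48, 47] (.cons 0 19 0 0 0 (.cons 10 1 0 .nil) [7] (.cons 0 27 0 0 0 (.cons 9 1 0 .nil) [0, 107] .nil))),
  (.cons 0 20 0 0 0 (.cons 5 55 0 .nil) [] (.cons 0 21 0 0 0 (.cons 10 0 0 .nil) [1, 102, 4] (.cons 0 27 2 0 0 (.cons 9 0 0 .nil) [149, 3, 37, 1, 5, 1, 6, 86, 4] (.cons 1 0 0 0 0 (.cons 11 0 0 .nil) [3, 3, 1, 17, 0, 1, 3, 1, 1, 0, 1, 2, 7, 3, 15, 8, 0, 2, 3, 3, 1, 2, 0, 7, 3, 4, 1, 0, 2, 1, 3, 7, 4, 0, 0, 2, 0, 2, 1, 3, 1, 2, 3, 1, 0, 2, 3, 2, 0, 3, 0, 4, 3, 0, 1, 2, 1, 1, 1, 5, 0, 2, 0, 0, 1, 2, 0, 0, 7, 1,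 4, 0, 1, 2, 0, 1, 0, 3, 1, 2, 1, 0, 3, 0, 0, 0, 1, 0, 0, 1, 0, 0, 3, 2, 0, 1, 1, 1, 1, 3, 3, 0, 1, 0, 0, 1, 2, 2, 1, 0, 0, 1, 5, 1, 0, 1, 2, 5, 4, 2, 6, 0, 0, 1, 0, 0, 8, 1, 3, 1, 1, 1, 0, 1, 2, 1, 0, 1, 4, 2, 0, 3, 2, 1, 3, 1, 0, 1, 1, 1, 0, 1, 2, 0, 1, 1, 2, 0, 1, 4, 1, 1, 1, 1, 0, 2, 1, 1, 2, 0, 3, 0, 1, 3, 3, 1, 1, 2, 10, 3, 0, 1, 0, 1, 4, 3, 1, 3, 0, 0, 0, 1, 1, 0, 0, 1, 0, 0, 1, 3, 1, 1, 3, 0, 1, 1, 4, 0, 0, 0, 0, 2, 2, 0, 3, 2, 5, 2, 1, 3, 0, 0, 3, 1, 5, 6, 2, 0, 7, 1, 3, 1, 0, 1, 1, 2, 0, 3, 1, 3, 1, 0, 1, 1, 1, 1, 7, 1, 2, 0, 3, 0, 1, 5, 0, 1, 1, 0, 2, 0, 3, 2, 5, 1, 4, 5, 1, 5, 3, 0, 1, 0, 1, 1, 3, 6] .nil)))),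
  (.cons 0 21 2 0 0 (.cons 5 58 0 .nil) [118, 1, 1, 88] (.cons 0 20 0 0 0 (.cons 9 1 0 .nil) [] (.cons 2 14 0 0 0 (.cons 0 37 0 .nil) [2, 11, 2, 1, 1, 5, 0, 0, 0, 1, 1, 0, 23, 1, 0, 14, 1, 4, 0, 0, 0, 0, 1, 2, 13, 1, 0, 11, 1, 0, 3, 3, 2, 4, 8, 1, 10, 0, 2, 0, 1, 1, 0, 0, 0, 1, 1, 0, 6, 0, 9, 1, 3, 0, 0, 5, 0, 1, 2, 0, 1, 7, 11, 0, 0, 0, 1, 1, 0, 0, 1, 2, 0, 1, 0, 1, 1, 8, 0, 2, 1, 1, 1, 1, 1, 1, 1, 1, 8, 0, 4, 2, 5, 0, 3, 0, 3, 5, 1, 2, 0, 0, 12, 3, 1, 1, 0, 1, 5, 6, 3, 1, 1, 2, 0, 0, 1, 1, 1, 1, 0, 0, 0, 1, 0, 2, 1, 1, 0, 0, 2, 6, 0, 4, 3, 1, 0, 0, 10, 0, 0, 4, 1, 5, 1, 1, 9, 1, 2, 3, 0, 0, 3, 1, 2, 1, 1, 0, 1, 0, 1, 3, 5, 0,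 3, 6, 1, 1, 3, 2, 0, 1, 3, 0, 2, 1, 2, 6, 0, 0, 9, 0, 5, 1, 4, 5, 1, 0, 0, 2, 0, 2, 2, 1, 0, 1, 6, 0, 2, 0, 2, 0, 0, 3, 0, 0, 1, 0, 1, 5, 3, 0, 1, 1, 3, 3, 2, 0, 1, 3, 5, 1, 2, 0, 1, 0, 2, 3, 0, 2, 0, 5, 0, 1, 0, 1, 2, 0, 2, 6, 1, 4, 8, 3, 0, 0, 3, 3, 2, 0, 0, 0, 0, 1, 2, 5, 0, 5, 1, 0] .nil))),
  (.cons 0 21 0 0 0 (.cons 10 2 0 .nil) [] (.cons 0 23 0 0 0 (.cons 10 0 0 .nil) [0, 113, 4] (.cons 1 0 0 0 0 (.cons 11 0 0 .nil) [1, 1, 0, 5, 0, 5, 1, 1, 2, 0, 1, 5, 0, 3, 15, 5, 3, 7, 2, 3, 1, 2, 0, 1, 1, 1, 1, 2, 0, 0, 0, 1, 7, 1, 1, 0, 2, 4, 0, 3, 4, 1, 0, 1, 1, 0, 6, 0, 0, 1, 1, 1, 0, 3, 0, 0, 0, 2, 2, 1, 3, 0, 0, 0, 1, 3, 4, 12,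 0, 0, 3, 1, 0, 0, 1, 1, 0, 3, 1, 0, 3, 0, 0, 1, 5, 0, 7, 3, 4, 2, 1, 1, 2, 1, 1, 1, 2, 7, 1, 1, 1, 2, 2, 5, 3, 1, 1, 0, 0, 1, 3, 2, 1, 1, 4, 1, 1, 0, 2, 4, 0, 1, 12, 3, 0, 0, 3, 1, 2, 5, 0, 2, 3, 0, 3, 2, 3, 1, 7, 0, 0, 3, 1, 1, 2, 8, 1, 1, 1, 0, 0, 1, 7, 4, 2, 2, 3, 2, 1, 3, 3, 1, 0, 1, 1, 4, 1, 1, 0, 0, 3, 0, 1, 1, 0, 4, 0, 0, 4, 0, 0, 1, 0, 2, 0, 0, 0, 0, 0, 3, 0, 1, 0, 2, 1, 3, 9, 0, 5, 1, 1, 2, 3, 2, 1, 0, 0, 0, 1, 7, 1, 1, 0, 0, 3, 0, 0, 3, 7, 0, 1, 1, 1, 1, 1, 1, 0, 3, 1, 1, 3, 3, 1, 1, 0, 3, 3, 0, 4, 3, 7, 9, 1, 1, 1, 2, 1, 1, 0, 3, 3, 0, 1, 4, 1, 1, 2, 1, 1, 1, 0, 1, 3, 0, 1, 0, 5, 0, 1, 0, 0, 1, 1, 7, 2, 1, 0, 7, 1,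 1, 0, 3, 1, 3, 1, 0, 3, 0, 3, 0, 0, 1, 1, 0, 9, 1, 1, 1] .nil))),
  (.cons 2 13 0 0 0 (.cons 0 39 1 .nil) [7, 4, 0, 0, 6, 0, 3, 2, 0, 1, 4, 3, 1, 0, 0, 15, 2, 3, 1, 6, 14, 0, 1, 28, 0, 1, 0, 1, 4, 1, 0, 1, 3, 1, 0, 0, 2, 4, 0, 0, 2, 0, 0, 0, 1, 3, 0, 0, 5, 1, 0, 1, 1, 7, 2, 8, 0, 1, 1, 1, 0, 3, 1, 2, 2, 4, 0, 1, 2, 2, 13, 0, 3, 1, 2, 1, 0, 1, 1, 1, 0, 1, 6, 5, 2, 0, 2, 1, 0, 1, 0, 1, 2, 1, 0, 2, 2, 1, 0, 0, 1, 1, 1, 3, 4, 1, 3, 2, 6, 1, 1, 1, 0, 3, 3, 1, 1, 0, 5, 2, 3, 2, 3, 3, 1, 3, 3, 6, 1, 0, 0, 3, 5, 4, 1, 1, 0, 0, 2, 1, 0, 0, 0, 2, 2, 1, 1, 5, 3, 6, 4, 0, 0, 0, 1, 0, 2, 0, 7, 1, 3, 0, 2, 2, 0, 2, 1, 0, 2, 0, 1, 1, 0, 5, 2,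 2, 0, 0, 1, 0, 3, 0, 0, 0, 2, 0, 2, 3, 2, 1, 3, 5, 1, 1, 0, 2, 0, 0, 5, 0, 1, 3, 1, 0, 0, 2, 1, 1, 0, 3, 0, 0, 3, 1, 6, 2, 0, 1, 2, 0, 1, 2, 1, 1, 2, 2, 0, 0, 1, 0, 2, 1, 1, 1, 7, 0, 1, 2, 1, 9, 3, 3, 0, 1, 1, 1, 0, 5, 2, 2, 4, 2, 0, 2, 0, 2, 4, 1, 1, 1, 5, 1, 1, 2, 0, 2, 5, 3, 0, 8, 0, 1, 3, 1, 5, 0, 0, 1, 1, 1, 0, 1, 3, 8, 1, 1, 5, 1, 2, 1, 4] (.cons 2 18 0 0 0 (.cons 0 38 0 .nil) [33, 3, 0, 0, 87, 3, 6, 2, 1, 1, 0, 0, 1, 1, 0, 0, 0, 0, 3, 4, 2, 0, 0, 1, 2, 0, 0, 3, 3, 1, 1, 1, 0, 7, 1, 11, 8, 0, 2, 3, 1, 7, 1, 0, 2, 1, 2, 0, 0, 1, 1, 1, 11, 2, 5, 1, 1, 2, 0, 5, 3, 9, 3, 6, 1, 1, 0, 0, 0, 3, 4, 1, 0, 0, 0, 1, 3, 2, 2, 4, 5,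 13, 4, 0, 7, 3, 1, 1, 0, 1, 0, 1, 5, 8, 0, 3, 0, 2, 1, 1, 1, 2, 1, 3, 1, 1, 2, 1, 1, 0, 1, 1, 1, 1, 4, 0, 5, 3, 0, 2, 3, 8, 1, 6, 3, 5, 0, 2, 0, 2, 0, 1, 5, 1, 5, 0, 4, 0, 0, 1, 1, 0, 2, 1, 1, 0, 0, 2, 11, 0, 1, 1, 0, 1, 5, 2, 1, 2, 5, 5, 0, 0, 1, 1, 1, 0, 1, 2, 7, 1, 1, 0, 1, 3, 1, 0, 0, 2, 2, 0, 3, 1, 1, 3, 3, 6, 1, 4, 5, 3, 1, 0, 2, 3, 7, 1, 0, 1, 3, 1, 5, 2, 3, 5, 1, 13, 1, 3, 5, 2, 0, 0, 2, 0, 2, 0, 0, 1, 3, 2, 4, 0, 2, 3, 6, 1, 0, 1, 1, 5, 1, 1, 0, 1, 4, 1, 1, 0, 0, 0, 3, 1, 1, 0, 0, 8, 0, 0, 0, 7] (.cons 1 0 0 0 0 (.cons 11 0 0 .nil) [5, 2, 13, 0, 2, 7, 1, 0, 0, 9, 0, 2, 10, 0, 1, 2, 1, 1, 0, 12, 0, 3, 1, 1, 17, 1, 5, 1,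 2, 0, 3, 1, 3, 0, 1, 0, 1, 5, 1, 0, 1, 2, 10, 1, 1, 0, 1, 2, 3, 1, 7, 3, 12, 7, 6, 1, 3, 0, 1, 3, 0, 0, 2, 1, 0, 0, 3, 2, 1, 10, 0, 3, 0, 1, 0, 3, 1, 1, 2, 1, 3, 9, 0, 0, 0, 0, 1, 0, 1, 0, 1, 1, 0, 1, 5, 1, 1, 1, 1, 0, 3, 1, 0, 1, 2, 5, 5, 5, 2, 1, 0, 1, 0, 1, 2, 2, 1, 3, 1, 2, 1, 5, 2, 0, 1, 0, 0, 1, 5, 3, 2, 1, 1, 1, 0, 0, 2, 1, 1, 1, 2, 1, 2, 0, 1, 1, 1, 1, 1, 0, 1, 0, 0, 1, 0, 0, 0, 0, 0, 0, 0, 1, 0, 1, 1, 0, 2, 1, 1, 2, 2, 2, 1, 5, 0, 1, 0, 7, 0, 1, 0, 0, 5, 2, 2, 2, 1, 3, 1, 0, 1, 8, 3, 1, 3, 2, 1, 8, 3, 0, 5, 2, 3, 2, 2, 0, 1, 1, 5, 1, 1, 0, 3, 2, 0, 1, 1, 2, 0, 2, 0, 3, 0, 0, 2, 0, 1, 1, 1, 3, 0, 1, 0, 7, 7, 0, 15, 1,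 0, 2, 0, 2, 7, 1, 0, 0, 0, 1, 1, 1, 6, 5, 2, 5, 0, 0, 1, 1, 1, 2, 2, 0, 1, 2, 2, 6, 1, 3, 1, 1, 2, 0, 3, 2, 0, 0, 3, 2, 1, 1, 3, 0, 1, 0, 9, 2, 5, 1, 1, 0, 3, 1, 1, 1, 4, 2, 0] .nil))),
  (.cons 0 17 0 0 0 (.cons 10 0 0 .nil) [123] (.cons 0 21 0 0 0 (.cons 11 0 0 .nil) [2, 3, 2, 107, 4] (.cons 2 0 0 0 0 (.cons 0 40 0 .nil) [18, 9, 67, 0, 53, 3, 1, 1, 1, 4, 1, 0, 15, 1, 0, 0, 0, 4, 1, 3, 3, 3, 3, 31, 3, 13, 1, 5, 29, 3, 0, 2, 1, 32, 10, 0, 15, 1, 1, 6, 0, 1, 10, 0, 6, 7, 10, 1, 9, 5, 0, 1, 3, 1, 2, 2, 1, 0, 1, 1, 6, 6, 1, 2, 0, 3, 1, 1, 0, 2, 1, 5, 1, 1, 1, 1, 0, 1, 0, 0, 0, 3, 3, 6, 3, 1, 2, 0, 0, 3, 0, 0, 3, 1, 5, 3, 6, 0, 3,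 6, 1, 0, 1, 0, 1, 1, 1, 1, 1, 1, 1, 0, 3, 9, 0, 1, 0, 2, 1, 1, 1, 0, 1, 6, 0, 1, 0, 1, 1, 0, 4, 0, 1, 0, 3, 6, 3, 0, 1, 9, 1, 0, 2, 1, 1, 0, 2, 5, 1, 2, 4, 3, 2, 4, 16, 1, 12, 1, 7, 9, 5, 1, 3, 0, 0, 0, 25, 0, 4, 4, 0, 1, 7, 1, 0, 0, 0, 1, 3, 0, 1, 5, 0, 0, 8, 0, 9, 1, 0, 1, 13, 0, 3, 0, 10, 5, 6, 5] (.cons 2 27 0 0 0 (.cons 0 41 1 .nil) [21, 3, 4, 0, 1, 1, 0, 4, 0, 14, 1, 0, 0, 1, 10, 11, 0, 0, 0, 0, 1, 0, 26, 0, 1, 5, 2, 3, 1, 2, 0, 3, 5, 0, 13, 3, 1, 1, 3, 2, 1, 0, 2, 3, 0, 2, 0, 1, 1, 4, 3, 13, 3, 1, 2, 2, 3, 0, 11, 1, 15, 1, 2, 4, 1, 2, 0, 5, 1, 0, 0, 1, 1, 9, 13, 0, 2, 2, 0, 1, 3, 0, 0, 0, 0, 4, 1, 2, 2, 1, 1, 11, 0, 3,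 4, 10, 1, 0, 1, 3, 1, 0, 0, 0, 0, 1, 1, 3, 1, 0, 4, 0, 3, 5, 0, 1, 1, 0, 0, 0, 1, 1, 0, 1, 3, 1, 0, 2, 2, 1, 1, 0, 1, 3, 1, 5, 2, 0, 5, 0, 2, 0, 3, 1, 1, 2, 2, 1, 0, 2, 1, 1, 2, 3, 3, 0, 0, 6, 0, 3, 1, 3, 3, 3, 2, 7, 0, 3, 0, 5, 2, 0, 3, 3, 1, 1, 0, 4, 1, 3, 1, 4, 1, 3, 0, 0, 1, 3, 0, 7, 3, 0, 3, 1, 4, 1, 0, 1, 2, 0, 7, 1, 0, 5, 2, 1, 3, 0, 1, 1, 0, 1, 13, 0, 0, 1, 0, 1, 1, 0, 0, 3, 0, 5, 6, 1, 1, 1, 0, 1, 1, 3, 3, 3, 11, 4, 1, 3, 1, 7, 1, 0, 3, 1, 3, 0, 1, 2, 3, 1, 0, 1, 2, 1, 1, 1, 1, 1, 1, 0, 1, 0, 4, 0, 1, 2, 1, 1, 7, 1, 2, 0, 0, 0, 2, 0, 2, 3, 1, 0, 4, 1, 1, 0, 1, 0] (.cons 1 0 0 0 0 (.cons 11 1 0 .nil) [18, 0, 1, 4, 2, 1,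 1, 0, 1, 5, 17, 1, 1, 1, 1, 22, 1, 0, 5, 0, 22, 0, 0, 8, 3, 3, 1, 5, 2, 14, 4, 1, 2, 0, 0, 0, 2, 3, 5, 1, 0, 8, 4, 2, 3, 6, 1, 0, 0, 2, 1, 1, 4, 11, 4, 12, 5, 1, 5, 0, 3, 1, 3, 1, 1, 1, 0, 0, 4, 2, 1, 3, 3, 1, 1, 0, 2, 1, 1, 0, 2, 2, 0, 0, 3, 5, 8, 1, 6, 0, 1, 1, 1, 0, 3, 1, 0, 0, 3, 0, 3, 2, 3, 1, 0, 2, 1, 1, 5, 0, 0, 4, 1, 0, 1, 1, 2, 14, 2, 0, 1, 0, 1, 0, 0, 3, 0, 1, 1, 0, 2, 0, 1, 1, 1, 1, 0, 6, 7, 0, 0, 2, 0, 1, 4, 1, 1, 2, 6, 0, 1, 4, 0, 3, 2, 0, 2, 0, 0, 3, 7, 0, 3, 1, 0, 0, 1, 3, 1, 3, 0, 1, 1, 1, 0, 1, 1, 0, 1, 0, 6, 1, 3, 3, 3, 3, 0, 0, 1, 2, 5, 0, 1, 1, 0, 3, 0, 1, 1, 3, 0, 3, 2, 1, 3, 0, 0, 0, 3, 1, 1, 1, 0, 1, 1,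 3, 1, 1, 3, 5, 0, 3, 0, 0, 3, 3, 1, 9, 0, 7, 5, 3, 1, 1, 2, 7, 6, 0, 1, 2, 2, 3, 2, 1, 0, 3, 3, 2, 7, 0, 1, 1, 2, 1, 0, 0, 3, 0, 1, 1, 1, 5, 3, 0, 1, 1, 3, 3, 0, 1, 11, 1, 2, 3, 0, 4, 1, 0, 1, 10, 1, 1, 0, 2] .nil))))),
  (.cons 0 27 1 0 0 (.cons 5 3 0 .nil) [7, 113, 6, 109, 2, 3, 52, 5, 40, 5, 1] (.cons 0 25 0 0 0 (.cons 10 6 0 .nil) [8, 120] (.cons 2 9 0 0 0 (.cons 0 42 0 (.cons 0 43 1 .nil)) [10, 6, 1, 7, 0, 0, 4, 7, 16, 3, 0, 0, 2, 5, 4, 6, 6, 0, 1, 4, 1, 4, 15, 1, 8, 0, 4, 3, 0, 0, 2, 0, 1, 3, 9, 2, 3, 1, 0, 3, 4, 1, 1, 1, 1, 2, 6, 5, 0, 1, 13, 1, 0, 2, 0, 1, 1, 0, 4, 6, 0, 0, 1, 4, 1, 1, 11, 8, 4, 0, 4, 1, 1, 16, 3, 1, 3,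 1, 5, 1, 1, 0, 3, 2, 0, 0, 0, 2, 10, 5, 0, 1, 0, 0, 0, 0, 1, 1, 3, 0, 0, 5, 0, 1, 4, 5, 3, 0, 1, 13, 1, 1, 3, 5, 0, 1, 2, 0, 4, 3, 0, 0, 0, 4, 0, 0, 3, 2, 0, 0, 1, 1, 2, 1, 4, 0, 1, 6, 1, 1, 0, 1, 3, 1, 7, 1, 0, 1, 0, 0, 1, 1, 0, 1, 5, 1, 1, 0, 1, 0, 1, 1, 3, 0, 1, 1, 1, 1, 1, 1, 1, 0, 3, 0, 1, 3, 3, 5, 3, 3, 5, 2, 2, 1, 7, 4, 6, 3, 0, 2, 1, 0, 1, 0, 1, 2, 1, 0, 0, 5, 7, 0, 0, 1, 0, 0, 1, 4, 4, 1, 0, 4, 1, 1, 1, 0, 0, 0, 2, 0, 2, 5, 0, 1, 0, 1, 2, 4, 0, 1, 0, 0, 0, 3, 0, 1, 3, 0, 3, 2, 0, 1, 6, 1, 1, 3, 1, 0, 2, 0, 3, 5, 0, 2, 1, 0, 4, 1, 1, 1, 1, 3, 2, 0, 3, 3, 3, 1, 3, 2, 0, 0, 0, 0, 0, 0, 1, 0, 3, 0, 6, 7, 1, 3, 0, 3, 3, 0,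 0, 1, 3, 3, 1, 1, 0, 1, 1, 2, 0, 1, 1, 2, 0, 0, 3, 0, 0, 0] (.cons 2 10 0 0 0 (.cons 0 42 1 .nil) [4, 16, 1, 3, 0, 0, 1, 4, 4, 2, 15, 1, 2, 3, 1, 5, 2, 0, 2, 3, 3, 0, 1, 0, 1, 0, 1, 3, 0, 0, 29, 0, 0, 0, 4, 5, 2, 3, 0, 0, 3, 1, 1, 2, 1, 1, 0, 0, 1, 1, 1, 0, 5, 0, 0, 3, 12, 1, 0, 0, 8, 1, 1, 0, 1, 1, 3, 0, 0, 0, 0, 2, 1, 1, 3, 0, 1, 0, 5, 1, 2, 9, 4, 6, 7, 3, 3, 1, 5, 6, 2, 0, 0, 0, 1, 1, 0, 2, 1, 2, 1, 3, 1, 0, 5, 1, 1, 1, 0, 3, 8, 5, 3, 1, 0, 7, 1, 1, 0, 5, 5, 1, 3, 3, 0, 0, 1, 0, 1, 1, 1, 1, 1, 0, 0, 3, 2, 3, 0, 3, 3, 1, 1, 1, 3, 5, 0, 2, 3, 1, 9, 2, 2, 2, 0, 1, 0, 1, 1, 0, 0, 0, 3, 1, 1, 0, 4, 0, 0, 2, 0, 1, 0, 3, 9, 0, 0,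 2, 0, 1, 1, 0, 0, 8, 5, 1, 0, 4, 0, 1, 0, 0, 1, 1, 3, 1, 3, 3, 5, 3, 0, 1, 1, 2, 0, 1, 1, 0, 1, 2, 0, 0, 3, 3, 1, 0, 0, 2, 4, 0, 2, 2, 0, 1, 1, 1, 1, 3, 1, 0, 4, 1, 7, 3, 0, 1, 1, 1, 1, 4, 0, 3, 0, 9, 0, 6, 1, 6, 0, 0, 0, 0, 1, 5, 2, 1, 5, 1, 0, 1, 1, 3, 3, 4, 2, 5, 5, 3, 1, 1, 0, 1, 0, 0, 0, 0, 0, 1, 1, 0, 2, 1, 3, 1, 3, 4, 4, 3, 2, 1, 1, 3, 3, 3, 1, 0, 5, 1, 5, 5, 0, 5, 1, 2, 8, 1, 0, 1, 3, 1, 4, 3, 1, 0, 2] (.cons 1 0 0 0 0 (.cons 10 1 0 .nil) [4, 0, 7, 7, 7, 1, 2, 9, 2, 19, 0, 1, 3, 1, 5, 2, 5, 3, 3, 0, 4, 1, 1, 1, 1, 1, 0, 0, 15, 0, 9, 0, 1, 3, 1, 3, 1, 0, 3, 1, 1, 1, 1, 3, 2, 3, 1, 2, 2, 1, 0, 3, 0, 0, 3, 3, 5, 6, 1, 0,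 0, 9, 0, 2, 1, 3, 1, 5, 0, 2, 0, 0, 2, 1, 0, 2, 0, 0, 1, 9, 10, 0, 4, 0, 3, 3, 2, 0, 11, 4, 0, 9, 1, 3, 1, 0, 1, 3, 0, 0, 0, 1, 1, 1, 1, 0, 0, 4, 0, 0, 5, 0, 11, 0, 3, 5, 4, 1, 4, 5, 1, 0, 0, 0, 1, 1, 3, 0, 1, 0, 3, 0, 3, 0, 3, 0, 0, 3, 0, 3, 1, 1, 4, 1, 0, 2, 0, 7, 0, 1, 5, 1, 1, 0, 0, 1, 0, 4, 1, 4, 1, 0, 1, 1, 1, 0, 1, 2, 0, 2, 1, 0, 2, 2, 1, 0, 0, 2, 0, 3, 6, 1, 1, 1, 1, 0, 4, 4, 1, 1, 0, 2, 1, 4, 5, 3, 1, 0, 0, 1, 0, 0, 0, 2, 2, 2, 0, 1, 3, 1, 0, 6, 2, 3, 0, 5, 3, 2, 1, 3, 2, 1, 1, 2, 1, 1, 2, 1, 1, 2, 1, 2, 0, 2, 0, 1, 0, 3, 4, 0, 1, 3, 0, 1, 0, 5, 0, 4, 7, 0, 0, 0, 1, 3, 5, 0, 4, 2, 0, 3, 3, 8, 7, 7, 0, 2, 0, 0, 1, 5, 0,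 4, 4, 1, 0, 0, 1, 1, 1, 0, 0, 5, 0, 0, 0, 1, 1, 3, 1, 1, 1, 1, 0, 5, 0, 0, 11, 1, 3, 0, 2, 1, 0, 4, 3, 1, 3, 1, 1, 1, 1, 1, 0, 2, 5] .nil))))),
  (.cons 0 27 2 0 0 (.cons 5 2 0 .nil) [145, 29, 61, 3, 0, 75, 32] (.cons 0 17 0 0 0 (.cons 10 1 0 .nil) [4, 5, 120] (.cons 0 14 0 0 0 (.cons 11 0 0 .nil) [8, 3, 121] (.cons 2 1 0 0 0 (.cons 0 44 1 .nil) [4, 21, 0, 1, 0, 2, 3, 0, 1, 2, 1, 6, 20, 1, 3, 1, 2, 6, 8, 0, 1, 5, 21, 9, 1, 3, 2, 2, 0, 5, 1, 1, 9, 4, 1, 0, 0, 3, 0, 2, 4, 0, 3, 0, 0, 2, 31, 1, 1, 4, 0, 1, 0, 1, 7, 5, 3, 1, 1, 3, 1, 0, 0, 0, 12, 3, 0, 2, 1, 3, 0, 0, 0, 1, 21, 5, 4, 0, 0, 2, 0, 1, 3, 3, 0, 0, 4, 0, 0, 1, 0, 1, 0,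 1, 1, 1, 6, 1, 1, 3, 1, 0, 1, 0, 0, 1, 8, 4, 0, 0, 0, 1, 3, 6, 1, 0, 0, 1, 0, 1, 0, 1, 3, 2, 1, 1, 2, 1, 1, 1, 0, 4, 5, 1, 1, 0, 0, 0, 1, 3, 0, 0, 3, 0, 3, 3, 0, 1, 2, 1, 0, 3, 0, 7, 1, 6, 1, 1, 13, 1, 5, 0, 0, 0, 5, 1, 1, 0, 1, 0, 1, 2, 2, 3, 2, 0, 0, 0, 1, 1, 0, 2, 1, 1, 1, 0, 0, 4, 1, 0, 4, 0, 1, 2, 1, 2, 1, 2, 3, 0, 1, 1, 1, 2, 1, 4, 0, 1, 1, 1, 4, 2, 2, 1, 3, 0, 1, 1, 1, 0, 0, 0, 0, 3, 0, 1, 1, 3, 3, 1, 1, 0, 1, 3, 1, 1, 3, 0, 0, 13, 3, 2, 1, 1, 1, 1, 0, 0, 2, 3, 0, 0, 2, 0, 4, 4, 2, 0, 0, 1, 1, 2, 1, 3, 6, 0, 1, 1, 1, 1, 5, 0, 1, 0, 2, 1, 1, 0, 0, 4, 3, 1, 0, 5, 0, 1, 0, 0, 0, 1, 0, 1, 4, 1, 3, 1, 0, 1, 3, 4, 1, 2, 5, 2,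 3, 0, 1, 1, 1, 3, 0, 2, 0, 0, 1, 3, 1, 1, 0, 1, 5, 1, 0, 3] (.cons 1 0 0 0 0 (.cons 6 0 0 .nil) [21, 46, 47, 11, 21, 3, 1, 2, 4, 1, 1, 3, 21, 8, 0, 7, 1, 1, 2, 5, 1, 24, 2, 0, 5, 2, 9, 14, 1, 3, 1, 28, 11, 39, 0, 0, 0, 1, 0, 0, 3, 5, 1, 6, 1, 4, 1, 1, 28, 13, 4, 2, 2, 1, 1, 0, 4, 1, 1, 0, 0, 0, 1, 1, 0, 3, 0, 0, 10, 1, 1, 9, 1, 0, 3, 1, 2, 1, 1, 1, 1, 0, 0, 0, 0, 4, 1, 1, 4, 1, 0, 0, 1, 0, 4, 0, 1, 1, 3, 0, 0, 0, 5, 2, 0, 1, 1, 0, 3, 1, 5, 7, 3, 0, 13, 2, 1, 0, 2, 1, 1, 3, 6, 6, 0, 2, 2, 0, 1, 3, 5, 5, 4, 1, 4, 1, 0, 1, 3, 1, 1, 10, 0, 4, 4, 1, 0, 0, 0, 1, 0, 1, 2, 0, 2, 1, 3, 0, 1, 1, 0, 0, 2, 5, 1, 8, 0, 1, 3, 6, 3, 8, 2, 3,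 1, 19, 0, 4, 21, 3, 3, 1, 1, 1, 2, 0, 3, 1, 1, 6, 0, 0, 0, 2, 5, 1, 1, 0, 6, 7, 1, 5, 4, 1, 0, 1, 0, 1, 0, 5, 2, 4, 0, 1, 2, 5, 0, 0, 5, 2, 9] (.cons 1 0 0 0 0 (.cons 11 1 0 .nil) [7, 10, 0, 1, 0, 1, 2, 0, 1, 2, 0, 3, 0, 0, 1, 1, 5, 4, 0, 15, 7, 1, 0, 5, 1, 1, 2, 4, 1, 3, 6, 1, 4, 0, 0, 2, 1, 5, 3, 5, 1, 0, 5, 3, 4, 4, 0, 0, 2, 1, 2, 1, 5, 1, 0, 1, 0, 0, 2, 0, 0, 3, 1, 1, 0, 8, 1, 3, 1, 2, 1, 0, 1, 0, 1, 5, 1, 1, 1, 2, 2, 4, 3, 0, 1, 0, 3, 5, 13, 5, 1, 1, 1, 5, 2, 1, 1, 1, 0, 7, 3, 3, 1, 0, 1, 0, 1, 2, 1, 3, 1, 2, 0, 3, 0, 1, 0, 4, 0, 0, 0, 1, 2, 2, 0, 0, 2, 2, 0, 1, 0, 3, 2, 1, 9, 1, 0, 1, 0, 3, 0, 0, 5, 6, 1, 2, 0, 0, 2, 1,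 5, 0, 1, 1, 0, 1, 3, 0, 1, 0, 0, 0, 2, 0, 5, 0, 1, 2, 8, 1, 0, 1, 0, 5, 3, 4, 3, 3, 1, 2, 0, 5, 4, 7, 1, 2, 0, 0, 2, 1, 2, 4, 0, 0, 1, 0, 0, 1, 2, 2, 1, 2, 1, 1, 4, 2, 3, 0, 6, 3, 0, 1, 1, 0, 5, 1, 4, 1, 4, 0, 0, 1, 3, 1, 0, 0, 1, 1, 0, 2, 0, 1, 1, 0, 2, 1, 0, 0, 0, 1, 1, 1, 1, 0, 5, 1, 0, 5, 2, 0, 1, 1, 1, 0, 0, 1, 2, 3, 1, 1, 5, 0, 1, 2, 5, 3, 0, 0, 0, 6, 1, 0, 0, 1, 0, 1, 5, 4, 3, 4, 2, 0, 3, 2, 6, 2, 0, 2, 1, 5, 0, 0, 0, 0, 1, 1, 1, 1, 0, 1, 1, 0, 2, 1, 0, 1, 0, 3, 2, 3, 1, 1, 1, 2, 1, 1, 0, 1, 1, 4, 1, 1, 1, 1, 0, 2, 1, 1, 2, 2, 1, 2, 2, 1, 1, 0, 1, 1, 0, 1, 1, 0, 1, 2, 2, 0, 5, 6, 5] .nil)))))),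
  (.cons 0 23 0 0 0 (.cons 9 2 0 .nil) [] (.cons 0 19 0 0 0 (.cons 9 3 0 .nil) [135] (.cons 0 25 0 0 0 (.cons 9 8 0 .nil) [0, 1, 54, 76, 1] (.cons 2 11 0 0 0 (.cons 0 45 0 .nil) [1, 0, 14, 3, 5, 1, 1, 0, 4, 1, 0, 4, 2, 1, 14, 1, 0, 7, 3, 1, 6, 1, 2, 4, 0, 1, 1, 0, 18, 7, 1, 4, 1, 0, 1, 1, 1, 0, 7, 1, 3, 1, 0, 1, 0, 6, 2, 0, 0, 0, 0, 2, 1, 1, 2, 3, 1, 0, 0, 1, 1, 2, 3, 1, 4, 1, 4, 1, 10, 2, 1, 3, 1, 3, 1, 3, 0, 0, 2, 3, 0, 1, 0, 0, 2, 3, 3, 0, 0, 0, 1, 0, 3, 1, 3, 1, 1, 4, 0, 1, 0, 1, 3, 0, 4, 7, 2, 0, 2, 4, 3, 0, 0, 1, 0, 0, 3, 0, 0, 1, 0, 0, 3, 0, 0, 2, 0, 5, 2, 1, 1, 4, 3, 3, 2, 0, 0, 2, 0, 2, 2, 5, 2, 1, 0, 2, 1, 2, 0, 12,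 3, 0, 2, 2, 1, 0, 1, 0, 0, 1, 1, 0, 1, 1, 2, 1, 5, 0, 2, 6, 1, 0, 1, 0, 1, 1, 0, 1, 7, 1, 1, 1, 0, 0, 1, 1, 0, 1, 4, 0, 0, 0, 1, 0, 0, 1, 1, 3, 5, 2, 1, 0, 0, 1, 1, 10, 0, 1, 0, 5, 7, 0, 0, 2, 1, 1, 0, 2, 5, 0, 0, 0, 1, 3, 3, 1, 0, 0, 2, 0, 7, 1, 5, 3, 0, 0, 1, 4, 1, 1, 1, 5, 1, 0, 2, 1, 2, 4, 0, 0, 3, 1, 1, 2, 0, 7, 1, 1, 0, 1, 0, 3, 5, 3, 1, 1, 0, 0, 3, 1, 0, 1, 1, 1, 3, 5, 2, 5, 4, 1, 4, 1, 0, 8, 0, 0, 6, 0, 1, 0, 0, 0, 6, 0, 3, 12, 1, 1, 3, 0, 1, 1, 1, 2, 0, 2, 0, 1, 1, 1, 5, 1, 0, 3, 6, 1, 1, 0, 2, 1, 1, 3, 1, 1, 1, 0, 2, 5, 0, 4, 1, 3, 1, 1, 0, 0, 0, 3, 2, 1, 2, 2, 0, 0, 6, 0, 3, 1, 1, 0, 0, 0, 0, 4, 1, 0, 1, 0, 0] (.cons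 1 0 0 0 0 (.cons 10 1 0 .nil) [5, 0, 8, 2, 1, 0, 0, 2, 0, 11, 1, 8, 5, 10, 0, 1, 3, 1, 1, 0, 1, 1, 5, 1, 1, 1, 1, 1, 0, 1, 5, 0, 19, 0, 7, 4, 1, 4, 1, 1, 2, 1, 2, 0, 1, 2, 3, 5, 0, 3, 5, 1, 0, 1, 0, 0, 2, 0, 0, 0, 3, 4, 3, 1, 0, 1, 0, 1, 1, 0, 2, 1, 6, 3, 0, 1, 2, 0, 1, 1, 2, 1, 1, 0, 0, 0, 3, 1, 1, 1, 1, 4, 3, 2, 0, 1, 0, 1, 3, 1, 1, 1, 3, 1, 0, 0, 2, 1, 1, 5, 4, 0, 10, 2, 2, 0, 1, 1, 0, 1, 2, 3, 0, 1, 2, 0, 1, 0, 0, 1, 0, 3, 1, 2, 0, 0, 1, 2, 2, 1, 3, 0, 3, 0, 1, 4, 0, 1, 3, 1, 0, 1, 4, 1, 1, 3, 1, 1, 1, 1, 3, 1, 1, 1, 2, 0, 0, 3, 0, 0, 3, 2, 0, 0, 0, 0, 0, 8, 1, 7, 1, 1, 0, 1, 0, 0, 0, 1, 1, 2, 1, 2, 3, 3, 1, 1, 1, 0, 3, 2,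 1, 0, 5, 1, 1, 1, 0, 0, 4, 3, 4, 3, 0, 1, 2, 1, 1, 2, 3, 1, 3, 0, 1, 0, 4, 0, 0, 0, 1, 0, 3, 1, 1, 2, 0, 0, 3, 0, 4, 3, 0, 2, 0, 5, 1, 2, 1, 2, 0, 1, 0, 4, 7, 0, 1, 1, 0, 0, 2, 0, 7, 0, 3, 8, 3, 0, 1, 0, 0, 2, 3, 1, 0, 2, 1, 8, 1, 1, 3, 2, 0, 1, 1, 1, 1, 2, 5, 1, 0, 1, 3, 0, 2, 2, 0, 1, 1, 0, 1, 0, 0, 1, 0, 0, 0, 2, 2, 0, 1, 0, 3, 3, 5, 1, 8, 3, 6, 1, 0, 1, 3, 1, 1, 1, 1, 0, 0, 1, 1, 0, 3, 0, 0, 7, 0, 1, 2, 1, 1, 0, 4, 0, 0, 1, 0, 6, 2, 0, 2, 0, 1, 1, 0, 0, 0, 2, 2, 1, 1, 2, 1, 1, 1, 1, 1, 1, 0, 3, 3, 1, 1, 0, 1, 1, 0, 0, 1, 1, 4, 1, 0, 1, 1] .nil))))),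
  (.cons 0 17 0 0 0 (.cons 11 1 0 .nil) [0, 4, 1, 47, 9, 79] (.cons 2 2 0 0 0 (.cons 0 46 1 .nil) [23, 0, 1, 4, 1, 83, 2, 30, 8, 0, 1, 1, 2, 3, 2, 0, 3, 0, 3, 3, 1, 17, 1, 6, 6, 1, 0, 0, 1, 0, 41, 0, 0, 1, 0, 2, 22, 7, 15, 6, 0, 0, 1, 1, 1, 2, 1, 1, 25, 7, 0, 0, 1, 5, 2, 0, 1, 7, 0, 3, 1, 1, 1, 1, 2, 1, 1, 2, 8, 20, 3, 9, 1, 1, 2, 1, 0, 4, 2, 1, 2, 9, 4, 1, 5, 2, 1, 6, 1, 1, 2, 0, 0, 0, 2, 0, 3, 3, 3, 0, 0, 1, 0, 3, 0, 5, 2, 5, 1, 3, 5, 1, 5, 0, 0, 1, 0, 5, 4, 5, 1, 0, 3, 3, 0, 0, 3, 1, 2, 0, 0, 1, 0, 3, 3, 1, 1, 0, 0, 0, 0, 1, 1, 1, 9, 3, 0, 1, 0, 1, 7, 1, 0, 6, 0, 1, 1, 1, 0, 3, 1, 1, 1, 0, 6, 1, 0, 0, 9, 0, 0, 0, 3, 3, 0, 6,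 0, 1, 0, 0, 0, 0, 3, 2, 3, 0, 0, 0, 1, 4, 1, 3, 0, 1, 1, 5, 0, 1, 1, 0, 0, 1, 0, 3, 1, 15, 1, 0, 0, 0, 1, 1, 1, 2, 1, 0, 1, 1, 0, 1, 1, 0, 9, 4, 0, 0, 0, 1, 0, 1, 0, 1, 1, 1, 0, 0, 5, 3, 3, 0, 0, 1, 1, 0, 2, 3, 0, 0, 5, 1, 0, 1, 3, 0, 3, 0, 9, 1, 0, 0, 5, 3, 1, 2, 1, 0, 11, 2, 1, 8, 0, 9, 0, 1, 0, 1, 0, 0, 3, 3, 0, 0, 1, 9, 20] (.cons 1 0 0 0 0 (.cons 6 0 0 .nil) [14, 21, 20, 29, 19, 7, 1, 3, 1, 8, 3, 15, 9, 2, 3, 0, 1, 0, 1, 2, 0, 1, 0, 1, 5, 13, 1, 6, 3, 0, 2, 4, 0, 0, 1, 0, 1, 2, 11, 12, 4, 2, 1, 1, 4, 1, 5, 4, 0, 5, 2, 2, 0, 1, 6, 11, 8, 3, 4, 0, 1, 19, 7, 6, 2, 2, 0, 1, 0, 1, 1, 1, 2, 1, 4, 4, 0, 0, 1, 1, 1, 2, 1, 2, 1, 3,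 7, 10, 1, 12, 0, 2, 3, 1, 0, 1, 3, 3, 4, 0, 0, 1, 1, 0, 0, 0, 0, 1, 2, 8, 0, 0, 0, 1, 0, 0, 0, 1, 4, 0, 0, 2, 0, 0, 1, 1, 3, 3, 1, 0, 6, 1, 2, 0, 1, 3, 1, 5, 3, 3, 0, 2, 0, 4, 2, 0, 3, 0, 0, 1, 3, 3, 1, 0, 11, 0, 0, 0, 2, 1, 1, 1, 0, 0, 2, 1, 1, 4, 3, 5, 0, 2, 3, 0, 4, 3, 1, 0, 1, 3, 5, 0, 2, 1, 4, 3, 1, 1, 1, 3, 0, 4, 5, 0, 1, 0, 1, 12, 1, 1, 1, 3, 0, 0, 3, 5, 0, 4, 1, 0, 3, 5, 5, 5, 5, 0, 1, 1, 8, 3, 1, 1, 0, 3, 1, 2, 4, 0, 0, 2, 0, 1, 0, 3, 2, 0, 3, 1, 1, 1, 1, 2, 3, 2, 1, 1, 1, 7, 2, 3, 6, 1, 0, 0, 0, 2, 4, 1, 0, 0, 1, 3, 1, 0, 0, 1, 1, 0, 3, 0, 1, 0, 5, 0, 0, 2, 0, 1, 3, 0, 3, 2, 1, 1, 0, 5, 1, 1, 2, 1, 2, 1, 1, 0, 3, 2,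 0, 0, 0, 0, 1, 5, 3, 2, 0, 2, 0, 0, 6, 0, 5] (.cons 1 0 0 0 0 (.cons 11 0 0 .nil) [2, 1, 0, 1, 0, 3, 1, 1, 0, 2, 1, 0, 0, 1, 1, 0, 1, 2, 0, 5, 1, 0, 4, 8, 2, 1, 2, 0, 0, 1, 1, 1, 2, 7, 1, 5, 5, 0, 0, 1, 2, 7, 0, 6, 0, 0, 2, 2, 1, 1, 2, 1, 4, 1, 4, 3, 1, 4, 1, 2, 1, 1, 0, 2, 1, 2, 2, 1, 3, 0, 1, 3, 1, 1, 5, 1, 4, 0, 1, 0, 1, 2, 1, 3, 2, 3, 7, 1, 0, 1, 0, 5, 0, 0, 2, 2, 0, 2, 1, 2, 0, 0, 2, 0, 5, 6, 5, 2, 2, 6, 1, 2, 1, 3, 1, 0, 0, 2, 1, 1, 2, 1, 1, 0, 1, 1, 2, 1, 3, 0, 0, 0, 0, 4, 1, 0, 2, 1, 2, 1, 2, 0, 1, 17, 1, 0, 2, 4, 6, 0, 0, 6, 0, 0, 0, 1, 0, 0, 2, 1, 1, 3, 3, 1, 1, 0, 4, 1, 1, 1, 1, 3, 0, 3, 0, 3, 0, 0, 0, 0, 1, 0, 7, 1,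 5, 2, 0, 0, 1, 4, 1, 1, 0, 0, 1, 0, 2, 0, 0, 1, 1, 2, 0, 1, 0, 0, 0, 4, 1, 1, 2, 1, 2, 5, 9, 0, 1, 5, 2, 0, 1, 3, 2, 0, 1, 1, 1, 1, 3, 1, 0, 2, 0, 1, 5, 0, 1, 0, 1, 3, 5, 0, 3, 2, 0, 3, 0, 0, 5, 4, 1, 3, 3, 3, 0, 1, 0, 5, 0, 1, 9, 1, 1, 3, 2, 3, 3, 1, 1, 4, 3, 0, 2, 0, 0, 4, 2, 4, 5, 2, 1, 2, 1, 4, 3, 2, 0, 1, 1, 9, 1, 5, 1, 1, 0, 0, 0, 4, 0, 2, 3, 0, 3, 0, 0, 5, 1, 3, 0, 4, 0, 3, 3, 0, 1, 1, 1, 9, 0, 0, 1, 1, 3, 0, 1, 1, 1, 0, 0, 2, 0, 1, 3, 0, 5, 1, 0, 1, 0, 0, 1, 1, 1, 0, 1, 0, 0, 2, 1, 0, 0, 1, 3, 1, 5, 0, 1, 1, 6, 1, 1, 5, 1, 1, 5, 2, 0, 3, 2, 1, 3, 4, 1, 0, 0, 2, 0, 1, 1, 3, 1, 1, 3, 3] .nil)))),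
  (.cons 0 19 0 0 0 (.cons 9 1 0 .nil) [143, 3] (.cons 0 21 2 0 0 (.cons 10 1 0 .nil) [70, 9, 71, 0, 1, 40, 1, 2, 1, 48, 8, 11, 0, 1, 68, 39, 3] (.cons 0 20 0 0 0 (.cons 9 2 0 .nil) [151] (.cons 2 14 0 0 0 (.cons 0 47 1 .nil) [0, 0, 1, 3, 10, 0, 0, 0, 2, 1, 5, 2, 6, 0, 1, 1, 0, 7, 2, 0, 1, 8, 1, 0, 3, 4, 0, 1, 8, 1, 0, 0, 6, 3, 0, 0, 3, 3, 0, 0, 4, 5, 3, 4, 7, 1, 1, 0, 0, 3, 0, 4, 1, 3, 3, 1, 0, 2, 1, 0, 1, 1, 0, 0, 2, 1, 1, 0, 0, 1, 1, 1, 0, 0, 0, 3, 2, 0, 6, 2, 3, 1, 0, 0, 3, 0, 4, 1, 1, 1, 2, 3, 7, 4, 5, 2, 1, 1, 1, 2, 12, 4, 2, 1, 1, 0, 2, 3, 0, 1, 0, 1, 7, 5, 0, 0, 1, 1, 0, 0, 0, 0, 1, 2, 0, 1, 0, 4, 1, 1, 5, 5, 0, 0, 1,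 0, 0, 1, 0, 1, 1, 2, 2, 0, 0, 1, 3, 5, 0, 2, 1, 0, 1, 3, 0, 0, 0, 0, 0, 2, 0, 3, 2, 3, 0, 0, 1, 1, 0, 3, 0, 2, 3, 0, 2, 0, 3, 3, 2, 0, 3, 0, 0, 2, 1, 2, 4, 0, 1, 3, 1, 3, 0, 3, 2, 2, 4, 3, 0, 2, 1, 3, 0, 5, 2, 0, 0, 3, 1, 0, 1, 0, 1, 0, 2, 2, 2, 0, 1, 0, 0, 5, 0, 1, 0, 0, 15, 1, 1, 1, 0, 2, 11, 0, 3, 2, 1, 0, 0, 5, 0, 1, 6, 0, 0, 1, 3, 1, 3, 2, 0, 1, 3, 1, 0, 1, 1, 1, 5, 0, 1, 0, 0, 1, 3, 1, 2, 0, 3, 1, 0, 0, 3, 0, 0, 1, 1, 2, 1, 2, 0, 1, 0, 0, 5, 1, 0, 0, 11, 12, 1, 0, 2, 2, 0, 3, 4, 1, 0, 3, 0, 0, 2, 4, 1, 1, 1, 2, 1, 2, 2, 0, 0, 0, 1, 0, 1, 7, 2, 2, 0, 1, 0, 0, 2, 0, 1, 1, 1, 0, 3, 1, 2, 1, 3, 1, 0, 0, 0, 1, 3, 3, 1, 1, 1,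 0, 0, 3, 0, 1, 1, 1, 2, 0, 1, 1, 3, 1, 2, 0, 3, 0, 0, 0, 2, 0, 2, 0, 8, 0, 0, 0, 1, 1, 1, 0, 2, 7, 0, 3, 2, 0, 4, 0, 0, 2, 2, 6, 1, 7, 6, 1, 1, 2, 1, 2, 1, 3, 1, 0] .nil))))]

theorem ok7 : run B sp W7 W8 G7 Y7 Y8 521 K7 D7 = true := by decide +kernel

end Vale.Agent.P236K.Cert.Pl.P96
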