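import Vale.Agent.P236K.P96.B
import Vale.Agent.P236K.P96.A8
import Vale.Agent.P236K.P96.A9

/-!
# P236K / P96 / R8 : the check of degree 8
-/

noncomputable section

namespace Vale.Agent.P236K.Cert.Pl.P96

/-- rows given by data -/
noncomputable def D8 : List DL := [.nil,
  .nil,
  .nil,
  .nil,
  .nil,
  .nil,
  .nil,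
  .nil,
  .nil,
  .nil,
  .nil,
  .nil,
  .nil,
  (.cons 2 0 0 0 0 (.cons 0 0 0 .nil) [] .nil),
  .nil,
  (.cons 2 0 0 0 0 (.cons 0 1 0 .nil) [] (.cons 1 0 0 0 0 (.cons 5 0 0 .nil) [] .nil)),
  (.cons 0 1 0 0 0 (.cons 9 0 0 .nil) [1] .nil),
  (.cons 2 1 0 0 0 (.cons 0 2 0 .nil) [] (.cons 1 0 0 0 0 (.cons 5 0 0 .nil) [4] .nil)),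
  .nil,
  (.cons 2 2 0 0 0 (.cons 0 3 0 .nil) [] (.cons 1 0 0 0 0 (.cons 9 0 0 .nil) [2, 2] .nil)),
  .nil,
  (.cons 2 0 0 0 0 (.cons 0 4 0 .nil) [] (.cons 1 0 0 0 0 (.cons 9 0 0 .nil) [2, 1, 1, 3] .nil)),
  (.cons 0 3 0 0 0 (.cons 10 0 0 .nil) [5] .nil),
  (.cons 1 0 0 0 0 (.cons 9 0 0 .nil) [3, 1, 2, 3] .nil),
  (.cons 0 1 0 0 0 (.cons 10 0 0 .nil) [1] (.cons 2 3 0 0 0 (.cons 0 5 1 .nil) [0, 7, 5] .nil)),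
  (.cons 0 4 0 0 0 (.cons 9 1 0 .nil) [6] (.cons 1 0 0 0 0 (.cons 9 0 0 .nil) [1, 7, 0, 1, 0, 0] .nil)),
  (.cons 2 4 0 0 0 (.cons 0 6 1 .nil) [9, 0, 6] .nil),
  (.cons 0 2 0 0 0 (.cons 9 1 0 .nil) [5] (.cons 1 0 0 0 0 (.cons 9 0 0 .nil) [8, 2, 1, 0] .nil)),
  (.cons 2 5 0 0 0 (.cons 0 7 1 .nil) [] .nil),
  (.cons 1 0 0 0 0 (.cons 9 0 0 .nil) [10, 3] .nil),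
  (.cons 2 3 0 0 0 (.cons 0 8 0 .nil) [12, 1, 8, 3] .nil),
  (.cons 0 6 0 0 0 (.cons 9 0 0 .nil) [] (.cons 1 0 0 0 0 (.cons 10 0 0 .nil) [1, 12, 1, 0, 7, 1, 2, 1, 0] .nil)),
  (.cons 2 1 0 0 0 (.cons 0 9 1 .nil) [1, 6, 4, 12, 1, 11] .nil),
  (.cons 0 4 0 0 0 (.cons 10 0 0 .nil) [2] (.cons 1 0 0 0 0 (.cons 10 1 0 .nil) [0, 2, 0, 2, 0, 0, 0, 3, 0, 10, 0, 2, 2, 0] .nil)),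
  (.cons 0 7 0 0 0 (.cons 9 0 0 .nil) [] .nil),
  (.cons 0 2 0 0 0 (.cons 10 1 0 .nil) [2] .nil),
  (.cons 0 5 0 0 0 (.cons 9 2 0 .nil) [12] .nil),
  .nil,
  (.cons 0 3 0 0 0 (.cons 9 0 0 .nil) [17] .nil),
  (.cons 0 6 0 0 0 (.cons 10 1 0 .nil) [1] .nil),
  .nil,
  (.cons 0 4 0 0 0 (.cons 10 0 0 .nil) [] .nil),
  (.cons 0 7 0 0 0 (.cons 9 0 0 .nil) [] .nil),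
  .nil,
  (.cons 0 5 0 0 0 (.cons 10 1 0 .nil) [2] .nil),
  (.cons 0 8 0 0 0 (.cons 9 0 0 .nil) [] .nil),
  (.cons 2 6 0 0 0 (.cons 0 10 1 .nil) [5, 1, 1, 23, 1, 4, 0, 7, 4, 3, 3, 5, 7, 0, 6, 1, 1, 1, 4] .nil),
  (.cons 0 11 0 0 0 (.cons 9 2 0 .nil) [20, 2] .nil),
  (.cons 2 4 0 0 0 (.cons 0 11 0 .nil) [5, 25, 2, 4, 4, 1, 1, 0, 2, 1, 11, 1, 3, 1, 1, 4, 0, 0, 3, 3, 2, 3, 1, 2, 3, 0, 1, 9, 0] (.cons 1 0 0 0 0 (.cons 5 13 0 .nil) [6, 1, 10, 0, 0, 8, 13, 5, 0, 14, 7, 0, 5, 2, 2, 1, 2, 0, 5, 6, 0, 1, 8, 0] .nil)),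
  (.cons 0 11 0 0 0 (.cons 9 0 0 .nil) [27] .nil),
  (.cons 0 7 0 0 0 (.cons 10 0 0 .nil) [] (.cons 1 0 0 0 0 (.cons 5 16 0 .nil) [2, 0, 3, 4, 0, 2, 2, 4, 7, 3, 0, 2, 0, 8, 3, 2, 0, 5, 6, 0, 1, 4, 3, 2, 0, 8, 1, 9, 1, 13, 1, 1, 0] .nil)),
  (.cons 2 5 0 0 0 (.cons 0 12 1 .nil) [6, 0, 1, 2, 4, 2, 5, 1, 1, 0, 0, 0, 2, 3, 1, 1, 3, 0, 1, 0, 0, 0, 3, 4, 6, 3, 4, 0, 3, 1, 2, 3, 4, 0, 7, 1, 5, 1, 1, 0, 1, 1, 5, 4] .nil),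
  (.cons 0 3 1 0 0 (.cons 9 2 0 .nil) [1, 10, 15, 2, 29, 11] (.cons 1 0 0 0 0 (.cons 5 0 0 .nil) [2, 1, 1, 1, 0, 13, 0, 10, 2, 1, 5, 5, 0, 2, 3, 2, 1, 8, 3, 0, 2, 1, 2, 3, 0, 3, 7, 3, 1, 3, 10, 0, 1, 1, 6, 3, 3, 3, 0] .nil)),
  (.cons 0 8 0 0 0 (.cons 9 0 0 .nil) [] .nil),
  (.cons 2 3 0 0 0 (.cons 0 13 0 .nil) [9, 3, 5, 0, 2, 0, 14, 0, 1, 9, 4, 10, 1, 11, 3, 0, 5, 1, 1, 9, 3, 5, 2, 0, 1, 6, 0, 6, 1, 3, 1, 3, 5, 1, 9, 1, 1] (.cons 1 0 0 0 0 (.cons 9 4 0 .nil) [6, 0, 1, 3, 4, 5, 1, 4, 1, 0, 2, 1, 0, 3, 1, 2, 2, 1, 0, 1, 0, 0, 1, 2, 1, 2, 0, 5, 1, 0, 2, 0, 1, 1, 3, 11, 0, 2, 1, 1, 0, 4, 0, 0, 1, 1, 1, 1, 0, 1, 4, 3, 3, 0, 1, 3, 1,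 3, 2] .nil)),
  (.cons 0 9 0 0 0 (.cons 10 0 0 .nil) [] .nil),
  .nil,
  (.cons 0 6 0 0 0 (.cons 11 0 0 .nil) [3, 1] (.cons 2 13 0 0 0 (.cons 0 15 1 .nil) [40, 0, 0, 0, 0, 2, 2, 1, 4, 2, 2, 3, 3, 2, 20, 9, 1, 0, 1, 4, 1, 1, 3, 1, 0, 13, 0, 2, 2, 3, 1, 1, 1, 2, 1, 1, 1, 0, 4, 0, 9, 0, 5] (.cons 2 14 0 0 0 (.cons 0 14 0 .nil) [50, 14, 0, 9, 6, 28, 16, 3, 17, 5, 3, 2, 6, 1, 13] .nil))),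
  (.cons 1 0 0 0 0 (.cons 9 1 0 .nil) [7, 2, 17, 4, 7, 0, 3, 3, 0, 1, 3, 2, 2, 0, 0, 3, 2, 0, 5, 1, 7, 6, 0, 0, 7, 1, 0, 4, 1, 2, 2, 1, 0, 1, 2, 4, 10, 1, 3, 1, 4, 1, 2, 1, 0, 3, 1, 1, 1, 0, 1, 1, 1, 1, 0, 0, 0, 3, 9, 0, 1, 0] .nil),
  (.cons 2 4 0 0 0 (.cons 0 17 0 .nil) [3, 28, 8, 10, 3, 4, 0, 0, 5, 7, 2, 12, 2, 7, 1, 11, 2, 1, 7, 1, 0, 5, 1, 0, 0, 4, 1, 2, 1, 0, 1, 1, 0, 8, 1, 0, 0, 4, 1, 0, 0, 4, 3, 15] (.cons 2 14 0 0 0 (.cons 0 16 0 .nil) [57, 2, 0, 10, 8, 7, 13, 9, 16, 8, 6, 4, 3, 3, 7, 3, 1, 5, 2, 11, 0, 3, 19, 0] (.cons 1 0 0 0 0 (.cons 5 23 0 .nil) [7, 1, 23, 34, 39, 37, 17, 9, 9, 3, 4, 3, 5, 1, 2, 20, 0, 5] .nil))),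
  (.cons 0 2 2 0 0 (.cons 9 1 0 .nil) [78, 1, 3, 18] (.cons 0 7 0 0 0 (.cons 9 2 0 .nil) [] (.cons 0 16 0 0 0 (.cons 9 0 0 .nil) [47] (.cons 2 9 0 0 0 (.cons 0 18 0 .nil) [51, 2, 0, 1, 3, 0, 9, 11, 17, 11, 6, 12, 3, 2, 7, 2, 0, 0, 0, 0, 0, 4, 7, 1, 1, 0, 5, 3, 4, 0, 1, 0, 5, 2, 1, 1, 1, 16, 1, 4] (.cons 1 0 0 0 0 (.cons 9 4 0 .nil) [4, 1, 1, 6, 0, 4, 3, 6, 5, 0, 3, 3, 3, 0, 1, 2, 0, 1, 1, 1, 1, 3, 5, 1, 0, 2, 2, 9, 4, 4, 0, 0, 3, 1, 2, 0, 0, 0, 1, 0, 1, 0, 3, 0, 2, 3, 3, 3, 3, 0, 1, 2, 3, 2, 1, 2, 1, 0, 1, 1, 6, 1, 0, 4, 1, 1, 0, 0, 0, 0, 1, 1, 12, 0, 3, 0, 1, 0, 1] (.cons 1 0 0 0 0 (.cons 10 2 0 .nil) [4, 0, 0, 0, 3, 2, 0, 3,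 8, 0, 5, 5, 4, 0, 1, 1, 0, 3, 0, 0, 1, 3, 0, 0, 2, 0, 0, 3, 2, 9, 4, 2, 4, 2, 2, 3, 2, 0, 2, 2, 0, 0, 3, 0, 0, 1, 1, 2, 3, 5, 0, 1, 2, 5, 1, 2, 1, 0, 5, 0, 1, 1, 2, 2, 0, 0, 0, 1, 0, 1, 1, 3, 1, 2, 9, 0, 1, 0, 1] .nil)))))),
  (.cons 2 5 0 0 0 (.cons 0 19 1 .nil) [6, 1, 3, 15, 3, 12, 5, 0, 4, 0, 0, 4, 1, 0, 1, 5, 1, 5, 0, 0, 1, 0, 4, 0, 0, 1, 0, 2, 2, 13, 7, 0, 1, 5, 3, 0, 1, 0, 0, 0, 1, 1, 1, 3, 0, 1, 1, 2, 0, 0, 1, 0, 2, 1, 1, 2, 0, 1, 6, 1, 0, 1, 3, 0, 0, 4, 1, 2, 3, 2, 1, 0, 1, 10] (.cons 1 0 0 0 0 (.cons 5 1 0 .nil) [6, 0, 0, 4, 13, 3, 2, 1, 20, 6, 3, 2, 0, 5, 2, 3, 2, 1, 10, 3, 12, 15, 6, 0, 1, 1, 1, 1, 1, 3, 4, 1, 0, 0,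 1, 0, 0, 3, 6, 1, 1, 9, 0, 3, 1, 0, 2, 0, 1, 1, 0, 4, 13, 3, 5, 2, 1, 1] .nil)),
  (.cons 0 6 0 0 0 (.cons 10 1 0 .nil) [4, 42] .nil),
  (.cons 0 8 0 0 0 (.cons 9 2 0 .nil) [] (.cons 2 11 0 0 0 (.cons 0 20 1 .nil) [15, 1, 11, 24, 0, 5, 1, 8, 0, 0, 3, 2, 42, 7, 21, 1, 7, 1, 7, 4, 1, 0, 1, 0, 2, 0, 2, 1, 2, 0, 2, 7, 1, 2, 4, 1, 0, 0, 1, 0, 3, 0, 1, 3, 9, 12, 3] (.cons 1 0 0 0 0 (.cons 5 0 0 .nil) [9, 5, 1, 3, 9, 4, 2, 1, 1, 1, 9, 4, 0, 1, 0, 5, 0, 1, 1, 3, 0, 0, 1, 8, 1, 1, 1, 0, 3, 3, 4, 2, 5, 1, 5, 0, 0, 0, 1, 7, 0, 3, 0, 0, 1, 0, 0, 0, 0, 1, 2, 1, 3, 3, 1, 1, 0, 0, 10, 0, 1, 2, 0, 0, 0, 0, 1, 0, 0, 1, 2, 2, 0, 1, 0, 3, 0, 3, 1,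 0, 3, 11, 2, 1, 1, 1, 0, 1, 2, 2, 1] .nil))),
  (.cons 0 17 0 0 0 (.cons 10 0 0 .nil) [55] (.cons 0 6 0 0 0 (.cons 10 1 0 .nil) [4] (.cons 2 12 0 0 0 (.cons 0 21 1 .nil) [15, 1, 2, 11, 11, 0, 0, 10, 5, 3, 1, 6, 0, 1, 5, 7, 9, 6, 5, 3, 3, 17, 17, 3, 1, 1, 1, 2, 2, 5, 0, 2, 3, 0, 0, 5, 2, 1, 1, 1, 0, 3, 2, 3, 0, 3, 0, 0, 3, 0, 5, 0, 0, 1, 5, 0, 1, 5, 0, 4, 3, 0, 0, 2] .nil))),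
  (.cons 0 16 0 0 0 (.cons 9 3 0 .nil) [45] (.cons 0 2 1 0 0 (.cons 9 1 0 .nil) [1, 15, 0, 3, 23, 1, 1, 77] (.cons 2 4 0 0 0 (.cons 0 22 1 .nil) [14, 13, 1, 8, 14, 0, 1, 4, 2, 5, 12, 1, 0, 7, 15, 6, 12, 0, 2, 14, 1, 10, 0, 1, 0, 1, 2, 2, 0, 3, 0, 3, 0, 7, 7, 2, 0, 0, 2, 5, 0, 0, 2, 3, 1, 0, 5, 0, 3, 0, 1, 2, 1, 0, 13, 1, 0, 3, 1, 0, 2, 0, 3, 1, 2] (.cons 1 0 0 0 0 (.cons 9 4 0 .nil) [5, 12, 11, 1, 5, 0, 1, 10, 5, 0, 4, 2, 2, 1, 0, 1, 1, 1, 0, 0, 0, 2, 1, 1, 4, 5, 0, 0, 1, 1, 3, 3, 1, 7, 7, 1, 0, 1, 0, 3, 3, 1, 0, 0, 2, 8, 0, 1, 0, 1, 0, 5, 0, 1, 1, 0, 1, 0, 0, 1, 1, 0, 0, 6, 0, 0, 2, 1, 5, 2, 2, 1, 1, 0, 1, 6, 0, 0, 0, 0, 1, 5,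 0, 7, 2, 0, 1, 1, 5, 3, 2, 0, 1, 3, 0, 0, 3, 3, 2] .nil)))),
  (.cons 0 17 0 0 0 (.cons 10 3 0 .nil) [3, 0, 1, 0, 48] (.cons 2 0 0 0 0 (.cons 0 24 1 .nil) [13, 1, 0, 5, 26, 10, 3, 0, 1, 1, 0, 0, 7, 4, 1, 25, 10, 0, 8, 0, 0, 2, 0, 35, 2, 4, 1, 0, 3, 0, 0, 0, 1, 0, 1, 0, 0, 1, 0, 2, 1, 1, 1, 1, 12, 0, 1, 5, 1, 0, 0, 0, 1, 3, 0, 2, 1, 5, 3, 11, 10, 6, 1, 1, 7, 9, 2, 3, 3] (.cons 2 9 0 0 0 (.cons 0 23 0 .nil) [18, 45, 2, 1, 3, 1, 1, 5, 0, 7, 1, 47, 0, 1, 0, 1, 1, 32, 1, 3, 0, 0, 0, 3, 5, 0, 2, 1, 1, 1, 3, 0, 2, 1, 2, 1, 1, 2, 0, 0, 1, 1, 1, 1, 2, 4, 0, 7, 4, 0, 0, 0, 1, 0, 1, 0, 1, 1, 5, 3, 15, 1, 6, 2, 1, 4, 0] (.cons 1 0 0 0 0 (.cons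 9 5 0 .nil) [8, 10, 2, 8, 12, 7, 9, 2, 1, 3, 1, 1, 4, 0, 3, 1, 1, 5, 7, 6, 0, 4, 9, 6, 5, 2, 2, 3, 4, 1, 0, 1, 16, 3, 1, 0, 6, 0, 1, 0, 0, 0, 0, 1, 1, 4, 3, 0, 1, 0, 1, 0, 2, 0, 1, 5, 3, 1, 3, 0, 5, 5, 0, 1, 3, 3, 1, 1, 1, 0, 1, 1, 0, 1, 1, 5, 1, 0, 5, 0, 12, 1, 5, 1] (.cons 1 0 0 0 0 (.cons 10 4 0 .nil) [5, 4, 2, 5, 1, 0, 3, 2, 1, 1, 8, 1, 1, 3, 0, 6, 0, 4, 0, 0, 0, 1, 5, 1, 7, 0, 0, 2, 7, 6, 1, 2, 1, 2, 13, 0, 0, 18, 0, 1, 15, 0, 0, 0, 4, 1, 5, 0, 1, 0, 1, 8, 3, 1, 3, 1, 1, 0, 0, 3, 1, 1, 2, 0, 1, 1, 0, 5, 1, 1, 5, 1, 0, 0, 1, 3, 0, 6, 0, 4, 0, 0, 13, 2, 1, 0, 3, 1, 7, 0] .nil))))),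
  (.cons 0 18 0 0 0 (.cons 9 4 0 .nil) [59] (.cons 1 0 0 0 0 (.cons 9 2 0 .nil) [1, 7, 1, 20, 1, 4, 0, 1, 0, 1, 10, 4, 5, 2, 2, 6, 3, 3, 3, 2, 1, 2, 0, 2, 0, 5, 0, 0, 2, 1, 0, 0, 1, 2, 2, 3, 4, 10, 6, 3, 6, 4, 0, 1, 0, 1, 0, 0, 1, 1, 1, 0, 4, 1, 1, 3, 0, 0, 0, 4, 3, 0, 6, 3, 9, 1, 0, 0, 0, 0, 0, 3, 5, 0, 2, 1, 0, 1, 1, 4, 2, 3, 1, 0, 1, 1, 3, 1, 1, 1, 1, 1, 1, 1, 1, 3, 2, 1, 0, 0, 0, 0, 0, 2, 3] (.cons 1 0 0 0 0 (.cons 11 0 0 .nil) [9, 1, 17, 8, 7, 0, 12, 3, 0, 6, 1, 1, 2, 1, 3, 1, 1, 0, 3, 1, 1, 2, 0, 4, 3, 2, 0, 0, 1, 1, 1, 1, 2, 0, 1, 1, 1, 2, 1, 3, 1, 2, 3, 0, 1, 1, 0, 0, 10, 6, 0, 1, 3, 0, 1, 3, 3, 1, 0, 0, 0, 0, 6, 0, 1,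 0, 3, 3, 0, 3, 1, 3, 1, 1, 1, 0, 0, 0, 1, 1, 6, 3, 1, 0, 1, 0, 0, 0, 1, 0, 1, 2, 0, 1, 3, 2, 1, 0, 2, 0, 0, 1, 0, 1, 0, 0, 0, 1, 5, 2, 0, 3, 1, 5, 1] .nil))),
  (.cons 0 5 0 0 0 (.cons 10 2 0 .nil) [2] (.cons 2 1 0 0 0 (.cons 0 26 1 .nil) [6, 0, 55, 1, 10, 3, 3, 2, 5, 0, 4, 0, 12, 2, 2, 1, 2, 3, 1, 0, 8, 1, 0, 0, 3, 14, 25, 7, 1, 0, 3, 8, 0, 1, 0, 1, 10, 0, 1, 5, 0, 6, 8, 3, 1, 5, 0, 0, 1, 0, 2, 0, 0, 0, 1, 5, 2, 0, 0, 19, 12, 0, 6, 2, 7, 2, 7, 4] (.cons 2 7 0 0 0 (.cons 0 25 1 .nil) [2, 0, 2, 1, 0, 0, 0, 0, 1, 1, 18, 11, 1, 4, 2, 0, 0, 0, 1, 3, 1, 0, 1, 0, 0, 3, 3, 1, 2, 0, 1, 0, 8, 3, 6, 4, 1, 1, 1, 2, 2, 4, 0, 0, 1, 2, 0, 3,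 1, 2, 5, 0, 0, 0, 2, 1, 5, 0, 1, 2, 0, 1, 1, 1, 5, 1, 1, 0, 1, 0, 1, 7, 1, 1, 0, 0, 0, 1, 0, 0, 1, 3, 1, 1, 0, 2, 2, 3, 1, 0, 3, 0, 0, 1, 1, 2, 3, 0, 7, 7, 5, 1, 5, 1, 1, 0, 0, 1, 1, 10, 5, 1, 0, 1, 1, 3, 0, 2, 7, 3] (.cons 1 0 0 0 0 (.cons 10 1 0 .nil) [5, 2, 3, 3, 3, 0, 0, 19, 19, 2, 3, 1, 0, 2, 1, 3, 6, 5, 1, 1, 1, 0, 0, 2, 1, 1, 1, 3, 3, 3, 7, 0, 0, 12, 0, 0, 1, 9, 3, 2, 2, 4, 0, 12, 3, 0, 3, 0, 0, 0, 1, 1, 0, 0, 0, 0, 1, 1, 0, 0, 1, 4, 0, 2, 0, 3, 1, 2, 0, 8, 0, 0, 2, 0, 0, 1, 1, 1, 1, 5, 0, 2, 0, 0, 2, 3, 0, 0, 3, 1, 6, 1, 1, 4, 8, 0, 3, 3, 0, 2, 6, 0] .nil)))),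
  (.cons 0 18 0 0 0 (.cons 9 2 0 .nil) [] (.cons 0 13 0 0 0 (.cons 10 0 0 .nil) [11] (.cons 1 0 0 0 0 (.cons 9 3 0 .nil) [3, 12, 0, 0, 0, 0, 7, 0, 4, 2, 10, 1, 11, 0, 3, 0, 2, 0, 1, 3, 1, 13, 4, 1, 2, 0, 0, 0, 1, 13, 0, 1, 2, 0, 0, 10, 0, 0, 1, 1, 5, 4, 0, 0, 0, 2, 0, 1, 7, 3, 0, 3, 1, 2, 1, 1, 3, 3, 0, 1, 4, 4, 1, 3, 1, 0, 3, 0, 1, 3, 0, 3, 0, 0, 1, 1, 2, 0, 2, 1, 2, 9, 5, 0, 1, 4, 0, 0, 0, 0, 2, 0, 0, 0, 3, 0, 2, 2, 0, 1, 11, 0, 1, 0, 0, 1, 7, 1, 0, 3, 1, 0, 0, 1, 5, 1, 1, 1] (.cons 1 0 0 0 0 (.cons 11 1 0 .nil) [10, 3, 0, 0, 1, 0, 1, 1, 1, 0, 3, 23, 1, 6, 3, 1, 1, 0, 0, 2, 8, 2, 2, 1, 1, 0, 1, 0, 1, 1, 1, 0, 0, 5, 3, 2, 0, 1,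 1, 4, 7, 6, 2, 3, 1, 0, 7, 0, 0, 2, 0, 2, 1, 9, 1, 0, 0, 0, 7, 3, 2, 0, 0, 0, 3, 0, 2, 1, 0, 0, 3, 0, 1, 1, 1, 1, 0, 3, 4, 3, 1, 0, 0, 3, 1, 3, 3, 1, 2, 1, 0, 0, 0, 3, 0, 2, 1, 0, 0, 3, 2, 3, 5, 0, 0, 3, 4, 3, 3, 3, 1, 3, 1, 3, 0, 3, 0, 1, 2, 1, 7, 5] .nil)))),
  (.cons 2 2 0 0 0 (.cons 0 28 1 .nil) [6, 4, 0, 65, 1, 0, 1, 3, 0, 10, 3, 1, 2, 1, 1, 12, 1, 3, 3, 9, 2, 3, 1, 2, 0, 28, 0, 21, 19, 2, 0, 1, 0, 1, 2, 0, 0, 0, 1, 7, 0, 3, 0, 1, 1, 6, 2, 2, 0, 1, 9, 2, 0, 0, 1, 6, 0, 1, 11, 16, 6, 14, 21, 3, 3, 16, 2] (.cons 2 6 0 0 0 (.cons 0 27 1 .nil) [3, 0, 2, 0, 0, 0, 0, 0, 0, 20, 1, 5, 0, 21, 1, 3, 0, 0, 1, 1, 0, 3, 0, 6, 0, 3, 5,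 3, 1, 1, 11, 1, 0, 1, 1, 1, 3, 5, 10, 2, 0, 1, 3, 0, 0, 1, 5, 0, 1, 3, 0, 0, 0, 5, 0, 11, 0, 1, 0, 0, 1, 5, 3, 0, 1, 0, 1, 0, 0, 0, 0, 0, 3, 1, 3, 3, 2, 3, 1, 1, 1, 2, 1, 0, 0, 1, 1, 2, 4, 0, 1, 3, 0, 1, 0, 5, 3, 1, 0, 1, 1, 1, 0, 0, 1, 1, 0, 1, 1, 7, 3, 0, 2, 1, 0, 0, 0, 0, 0, 9, 1, 3, 1, 4, 0, 2, 3, 1, 4, 2] .nil)),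
  (.cons 0 8 0 0 0 (.cons 9 0 0 .nil) [] (.cons 0 16 0 0 0 (.cons 10 1 0 .nil) [0, 0, 0, 27, 31, 1] (.cons 1 0 0 0 0 (.cons 11 1 0 .nil) [8, 1, 3, 1, 3, 0, 33, 0, 1, 2, 4, 2, 1, 1, 2, 2, 2, 0, 7, 1, 0, 1, 1, 0, 0, 2, 1, 2, 0, 2, 4, 3, 2, 1, 1, 0, 1, 0, 3, 4, 2, 9, 4, 0, 7, 1, 7, 5, 0, 1, 1, 1, 5, 8, 1, 4, 0, 2, 3, 1, 2, 1, 1, 0, 1, 0, 0, 9, 1, 1, 0, 0, 1, 0, 2, 1, 10, 8, 6, 0, 0, 1, 1, 4, 0, 0, 0, 1, 2, 0, 1, 0, 3, 0, 1, 7, 7, 6, 3, 0, 0, 7, 5, 3, 2, 0, 1, 0, 0, 0, 0, 3, 2, 0, 1, 2, 4, 1, 7] (.cons 1 0 0 0 0 (.cons 10 0 0 .nil) [2, 7, 0, 0, 1, 5, 18, 1, 3, 1, 0, 2, 2, 0, 1, 7, 1, 1, 4, 2, 1, 1, 0, 0, 2, 1, 1, 0, 1, 0, 0, 0, 0,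 0, 0, 2, 0, 2, 6, 3, 3, 1, 3, 11, 3, 1, 5, 2, 2, 3, 0, 7, 0, 0, 0, 1, 1, 1, 0, 3, 0, 1, 2, 1, 3, 1, 1, 4, 1, 2, 0, 1, 1, 0, 1, 4, 1, 0, 1, 0, 3, 0, 0, 2, 3, 1, 1, 0, 0, 3, 3, 0, 0, 0, 3, 6, 1, 2, 1, 0, 0, 3, 1, 1, 1, 8, 1, 3, 4, 3, 1, 2, 0, 12, 1, 1, 1, 0, 7, 2, 4, 1, 4, 3, 0, 3, 1, 1, 3, 8, 2, 0, 0, 1, 1, 0] .nil)))),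
  (.cons 0 21 0 0 0 (.cons 9 1 0 .nil) [] (.cons 0 17 0 0 0 (.cons 10 0 0 .nil) [] (.cons 2 3 0 0 0 (.cons 0 29 1 .nil) [21, 17, 38, 2, 6, 1, 2, 0, 11, 3, 0, 2, 1, 3, 3, 5, 2, 5, 0, 5, 5, 20, 2, 0, 4, 3, 6, 0, 5, 5, 2, 0, 20, 3, 0, 5, 6, 5, 3, 4, 1, 0, 1, 6, 4, 1, 1, 0, 1, 2, 7, 0, 2, 2, 3, 1, 0, 7, 0, 0, 0, 1, 0, 4, 0, 11, 1, 0, 0, 0, 21, 2, 3, 13, 6, 13, 5, 0] (.cons 2 6 0 0 0 (.cons 0 30 0 .nil) [17, 2, 0, 10, 44, 3, 3, 1, 2, 3, 0, 3, 3, 3, 9, 1, 7, 3, 0, 9, 1, 2, 1, 4, 2, 0, 4, 1, 4, 0, 1, 0, 0, 0, 2, 5, 2, 0, 2, 1, 1, 1, 2, 4, 17, 0, 1, 1, 1, 3, 3, 1, 1, 8, 3, 2, 2, 0, 4, 3, 0, 4, 3, 0, 2, 3, 6, 5, 5, 1, 1, 1, 1, 1, 4, 2,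 0, 3, 1, 2, 1, 0, 1, 1, 0, 2, 0, 7, 2, 7, 0, 1, 8, 5, 0, 1, 2, 2, 12, 2, 0, 0, 2, 1, 6, 1] (.cons 1 0 0 0 0 (.cons 10 2 0 .nil) [13, 9, 8, 2, 5, 39, 9, 3, 1, 2, 10, 2, 5, 1, 0, 5, 2, 8, 0, 4, 1, 9, 7, 9, 3, 1, 1, 1, 12, 1, 5, 3, 0, 2, 1, 17, 0, 0, 1, 0, 7, 7, 4, 9, 3, 0, 3, 1, 1, 0, 1, 0, 3, 1, 5, 3, 0, 6, 5, 1, 1, 1, 0, 10, 2, 4, 3, 0, 6, 5, 0, 7, 1, 1, 1, 1, 1, 2, 3, 2, 1, 0, 1, 3, 0, 1, 0, 0, 4, 1, 4, 0, 1, 2, 0, 0, 0, 5, 1, 2] .nil))))),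
  (.cons 0 19 0 0 0 (.cons 10 0 0 .nil) [] (.cons 0 11 0 0 0 (.cons 9 0 0 .nil) [77] (.cons 0 7 0 0 0 (.cons 10 1 0 .nil) [78] (.cons 1 0 0 0 0 (.cons 11 1 0 .nil) [5, 2, 3, 1, 2, 3, 23, 3, 8, 0, 14, 3, 1, 0, 4, 1, 1, 1, 0, 5, 3, 0, 7, 3, 0, 0, 3, 1, 3, 2, 8, 0, 3, 6, 9, 7, 1, 5, 9, 0, 1, 3, 1, 2, 3, 3, 0, 2, 1, 0, 0, 11, 2, 1, 0, 0, 1, 0, 1, 0, 1, 0, 0, 1, 1, 2, 1, 0, 0, 1, 1, 3, 0, 2, 0, 0, 2, 4, 1, 1, 3, 1, 0, 4, 0, 1, 1, 3, 2, 1, 0, 1, 1, 3, 10, 1, 2, 1, 2, 5, 1, 0, 1, 0, 7, 3, 0, 2, 2, 1, 0, 2, 2, 0, 3, 3, 5, 0, 2, 3, 1, 3, 3, 0, 3, 3, 3, 3, 0, 1, 7, 0] (.cons 1 0 0 0 0 (.cons 11 0 0 .nil) [0, 1, 1, 4, 0, 0, 1, 0, 0, 2, 0,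 18, 0, 1, 5, 8, 6, 5, 0, 1, 4, 1, 1, 1, 2, 5, 15, 2, 1, 0, 1, 0, 1, 7, 2, 1, 6, 1, 1, 1, 0, 6, 0, 7, 1, 3, 1, 0, 0, 7, 2, 1, 0, 0, 0, 2, 1, 1, 1, 0, 1, 1, 0, 1, 5, 5, 3, 0, 1, 0, 0, 0, 1, 1, 1, 2, 1, 1, 4, 0, 2, 0, 0, 0, 0, 2, 0, 1, 1, 2, 0, 0, 2, 1, 1, 0, 4, 0, 1, 1, 2, 0, 2, 11, 0, 3, 1, 2, 2, 3, 0, 4, 0, 4, 1, 5, 0, 5, 7, 3, 0, 0, 1, 3, 1, 0, 1, 1, 1, 2, 1, 1, 0, 2, 1, 7, 3, 2, 1, 3, 1, 1, 1, 1, 1, 1, 7, 1, 5, 0, 3] .nil))))),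
  (.cons 0 23 0 0 0 (.cons 5 0 0 .nil) [2, 25, 44] (.cons 0 14 0 0 0 (.cons 10 0 0 .nil) [] (.cons 2 4 0 0 0 (.cons 0 31 1 .nil) [13, 3, 1, 37, 26, 1, 2, 5, 1, 3, 1, 0, 1, 3, 0, 3, 0, 2, 0, 0, 0, 3, 0, 0, 3, 4, 9, 0, 3, 1, 6, 1, 7, 1, 11, 0, 0, 2, 4, 0, 4, 1, 7, 1, 0, 1, 3, 0, 1, 19, 5, 1, 1, 0, 0, 0, 2, 0, 1, 1, 4, 1, 0, 7, 0, 5, 2, 3, 0, 5, 0, 1, 2, 1, 0, 6, 0, 4, 0, 3, 0, 0, 7, 0, 0, 3, 5, 0, 2, 0, 0, 0, 1, 0, 2, 0, 0, 1, 3, 0, 1, 0, 0, 3, 5, 12, 9, 6, 1, 3, 3, 4, 8, 0, 0, 0, 1, 1, 0, 2, 2, 0, 2, 14] .nil))),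
  (.cons 0 18 0 0 0 (.cons 10 2 0 .nil) [7] (.cons 0 7 0 0 0 (.cons 10 3 0 .nil) [12] (.cons 0 12 0 0 0 (.cons 11 0 0 .nil) [1, 80] (.cons 1 0 0 0 0 (.cons 11 1 0 .nil) [0, 2, 0, 3, 2, 9, 1, 3, 1, 0, 5, 4, 0, 8, 1, 0, 6, 1, 0, 8, 1, 5, 2, 1, 3, 0, 0, 3, 0, 1, 3, 0, 1, 0, 1, 1, 0, 0, 0, 7, 1, 1, 3, 0, 3, 5, 1, 0, 3, 0, 0, 0, 2, 7, 0, 3, 0, 0, 0, 3, 4, 3, 4, 1, 0, 2, 0, 0, 2, 2, 0, 1, 1, 1, 3, 2, 5, 0, 2, 0, 0, 1, 1, 1, 1, 1, 3, 1, 3, 0, 4, 1, 4, 1, 0, 0, 4, 0, 5, 1, 1, 1, 0, 0, 1, 0, 0, 0, 7, 2, 1, 0, 2, 0, 0, 1, 0, 0, 0, 0, 1, 0, 0, 2, 0, 3, 3, 1, 0, 3, 3, 2, 2, 1, 5, 1, 0, 4, 0, 1, 9, 1, 1, 1, 0, 2, 1, 0, 4, 0, 1, 4, 1, 4, 0,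 2, 0, 7, 1, 3, 3, 0, 0, 1, 0, 2, 0, 6, 1, 0, 5, 9, 1] .nil)))),
  (.cons 0 19 1 0 0 (.cons 5 0 0 .nil) [2, 77, 5, 73, 1, 29, 0, 28] (.cons 2 5 0 0 0 (.cons 0 32 1 .nil) [12, 3, 1, 11, 11, 19, 29, 2, 4, 3, 2, 1, 1, 1, 2, 3, 0, 1, 0, 3, 0, 0, 2, 1, 5, 3, 0, 1, 16, 13, 0, 5, 5, 0, 5, 1, 5, 2, 6, 1, 5, 1, 1, 1, 2, 4, 0, 0, 1, 0, 0, 6, 5, 1, 5, 1, 5, 6, 2, 6, 3, 1, 6, 2, 1, 1, 0, 2, 1, 3, 4, 0, 2, 1, 1, 3, 1, 0, 6, 2, 1, 1, 1, 7, 2, 0, 6, 7, 3, 0, 1, 0, 5, 4, 0, 0, 2, 5, 1, 3, 3, 0, 0, 2, 10, 0, 0, 2, 5, 2, 3, 0, 0, 0, 4, 13, 0, 1, 1, 1, 0, 0, 2, 1, 0, 4, 0, 1, 1, 1, 5, 2, 3, 0, 7] .nil)),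
  (.cons 0 15 0 0 0 (.cons 10 2 0 .nil) [3, 1, 25] (.cons 0 16 0 0 0 (.cons 10 3 0 .nil) [6] .nil)),
  (.cons 0 21 0 0 0 (.cons 5 1 0 .nil) [6] (.cons 0 11 0 0 0 (.cons 9 8 0 .nil) [] (.cons 0 19 0 0 0 (.cons 10 0 0 .nil) [] (.cons 1 0 0 0 0 (.cons 11 2 0 .nil) [1, 2, 1, 8, 6, 1, 5, 1, 1, 2, 0, 3, 3, 1, 4, 1, 0, 2, 0, 1, 1, 0, 1, 1, 2, 2, 7, 5, 1, 2, 0, 2, 0, 0, 1, 0, 3, 2, 1, 1, 0, 1, 2, 0, 1, 0, 2, 2, 1, 1, 1, 2, 0, 1, 0, 0, 3, 6, 5, 0, 0, 0, 9, 9, 2, 0, 1, 4, 9, 1, 1, 3, 2, 2, 1, 2, 0, 1, 4, 1, 1, 2, 3, 4, 0, 3, 1, 1, 7, 1, 0, 0, 1, 3, 1, 1, 2, 1, 0, 0, 0, 0, 2, 3, 0, 0, 0, 2, 0, 1, 1, 2, 1, 0, 0, 1, 1, 3, 0, 0, 0, 1, 0, 0,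 8, 1, 0, 3, 0, 5, 2, 1, 0, 0, 1, 1, 0, 1, 5, 1, 0, 0, 1, 9, 2, 13, 2, 1, 1, 1, 5, 1, 0, 2, 1, 4, 3, 3, 0, 0, 0, 0, 1, 0, 3, 1, 3, 1, 1, 1, 0, 2, 2, 0, 0, 2, 5, 1, 3, 1, 1, 1, 3, 1, 2, 0, 8, 1, 3, 8, 0, 1, 5, 1, 1, 0, 0, 10] (.cons 1 0 0 0 0 (.cons 11 0 0 .nil) [0, 1, 0, 8, 2, 2, 1, 1, 0, 3, 1, 0, 0, 2, 6, 1, 4, 0, 0, 1, 1, 3, 1, 0, 3, 15, 1, 0, 0, 4, 0, 0, 1, 0, 0, 0, 0, 4, 5, 4, 3, 1, 0, 0, 0, 3, 1, 2, 2, 1, 0, 0, 4, 0, 1, 1, 0, 0, 1, 1, 1, 0, 8, 1, 4, 5, 1, 1, 0, 0, 0, 1, 2, 0, 0, 0, 3, 2, 3, 2, 0, 0, 1, 1, 0, 0, 3, 1, 1, 1, 0, 0, 1, 1, 1, 1, 2, 3, 1, 1, 5, 5, 0, 0, 0, 2, 2, 0, 0, 2, 0, 2, 0, 0, 1, 2, 0, 8, 2, 3, 3, 1, 0, 1,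 0, 3, 1, 1, 1, 5, 1, 4, 1, 3, 4, 0, 1, 5, 1, 1, 3, 0, 1, 3, 1, 1, 1, 7, 4, 2, 2, 1, 0, 1, 0, 0, 0, 0, 0, 2, 1, 5, 5, 0, 2, 1, 2, 1, 1, 1, 0, 2, 4, 0, 1, 9, 4, 0, 0, 4, 1, 3, 1, 3, 4, 0, 4, 0, 1, 1, 1, 0, 1, 0, 1, 7, 3, 1, 1, 1, 0, 0, 3, 6, 0, 2] .nil))))),
  (.cons 0 8 0 0 0 (.cons 10 0 0 .nil) [] (.cons 0 16 0 0 0 (.cons 10 2 0 .nil) [0] (.cons 2 6 0 0 0 (.cons 0 33 1 .nil) [7, 3, 1, 0, 1, 2, 2, 1, 13, 1, 13, 6, 7, 1, 2, 1, 1, 13, 1, 0, 1, 9, 0, 4, 0, 2, 2, 3, 1, 2, 3, 1, 0, 1, 0, 4, 0, 0, 1, 13, 3, 2, 1, 1, 0, 1, 4, 4, 0, 0, 3, 0, 0, 2, 5, 1, 0, 2, 0, 3, 0, 4, 0, 2, 4, 1, 1, 1, 1, 1, 1, 1, 3, 0, 2, 1, 0, 1, 4, 9, 3, 0, 0, 0,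 3, 0, 0, 2, 0, 1, 0, 1, 0, 3, 1, 7, 3, 0, 0, 1, 0, 1, 5, 0, 0, 5, 3, 0, 2, 0, 1, 3, 4, 5, 0, 0, 0, 2, 5, 0, 0, 0, 3, 0, 7, 3, 5, 1, 1, 2, 5, 1, 0, 0, 1, 0, 1, 0, 2, 0, 1, 1, 4, 0, 1, 0, 2, 3, 0, 6, 4, 0, 1, 0, 0, 0, 1, 3, 2, 1, 0, 5, 1, 1, 1, 0, 0, 1, 3, 1, 1, 2, 1, 1, 8, 0, 0, 0, 0, 0, 2, 0, 0, 1, 1, 1, 0, 1, 1, 0, 0, 0, 1, 0, 0, 3, 4, 0, 2, 0, 0, 3, 0] .nil))),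
  (.cons 0 17 0 0 0 (.cons 9 0 0 .nil) [93] (.cons 1 0 0 0 0 (.cons 11 1 0 .nil) [1, 1, 5, 6, 1, 0, 0, 1, 3, 2, 15, 7, 0, 3, 1, 0, 2, 0, 3, 0, 0, 1, 1, 1, 0, 4, 1, 0, 7, 5, 3, 1, 1, 1, 1, 1, 2, 2, 2, 0, 0, 1, 5, 1, 0, 1, 3, 0, 0, 0, 4, 0, 5, 4, 4, 2, 1, 1, 3, 0, 3, 3, 0, 1, 1, 1, 0, 1, 9, 0, 0, 1, 0, 2, 0, 2, 0, 1, 3, 1, 3, 0, 1, 3, 1, 0, 5, 0, 1, 0, 2, 1, 0, 0, 0, 5, 0, 3, 0, 1, 0, 3, 1, 7, 1, 2, 0, 1, 5, 3, 0, 2, 1, 1, 0, 0, 4, 0, 0, 1, 4, 1, 5, 2, 0, 3, 0, 1, 1, 3, 0, 3, 3, 1, 0, 0, 1, 0, 7, 4, 1, 0, 2, 2, 1, 7, 1, 0, 0, 1, 0, 1, 1, 1, 2, 2, 3, 4, 1, 0, 1, 0, 0, 3, 0, 1, 4, 1, 5, 3, 0, 1, 1, 0, 0, 4, 1, 0, 3, 0, 1, 0, 3, 1,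 1, 4, 5, 1, 3, 1, 1, 1, 3, 0, 3, 0, 0, 4, 0, 0, 0, 0, 3, 1, 1, 1, 1, 1, 1, 1, 2, 0, 0, 6, 1, 2, 4, 3, 0, 1, 3, 0, 1, 2, 0, 2, 2] .nil)),
  (.cons 0 11 0 0 0 (.cons 10 0 0 .nil) [] (.cons 0 13 0 0 0 (.cons 11 0 0 .nil) [0, 2] (.cons 2 6 0 0 0 (.cons 0 35 1 .nil) [5, 9, 3, 2, 1, 2, 0, 1, 2, 1, 5, 0, 2, 11, 1, 0, 0, 1, 0, 9, 3, 1, 12, 1, 1, 7, 1, 0, 1, 0, 1, 3, 1, 1, 2, 2, 0, 0, 2, 0, 3, 2, 1, 1, 0, 0, 2, 3, 1, 8, 0, 0, 2, 5, 4, 0, 3, 3, 2, 2, 0, 1, 0, 3, 1, 7, 0, 0, 0, 1, 3, 3, 4, 3, 1, 1, 9, 1, 3, 0, 2, 0, 1, 0, 2, 3, 1, 1, 1, 3, 2, 1, 0, 5, 1, 1, 1, 2, 3, 0, 0, 0, 1, 2, 2, 1, 0, 2, 3, 5, 0, 0, 2, 0, 0, 0, 2, 1, 1, 8, 3, 0, 4, 1,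 0, 0, 4, 1, 0, 1, 0, 5, 1, 1, 1, 1, 1, 1, 4, 0, 1, 0, 1, 2, 2, 0, 3, 1, 2, 1, 2, 1, 1, 0, 0, 5, 2, 4, 3, 3, 1, 1, 1, 0, 0, 6, 1, 0, 1, 2, 1, 0, 3, 3, 2, 1, 2, 3, 0, 7, 1, 4, 1, 3, 1, 1, 0, 3, 4, 1, 1, 1, 5, 0, 9, 2, 0, 0, 2, 0, 1, 1, 1, 3, 3, 0, 3, 2, 0, 1, 3, 1, 2, 0, 1, 0, 1, 2, 1, 2, 2, 1, 1, 1, 0] (.cons 2 19 0 0 0 (.cons 0 34 1 .nil) [109, 7, 1, 1, 1, 0, 3, 0, 11, 1, 1, 4, 7, 1, 5, 3, 14, 15, 1, 5, 0, 10, 19, 4, 5, 7, 14, 8, 3, 2, 2, 5, 0, 24, 4, 3, 2, 5, 1, 9, 7, 0, 0, 7, 0, 1, 13, 0, 1, 1, 0, 2, 2, 5, 2, 0, 5, 0, 0, 5, 1, 3, 3, 0, 1, 1, 4, 2, 3, 2, 2, 2, 2, 2, 3, 2, 0, 0, 3, 10, 0, 1, 3, 1, 1, 1, 0, 1, 0, 3, 1, 6, 1, 0,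 4, 0, 0, 1, 0, 9, 38, 0, 4, 3, 11, 1, 6, 3, 7, 2, 2, 0, 6, 5, 0, 3, 2] .nil)))),
  (.cons 0 15 0 0 0 (.cons 9 2 0 .nil) [] (.cons 0 7 0 0 0 (.cons 9 0 0 .nil) [103] (.cons 2 12 0 0 0 (.cons 0 36 0 .nil) [17, 1, 0, 0, 3, 1, 48, 32, 5, 0, 0, 1, 4, 0, 0, 18, 1, 5, 0, 1, 0, 2, 0, 1, 0, 25, 0, 0, 1, 3, 2, 3, 3, 10, 2, 0, 3, 0, 0, 6, 0, 0, 20, 1, 1, 0, 0, 6, 2, 0, 1, 7, 20, 3, 2, 4, 1, 1, 0, 13, 1, 0, 1, 0, 0, 0, 4, 0, 1, 1, 0, 2, 0, 1, 0, 2, 2, 5, 4, 5, 2, 2, 8, 7, 5, 6, 1, 1, 1, 0, 2, 1, 0, 5, 3, 0, 1, 1, 2, 10, 2, 5, 5, 0, 1, 3, 5, 1, 4, 5, 1, 2, 7, 1, 0, 1, 3, 3, 1, 0, 1, 17, 0, 5, 1, 10, 1, 2, 0, 0, 1, 21, 7, 1, 1, 6, 0, 5, 3, 5,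 0, 4, 0, 5, 2, 1, 1, 2, 1, 1, 3, 2, 0, 2, 3, 5] (.cons 1 0 0 0 0 (.cons 10 2 0 .nil) [19, 1, 7, 31, 19, 7, 18, 3, 1, 2, 2, 1, 4, 2, 5, 3, 0, 2, 7, 5, 1, 4, 0, 2, 0, 7, 1, 12, 1, 4, 0, 3, 0, 0, 1, 1, 1, 7, 3, 3, 11, 2, 0, 0, 17, 3, 0, 0, 1, 6, 4, 1, 0, 3, 3, 0, 1, 27, 1, 1, 0, 1, 3, 0, 1, 4, 2, 1, 0, 0, 1, 2, 9, 1, 0, 0, 2, 3, 1, 3, 0, 9, 0, 0, 1, 0, 0, 0, 0, 1, 4, 0, 2, 2, 2, 2, 0, 0, 1, 0, 0, 2, 1, 3, 5, 1, 2, 0, 1, 0, 0, 0, 2, 4, 1, 3, 1, 0, 1, 2, 3, 0, 4, 3, 1, 0, 1, 4, 0, 1, 1, 6, 0, 1, 3, 0, 0, 0, 1, 1, 1, 0, 0, 1, 11, 1, 3, 1, 3, 0, 0, 5, 3, 2, 0, 1, 5, 3, 0, 9, 1, 2, 0, 1, 8, 1, 2, 1, 0, 2, 4, 3, 7, 0, 0, 6, 1, 0, 0, 1]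 (.cons 1 0 0 0 0 (.cons 11 1 0 .nil) [3, 1, 1, 2, 1, 2, 1, 3, 7, 2, 6, 5, 22, 3, 1, 6, 18, 3, 7, 0, 1, 0, 1, 7, 1, 1, 10, 4, 1, 0, 4, 1, 1, 1, 3, 0, 0, 4, 0, 3, 3, 2, 1, 5, 0, 4, 2, 2, 0, 1, 5, 1, 2, 3, 3, 2, 1, 0, 1, 1, 0, 0, 8, 9, 1, 2, 2, 4, 4, 2, 10, 5, 0, 2, 1, 1, 1, 0, 1, 6, 0, 0, 0, 0, 3, 7, 2, 0, 1, 2, 3, 0, 2, 7, 3, 2, 3, 0, 0, 1, 1, 0, 3, 2, 0, 1, 0, 0, 1, 1, 0, 0, 0, 5, 3, 0, 1, 3, 2, 0, 0, 0, 0, 0, 0, 0, 9, 5, 1, 0, 3, 1, 3, 1, 3, 4, 1, 1, 3, 0, 1, 3, 2, 1, 0, 0, 0, 1, 0, 4, 1, 1, 2, 1, 0, 3, 1, 3, 5, 2, 0, 0, 1, 0, 1, 3, 0, 1, 0, 0, 1, 0, 1, 1, 5, 3, 2, 2, 2, 1, 1, 3, 10, 0, 0, 1, 13, 4, 2, 1, 0, 1, 0, 0, 0, 2, 4,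 5, 4, 3, 3, 6, 0, 0, 1, 1, 3, 1, 4] .nil))))),
  (.cons 0 18 0 0 0 (.cons 10 1 0 .nil) [] (.cons 2 7 0 0 0 (.cons 0 37 1 .nil) [12, 2, 1, 1, 1, 7, 0, 19, 1, 2, 0, 15, 3, 6, 0, 14, 0, 0, 6, 1, 2, 2, 3, 2, 1, 3, 1, 1, 9, 1, 2, 0, 0, 1, 1, 1, 1, 1, 0, 0, 0, 3, 6, 8, 0, 1, 2, 0, 1, 0, 2, 1, 4, 13, 2, 7, 5, 0, 3, 1, 0, 0, 0, 1, 3, 3, 1, 1, 1, 0, 0, 13, 3, 0, 0, 0, 0, 1, 0, 1, 0, 0, 0, 5, 3, 4, 1, 5, 3, 0, 3, 1, 1, 1, 1, 2, 2, 0, 7, 0, 2, 0, 5, 1, 5, 0, 1, 1, 4, 1, 0, 0, 0, 1, 2, 0, 3, 1, 0, 0, 0, 4, 4, 1, 1, 0, 2, 3, 0, 1, 0, 1, 1, 3, 0, 3, 1, 4, 3, 0, 1, 0, 3, 1, 5, 0, 0, 1, 1, 3, 0, 0, 2, 1, 0, 2, 1, 1, 2, 6, 0, 0, 1, 1, 0, 5, 2,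 1, 1, 2, 2, 2, 1, 0, 2, 0, 0, 1, 3, 11, 5, 7, 1, 1, 1, 1, 1, 11, 2, 1, 0, 2, 1, 0, 6, 5, 0, 0, 1, 0, 1, 2, 0, 0, 1, 0, 0, 1, 0, 2, 0, 1, 5, 1, 3, 2, 3, 1, 2, 2, 0, 1, 2, 1, 2, 0, 3, 3, 0] .nil)),
  (.cons 0 21 2 0 0 (.cons 10 4 0 .nil) [14, 102, 75, 0, 2, 4, 58, 32] (.cons 0 12 1 0 0 (.cons 10 0 0 .nil) [17, 45, 49, 92, 4, 48] (.cons 2 23 0 0 0 (.cons 0 38 1 .nil) [2, 23, 5, 2, 7, 5, 7, 2, 59, 0, 7, 0, 2, 2, 1, 1, 9, 0, 3, 3, 1, 0, 7, 1, 4, 9, 0, 5, 0, 3, 1, 6, 0, 3, 1, 0, 1, 4, 1, 1, 1, 1, 1, 7, 12, 0, 3, 1, 0, 1, 6, 2, 10, 0, 1, 0, 1, 3, 0, 0, 0, 4, 3, 1, 1, 0, 0, 3, 12, 0, 4, 9, 3, 1, 4, 6, 2, 0, 0, 0, 0, 1, 4, 1, 0, 0, 4, 1,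 2, 8, 2, 1, 0, 1, 1, 1, 4, 2, 0, 1, 5, 1, 6, 1, 4, 0, 1, 4, 0, 1, 5, 0, 1, 1, 3, 2, 3, 1, 1, 2, 1, 0, 0, 1, 2, 0, 4, 0, 1, 7, 0, 3, 3, 0, 3, 2, 5, 0, 0, 1, 0, 1, 1, 4, 1, 7, 2, 3, 1, 4, 8, 0, 1, 4, 1, 0, 1, 0, 2, 1, 3, 3, 0, 13, 2, 4, 1, 5, 6, 0, 1, 2, 0, 1, 1, 7, 1, 1, 0, 1, 0, 1, 4, 4, 2, 1, 1, 1, 0, 3, 0, 11, 5, 1, 5, 2, 4, 6] (.cons 1 0 0 0 0 (.cons 11 2 0 .nil) [4, 0, 8, 0, 1, 1, 1, 3, 1, 1, 2, 0, 3, 3, 0, 0, 0, 4, 3, 3, 10, 3, 3, 13, 4, 10, 0, 0, 1, 1, 1, 4, 1, 0, 1, 0, 1, 1, 0, 3, 4, 4, 1, 4, 2, 1, 3, 0, 1, 1, 0, 1, 1, 1, 2, 1, 2, 3, 0, 0, 0, 1, 7, 0, 1, 0, 0, 5, 3, 1, 1, 1, 3, 2, 7, 1, 3, 0, 0, 1, 1, 0, 6, 1, 3, 0, 3, 4,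 0, 0, 1, 0, 0, 0, 1, 1, 1, 0, 3, 3, 1, 1, 0, 1, 1, 0, 0, 1, 0, 0, 1, 3, 2, 2, 0, 2, 0, 1, 2, 1, 1, 0, 1, 3, 5, 2, 2, 1, 5, 0, 0, 0, 1, 0, 5, 1, 0, 7, 3, 0, 17, 1, 0, 0, 4, 8, 5, 0, 0, 1, 1, 0, 5, 7, 1, 0, 0, 2, 1, 0, 3, 0, 6, 1, 4, 0, 1, 1, 0, 0, 3, 6, 3, 5, 0, 5, 5, 1, 0, 1, 1, 1, 0, 0, 5, 1, 0, 3, 1, 0, 5, 0, 0, 0, 1, 4, 0, 0, 0, 4, 0, 1, 4, 0, 1, 0, 1, 2, 0, 0, 4, 2, 0, 1, 0, 0, 0, 0, 1, 5, 2, 7, 0, 3, 1, 0, 0, 1, 0, 3, 1, 1, 3, 0, 0, 1, 0, 2, 2, 3, 2, 1, 5, 2, 1, 3, 1, 2, 2, 1, 0, 3, 0, 5, 5, 1] (.cons 1 0 0 0 0 (.cons 11 1 0 .nil) [2, 0, 10, 3, 2, 1, 1, 1, 0, 9, 0, 0, 0, 0, 0, 4, 3, 1, 12, 1, 1, 1, 2, 0, 0, 0, 2, 0, 1, 3,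 0, 13, 2, 0, 2, 0, 6, 17, 1, 1, 2, 2, 2, 0, 1, 2, 7, 1, 1, 1, 2, 5, 4, 0, 3, 1, 2, 1, 0, 1, 0, 0, 4, 1, 3, 1, 1, 0, 3, 7, 4, 2, 1, 0, 4, 0, 6, 1, 6, 4, 2, 1, 1, 3, 0, 1, 3, 0, 0, 0, 3, 3, 1, 1, 0, 0, 0, 0, 0, 2, 4, 1, 2, 0, 0, 1, 0, 7, 0, 5, 0, 0, 1, 1, 0, 1, 8, 1, 7, 0, 0, 2, 0, 0, 0, 0, 0, 1, 1, 2, 1, 0, 0, 3, 0, 1, 3, 2, 0, 0, 4, 3, 1, 2, 0, 3, 1, 0, 2, 1, 3, 1, 3, 0, 1, 1, 1, 0, 3, 0, 2, 1, 7, 0, 2, 1, 2, 0, 0, 1, 7, 0, 1, 0, 1, 1, 1, 0, 6, 1, 0, 1, 1, 0, 12, 3, 1, 2, 0, 0, 0, 0, 0, 0, 0, 2, 3, 0, 3, 1, 5, 0, 0, 0, 1, 1, 1, 2, 1, 0, 3, 7, 0, 0, 1, 0, 2, 2, 2, 5, 0, 3, 5, 4, 0, 0, 0, 0, 1, 0, 2, 4, 1, 1, 2, 3, 0, 0, 3, 5, 1,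 0, 0, 0, 2, 0, 0, 3, 1, 3, 1, 0, 2, 0, 1, 0, 0] .nil))))),
  (.cons 0 24 0 0 0 (.cons 9 2 0 .nil) [36, 67] (.cons 2 8 0 0 0 (.cons 0 39 1 .nil) [6, 9, 0, 5, 4, 1, 29, 3, 4, 3, 7, 1, 27, 3, 0, 8, 1, 0, 0, 0, 0, 1, 2, 3, 3, 2, 0, 0, 2, 5, 3, 0, 1, 2, 3, 1, 1, 1, 3, 0, 0, 11, 2, 1, 1, 1, 1, 8, 0, 2, 1, 1, 4, 0, 0, 0, 0, 0, 1, 3, 2, 1, 1, 2, 5, 2, 17, 2, 0, 2, 1, 0, 3, 0, 1, 0, 2, 3, 0, 0, 1, 4, 6, 4, 10, 0, 3, 2, 0, 11, 0, 0, 3, 0, 2, 1, 3, 1, 0, 2, 3, 0, 0, 2, 1, 0, 1, 3, 8, 1, 1, 0, 2, 2, 1, 1, 1, 1, 0, 0, 0, 1, 1, 0, 3, 2, 1, 2, 1, 1, 1, 1, 6, 3, 0, 0, 5, 0, 1, 0, 0, 2, 0, 0, 1, 7, 6, 1, 0, 0, 3, 2, 0, 6, 0, 5, 4, 1, 1, 3, 0, 1,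 6, 0, 2, 3, 0, 3, 0, 1, 0, 4, 0, 1, 1, 1, 7, 0, 3, 2, 12, 0, 7, 1, 0, 0, 1, 2, 1, 5, 1, 10, 3, 2, 10, 1, 0, 1, 3, 3, 5, 0, 1, 5, 0, 0, 1, 1, 0, 0, 1, 0, 3, 0, 1, 3, 1, 1, 1, 0, 4, 0, 1, 3, 4, 2, 6, 2, 1, 2, 0] .nil)),
  (.cons 0 21 0 0 0 (.cons 10 1 0 .nil) [6, 47] (.cons 0 9 0 0 0 (.cons 11 2 0 .nil) [5, 0, 3, 102, 1] (.cons 1 0 0 0 0 (.cons 11 1 0 .nil) [3, 1, 2, 1, 1, 3, 6, 1, 0, 2, 1, 4, 2, 13, 5, 6, 2, 4, 0, 2, 1, 0, 5, 6, 8, 1, 1, 7, 4, 2, 1, 6, 1, 0, 1, 1, 3, 1, 0, 1, 0, 2, 2, 2, 0, 4, 1, 3, 7, 0, 1, 1, 4, 2, 0, 8, 1, 0, 1, 1, 6, 0, 0, 3, 2, 3, 0, 0, 3, 1, 3, 2, 7, 5, 0, 3, 1, 1, 3, 1, 1, 1, 2, 1, 0, 4, 1, 6, 0, 1, 1, 1,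 2, 1, 1, 8, 1, 1, 3, 2, 6, 1, 2, 2, 3, 1, 6, 5, 0, 2, 0, 0, 0, 2, 1, 1, 3, 1, 2, 1, 1, 1, 0, 4, 0, 1, 0, 1, 1, 5, 0, 3, 0, 0, 1, 5, 1, 2, 1, 0, 0, 1, 0, 0, 2, 6, 7, 1, 1, 2, 1, 1, 2, 9, 4, 1, 0, 3, 0, 1, 0, 0, 0, 3, 0, 1, 0, 5, 6, 1, 0, 1, 2, 1, 2, 0, 0, 1, 0, 0, 1, 3, 0, 4, 0, 0, 1, 2, 0, 2, 1, 0, 1, 0, 2, 0, 1, 0, 0, 1, 0, 0, 0, 3, 4, 2, 0, 3, 1, 3, 7, 1, 0, 3, 2, 0, 3, 0, 1, 5, 3, 1, 7, 1, 1, 1, 1, 0, 1, 2, 1, 3, 1, 0, 0, 0, 2, 1, 0, 6, 0, 0, 0, 0, 0, 1, 2, 0, 1, 3, 0, 2, 1, 3, 0, 5, 3, 3, 3, 1, 0, 0, 2, 1, 1, 1, 0, 0, 1, 2, 1, 1, 1, 3, 1, 0, 3, 1, 1] .nil))),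
  (.cons 0 12 2 0 0 (.cons 9 1 0 .nil) [155, 58, 5, 65, 2, 31] (.cons 2 6 0 0 0 (.cons 0 40 0 .nil) [14, 15, 1, 4, 1, 0, 0, 3, 0, 5, 24, 7, 4, 3, 0, 4, 1, 3, 7, 0, 0, 0, 6, 2, 1, 1, 0, 0, 1, 1, 2, 0, 2, 5, 1, 1, 0, 0, 3, 2, 1, 1, 10, 7, 2, 5, 1, 7, 5, 1, 5, 0, 0, 3, 5, 2, 0, 2, 0, 3, 4, 5, 7, 1, 1, 3, 5, 2, 0, 2, 8, 3, 2, 3, 4, 0, 0, 7, 2, 1, 0, 1, 1, 1, 2, 1, 5, 0, 1, 0, 0, 2, 2, 0, 2, 3, 0, 0, 1, 1, 2, 1, 1, 3, 2, 1, 1, 1, 1, 1, 3, 1, 2, 5, 0, 0, 0, 1, 0, 1, 2, 5, 0, 7, 1, 2, 2, 1, 1, 1, 0, 1, 0, 0, 4, 0, 7, 0, 2, 1, 0, 1, 2, 7, 0, 1, 1, 5, 1, 2, 1, 0, 0, 1, 2, 0, 5, 1, 0, 6, 1, 1, 3, 1, 2, 3, 6, 7, 0, 0, 2, 4, 0, 0, 0, 0, 5,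 0, 2, 0, 1, 1, 1, 1, 3, 5, 1, 0, 5, 3, 1, 0, 1, 1, 1, 0, 2, 1, 1, 5, 1, 2, 2, 0, 3, 3, 0, 0, 1, 1, 1, 9, 1, 17, 0, 1, 1, 6, 4, 3, 4, 5, 7, 0, 0, 0, 1, 1, 0, 0, 1, 1, 1, 0, 5, 5, 0, 0, 9, 0, 0, 1, 10, 5, 2, 1, 0, 0, 1, 1, 2, 0, 4, 1, 7, 2] .nil)),
  (.cons 0 21 0 0 0 (.cons 10 1 0 .nil) [122] (.cons 0 17 0 0 0 (.cons 10 0 0 .nil) [129] (.cons 1 0 0 0 0 (.cons 11 0 0 .nil) [1, 1, 4, 1, 1, 3, 3, 1, 1, 3, 0, 1, 1, 0, 28, 0, 6, 5, 1, 7, 0, 0, 0, 2, 1, 8, 1, 1, 12, 3, 2, 0, 5, 0, 0, 0, 1, 1, 0, 0, 1, 1, 0, 3, 2, 4, 5, 0, 3, 2, 5, 2, 0, 0, 3, 0, 1, 5, 1, 0, 1, 7, 0, 3, 0, 1, 5, 2, 5, 3, 0, 0, 5, 6, 1, 0, 4, 2, 0, 0, 2, 0, 2, 1, 1, 1,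 0, 2, 2, 0, 4, 1, 1, 2, 5, 6, 1, 1, 2, 0, 5, 1, 0, 3, 2, 0, 1, 2, 0, 3, 2, 4, 1, 2, 6, 1, 4, 5, 0, 5, 5, 3, 0, 2, 2, 1, 4, 3, 0, 2, 1, 10, 3, 0, 3, 1, 0, 2, 7, 4, 0, 1, 0, 1, 0, 1, 4, 0, 0, 1, 0, 1, 1, 0, 7, 0, 1, 1, 0, 0, 1, 1, 5, 3, 1, 4, 1, 0, 0, 8, 1, 1, 0, 3, 1, 2, 5, 5, 1, 0, 3, 4, 4, 0, 5, 3, 1, 1, 0, 1, 0, 0, 0, 1, 3, 5, 1, 2, 1, 1, 1, 3, 1, 0, 1, 3, 1, 1, 0, 1, 3, 0, 5, 0, 3, 0, 13, 1, 0, 0, 2, 7, 1, 0, 2, 1, 2, 2, 3, 0, 1, 1, 4, 0, 2, 0, 1, 2, 1, 2, 1, 4, 0, 3, 0, 1, 0, 0, 0, 0, 3, 0, 1, 1, 1, 1, 0, 0, 2, 2, 1, 2, 3, 0, 0, 1, 0, 2, 0, 4, 2, 1, 1, 1, 3, 0, 7, 1, 0, 3, 0, 3, 4, 0, 3, 0, 1, 0, 1] .nil))),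
  (.cons 0 21 1 0 0 (.cons 9 5 0 .nil) [42, 6, 68, 110, 70, 0] (.cons 0 15 0 0 0 (.cons 9 6 0 .nil) [6, 107] (.cons 0 13 0 0 0 (.cons 9 0 0 .nil) [45, 75] (.cons 2 7 0 0 0 (.cons 0 41 0 .nil) [2, 9, 0, 0, 1, 5, 1, 3, 1, 0, 4, 0, 19, 0, 0, 31, 3, 2, 0, 1, 2, 2, 3, 8, 0, 0, 0, 3, 5, 1, 2, 1, 1, 2, 1, 1, 0, 1, 1, 1, 0, 1, 1, 1, 0, 0, 0, 0, 5, 1, 1, 5, 5, 0, 2, 3, 1, 1, 0, 9, 5, 1, 2, 1, 4, 1, 2, 3, 1, 1, 2, 10, 0, 3, 1, 1, 1, 0, 9, 0, 1, 1, 1, 1, 3, 5, 1, 3, 0, 0, 4, 0, 0, 2, 1, 0, 0, 0, 1, 4, 4, 0, 0, 3, 3, 9, 1, 1, 3, 0, 2, 0, 2, 3, 2, 7, 1, 1, 0, 3, 0, 5, 2, 0, 0, 2, 3, 3, 1, 0, 1, 1, 1, 0, 0, 2, 2, 1, 1, 3, 1, 0, 2, 0, 1, 1, 1,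 1, 1, 1, 0, 1, 1, 0, 0, 2, 0, 1, 1, 1, 1, 1, 0, 0, 0, 1, 0, 1, 0, 0, 6, 0, 0, 0, 2, 1, 5, 0, 0, 0, 3, 6, 0, 7, 1, 0, 2, 2, 0, 1, 0, 2, 1, 2, 1, 0, 3, 0, 0, 2, 0, 1, 1, 1, 1, 4, 1, 0, 0, 0, 1, 0, 0, 1, 2, 0, 2, 0, 0, 5, 0, 2, 0, 3, 1, 1, 0, 0, 3, 8, 0, 0, 2, 1, 1, 1, 1, 4, 1, 0, 1, 1, 0, 0, 2, 0, 2, 7, 2, 1, 3, 0, 0, 0, 8, 1, 7, 1, 0, 5, 0, 0, 0, 0, 4, 1, 0, 3, 1, 1, 1, 0, 3, 5, 4, 3, 1, 0, 1, 1, 1, 2, 0, 0, 1, 0, 1, 3, 3, 1, 5, 0, 0, 0, 1, 3, 2, 0, 2, 4, 0, 0, 0, 0, 1, 2, 3, 2, 0, 1, 2, 4, 1, 4, 1, 2, 0, 1, 0, 0] .nil)))),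
  (.cons 0 17 0 0 0 (.cons 10 1 0 .nil) [13, 1, 113] (.cons 0 18 0 0 0 (.cons 11 0 0 .nil) [1, 2] (.cons 2 19 0 0 0 (.cons 0 42 0 .nil) [1, 9, 4, 5, 3, 7, 5, 2, 4, 0, 0, 0, 5, 2, 0, 7, 2, 7, 9, 3, 6, 1, 1, 0, 0, 0, 11, 1, 1, 2, 2, 4, 0, 1, 7, 3, 21, 4, 0, 0, 0, 3, 2, 0, 5, 1, 5, 3, 8, 0, 1, 0, 0, 3, 2, 0, 1, 2, 1, 2, 6, 3, 1, 6, 0, 2, 4, 1, 0, 1, 3, 4, 0, 1, 1, 3, 4, 6, 1, 4, 1, 4, 0, 2, 1, 3, 5, 1, 1, 0, 1, 1, 0, 0, 1, 5, 1, 1, 0, 4, 0, 0, 5, 5, 0, 0, 1, 1, 0, 0, 0, 4, 3, 1, 0, 0, 3, 3, 2, 5, 3, 0, 5, 3, 0, 3, 2, 2, 4, 1, 0, 2, 4, 1, 1, 3, 1, 0, 1, 4, 6, 0, 0, 1, 3, 0, 0, 2, 3, 0, 1, 1, 0, 1, 0, 7, 1, 0, 1, 0, 0, 1, 1, 1, 3, 3,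 2, 1, 1, 5, 1, 1, 0, 3, 2, 5, 1, 1, 3, 0, 1, 1, 0, 1, 2, 7, 1, 3, 2, 0, 4, 0, 3, 1, 1, 0, 3, 0, 3, 2, 4, 0, 6, 1, 2, 2, 1, 1, 1, 1, 2, 0, 0, 2, 0, 1, 4, 1, 0, 1, 1, 5, 0, 6, 5, 0, 4, 1, 2, 1, 5, 0, 2, 1, 3, 6, 7, 5, 5, 1, 5, 5, 3, 0, 4, 1, 0, 7, 5, 2, 0, 4, 3, 1, 1, 1, 5, 0, 0, 1, 0, 0, 1, 1, 0, 1, 0, 3, 2, 0, 6, 0, 3, 1, 0, 0, 1, 5, 1, 0, 0, 2, 0, 0, 0, 1, 4, 0, 5, 4, 0, 1, 0, 0, 0, 0, 1, 0, 3, 1, 0, 1] (.cons 1 0 0 0 0 (.cons 10 0 0 .nil) [32, 105, 7, 0, 3, 3, 0, 0, 0, 3, 11, 4, 0, 0, 0, 2, 2, 0, 6, 0, 0, 0, 3, 4, 1, 2, 13, 18, 0, 0, 5, 0, 4, 5, 2, 4, 1, 18, 3, 0, 3, 4, 1, 1, 3, 1, 1, 13, 2, 2, 3, 8, 9, 3, 2, 2, 1, 0, 1, 5, 34,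 5, 7, 2, 0, 1, 3, 0, 2, 1, 1, 3, 1, 1, 8, 3, 1, 3, 6, 0, 0, 3, 0, 1, 1, 1, 0, 1, 1, 0, 0, 2, 3, 0, 1, 6, 1, 0, 1, 0, 1, 1, 0, 0, 2, 3, 1, 1, 1, 4, 1, 0, 1, 0, 0, 0, 1, 2, 1, 3, 5, 3, 5, 5, 1, 3, 3, 0, 3, 3, 1, 0, 1, 7, 4, 4, 0, 0, 0, 1, 2, 0, 2, 1, 0, 0, 0, 0, 3, 1, 0, 0, 1, 0, 2, 14, 2, 3, 1, 0, 1, 5, 2, 2, 3, 1, 7, 1, 3, 2, 0, 3, 1, 4, 5, 10, 2, 0, 3, 0, 1, 3, 24, 1, 6, 1, 5, 10, 1, 2, 0, 5, 0, 5, 1, 6, 1, 1, 5, 0, 0, 0, 5, 1, 1, 1, 2, 0, 1, 4, 7, 0, 0, 0, 2, 5, 1, 3, 1, 0, 1, 1, 0, 0, 0] .nil)))),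
  (.cons 0 24 0 0 0 (.cons 9 1 0 .nil) [118] (.cons 0 15 0 0 0 (.cons 9 5 0 .nil) [] (.cons 0 26 0 0 0 (.cons 9 0 0 .nil) [2, 118, 7, 0] (.cons 0 13 1 0 0 (.cons 11 0 0 .nil) [0, 2, 0, 129, 121, 36, 3, 1, 56, 7] (.cons 2 20 0 0 0 (.cons 0 43 0 .nil) [22, 0, 0, 0, 0, 0, 2, 2, 0, 33, 10, 0, 1, 2, 9, 1, 3, 29, 1, 7, 1, 4, 0, 0, 3, 0, 0, 11, 4, 8, 0, 0, 1, 7, 1, 4, 0, 1, 0, 3, 0, 10, 1, 1, 7, 3, 0, 0, 0, 2, 1, 1, 5, 2, 7, 13, 1, 5, 6, 2, 1, 0, 0, 3, 1, 1, 31, 2, 1, 0, 4, 3, 0, 0, 1, 0, 3, 1, 1, 1, 1, 3, 7, 2, 10, 1, 1, 5, 2, 1, 0, 1, 9, 0, 3, 0, 0, 0, 7, 7, 0, 3, 1, 1, 5, 3, 1, 1, 1, 0, 2, 5, 4, 0, 0, 1, 1, 1, 1, 0, 4, 1, 1, 1, 1,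 0, 1, 6, 1, 0, 0, 0, 3, 1, 5, 0, 3, 1, 1, 3, 1, 1, 0, 0, 3, 0, 3, 1, 6, 0, 2, 0, 0, 5, 3, 1, 0, 0, 0, 0, 3, 1, 1, 1, 0, 0, 2, 1, 13, 0, 0, 0, 4, 2, 0, 7, 11, 0, 5, 1, 0, 0, 2, 2, 1, 2, 7, 11, 3, 1, 1, 0, 1, 0, 2, 4, 1, 1, 1, 1, 9, 3, 7, 1, 3, 12, 0, 6, 1, 0, 1, 4, 1, 6, 3, 1, 6, 1, 0, 5, 1, 1, 1, 1, 1, 10, 2, 1, 3, 0, 3, 0, 0, 2, 2, 1, 0, 1, 1, 4, 13, 0, 5, 0, 1, 0, 0, 0, 14, 3, 0, 0, 0, 4, 3, 1, 0, 1, 0, 0, 0, 4, 9, 1, 1, 5, 0, 0] .nil))))),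
  (.cons 0 24 1 0 0 (.cons 5 2 0 .nil) [255, 0, 66, 0, 50] (.cons 0 8 2 0 0 (.cons 9 1 0 .nil) [1, 1, 43, 4, 0, 79, 9, 7, 47, 44, 2, 3, 5, 3, 61, 1, 5, 34, 1, 6] (.cons 0 8 0 0 0 (.cons 10 0 0 .nil) [11] (.cons 0 14 0 0 0 (.cons 11 0 0 .nil) [9, 125] (.cons 2 21 0 0 0 (.cons 0 44 0 .nil) [1, 0, 1, 0, 1, 5, 0, 0, 3, 0, 0, 1, 5, 1, 0, 7, 0, 0, 1, 27, 0, 3, 2, 0, 0, 3, 2, 0, 0, 0, 1, 1, 3, 3, 1, 7, 5, 3, 4, 4, 5, 0, 5, 1, 3, 0, 3, 0, 1, 1, 2, 2, 2, 2, 0, 9, 1, 0, 1, 1, 0, 0, 2, 1, 1, 3, 2, 2, 0, 1, 2, 2, 4, 7, 2, 2, 0, 1, 1, 3, 2, 9, 0, 7, 2, 1, 0, 1, 2, 5, 1, 5, 1, 1, 0, 2, 1, 5, 0, 0, 2, 0, 0, 3, 3, 1, 2, 0, 1, 7, 0, 1, 0, 0, 1,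 3, 0, 1, 1, 1, 10, 0, 13, 0, 1, 1, 0, 0, 3, 5, 2, 3, 3, 2, 0, 2, 1, 1, 0, 0, 1, 1, 2, 4, 1, 1, 1, 1, 0, 8, 0, 3, 4, 4, 0, 9, 0, 0, 2, 0, 0, 0, 0, 1, 0, 0, 0, 2, 0, 1, 5, 1, 1, 1, 0, 1, 0, 0, 0, 2, 0, 1, 4, 1, 1, 0, 2, 3, 1, 1, 0, 2, 1, 5, 1, 4, 0, 3, 4, 2, 1, 1, 3, 2, 3, 0, 0, 1, 3, 1, 1, 0, 3, 1, 0, 3, 3, 0, 2, 2, 0, 1, 0, 0, 1, 2, 1, 2, 1, 5, 3, 0, 3, 3, 1, 2, 2, 3, 1, 1, 0, 0, 0, 1, 4, 0, 0, 3, 2, 2, 3, 3, 0, 1, 4, 0, 2, 6, 1, 0, 1, 3, 1, 0, 1, 0, 1, 2, 1, 0, 0, 0, 3, 0, 2, 1, 2, 1, 0, 1, 1, 2, 0, 0, 5, 2, 1, 0, 4, 1, 0, 1, 1, 1, 1, 7, 1, 1, 1, 5, 1, 0, 6, 1, 0, 1, 3, 1, 0, 5, 0, 0, 1, 0, 0, 1, 0, 1, 0, 2, 0, 3, 3, 5, 0, 6,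 1, 0, 3, 1, 2, 0, 1, 0, 1, 1, 5, 0, 1, 7, 1, 1, 0, 0, 1, 0, 3, 1, 2, 4, 0, 5, 2, 0, 1, 0, 1, 3, 1] .nil))))),
  (.cons 0 9 2 0 0 (.cons 5 3 0 .nil) [] (.cons 0 33 0 0 0 (.cons 10 0 0 .nil) [] (.cons 2 0 0 0 0 (.cons 0 45 0 .nil) [166, 2, 1, 1, 6, 28, 12, 94, 77, 10, 25, 9, 3, 5, 27, 14, 1, 1, 6, 6, 0, 1, 10, 0, 2, 17, 2, 4, 2, 1, 1, 1, 5, 3, 2, 0, 1, 1, 1, 8, 5, 1, 0, 1, 1, 4, 1, 6, 1, 0, 11, 5, 0, 5, 0, 5, 5, 0, 1, 3, 0, 8, 1, 4, 2, 7, 7, 25, 2, 1, 1, 1, 0, 0, 5, 13, 4, 4, 3, 8, 1, 31, 1, 2, 9, 0, 1, 6, 1, 2, 1, 3, 0, 3, 3, 0, 10, 3, 15, 1, 1, 2, 3, 14, 21, 2, 0, 5, 0, 1, 1, 18, 0, 1, 0, 2, 1, 18, 0, 0, 2, 1, 5, 1, 3, 0, 3, 1,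 2, 0, 0, 1, 47, 0, 2] (.cons 2 22 0 0 0 (.cons 0 46 0 .nil) [2, 14, 2, 2, 6, 2, 1, 2, 5, 1, 1, 0, 1, 1, 0, 6, 1, 2, 1, 9, 0, 2, 0, 0, 4, 0, 1, 4, 0, 1, 1, 1, 1, 5, 0, 0, 0, 5, 4, 1, 2, 7, 0, 1, 0, 1, 2, 1, 0, 1, 1, 0, 0, 0, 0, 1, 5, 1, 0, 2, 0, 0, 4, 1, 4, 3, 1, 1, 5, 6, 3, 1, 0, 6, 2, 6, 3, 3, 1, 0, 1, 1, 1, 0, 0, 1, 0, 1, 4, 2, 0, 2, 0, 1, 9, 10, 1, 7, 3, 1, 2, 0, 1, 3, 0, 7, 0, 5, 0, 7, 0, 2, 1, 2, 1, 6, 0, 1, 0, 0, 0, 4, 1, 1, 2, 1, 3, 7, 1, 3, 1, 0, 1, 2, 6, 14, 1, 0, 0, 1, 2, 1, 0, 3, 0, 1, 1, 2, 2, 4, 0, 0, 3, 0, 1, 1, 0, 1, 0, 3, 0, 1, 0, 1, 0, 3, 1, 3, 1, 1, 0, 0, 0, 0, 5, 1, 0, 4, 1, 0, 0, 3, 0, 3, 3, 0, 2, 5, 1, 3, 1,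 0, 0, 1, 5, 1, 0, 3, 0, 1, 0, 2, 2, 0, 0, 0, 1, 1, 4, 2, 3, 0, 2, 2, 1, 1, 1, 8, 1, 0, 0, 4, 1, 0, 1, 1, 7, 2, 3, 1, 0, 0, 1, 2, 1, 0, 0, 1, 0, 1, 1, 1, 0, 0, 1, 0, 4, 2, 1, 0, 1, 3, 2, 2, 7, 1, 1, 0, 1, 1, 2, 3, 2, 1, 9, 2, 1, 3, 0, 0, 0, 0, 2, 2, 1, 0, 0, 1, 9, 0, 0, 0, 0, 4, 0, 2, 4, 0, 1, 0, 4, 1, 1, 1, 2, 1, 1, 1, 6, 2, 1, 1, 2, 2, 0, 1, 3, 0, 3, 5, 2, 0, 0, 0, 0, 1, 0, 1, 2, 3, 0, 1, 1, 0, 0, 0, 1, 1, 0, 0, 1, 0, 1, 0, 0, 0, 1, 1, 1, 0, 0, 1, 0, 1, 0, 1, 0, 0, 1, 0, 0, 6, 3, 0, 9, 1, 1, 0, 1, 0, 1, 0, 0, 4, 0, 0, 0, 0, 3, 0, 0, 1, 1, 3, 1, 0, 10, 2, 1, 0] (.cons 1 0 0 0 0 (.cons 11 1 0 .nil) [24, 1, 1, 0, 0, 0, 7, 3, 5, 0,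 3, 0, 1, 19, 12, 1, 0, 17, 1, 0, 1, 1, 1, 1, 0, 19, 1, 4, 1, 0, 0, 2, 1, 4, 1, 0, 1, 0, 0, 1, 1, 10, 6, 0, 1, 0, 1, 1, 4, 0, 0, 0, 0, 1, 5, 2, 1, 0, 3, 1, 5, 9, 6, 1, 5, 0, 0, 0, 0, 3, 9, 5, 2, 0, 1, 1, 2, 0, 19, 5, 0, 2, 1, 1, 1, 2, 2, 0, 1, 8, 5, 2, 2, 1, 3, 3, 1, 0, 0, 1, 0, 1, 1, 0, 1, 1, 1, 0, 2, 1, 2, 2, 0, 0, 1, 0, 9, 2, 3, 4, 2, 0, 9, 1, 0, 1, 6, 0, 1, 9, 1, 0, 0, 8, 0, 7, 2, 3, 0, 1, 0, 7, 0, 5, 2, 1, 1, 2, 4, 0, 0, 5, 1, 0, 1, 0, 2, 3, 0, 0, 0, 1, 3, 0, 0, 0, 0, 0, 0, 0, 2, 0, 1, 3, 0, 3, 2, 0, 1, 0, 6, 2, 0, 0, 0, 0, 0, 2, 2, 3, 1, 1, 1, 2, 3, 7, 1, 0, 0, 0, 0, 0, 1, 6, 1, 1, 0, 0, 2, 1, 0, 4, 2, 1, 6, 5, 1, 0, 0, 0,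 0, 3, 1, 0, 0, 1, 3, 4, 3, 2, 4, 0, 1, 3, 1, 4, 2, 3, 0, 0, 1, 8, 0, 2, 2, 0, 1, 1, 0, 5, 3, 1, 2, 0, 2, 5, 0, 1, 0, 1, 3, 2, 0, 2, 3, 0, 1, 1, 3, 0, 15, 3, 0, 1, 1, 0, 4, 0, 3, 0, 7, 0, 0, 0, 1, 8, 1, 0, 5, 9, 2, 0, 1, 3, 1, 0, 5, 0, 1, 1, 1, 3, 3, 0, 0, 0, 1, 0, 0, 1, 0, 8, 2, 0, 1, 3, 3, 0, 1, 7, 1, 1, 3, 1, 3, 9, 1, 1, 0, 4, 0] (.cons 1 0 0 0 0 (.cons 10 3 0 .nil) [5, 14, 14, 2, 2, 0, 2, 3, 1, 0, 1, 1, 1, 7, 1, 3, 1, 11, 3, 1, 4, 0, 1, 8, 1, 1, 1, 2, 1, 0, 1, 12, 1, 2, 0, 5, 3, 0, 0, 0, 3, 0, 0, 2, 2, 1, 6, 3, 0, 1, 2, 0, 5, 0, 0, 1, 1, 0, 0, 1, 1, 1, 0, 1, 3, 3, 0, 0, 1, 3, 0, 2, 2, 5, 1, 0, 0, 3, 1, 3, 1, 1, 2, 0, 3, 0, 3,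 0, 0, 3, 4, 5, 3, 4, 4, 1, 2, 0, 4, 0, 1, 2, 1, 1, 1, 1, 0, 1, 2, 0, 5, 3, 1, 0, 1, 1, 0, 0, 1, 3, 0, 0, 5, 4, 7, 3, 0, 7, 4, 1, 6, 1, 1, 0, 0, 1, 2, 0, 0, 1, 2, 0, 2, 4, 1, 0, 5, 1, 0, 1, 1, 1, 1, 1, 0, 3, 0, 1, 0, 5, 1, 3, 0, 1, 0, 3, 3, 1, 0, 1, 1, 1, 1, 0, 3, 1, 3, 1, 0, 1, 0, 0, 0, 1, 0, 1, 2, 3, 1, 1, 0, 0, 1, 1, 5, 0, 1, 4, 1, 0, 0, 1, 1, 0, 0, 1, 6, 1, 1, 0, 5, 2, 1, 4, 1, 0, 0, 1, 1, 1, 4, 1, 0, 0, 1, 0, 1, 6, 0, 0, 1, 0, 0, 0, 2, 0, 0, 0, 0, 1, 7, 0, 0, 0, 0, 1, 6, 1, 3, 1, 0, 1, 2, 6, 2, 0, 0, 0, 1, 3, 6, 0, 0, 3, 2, 2, 1, 1, 0, 1, 0, 0, 4, 1, 2, 1, 0, 1, 1, 2, 1, 0, 0, 5, 0, 2, 0, 0, 0, 1, 0, 2, 0, 2, 1, 1, 3, 0, 4,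 0, 3, 0, 0, 0, 3, 1, 0, 2, 2, 3, 7, 0, 1, 1, 2, 2, 6, 0, 1, 3, 4, 2, 5, 4, 2, 0, 1, 0, 1, 3, 1, 1, 0, 2, 1, 1, 1, 0, 0, 3, 1, 1, 0, 1, 5, 1, 0, 7, 1, 1, 2, 2, 4, 0, 1, 2, 7, 1, 1, 2, 1, 3, 1, 1, 2, 3, 3, 2, 0, 0, 1, 2, 4, 1, 0, 0, 0, 0, 3, 0, 1, 4, 1] .nil)))))),
  (.cons 2 15 0 0 0 (.cons 0 47 0 .nil) [3, 2, 14, 2, 1, 0, 1, 3, 1, 5, 2, 32, 4, 10, 0, 0, 1, 5, 0, 33, 6, 6, 2, 0, 3, 2, 0, 1, 0, 2, 2, 0, 0, 6, 2, 1, 7, 5, 1, 7, 1, 2, 3, 3, 1, 1, 5, 1, 0, 7, 1, 8, 4, 1, 2, 0, 19, 2, 1, 3, 2, 7, 1, 3, 2, 1, 0, 0, 1, 0, 0, 0, 1, 0, 1, 3, 2, 0, 5, 3, 0, 4, 0, 5, 0, 6, 1, 0, 2, 8, 0, 2, 0, 1, 5, 3, 0, 2, 0, 1, 5, 0, 3, 7, 0, 0, 3, 1, 1,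 11, 3, 1, 0, 0, 0, 3, 1, 0, 1, 1, 0, 2, 0, 1, 2, 1, 1, 0, 1, 0, 1, 1, 3, 5, 3, 0, 1, 1, 0, 2, 1, 1, 0, 4, 1, 2, 0, 1, 3, 3, 0, 0, 0, 1, 4, 3, 1, 1, 3, 1, 1, 1, 1, 2, 7, 3, 1, 1, 1, 1, 1, 0, 3, 1, 1, 1, 1, 1, 1, 0, 1, 0, 0, 0, 3, 1, 2, 1, 3, 2, 2, 0, 1, 1, 3, 9, 3, 0, 0, 11, 3, 0, 0, 0, 1, 0, 3, 1, 2, 2, 13, 1, 1, 10, 5, 0, 5, 2, 2, 0, 1, 0, 3, 1, 1, 0, 0, 0, 0, 0, 0, 1, 0, 4, 1, 3, 0, 3, 5, 0, 2, 1, 3, 2, 6, 0, 0, 4, 8, 0, 4, 1, 9, 0, 3, 12, 1, 1, 0, 1, 1, 1, 10, 1, 0, 1, 4, 0, 1, 0, 3, 5, 0, 0, 1, 7, 3, 2, 1, 5, 0, 1, 0, 0, 1, 0, 1, 1, 3, 0, 5, 2, 4, 2, 0, 14, 0, 1, 1, 1, 2, 0, 1, 6, 2, 3, 2, 2, 0, 1, 1, 0, 2, 4, 2, 1, 3, 4, 1,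 0, 1, 2, 0, 0, 0, 0, 2, 1, 1, 0, 1, 0, 0, 1, 1, 0, 0, 2, 3] (.cons 1 0 0 0 0 (.cons 6 0 0 .nil) [16, 14, 119, 17, 6, 1, 1, 3, 1, 0, 10, 14, 2, 5, 5, 2, 13, 2, 1, 0, 0, 0, 0, 20, 4, 1, 1, 1, 17, 1, 0, 25, 5, 0, 0, 3, 5, 7, 6, 0, 0, 6, 28, 1, 0, 7, 3, 0, 0, 1, 0, 2, 1, 1, 11, 5, 31, 9, 2, 0, 3, 3, 0, 3, 1, 1, 5, 0, 8, 0, 1, 0, 0, 3, 1, 1, 1, 0, 4, 1, 1, 1, 3, 1, 1, 0, 0, 1, 4, 0, 0, 5, 4, 3, 2, 0, 0, 0, 0, 0, 6, 1, 1, 0, 5, 2, 0, 0, 1, 1, 1, 2, 2, 3, 5, 4, 0, 3, 1, 0, 7, 0, 7, 1, 0, 3, 0, 0, 0, 2, 1, 1, 3, 1, 3, 0, 0, 3, 1, 0, 1, 1, 2, 0, 12, 0, 2, 2, 1, 6, 5, 2, 3, 3, 6, 2, 2, 4, 2, 3, 2, 11, 11, 3, 0, 1, 0, 0, 0, 3, 3, 1, 0, 1,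 2, 0, 0, 0, 0, 1, 0, 1, 1, 7, 5, 8, 2, 1, 1, 15, 3, 15, 4, 3, 0, 0, 0, 0, 3, 2, 1, 0, 1, 4, 17, 5, 0, 4, 0, 1, 0, 3, 2, 6, 1, 1, 0, 1, 2, 1, 0, 3, 0, 0, 0, 0, 0, 1, 1, 0, 13, 0, 0, 1, 1, 1, 0, 0, 5, 1, 1, 0, 0, 0, 0, 5, 1, 1, 1, 0, 0, 3, 1, 0, 0, 7, 4, 0, 2, 0, 1, 1, 0, 1, 1, 1, 1, 1] (.cons 1 0 0 0 0 (.cons 9 1 0 .nil) [23, 6, 0, 0, 1, 1, 0, 1, 5, 10, 0, 6, 0, 0, 1, 5, 0, 1, 1, 11, 1, 1, 2, 3, 1, 1, 40, 1, 2, 5, 0, 2, 0, 1, 1, 0, 3, 1, 9, 5, 1, 3, 16, 1, 0, 2, 0, 3, 1, 5, 4, 1, 7, 12, 3, 1, 0, 3, 2, 3, 1, 1, 3, 3, 0, 4, 2, 8, 2, 5, 3, 6, 1, 3, 3, 1, 0, 4, 1, 0, 9, 7, 11, 1, 1, 0, 1, 7, 1, 3, 1, 1, 2, 0, 0, 1, 0, 1, 1, 0, 3, 0,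 1, 0, 2, 2, 1, 1, 2, 1, 5, 1, 3, 0, 1, 2, 0, 4, 5, 0, 1, 1, 1, 0, 1, 0, 1, 2, 2, 0, 1, 0, 2, 4, 5, 0, 0, 1, 6, 0, 0, 1, 1, 3, 0, 1, 0, 1, 1, 1, 1, 0, 3, 1, 5, 5, 0, 0, 1, 1, 11, 1, 7, 0, 2, 4, 1, 3, 0, 0, 1, 9, 0, 1, 0, 1, 7, 0, 3, 2, 0, 2, 3, 9, 1, 1, 1, 0, 0, 1, 1, 1, 0, 5, 1, 0, 5, 3, 2, 2, 3, 0, 2, 1, 0, 1, 3, 0, 3, 1, 5, 1, 4, 0, 0, 2, 2, 9, 1, 2, 4, 1, 3, 0, 0, 0, 1, 1, 2, 0, 0, 1, 1, 5, 4, 0, 3, 3, 1, 0, 1, 1, 0, 1, 1, 1, 0, 1, 3, 1, 1, 1, 1, 4, 1, 1, 0, 2, 1, 1, 2, 2, 1, 7, 1, 1, 1, 1, 2, 0, 0, 1, 2, 0, 0, 3, 4, 3, 1, 6, 0, 7, 0, 2, 0, 1, 1, 2, 6, 0, 1, 2, 1, 1, 1, 1, 0, 0, 0, 3, 3, 1, 1, 3, 1, 0, 1, 1, 1, 0, 1, 0, 10,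 1, 4, 2, 2, 0, 3, 0, 0, 1, 1, 2, 1, 7, 0, 5, 1, 0, 1, 0, 0, 2, 1, 1, 0, 0, 1, 3, 5, 1, 5, 3, 1, 5, 4, 5, 3, 1, 1] .nil))),
  (.cons 0 18 0 0 0 (.cons 9 2 0 .nil) [5, 137, 3] (.cons 0 16 0 0 0 (.cons 10 0 0 .nil) [6, 43, 89] (.cons 0 23 0 0 0 (.cons 11 0 0 .nil) [5, 59, 80, 2] (.cons 2 1 0 0 0 (.cons 0 48 0 .nil) [22, 10, 91, 0, 27, 2, 8, 0, 2, 1, 0, 3, 1, 2, 3, 7, 2, 0, 7, 0, 1, 10, 0, 2, 0, 4, 1, 0, 0, 0, 0, 3, 0, 0, 6, 1, 33, 0, 3, 7, 0, 2, 7, 34, 0, 2, 2, 2, 2, 3, 12, 16, 4, 0, 0, 1, 0, 0, 0, 2, 0, 10, 0, 3, 5, 2, 1, 1, 1, 1, 22, 34, 3, 9, 15, 2, 1, 1, 2, 1, 0, 10, 3, 5, 0, 0, 1, 7, 1, 1, 1, 4, 1, 0, 1, 4, 2, 9, 2, 0, 2, 0,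 0, 1, 9, 0, 0, 0, 1, 3, 3, 0, 1, 4, 0, 0, 1, 3, 1, 11, 0, 5, 0, 1, 2, 3, 1, 0, 6, 0, 5, 4, 1, 6, 0, 3, 1, 0, 1, 11, 5, 0, 3, 0, 1, 1, 0, 6, 1, 0, 1, 3, 6, 1, 0, 1, 1, 2, 0, 0, 1, 0, 0, 0, 13, 0, 0, 2, 1, 0, 1, 0, 2, 0, 1, 0, 2, 0, 0, 2, 1, 2, 5, 3, 2, 1, 1, 0, 0, 3, 1, 2, 0, 25, 7, 3, 0, 9, 36, 0, 2, 1, 23, 0, 0, 0, 1, 0, 0, 4, 0, 1, 5, 1, 2, 9, 4, 3, 3, 1, 3, 0, 3, 3, 4, 2, 16, 3, 0, 5, 4, 1, 2, 1, 0, 3, 0, 0, 5, 0, 18, 12, 0, 7] (.cons 2 10 0 0 0 (.cons 0 49 1 .nil) [2, 1, 0, 7, 1, 1, 2, 1, 3, 2, 1, 1, 0, 2, 0, 4, 16, 1, 0, 2, 1, 0, 2, 3, 0, 1, 3, 3, 0, 1, 0, 3, 0, 4, 6, 3, 1, 0, 1, 0, 3, 10, 2, 4, 1, 2, 1, 1, 7, 2, 1, 5, 7,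 0, 2, 0, 0, 0, 0, 5, 4, 7, 3, 1, 0, 0, 1, 0, 1, 3, 3, 2, 1, 1, 0, 2, 1, 1, 3, 0, 3, 0, 3, 1, 0, 2, 0, 3, 0, 3, 1, 1, 0, 1, 2, 2, 3, 6, 1, 5, 2, 2, 0, 6, 0, 7, 0, 2, 10, 1, 0, 0, 3, 4, 7, 2, 0, 0, 1, 9, 1, 0, 1, 2, 0, 0, 1, 5, 1, 0, 0, 2, 0, 3, 1, 0, 0, 1, 1, 1, 3, 1, 0, 3, 1, 2, 1, 1, 0, 2, 2, 1, 5, 5, 2, 0, 3, 1, 1, 1, 1, 1, 6, 0, 1, 1, 1, 2, 1, 7, 3, 0, 1, 0, 1, 0, 1, 4, 4, 0, 9, 1, 2, 5, 1, 1, 0, 5, 1, 1, 3, 3, 0, 1, 2, 3, 1, 0, 2, 1, 1, 2, 0, 0, 3, 3, 0, 1, 2, 2, 3, 4, 0, 0, 1, 1, 1, 2, 1, 1, 1, 3, 0, 3, 0, 2, 2, 0, 1, 1, 3, 8, 2, 1, 1, 1, 2, 0, 0, 1, 0, 2, 7, 1, 2, 1, 0, 0, 0, 0, 0, 3, 1, 0, 3, 2, 2, 5, 3, 2, 1, 0, 2, 6, 3,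 1, 0, 3, 1, 3, 0, 1, 1, 0, 0, 1, 0, 3, 1, 0, 3, 0, 2, 2, 1, 1, 4, 0, 0, 0, 0, 0, 1, 0, 3, 1, 1, 1, 1, 0, 1, 0, 0, 3, 0, 2, 2, 5, 3, 3, 1, 0, 3, 4, 5, 1, 7, 0, 0, 3, 1, 1, 6, 1, 1, 0, 0, 0, 0, 0, 1, 1, 1, 3, 1, 0, 0, 1, 1, 1, 0, 1, 2, 4, 1, 1, 0, 2, 0, 2, 1, 2, 2, 0, 0, 0, 1, 0, 2, 1, 7, 0, 2, 0, 0, 1, 0, 1, 2, 0, 1, 2, 0, 2, 0, 0, 0, 1, 2, 1, 3, 1, 1, 1, 0, 1, 0, 0, 4, 0, 3, 0, 0, 1, 0, 0, 1, 0, 1, 1, 6, 4, 3, 1, 0, 1, 0, 1, 4, 1] (.cons 1 0 0 0 0 (.cons 11 1 0 .nil) [19, 1, 3, 1, 7, 2, 1, 13, 34, 1, 1, 18, 1, 5, 0, 1, 4, 5, 4, 0, 13, 3, 6, 7, 3, 0, 0, 1, 2, 3, 0, 1, 8, 5, 1, 0, 0, 0, 3, 4, 2, 2, 1, 5, 1, 1, 0, 2, 2, 2, 11, 7,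 0, 7, 4, 2, 1, 2, 1, 1, 3, 1, 0, 0, 0, 3, 2, 0, 6, 1, 0, 0, 1, 0, 1, 11, 1, 2, 0, 3, 3, 1, 2, 1, 1, 12, 2, 0, 8, 1, 3, 0, 3, 2, 0, 2, 0, 0, 1, 2, 3, 1, 3, 3, 1, 3, 1, 0, 6, 0, 1, 3, 1, 1, 6, 7, 4, 5, 2, 0, 2, 5, 1, 0, 1, 0, 4, 1, 1, 1, 5, 0, 0, 1, 0, 2, 0, 0, 3, 3, 5, 1, 1, 3, 4, 1, 3, 0, 5, 6, 0, 1, 0, 0, 1, 2, 0, 0, 1, 5, 0, 1, 2, 1, 5, 1, 0, 3, 0, 5, 2, 1, 3, 1, 0, 5, 0, 0, 3, 0, 2, 5, 2, 0, 3, 1, 0, 1, 1, 3, 1, 3, 2, 4, 1, 1, 1, 5, 4, 0, 2, 0, 2, 0, 6, 3, 5, 1, 0, 0, 1, 3, 0, 5, 1, 0, 3, 2, 0, 1, 5, 4, 7, 1, 0, 0, 4, 0, 3, 3, 0, 1, 0, 1, 1, 0, 1, 0, 1, 0, 1, 1, 0, 1, 2, 1, 7, 0, 3, 3, 1, 1, 2, 0, 0, 0, 0, 1, 5, 9, 0, 1, 0,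 0, 10, 0, 3, 0, 2, 8, 0, 0, 3, 6, 0, 13, 0, 3, 3, 4, 0, 3, 0, 5, 2, 0, 0, 5, 0, 3, 0, 4, 0, 0, 1, 0, 0, 0, 5, 3, 1, 0, 2, 4, 1, 0, 0, 0, 3, 3, 3, 0, 5, 0, 3, 0, 0, 1, 0, 1, 2, 4, 0, 0, 0, 1, 6, 1, 0, 0, 1, 0, 0, 0, 1, 2, 2, 2, 1, 3, 0, 2, 2, 4, 4, 2, 1, 3, 0] .nil)))))),
  (.cons 0 26 0 0 0 (.cons 5 2 0 .nil) [] (.cons 0 35 0 0 0 (.cons 5 78 0 .nil) [0, 13, 135, 6, 1] (.cons 1 0 0 0 0 (.cons 9 1 0 .nil) [23, 8, 12, 2, 2, 1, 1, 0, 0, 12, 9, 43, 32, 14, 0, 0, 4, 3, 0, 2, 1, 0, 7, 9, 5, 0, 1, 0, 0, 1, 2, 1, 5, 6, 0, 0, 0, 1, 0, 1, 1, 1, 0, 5, 24, 3, 2, 1, 10, 0, 4, 5, 2, 3, 1, 0, 0, 0, 0, 1, 23, 4, 0, 1, 1, 1, 4, 2, 2, 1, 5, 4, 11,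 0, 6, 1, 1, 2, 1, 0, 5, 0, 1, 0, 1, 9, 0, 1, 1, 1, 4, 1, 2, 0, 5, 2, 0, 1, 6, 1, 2, 0, 1, 0, 0, 1, 2, 6, 1, 0, 1, 2, 1, 1, 1, 0, 1, 7, 0, 1, 1, 2, 1, 1, 0, 0, 1, 0, 3, 1, 4, 2, 1, 2, 1, 1, 1, 1, 1, 2, 1, 1, 3, 6, 1, 3, 1, 1, 10, 1, 0, 7, 1, 1, 0, 0, 0, 2, 1, 1, 0, 2, 0, 5, 2, 5, 1, 0, 0, 9, 0, 1, 1, 1, 1, 1, 1, 0, 0, 1, 1, 1, 0, 0, 0, 0, 7, 3, 2, 1, 1, 1, 1, 2, 0, 0, 0, 1, 1, 4, 0, 0, 3, 0, 5, 1, 1, 0, 4, 2, 1, 0, 1, 1, 1, 1, 0, 1, 3, 1, 0, 9, 3, 2, 0, 1, 0, 0, 0, 0, 0, 3, 1, 1, 0, 1, 2, 1, 0, 5, 0, 6, 3, 3, 1, 1, 0, 3, 0, 0, 7, 3, 1, 0, 0, 1, 0, 2, 0, 3, 2, 0, 5, 1, 3, 0, 1, 1, 10, 3, 5, 1, 1, 0, 2, 14, 0, 3, 1, 21, 5, 2, 1, 1,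 1, 0, 2, 1, 8, 6, 2, 1, 1, 0, 1, 1, 0, 0, 0, 1, 1, 1, 2, 0, 0, 1, 1, 1, 2, 0, 4, 0, 0, 1, 1, 1, 2, 1, 3, 2, 4, 0, 2, 5, 0, 3, 0, 1, 0, 1, 0, 1, 3, 0, 0, 4, 0, 2, 1, 0, 0, 0, 2, 5, 1, 3, 11, 3, 0, 2, 1, 6, 2, 2, 2] .nil)))]

theorem ok8 : run B sp W8 W9 G8 Y8 Y9 498 K8 D8 = true := by decide +kernel

end Vale.Agent.P236K.Cert.Pl.P96
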