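import Vale.Agent.P236K.P96.B
import Vale.Agent.P236K.P96.A9
import Vale.Agent.P236K.P96.A10

/-!
# P236K / P96 / R9 : the check of degree 9
-/

noncomputable section

namespace Vale.Agent.P236K.Cert.Pl.P96

/-- rows given by data -/
noncomputable def D9 : List DL := [.nil,
  .nil,
  .nil,
  .nil,
  .nil,
  .nil,
  .nil,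
  .nil,
  .nil,
  .nil,
  .nil,
  .nil,
  .nil,
  .nil,
  .nil,
  (.cons 2 0 0 0 0 (.cons 0 0 1 .nil) [] .nil),
  (.cons 1 0 0 0 0 (.cons 5 0 0 .nil) [] .nil),
  (.cons 2 0 0 0 0 (.cons 0 1 0 .nil) [] .nil),
  (.cons 1 0 0 0 0 (.cons 9 0 0 .nil) [0] .nil),
  (.cons 2 0 0 0 0 (.cons 0 2 1 .nil) [0] .nil),
  (.cons 1 0 0 0 0 (.cons 9 0 0 .nil) [0] .nil),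
  (.cons 2 1 0 0 0 (.cons 0 3 1 .nil) [] .nil),
  (.cons 1 0 0 0 0 (.cons 9 0 0 .nil) [0, 0] .nil),
  (.cons 2 0 0 0 0 (.cons 0 4 1 .nil) [5] .nil),
  (.cons 0 2 0 0 0 (.cons 9 0 0 .nil) [] (.cons 1 0 0 0 0 (.cons 10 0 0 .nil) [0, 0, 1] .nil)),
  (.cons 2 0 0 0 0 (.cons 0 5 0 .nil) [3, 0] .nil),
  (.cons 0 3 0 0 0 (.cons 9 0 0 .nil) [1] (.cons 0 1 0 0 0 (.cons 10 0 0 .nil) [3] .nil)),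
  (.cons 2 5 0 0 0 (.cons 0 6 0 .nil) [7, 3] (.cons 1 0 0 0 0 (.cons 5 0 0 .nil) [3, 2, 3] .nil)),
  (.cons 0 1 0 0 0 (.cons 10 0 0 .nil) [0] .nil),
  (.cons 2 6 0 0 0 (.cons 0 7 0 .nil) [] (.cons 1 0 0 0 0 (.cons 9 1 0 .nil) [4, 6, 1, 0] .nil)),
  .nil,
  (.cons 2 0 0 0 0 (.cons 0 8 1 .nil) [0] (.cons 1 0 0 0 0 (.cons 9 1 0 .nil) [4, 1, 2, 3, 5] .nil)),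
  (.cons 0 2 0 0 0 (.cons 10 0 0 .nil) [8] .nil),
  (.cons 0 7 0 0 0 (.cons 9 0 0 .nil) [8] (.cons 2 1 0 0 0 (.cons 0 9 1 .nil) [2, 10] (.cons 1 0 0 0 0 (.cons 9 1 0 .nil) [2, 1, 3, 1, 3, 0, 1, 0, 2, 1, 1] .nil))),
  (.cons 0 3 0 0 0 (.cons 10 0 0 .nil) [0] .nil),
  (.cons 0 5 0 0 0 (.cons 9 0 0 .nil) [8] (.cons 0 7 0 0 0 (.cons 9 1 0 .nil) [] (.cons 1 0 0 0 0 (.cons 10 0 0 .nil) [0, 1, 0, 1, 4, 0, 1, 1, 1, 0, 1, 0, 2, 1, 1] .nil))),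
  .nil,
  (.cons 0 6 0 0 0 (.cons 9 0 0 .nil) [9] (.cons 0 2 0 0 0 (.cons 10 0 0 .nil) [8] .nil)),
  (.cons 0 8 0 0 0 (.cons 5 0 0 .nil) [] .nil),
  (.cons 0 2 0 0 0 (.cons 10 0 0 .nil) [1] .nil),
  (.cons 0 4 0 0 0 (.cons 10 0 0 .nil) [] .nil),
  .nil,
  (.cons 0 4 0 0 0 (.cons 10 0 0 .nil) [] .nil),
  (.cons 0 5 0 0 0 (.cons 10 1 0 .nil) [17] .nil),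
  .nil,
  .nil,
  (.cons 0 8 0 0 0 (.cons 10 0 0 .nil) [] .nil),
  .nil,
  (.cons 0 7 0 0 0 (.cons 9 1 0 .nil) [2, 17] (.cons 2 10 0 0 0 (.cons 0 10 1 .nil) [7, 19, 0, 14, 9, 1, 11, 6, 2, 11] .nil)),
  (.cons 0 9 0 0 0 (.cons 5 1 0 .nil) [] (.cons 0 7 0 0 0 (.cons 10 0 0 .nil) [] (.cons 1 0 0 0 0 (.cons 5 0 0 .nil) [4, 3, 1, 17, 7, 0, 0, 9, 0, 1, 3, 1, 7, 7, 0, 4, 0, 0, 3, 3] .nil))),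
  (.cons 2 8 0 0 0 (.cons 0 11 0 .nil) [4, 0, 2, 10, 2, 7, 0, 15, 5, 1, 4, 2, 0, 1, 1, 3, 0, 1, 2, 3, 1, 7, 0, 3] .nil),
  (.cons 0 8 0 0 0 (.cons 10 0 0 .nil) [] (.cons 1 0 0 0 0 (.cons 5 0 0 .nil) [4, 0, 1, 0, 3, 19, 1, 5, 5, 1, 2, 1, 1, 1, 7, 4, 0, 2, 1, 7, 2, 2, 3, 4, 4, 0, 1, 0] .nil)),
  (.cons 2 9 0 0 0 (.cons 0 12 0 .nil) [4, 1, 1, 3, 2, 0, 5, 3, 3, 1, 0, 0, 0, 2, 7, 19, 1, 0, 2, 0, 1, 0, 5, 8, 4, 0] .nil),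
  (.cons 0 10 0 0 0 (.cons 5 0 0 .nil) [] (.cons 0 11 0 0 0 (.cons 9 0 0 .nil) [1, 13] .nil)),
  (.cons 2 6 0 0 0 (.cons 0 13 0 .nil) [35, 0, 0, 7, 0, 4, 1, 1, 0, 0, 5, 1, 0, 3, 1, 10, 1, 0, 2, 0, 3, 1, 1, 5, 2, 0, 5, 0, 6, 3, 1] (.cons 1 0 0 0 0 (.cons 5 0 0 .nil) [21, 1, 3, 0, 4, 2, 0, 1, 1, 1, 7, 2, 0, 1, 1, 4, 2, 9, 5, 0, 4, 0, 2, 1, 0, 2, 1, 1, 2, 0, 2, 1, 1, 0] .nil)),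
  (.cons 0 12 0 0 0 (.cons 9 2 0 .nil) [4, 20] .nil),
  (.cons 1 0 0 0 0 (.cons 5 16 0 .nil) [3, 1, 0, 1, 8, 1, 1, 3, 6, 3, 2, 15, 5, 5, 1, 0, 0, 3, 10, 2, 5, 0, 1, 0, 0, 2, 1, 3, 0, 3, 1, 3, 2, 3, 0, 1, 1, 2, 1, 0, 2, 1] .nil),
  (.cons 0 9 0 0 0 (.cons 9 2 0 .nil) [] (.cons 0 7 0 0 0 (.cons 9 0 0 .nil) [35] .nil)),
  (.cons 2 7 0 0 0 (.cons 0 14 0 .nil) [34, 0, 1, 5, 1, 4, 0, 3, 1, 6, 4, 0, 3, 2, 1, 2, 3, 4, 0, 2, 1, 2, 1, 2, 3, 3, 1, 0, 0, 3, 1, 1, 1, 0, 0, 1, 1, 0, 4, 14, 0, 0] (.cons 1 0 0 0 0 (.cons 5 0 0 .nil) [5, 0, 1, 4, 3, 1, 0, 0, 0, 7, 1, 0, 1, 1, 0, 2, 0, 1, 0, 1, 3, 4, 3, 4, 1, 3, 2, 0, 1, 4, 5, 0, 1, 1, 3, 0, 0, 2, 0,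 3, 1, 3, 2, 0, 5, 1, 1, 0, 1, 2, 4, 0, 0, 2, 1, 1, 0, 0, 0] .nil)),
  (.cons 0 10 0 0 0 (.cons 10 0 0 .nil) [] (.cons 2 15 0 0 0 (.cons 0 15 1 .nil) [64, 57] .nil)),
  (.cons 0 3 2 0 0 (.cons 9 2 0 .nil) [17, 16, 5, 25, 1, 0, 15, 11] (.cons 2 5 0 0 0 (.cons 0 16 1 (.cons 0 17 0 .nil)) [0, 2, 0, 3, 1, 1, 6, 3, 0, 0, 1, 7, 2, 3, 1, 2, 3, 1, 5, 0, 5, 1, 0, 0, 0, 0, 6, 2, 2, 3, 0, 6, 3, 1, 0, 6, 3, 1, 0, 1, 0, 0, 5, 1, 0, 0, 1, 1, 2, 0, 7, 3, 1, 1, 0, 6, 1, 3, 0] (.cons 2 8 0 0 0 (.cons 0 16 0 .nil) [2, 2, 7, 9, 3, 5, 6, 2, 3, 0, 2, 1, 3, 0, 3, 6, 1, 1, 1, 1, 1, 0, 0, 2, 5, 4, 0, 5, 1, 3, 3, 0, 3, 0, 3, 0, 3, 3, 1, 4, 3, 1, 0, 10, 2, 1,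 0, 1, 1, 1, 7, 1, 2] (.cons 1 0 0 0 0 (.cons 5 0 0 .nil) [20, 29, 0, 46, 0, 22, 19, 14, 7, 1, 1, 2, 20] (.cons 1 0 0 0 0 (.cons 9 0 0 .nil) [8, 0, 7, 2, 3, 4, 2, 6, 5, 1, 1, 5, 1, 2, 4, 5, 3, 1, 1, 0, 1, 1, 7, 2, 0, 0, 5, 3, 0, 0, 3, 1, 2, 0, 3, 2, 0, 1, 4, 1, 1, 0, 1, 1, 7, 0, 3, 3, 2, 0, 1, 6, 3, 3] .nil))))),
  (.cons 0 10 0 0 0 (.cons 10 0 0 .nil) [] (.cons 2 15 0 0 0 (.cons 0 18 0 .nil) [44, 4, 0, 1, 2, 3, 1, 0, 12, 17, 2, 19, 8, 0, 2, 7, 0, 14, 13, 1, 0, 2, 31] .nil)),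
  (.cons 0 14 0 0 0 (.cons 9 2 0 .nil) [0, 17, 16, 2] (.cons 1 0 0 0 0 (.cons 9 0 0 .nil) [5, 1, 1, 1, 4, 28, 7, 2, 0, 6, 2, 0, 1, 13, 5, 1, 6, 1, 0, 9, 18, 0, 3, 7, 0, 5, 7, 1, 0, 0, 7, 9, 1, 3, 5, 6, 1, 9] (.cons 1 0 0 0 0 (.cons 9 3 0 .nil) [2, 0, 0, 1, 3, 5, 5, 1, 4, 1, 3, 9, 2, 0, 2, 2, 2, 0, 1, 0, 1, 13, 3, 5, 13, 3, 0, 0, 1, 3, 10, 0, 1, 3, 0, 0, 5, 1, 0, 1, 3, 0, 1, 4, 0, 5, 1, 1, 1, 1, 0, 1, 1, 6, 0, 1, 1, 0, 3, 0, 2] .nil))),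
  (.cons 0 14 0 0 0 (.cons 10 1 0 .nil) [1, 3] (.cons 2 11 0 0 0 (.cons 0 19 0 .nil) [3, 9, 0, 1, 7, 18, 4, 1, 2, 5, 1, 1, 1, 1, 1, 2, 2, 4, 1, 0, 0, 1, 0, 0, 1, 1, 5, 0, 1, 2, 1, 0, 0, 0, 5, 7, 0, 0, 4, 1, 0, 1, 1, 2, 1, 1, 0, 7, 1, 5, 0, 1, 1, 5, 3, 0, 4, 2, 0, 1, 1, 1, 4, 0, 1, 1, 3, 3, 1, 0, 1] .nil)),
  (.cons 0 14 1 0 0 (.cons 9 2 0 .nil) [2, 2, 28, 1, 6, 36, 0, 17, 16, 0] (.cons 1 0 0 0 0 (.cons 9 4 0 .nil) [5, 2, 5, 1, 3, 4, 3, 4, 0, 8, 3, 1, 1, 1, 1, 2, 3, 8, 3, 1, 9, 5, 13, 3, 6, 0, 1, 2, 3, 0, 0, 0, 1, 1, 0, 1, 0, 0, 1, 3, 3, 0, 2, 1, 1, 1, 0, 3, 1, 2, 3, 3, 1, 0, 1, 1, 10, 10, 0, 0, 0, 2, 1, 0, 0, 1, 0] .nil)),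
  (.cons 2 10 0 0 0 (.cons 0 20 1 .nil) [5, 6, 1, 0, 10, 0, 2, 0, 0, 1, 2, 6, 0, 0, 3, 2, 1, 1, 5, 7, 0, 0, 1, 2, 5, 0, 0, 0, 0, 14, 15, 0, 7, 4, 3, 1, 0, 3, 0, 0, 3, 6, 0, 0, 2, 1, 0, 1, 0, 1, 0, 1, 1, 2, 0, 3, 2, 0, 0, 0, 2, 0, 1, 4, 0, 1, 3, 7, 7, 1, 4] .nil),
  (.cons 0 12 0 0 0 (.cons 9 0 0 .nil) [] (.cons 0 16 0 0 0 (.cons 9 5 0 .nil) [1] (.cons 2 4 0 0 0 (.cons 0 21 1 (.cons 0 22 0 .nil)) [17, 2, 4, 17, 13, 1, 1, 7, 1, 4, 7, 12, 1, 0, 12, 2, 0, 10, 2, 11, 0, 0, 0, 0, 6, 7, 1, 1, 3, 3, 2, 0, 0, 0, 2, 1, 1, 1, 0, 0, 0, 7, 0, 0, 0, 1, 1, 0, 3, 4, 5, 1, 1, 0, 1, 0, 1, 0, 4] (.cons 2 14 0 0 0 (.cons 0 21 0 .nil) [19, 40, 0, 1, 1, 1,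 3, 3, 1, 1, 6, 33, 4, 8, 2, 8, 4, 7, 0, 0, 0, 1, 1, 1, 3, 2, 2, 6, 0, 1, 0, 0, 1, 2, 1, 5, 0, 1, 5, 1, 1, 1, 2, 4, 0, 2, 0, 0, 1, 0, 5, 5] (.cons 1 0 0 0 0 (.cons 9 1 0 .nil) [20, 2, 0, 0, 1, 14, 1, 11, 1, 1, 0, 0, 1, 1, 9, 2, 1, 1, 2, 1, 2, 1, 1, 0, 1, 2, 0, 2, 3, 1, 1, 1, 1, 8, 1, 1, 0, 6, 1, 0, 2, 3, 0, 1, 19, 3, 1, 1, 0, 0, 2, 1, 1, 7, 2, 1, 3, 3, 0, 1, 1, 3, 5, 2, 0, 0, 0, 2, 3, 4, 1, 0] (.cons 1 0 0 0 0 (.cons 10 3 0 .nil) [4, 11, 3, 3, 0, 13, 0, 1, 0, 7, 9, 0, 1, 0, 2, 3, 2, 0, 3, 3, 0, 0, 3, 3, 1, 0, 3, 1, 3, 1, 1, 1, 4, 0, 1, 0, 0, 1, 3, 0, 3, 1, 1, 0, 0, 4, 1, 1, 3, 1, 1, 0, 1, 0, 0, 3, 5, 0, 1, 0, 1, 3, 3, 1, 0, 3, 1, 3, 1,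 1, 1, 2, 1, 9, 1, 2, 4, 1, 10, 0, 0, 1, 0, 3, 1] .nil)))))),
  (.cons 0 17 0 0 0 (.cons 5 5 0 .nil) [44, 1] (.cons 2 0 0 0 0 (.cons 0 24 1 .nil) [4, 49, 0, 4, 0, 0, 1, 7, 3, 0, 3, 1, 0, 14, 11, 7, 0, 3, 0, 6, 0, 5, 7, 1, 3, 7, 1, 1, 3, 3, 1, 0, 2, 1, 0, 0, 0, 1, 5, 3, 0, 0, 3, 7, 1, 0, 3, 1, 8, 0, 2, 1, 6, 5, 4, 5, 1, 5, 0, 3] (.cons 2 10 0 0 0 (.cons 0 23 1 .nil) [8, 5, 3, 0, 10, 18, 0, 3, 1, 7, 7, 0, 1, 1, 0, 3, 0, 0, 2, 0, 2, 1, 0, 1, 1, 7, 0, 3, 1, 2, 0, 12, 1, 1, 1, 6, 2, 1, 7, 3, 0, 0, 3, 1, 2, 5, 0, 1, 0, 1, 1, 2, 2, 6, 2, 0, 2, 0, 1, 1, 3, 0, 2, 5, 3, 3, 0, 0, 1, 7, 0, 0, 0, 1, 3, 0, 1, 0, 0] (.cons 1 0 0 0 0 (.cons 10 1 0 .nil)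 [7, 2, 1, 0, 0, 0, 0, 6, 3, 0, 2, 14, 0, 1, 3, 3, 3, 0, 5, 1, 1, 1, 2, 1, 1, 4, 3, 3, 2, 13, 0, 0, 3, 1, 10, 6, 7, 2, 1, 0, 0, 0, 3, 0, 1, 0, 0, 2, 1, 1, 1, 1, 1, 0, 1, 2, 0, 1, 1, 2, 1, 4, 0, 0, 0, 6, 0, 2, 1, 1, 6, 0, 10, 1, 4, 0, 6, 1, 0, 0, 1] .nil)))),
  (.cons 0 11 0 0 0 (.cons 9 0 0 .nil) [57] (.cons 2 9 0 0 0 (.cons 0 25 1 .nil) [61, 7, 1, 1, 1, 2, 8, 5, 19, 0, 1, 1, 0, 1, 4, 1, 2, 3, 9, 1, 0, 0, 0, 10, 5, 0, 3, 1, 6, 1, 5, 1, 1, 0, 3, 1, 1, 3, 0, 0, 3, 0, 0, 0, 1, 1, 2, 0, 2, 1, 2, 5, 2, 0, 0, 1, 0, 6, 1, 1, 4, 1, 1, 1, 13, 2] (.cons 1 0 0 0 0 (.cons 10 1 0 .nil) [3, 3, 7, 1, 0, 17, 1, 0, 0, 9, 0, 4, 1, 1, 0, 0, 1, 4, 1, 5,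 0, 1, 4, 0, 2, 0, 0, 1, 7, 2, 1, 0, 0, 1, 0, 7, 1, 0, 1, 4, 0, 9, 3, 3, 5, 2, 2, 0, 0, 3, 1, 3, 1, 1, 1, 7, 5, 6, 0, 2, 0, 1, 0, 0, 6, 1, 1, 0, 0, 2, 0, 5, 1, 0, 3, 1, 1, 1, 1, 1, 3, 1, 0, 1, 0, 3, 3, 1, 0, 2, 0, 3, 0] .nil))),
  (.cons 0 19 0 0 0 (.cons 5 1 0 .nil) [] (.cons 2 1 0 0 0 (.cons 0 27 1 .nil) [12, 48, 6, 5, 0, 0, 4, 0, 2, 1, 0, 4, 0, 6, 3, 0, 0, 1, 1, 2, 10, 1, 0, 5, 0, 4, 4, 1, 12, 13, 1, 0, 0, 0, 3, 0, 5, 0, 5, 2, 9, 4, 2, 3, 2, 1, 0, 1, 1, 1, 1, 0, 0, 0, 3, 1, 2, 0, 8, 1, 1, 2, 9, 0, 0, 4, 3, 1] (.cons 2 11 0 0 0 (.cons 0 26 1 .nil) [6, 0, 1, 2, 1, 1, 1, 4, 1, 11, 6, 15, 4, 1, 1, 3, 0, 2, 2, 0, 4, 1, 0, 4, 0, 5, 0, 1,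 2, 0, 0, 1, 10, 1, 2, 2, 1, 0, 4, 0, 5, 1, 4, 1, 1, 0, 6, 0, 0, 0, 1, 1, 1, 0, 3, 4, 1, 0, 0, 1, 1, 2, 5, 0, 1, 0, 7, 0, 2, 6, 0, 0, 1, 1, 1, 1, 2, 1, 1, 5, 0, 5, 4, 0, 0, 0, 4, 3, 0, 2, 7, 2, 1] (.cons 1 0 0 0 0 (.cons 10 3 0 .nil) [6, 1, 0, 7, 7, 34, 0, 1, 1, 2, 0, 0, 3, 2, 0, 2, 1, 0, 2, 1, 1, 0, 0, 2, 2, 0, 0, 6, 0, 0, 1, 8, 1, 0, 0, 0, 4, 7, 3, 17, 0, 2, 0, 0, 0, 1, 1, 2, 4, 0, 1, 0, 1, 6, 0, 4, 2, 3, 1, 0, 6, 0, 5, 1, 1, 1, 3, 1, 1, 0, 1, 1, 1, 1, 1, 1, 2, 1, 0, 9, 2, 1, 0, 6, 3, 1] (.cons 1 0 0 0 0 (.cons 11 1 0 .nil) [14, 7, 13, 2, 3, 6, 17, 0, 0, 0, 0, 2, 7, 0, 5, 1, 4, 3, 0, 3, 2, 1, 0, 0, 1, 1, 2, 4, 7, 15, 1, 7, 8, 0, 0,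 0, 0, 1, 1, 1, 3, 5, 0, 0, 1, 1, 6, 1, 0, 1, 2, 3, 7, 0, 0, 2, 2, 0, 0, 1, 1, 4, 1, 0, 0, 2, 3, 1, 5, 1, 2, 4, 1, 2, 0, 2, 1, 1, 2, 4, 0, 0, 0, 1] .nil))))),
  (.cons 0 16 0 0 0 (.cons 10 1 0 .nil) [2, 4, 52] .nil),
  (.cons 0 12 0 0 0 (.cons 9 2 0 .nil) [19, 3, 36, 2] (.cons 2 2 0 0 0 (.cons 0 28 1 .nil) [10, 59, 7, 0, 0, 3, 2, 0, 0, 3, 2, 0, 1, 2, 0, 0, 0, 2, 15, 2, 13, 4, 0, 19, 14, 0, 1, 0, 1, 3, 2, 1, 11, 5, 5, 1, 1, 5, 0, 1, 3, 3, 0, 4, 0, 0, 5, 0, 0, 1, 0, 2, 5, 1, 3, 1, 4, 0, 1, 1, 19, 10, 18, 7] (.cons 2 6 0 0 0 (.cons 0 29 1 .nil) [11, 3, 2, 26, 7, 15, 0, 1, 4, 1, 1, 0, 0, 0, 7, 4, 2, 1, 2, 1, 1, 4, 8, 0, 3, 2, 3, 1, 10, 1,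 1, 5, 4, 2, 0, 0, 3, 12, 0, 1, 5, 1, 8, 3, 1, 1, 5, 1, 1, 0, 0, 0, 1, 1, 0, 0, 2, 6, 4, 3, 1, 0, 13, 3, 3, 10, 0, 16, 0, 2, 2, 0, 7, 3, 0, 3, 3, 7] (.cons 1 0 0 0 0 (.cons 5 0 0 .nil) [23, 31, 0, 3, 31, 1, 0, 3, 1, 4, 1, 1, 0, 0, 1, 6, 3, 0, 4, 0, 0, 0, 4, 34, 3, 2, 1, 4, 0, 1, 2, 0, 1, 5, 0, 3, 1, 3, 3, 0, 0, 1, 4, 1, 0, 3, 4, 0, 4, 1, 0, 1, 5, 0, 1, 1, 6, 0, 1, 2, 1, 4, 0, 5, 3, 3, 2, 0, 0, 0, 0, 5, 2, 5, 4, 3, 0, 3, 0, 1, 1, 0, 3] (.cons 1 0 0 0 0 (.cons 11 0 0 .nil) [9, 0, 2, 11, 8, 0, 0, 6, 1, 2, 0, 3, 2, 11, 1, 1, 0, 4, 1, 6, 0, 0, 1, 0, 1, 4, 0, 0, 1, 5, 4, 0, 2, 0, 1, 0, 1, 0, 0, 0, 2, 0, 3, 1, 3, 1, 3, 0, 7, 2, 0, 1, 9, 1, 3,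 1, 0, 0, 3, 0, 3, 0, 3, 1, 1, 1, 1, 1, 0, 4, 1, 2, 3, 3, 2, 4, 4, 1, 1, 0, 0, 2, 3, 1, 4, 3, 0, 0, 2, 0, 0, 1, 1, 2, 0, 5, 0, 1, 12, 0, 1, 1, 0, 0, 1, 1, 0, 0, 0, 3, 1, 0] .nil))))),
  (.cons 0 15 0 0 0 (.cons 10 0 0 .nil) [11] (.cons 0 16 0 0 0 (.cons 10 2 0 .nil) [1, 10, 56] (.cons 2 13 0 0 0 (.cons 0 30 1 .nil) [25, 2, 2, 17, 11, 10, 1, 5, 1, 3, 0, 0, 0, 2, 0, 0, 1, 5, 7, 11, 1, 0, 10, 13, 6, 16, 14, 10, 3, 1, 1, 1, 9, 0, 2, 1, 3, 1, 1, 1, 0, 3, 1, 3, 2, 1, 1, 5, 0, 0, 1, 1, 0, 9, 5, 0, 1, 0, 1, 1, 3, 1, 0, 0, 6, 8, 0, 0, 0, 5, 8, 0, 1, 5, 3, 1, 6, 0, 2] (.cons 1 0 0 0 0 (.cons 10 1 0 .nil) [7, 28, 28, 8, 3, 3, 1, 1, 0, 2, 3, 1, 0,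 3, 0, 1, 1, 9, 1, 3, 0, 0, 1, 0, 0, 1, 0, 1, 3, 1, 1, 8, 2, 2, 0, 4, 0, 0, 7, 9, 6, 0, 3, 0, 2, 4, 0, 1, 0, 1, 0, 10, 3, 0, 3, 2, 0, 1, 0, 1, 1, 1, 1, 1, 1, 4, 0, 1, 0, 0, 0, 0, 0, 0, 0, 0, 1, 3, 1, 7, 0, 3, 1, 3, 3, 2, 2, 1, 1, 2, 0, 6, 2, 0, 2, 0, 5, 2, 0, 3, 7] .nil)))),
  (.cons 0 26 0 0 0 (.cons 9 1 0 .nil) [0, 52, 3, 0, 5, 1] (.cons 0 2 2 0 0 (.cons 9 3 0 .nil) [1, 1, 52, 4, 5, 1, 27, 25, 5, 20, 2, 20, 5, 1] (.cons 2 3 0 0 0 (.cons 0 31 1 .nil) [76, 4, 0, 0, 0, 1, 1, 1, 11, 0, 2, 4, 1, 3, 16, 7, 15, 29, 4, 4, 16, 0, 4, 1, 0, 2, 0, 3, 1, 1, 1, 1, 1, 1, 0, 3, 0, 1, 4, 1, 0, 0, 3, 4, 2, 3, 2, 7, 1, 0, 6, 0, 1, 0, 2, 0, 0, 2, 0, 0,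 0, 2, 6, 4, 2, 7, 0, 4, 1, 3, 3, 1, 10] (.cons 2 7 0 0 0 (.cons 0 32 1 .nil) [2, 6, 1, 2, 3, 0, 0, 1, 0, 9, 2, 2, 3, 1, 1, 1, 27, 0, 0, 1, 1, 1, 0, 1, 6, 0, 0, 1, 2, 3, 1, 1, 1, 2, 1, 7, 3, 0, 1, 3, 1, 11, 1, 1, 0, 0, 0, 2, 1, 1, 4, 3, 0, 0, 1, 0, 1, 3, 4, 2, 0, 1, 1, 0, 1, 2, 2, 1, 0, 1, 1, 0, 2, 4, 1, 6, 1, 1, 5, 0, 0, 3, 0, 2, 1, 1, 4, 5, 1, 7, 0, 1, 6, 0, 0, 1, 6, 1, 1, 5, 1, 1, 4, 0, 2, 3, 1, 3, 0, 1, 0, 3, 1, 2, 1, 0, 1, 7, 4, 0, 6, 1] (.cons 1 0 0 0 0 (.cons 9 0 0 .nil) [13, 0, 0, 3, 1, 9, 9, 12, 0, 17, 3, 2, 1, 1, 0, 3, 0, 1, 5, 1, 1, 0, 0, 0, 1, 3, 1, 1, 2, 0, 1, 3, 1, 1, 0, 1, 1, 0, 1, 1, 0, 1, 10, 0, 0, 2, 0, 0, 1, 14, 0,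 1, 0, 0, 0, 1, 0, 5, 2, 3, 2, 0, 0, 1, 0, 1, 2, 1, 3, 0, 2, 1, 1, 1, 2, 0, 2, 2, 1, 0, 1, 1, 2, 0, 1, 0, 0, 6, 1, 1, 9, 3, 1, 3, 0, 1, 1, 0, 1, 0, 5, 0, 5, 0, 3, 1, 1, 0, 2, 6, 1, 3, 2, 1, 1, 2, 4, 1, 0, 4, 0, 1, 2, 1, 1, 0, 0, 1] (.cons 1 0 0 0 0 (.cons 11 1 0 .nil) [5, 5, 3, 1, 1, 0, 3, 0, 0, 7, 2, 3, 0, 0, 1, 1, 5, 1, 2, 15, 2, 1, 1, 1, 3, 0, 3, 0, 5, 0, 3, 1, 0, 0, 3, 4, 4, 2, 1, 1, 0, 0, 1, 1, 2, 1, 1, 2, 5, 1, 1, 1, 2, 0, 10, 3, 2, 0, 0, 2, 1, 0, 5, 2, 1, 1, 8, 0, 5, 2, 1, 0, 1, 1, 1, 0, 1, 1, 4, 1, 1, 1, 1, 1, 4, 5, 1, 1, 3, 1, 0, 3, 3, 6, 0, 0, 3, 0, 0, 6, 2, 2, 0, 7, 3, 5, 1, 2, 3, 0, 1, 2, 1, 0, 1, 0, 2, 0, 0, 0, 1, 1, 7, 2,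 0, 3, 0] .nil)))))),
  (.cons 0 16 0 0 0 (.cons 10 0 0 .nil) [] (.cons 0 10 0 0 0 (.cons 10 1 0 .nil) [6, 70] .nil)),
  (.cons 0 26 0 0 0 (.cons 9 2 0 .nil) [72] (.cons 0 21 0 0 0 (.cons 10 1 0 .nil) [10] (.cons 0 17 0 0 0 (.cons 9 1 0 .nil) [76] (.cons 2 4 0 0 0 (.cons 0 33 1 .nil) [9, 13, 1, 4, 1, 7, 0, 38, 2, 2, 0, 2, 0, 0, 1, 5, 1, 2, 0, 1, 0, 0, 1, 8, 2, 14, 1, 1, 3, 5, 0, 1, 15, 0, 0, 2, 0, 1, 1, 8, 1, 2, 1, 2, 1, 0, 15, 3, 1, 1, 0, 1, 0, 0, 1, 0, 0, 0, 0, 2, 1, 0, 1, 2, 0, 1, 0, 0, 3, 3, 1, 1, 1, 2, 1, 0, 2, 0, 0, 0, 0, 0, 3, 0, 2, 1, 0, 2, 4, 1, 1, 3, 0, 1, 3, 2, 1, 0, 1, 0, 1, 2, 0, 3, 10, 1, 2, 1, 3, 2, 1, 3, 1, 0, 0, 1, 0,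 3, 1, 1, 1, 0, 0, 1, 1, 0, 0, 5, 3] (.cons 1 0 0 0 0 (.cons 11 2 0 .nil) [5, 7, 6, 1, 0, 0, 1, 5, 0, 0, 9, 17, 0, 6, 7, 0, 0, 0, 0, 1, 1, 5, 0, 1, 5, 0, 0, 0, 1, 1, 1, 1, 1, 0, 0, 0, 1, 3, 1, 2, 4, 1, 2, 4, 1, 0, 1, 1, 0, 2, 4, 2, 0, 3, 3, 1, 0, 2, 0, 0, 3, 0, 3, 1, 0, 2, 0, 1, 0, 6, 3, 3, 0, 1, 0, 0, 1, 2, 0, 5, 5, 2, 0, 1, 0, 0, 2, 1, 1, 3, 2, 1, 3, 0, 4, 1, 3, 2, 0, 0, 0, 3, 2, 0, 0, 2, 1, 4, 0, 3, 5, 0, 1, 4, 1, 1, 1, 4, 1, 3, 1, 2, 9, 0, 3, 5, 3, 1, 4, 0, 5, 0, 1, 1, 0, 0, 0, 4, 0, 0, 0, 0] (.cons 1 0 0 0 0 (.cons 11 0 0 .nil) [3, 1, 16, 1, 1, 6, 1, 1, 1, 1, 1, 9, 3, 4, 1, 0, 1, 1, 7, 1, 1, 5, 2, 2, 1, 1, 1, 0, 0, 0, 1, 3, 4, 0,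 0, 1, 0, 1, 1, 1, 2, 1, 0, 1, 2, 1, 0, 1, 0, 2, 1, 0, 1, 2, 0, 2, 4, 2, 0, 1, 3, 0, 5, 0, 1, 6, 1, 2, 3, 4, 1, 4, 2, 1, 2, 0, 2, 4, 1, 2, 1, 0, 4, 1, 2, 0, 0, 1, 1, 7, 0, 0, 1, 2, 3, 0, 2, 1, 1, 3, 3, 0, 3, 0, 1, 0, 0, 1, 0, 1, 1, 0, 0, 3, 0, 1, 0, 3, 1, 6, 3, 5, 1, 0, 2, 1, 1, 0, 1, 3, 0, 3, 0, 5, 1, 3, 1, 0, 0, 1, 4, 1, 1, 1, 1, 1, 0, 0, 1, 3, 0, 0, 3] .nil)))))),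
  (.cons 0 15 0 0 0 (.cons 10 0 0 .nil) [] (.cons 0 8 0 0 0 (.cons 10 3 0 .nil) [6] .nil)),
  (.cons 0 19 0 0 0 (.cons 9 1 0 .nil) [] (.cons 0 11 0 0 0 (.cons 11 0 0 .nil) [86] (.cons 1 0 0 0 0 (.cons 11 1 0 .nil) [1, 1, 5, 0, 0, 0, 0, 1, 4, 0, 1, 0, 1, 3, 4, 9, 0, 5, 1, 5, 4, 3, 2, 0, 1, 1, 0, 1, 4, 1, 9, 1, 1, 0, 2, 1, 2, 3, 0, 0, 0, 2, 1, 1, 0, 1, 8, 1, 1, 0, 2, 0, 1, 3, 1, 1, 0, 1, 5, 2, 0, 3, 0, 0, 1, 0, 4, 0, 2, 0, 3, 0, 6, 0, 0, 3, 0, 2, 1, 0, 1, 1, 3, 1, 1, 5, 0, 3, 0, 0, 5, 0, 1, 2, 1, 0, 0, 0, 0, 5, 0, 0, 5, 1, 2, 1, 0, 3, 1, 1, 1, 1, 0, 2, 1, 0, 1, 4, 3, 1, 0, 4, 0, 3, 2, 1, 1, 0, 3, 1, 1, 4, 0, 1, 0, 9, 1, 0, 1, 4, 0, 2,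 0, 0, 3, 3, 2, 0, 1, 0, 0, 1, 4, 2, 0, 0, 1, 3, 1, 0, 0, 1, 0, 2, 0, 2, 8, 3, 1, 0] .nil))),
  (.cons 0 28 0 0 0 (.cons 5 0 0 .nil) [8, 73] (.cons 0 15 0 0 0 (.cons 10 0 0 .nil) [] (.cons 2 5 0 0 0 (.cons 0 34 1 .nil) [0, 6, 1, 1, 6, 6, 0, 1, 0, 2, 1, 1, 0, 1, 15, 3, 1, 0, 1, 10, 2, 5, 2, 1, 3, 1, 8, 1, 2, 0, 0, 0, 1, 4, 5, 0, 7, 1, 3, 2, 5, 2, 0, 3, 0, 0, 0, 0, 0, 0, 1, 11, 0, 5, 3, 2, 2, 5, 0, 0, 0, 0, 1, 3, 1, 1, 1, 1, 1, 1, 0, 0, 0, 5, 1, 1, 4, 1, 0, 0, 0, 3, 0, 1, 1, 1, 1, 2, 2, 2, 3, 1, 0, 0, 0, 0, 1, 1, 0, 9, 5, 4, 0, 0, 2, 2, 1, 3, 0, 1, 1, 8, 1, 3, 1, 0, 0, 0, 2, 1, 1, 3, 0, 0, 0, 1, 0, 3, 0, 1, 1, 1, 1, 0, 1, 0, 2, 4, 2, 1,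 0, 0, 1, 3, 1, 0, 0, 2, 3, 0, 0, 0, 2, 0, 5, 3, 5, 3, 3, 1, 0, 2, 0, 10] (.cons 2 11 0 0 0 (.cons 0 35 0 .nil) [3, 2, 3, 1, 0, 13, 0, 2, 1, 3, 0, 20, 2, 0, 0, 0, 11, 9, 2, 1, 4, 1, 0, 0, 3, 4, 2, 1, 12, 5, 3, 12, 1, 2, 3, 1, 0, 1, 2, 0, 1, 13, 1, 4, 7, 0, 8, 3, 1, 2, 4, 1, 1, 0, 0, 2, 6, 0, 1, 0, 1, 5, 2, 1, 4, 3, 3, 1, 5, 2, 1, 1, 0, 0, 1, 2, 1, 1, 2, 3, 5, 2, 1, 3, 3, 5, 0, 1, 0, 1, 0, 1, 1, 1, 5, 1, 0, 1, 2, 0, 0, 0, 1, 0, 1, 0, 1, 0, 1, 0, 3, 0, 1, 1, 0, 1, 5, 0, 0, 0, 0, 3, 1, 1, 0, 1, 2, 1, 1, 3, 3, 0, 0, 0, 0, 3, 2, 1, 1, 6, 2, 1, 1, 1, 2, 0, 1, 2, 1, 1, 5, 0, 0, 1, 0, 3] (.cons 1 0 0 0 0 (.cons 10 3 0 .nil) [12, 0, 10, 1, 20,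 45, 5, 3, 8, 4, 2, 1, 0, 0, 2, 1, 1, 1, 0, 1, 1, 3, 3, 4, 3, 2, 9, 7, 1, 0, 0, 0, 11, 1, 0, 3, 0, 1, 0, 10, 4, 5, 2, 3, 1, 2, 0, 15, 1, 1, 2, 0, 0, 1, 1, 1, 2, 1, 3, 1, 0, 0, 1, 1, 1, 0, 0, 1, 1, 3, 0, 2, 3, 1, 0, 0, 0, 0, 1, 1, 1, 1, 4, 0, 1, 2, 0, 1, 3, 1, 2, 0, 0, 2, 2, 0, 0, 4, 1, 1, 1, 0, 0, 3, 1, 0, 3, 0, 2, 3, 2, 0, 1, 3, 2, 1, 1, 3, 3, 0, 1, 0, 1, 0, 2, 0, 0, 2, 2, 1, 0, 6, 1, 1, 1, 0, 0, 0, 3, 0, 1, 2, 5] .nil))))),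
  (.cons 0 10 0 0 0 (.cons 10 1 0 .nil) [2, 76] (.cons 0 17 0 0 0 (.cons 10 5 0 .nil) [2, 81] (.cons 0 12 0 0 0 (.cons 11 0 0 .nil) [2, 33] (.cons 1 0 0 0 0 (.cons 11 1 0 .nil) [0, 1, 7, 0, 1, 1, 0, 0, 3, 1, 1, 1, 0, 15, 5, 0, 0, 0, 2, 0, 0, 1, 3, 0, 1, 1, 0, 2, 1, 0, 1, 0, 0, 1, 7, 1, 0, 1, 0, 4, 2, 3, 1, 1, 2, 0, 1, 0, 3, 0, 1, 3, 3, 2, 3, 4, 3, 0, 1, 3, 2, 1, 7, 0, 1, 5, 1, 2, 3, 5, 3, 1, 3, 5, 5, 0, 1, 1, 1, 0, 0, 1, 2, 0, 3, 1, 3, 5, 1, 2, 0, 1, 1, 0, 1, 7, 1, 0, 3, 0, 2, 5, 2, 0, 1, 1, 1, 1, 1, 0, 1, 1, 0, 1, 0, 3, 0, 0, 1, 3, 2, 5, 0, 3, 2, 0, 4, 0, 1, 6, 0, 1, 2, 0, 0, 3, 1, 0, 2, 2, 0, 0, 1, 0, 4, 1, 2, 1, 0, 0, 3, 1, 1, 5,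 0, 2, 0, 0, 0, 1, 1, 2, 3, 2, 0, 1, 0, 5, 1, 0, 3, 1, 1, 0, 0, 1, 0, 1, 2, 0, 0, 0, 4, 0, 0, 0, 0, 0, 0, 0, 3, 1, 0, 1] .nil)))),
  (.cons 0 20 0 0 0 (.cons 5 1 0 .nil) [] (.cons 0 16 0 0 0 (.cons 10 0 0 .nil) [] (.cons 0 18 0 0 0 (.cons 9 0 0 .nil) [31, 62] (.cons 2 6 0 0 0 (.cons 0 36 1 .nil) [2, 5, 9, 1, 0, 3, 3, 19, 1, 11, 1, 0, 7, 1, 1, 16, 5, 2, 7, 0, 4, 0, 4, 0, 1, 1, 3, 0, 0, 1, 0, 1, 3, 4, 3, 8, 3, 5, 0, 0, 1, 3, 1, 0, 2, 0, 15, 0, 0, 0, 0, 5, 0, 3, 1, 7, 0, 2, 0, 0, 1, 3, 1, 0, 2, 4, 0, 2, 1, 5, 3, 0, 0, 0, 3, 1, 0, 0, 1, 3, 3, 2, 4, 1, 2, 0, 5, 0, 3, 0, 1, 0, 1, 2, 1, 5, 2, 1, 2, 0, 2, 1, 0, 1, 0, 0, 5, 3, 1, 0, 1, 0, 1, 1,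 11, 1, 3, 2, 0, 0, 1, 6, 0, 0, 0, 5, 0, 2, 1, 1, 0, 1, 0, 7, 3, 1, 0, 10, 0, 1, 0, 0, 3, 0, 0, 0, 0, 0, 0, 1, 2, 7, 0, 1, 0, 0, 1, 2, 0, 1, 2, 1, 3, 0, 1, 0, 0, 0, 3, 0, 0, 1, 1, 1] .nil)))),
  (.cons 0 18 0 0 0 (.cons 10 0 0 .nil) [] (.cons 0 17 0 0 0 (.cons 10 1 0 .nil) [95] (.cons 0 33 0 0 0 (.cons 11 0 0 .nil) [1, 0, 2, 11, 72, 2, 0] (.cons 1 0 0 0 0 (.cons 11 1 0 .nil) [1, 1, 1, 12, 6, 1, 0, 0, 0, 1, 1, 0, 4, 0, 0, 24, 1, 7, 1, 8, 0, 0, 4, 3, 0, 2, 1, 1, 1, 1, 4, 3, 1, 0, 1, 2, 3, 0, 1, 1, 2, 1, 3, 1, 3, 0, 2, 6, 4, 1, 1, 1, 0, 6, 0, 1, 3, 6, 1, 11, 0, 1, 3, 1, 2, 0, 1, 1, 4, 0, 2, 6, 1, 0, 0, 1, 2, 0, 1, 11, 0, 1, 1, 3, 1, 1, 1,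 0, 1, 2, 1, 3, 5, 9, 1, 1, 1, 1, 1, 0, 0, 4, 1, 0, 0, 0, 1, 0, 0, 1, 5, 1, 0, 1, 0, 0, 3, 1, 1, 4, 1, 0, 0, 5, 0, 12, 0, 1, 1, 0, 3, 3, 0, 0, 1, 0, 3, 0, 1, 1, 1, 1, 6, 4, 1, 0, 4, 1, 0, 2, 7, 1, 1, 0, 3, 0, 3, 5, 3, 2, 0, 1, 0, 0, 6, 3, 1, 1, 1, 0, 2, 2, 3, 2, 0, 1, 1, 0, 2, 1, 1, 3, 0, 0, 2, 0, 0, 1, 0] .nil)))),
  (.cons 0 10 0 0 0 (.cons 10 0 0 .nil) [] (.cons 2 7 0 0 0 (.cons 0 38 1 .nil) [103, 1, 0, 5, 4, 7, 4, 13, 2, 5, 0, 2, 1, 1, 1, 2, 1, 2, 2, 0, 12, 2, 0, 8, 8, 1, 1, 2, 4, 2, 1, 4, 6, 1, 0, 6, 9, 1, 4, 2, 0, 0, 3, 1, 1, 0, 22, 1, 0, 0, 3, 4, 0, 0, 9, 0, 1, 1, 0, 2, 1, 0, 1, 6, 3, 4, 0, 1, 0, 1, 5, 1, 0, 0, 1, 6, 3, 3, 2, 3,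 1, 2, 3, 0, 3, 1, 1, 1, 1, 1, 5, 0, 1, 0, 3, 4, 0, 0, 0, 0, 6, 1, 2, 0, 2, 2, 1, 2, 1, 0, 3, 1, 8, 0, 4, 0, 12, 0, 2, 0, 1, 3, 0, 0, 5, 2, 1, 0, 0, 0, 6, 1, 5, 1, 1, 0, 1, 7, 0, 0, 8, 5] (.cons 2 21 0 0 0 (.cons 0 37 1 .nil) [106, 1, 6, 0, 0, 0, 1, 7, 0, 10, 1, 1, 0, 1, 1, 3, 0, 0, 1, 2, 3, 1, 2, 7, 16, 2, 16, 2, 1, 3, 0, 3, 0, 3, 1, 6, 0, 1, 7, 8, 1, 1, 4, 1, 0, 0, 0, 4, 1, 23, 0, 2, 3, 7, 5, 1, 2, 1, 1, 0, 4, 0, 3, 0, 3, 0, 3, 3, 1, 1, 10, 0, 0, 1, 13, 2, 3, 3, 3, 3, 1, 0, 1, 0, 3, 1, 0, 2, 1, 3, 1, 3, 0, 4, 3, 1, 1, 3, 4, 0, 1, 1, 1, 1, 1, 0, 2, 1, 5, 14, 7, 8, 2, 4, 1, 6, 0, 8, 10, 0, 1, 3, 4, 5, 2, 1, 2, 2] (.cons 1 0 0 0 0 (.cons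 5 0 0 .nil) [29, 10, 8, 2, 0, 2, 1, 5, 4, 0, 3, 1, 34, 0, 1, 0, 1, 2, 0, 3, 1, 8, 0, 2, 3, 0, 4, 2, 2, 0, 0, 3, 1, 2, 1, 1, 0, 1, 2, 3, 1, 0, 1, 1, 7, 0, 0, 6, 3, 2, 4, 0, 0, 4, 28, 3, 0, 1, 0, 0, 5, 3, 1, 0, 1, 2, 2, 1, 8, 1, 0, 0, 0, 0, 1, 4, 1, 0, 0, 0, 2, 0, 0, 1, 1, 3, 2, 3, 1, 1, 5, 2, 0, 0, 1, 1, 0, 1, 1, 1, 4, 0, 0, 1, 5, 1, 13, 0, 3, 0, 0, 1, 1, 0, 2, 1, 0, 0, 0, 0, 0, 0, 1, 1, 0, 1, 0, 2, 0, 2, 6, 1, 1, 0, 1, 7, 0, 6, 0, 7, 0, 0, 4, 1, 2, 0, 1, 5, 0, 1, 0, 2, 16, 4, 6, 1, 2, 0, 2, 0, 0, 1, 1, 3, 1, 0, 0, 1, 0, 1, 0, 1, 1, 0, 0, 3, 0, 1, 0] .nil)))),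
  (.cons 0 17 0 0 0 (.cons 10 1 0 .nil) [4] (.cons 0 20 0 0 0 (.cons 11 0 0 .nil) [0, 6, 96] .nil)),
  (.cons 0 19 0 0 0 (.cons 9 7 0 .nil) [101] (.cons 0 12 0 0 0 (.cons 9 10 0 .nil) [] (.cons 0 10 2 0 0 (.cons 10 5 0 .nil) [13, 99, 31, 136, 3, 2] (.cons 2 8 0 0 0 (.cons 0 39 1 (.cons 0 40 1 .nil)) [0, 25, 7, 0, 0, 0, 6, 2, 36, 3, 4, 14, 13, 1, 1, 3, 3, 3, 4, 1, 3, 0, 0, 0, 3, 2, 1, 3, 0, 7, 1, 14, 0, 0, 1, 0, 0, 2, 2, 4, 1, 1, 0, 0, 1, 2, 4, 11, 0, 0, 5, 4, 3, 5, 2, 2, 7, 0, 3, 0, 0, 1, 0, 5, 2, 5, 4, 2, 0, 0, 7, 1, 1, 0, 0, 1, 1, 1, 1, 1, 3, 10, 0, 3, 0, 0, 0, 0, 3, 1, 0, 0, 1, 1, 1, 1, 1, 1, 0, 2, 0, 0, 11, 3, 3, 0, 0, 3, 1, 5, 0,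 1, 7, 5, 3, 1, 0, 1, 2, 3, 1, 3, 0, 0, 0, 0, 3, 0, 3, 0, 2, 3, 2, 0, 0, 7, 0, 8, 0, 0, 0, 2, 0, 0, 1, 2, 4, 3, 1, 1, 3, 1, 1, 0, 10, 1, 2, 3, 0, 3, 6, 0, 8, 1, 1, 11, 0, 3, 0, 1, 1, 2, 0, 3, 1, 2, 0, 0, 4, 3, 1, 2, 1] (.cons 2 11 0 0 0 (.cons 0 40 0 .nil) [2, 28, 3, 5, 6, 5, 35, 5, 0, 1, 12, 8, 0, 1, 0, 2, 1, 3, 2, 0, 4, 1, 1, 2, 3, 2, 0, 5, 0, 7, 3, 16, 4, 0, 1, 1, 2, 0, 9, 0, 11, 11, 0, 2, 0, 0, 1, 6, 0, 2, 1, 1, 3, 1, 0, 1, 0, 1, 1, 0, 4, 5, 1, 0, 6, 8, 3, 7, 0, 0, 0, 0, 1, 3, 1, 2, 0, 3, 5, 1, 8, 1, 3, 7, 0, 1, 1, 3, 0, 1, 1, 0, 1, 1, 1, 0, 1, 0, 1, 1, 2, 0, 5, 9, 1, 2, 0, 2, 0, 2, 1, 0, 5, 5, 0, 0, 0, 3, 0, 3, 0, 0, 0, 0, 0, 1,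 1, 2, 0, 5, 2, 1, 2, 0, 1, 1, 2, 1, 1, 1, 2, 1, 3, 0, 1, 2, 4, 2, 7, 1, 1, 3, 8, 1, 2, 4, 2, 0, 5, 0, 5, 1, 0, 1, 2, 2, 0, 0, 3, 11, 7, 1, 0, 2, 1, 5, 5, 4] (.cons 1 0 0 0 0 (.cons 10 2 0 .nil) [5, 47, 1, 5, 1, 11, 22, 2, 0, 13, 8, 0, 0, 3, 3, 0, 1, 2, 8, 3, 0, 1, 0, 0, 1, 1, 1, 1, 0, 3, 4, 3, 1, 14, 0, 0, 0, 0, 1, 0, 5, 2, 1, 1, 6, 18, 3, 1, 4, 9, 2, 2, 6, 2, 3, 1, 0, 0, 6, 4, 25, 1, 1, 2, 0, 0, 2, 11, 1, 0, 1, 1, 2, 5, 0, 1, 2, 1, 1, 0, 2, 5, 3, 0, 1, 0, 3, 0, 1, 3, 0, 5, 0, 2, 9, 0, 1, 10, 3, 3, 0, 1, 1, 5, 1, 1, 4, 4, 5, 2, 1, 1, 2, 0, 0, 2, 2, 1, 3, 1, 2, 0, 2, 3, 1, 1, 0, 1, 3, 0, 0, 9, 0, 0, 4, 7, 2, 2, 1, 2, 2, 5, 0, 1, 0, 3,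 5, 0, 2, 0, 0, 1, 1, 0, 1, 1, 2, 1, 2, 2, 0, 0, 3, 1] (.cons 1 0 0 0 0 (.cons 5 0 0 .nil) [20, 7, 9, 0, 0, 1, 5, 7, 14, 1, 2, 0, 3, 0, 1, 2, 0, 2, 0, 1, 1, 10, 0, 2, 1, 0, 1, 3, 0, 3, 3, 1, 0, 1, 1, 8, 5, 1, 0, 4, 10, 0, 0, 0, 3, 3, 0, 5, 1, 1, 3, 0, 1, 5, 1, 0, 0, 1, 1, 1, 0, 0, 1, 3, 7, 2, 1, 0, 1, 0, 1, 1, 0, 1, 7, 2, 3, 3, 0, 1, 1, 0, 0, 1, 0, 1, 3, 4, 9, 1, 1, 2, 0, 0, 1, 0, 0, 2, 2, 3, 1, 1, 1, 0, 1, 2, 0, 0, 1, 1, 3, 2, 1, 9, 0, 1, 1, 3, 6, 4, 1, 1, 1, 3, 0, 5, 0, 1, 0, 4, 1, 1, 2, 1, 0, 0, 2, 1, 2, 5, 0, 2, 0, 0, 0, 0, 1, 1, 0, 1, 2, 1, 6, 0, 5, 0, 0, 3, 1, 3, 0, 1, 2, 5, 0, 1, 1, 3, 3, 1, 0, 0, 0, 1, 5, 4, 0, 1, 3, 1, 1, 1,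 2, 2, 7, 6, 0, 1, 1, 3, 1, 1, 12, 1, 1, 2, 1, 3, 0, 1, 5, 0, 0, 1, 4, 2, 0, 1, 3, 2, 0, 3, 1, 1, 3, 3] .nil))))))),
  (.cons 0 19 0 0 0 (.cons 10 1 0 .nil) [] (.cons 0 13 0 0 0 (.cons 11 0 0 .nil) [8, 105, 1] (.cons 0 15 0 0 0 (.cons 11 1 0 .nil) [0, 3, 4, 98, 5, 0] .nil))),
  (.cons 0 28 0 0 0 (.cons 9 1 0 .nil) [4, 107] (.cons 0 24 0 0 0 (.cons 10 2 0 .nil) [104] (.cons 2 16 0 0 0 (.cons 0 41 0 .nil) [0, 11, 3, 1, 2, 8, 0, 22, 35, 2, 0, 21, 7, 2, 1, 1, 3, 4, 6, 1, 3, 3, 0, 0, 1, 8, 0, 1, 0, 1, 1, 0, 5, 1, 4, 2, 2, 15, 3, 3, 2, 0, 1, 1, 0, 3, 2, 0, 2, 1, 5, 3, 5, 10, 1, 0, 1, 1, 6, 4, 2, 0, 1, 1, 1, 0, 1, 1, 2, 0, 0, 1, 1, 5, 0, 11,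 4, 0, 1, 3, 7, 1, 1, 2, 1, 0, 0, 1, 0, 4, 5, 0, 1, 1, 3, 3, 0, 0, 1, 5, 6, 3, 0, 1, 0, 1, 0, 1, 1, 1, 1, 0, 0, 1, 1, 3, 1, 5, 0, 1, 1, 0, 5, 1, 0, 3, 0, 6, 0, 0, 0, 2, 0, 0, 1, 3, 1, 0, 0, 0, 1, 7, 0, 0, 7, 0, 1, 4, 2, 2, 7, 3, 1, 1, 0, 1, 0, 1, 1, 2, 0, 2, 1, 0, 4, 1, 16, 5, 1, 5, 1, 9, 4, 1, 1, 1, 1, 1, 6, 2, 2, 0, 1, 0, 1, 0, 1, 0, 2, 1, 0, 1, 1, 1, 1, 0, 5, 6, 2, 4, 2, 1, 1, 0, 1, 1, 9, 1, 1, 0] (.cons 1 0 0 0 0 (.cons 10 0 0 .nil) [2, 1, 4, 1, 10, 1, 6, 1, 1, 1, 17, 1, 3, 3, 0, 0, 0, 3, 0, 2, 3, 1, 0, 0, 0, 2, 3, 1, 0, 8, 0, 0, 0, 2, 3, 5, 4, 1, 2, 3, 5, 1, 1, 1, 1, 4, 3, 0, 1, 1, 0, 0, 1, 3, 3, 1, 1, 0, 3, 1, 1, 2, 3, 4, 1, 3,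 1, 2, 0, 2, 0, 1, 2, 3, 0, 1, 1, 1, 2, 11, 2, 8, 0, 0, 1, 5, 0, 6, 3, 1, 0, 4, 0, 2, 1, 0, 4, 0, 1, 2, 0, 0, 0, 1, 1, 1, 0, 0, 2, 2, 2, 3, 3, 2, 1, 3, 1, 0, 0, 1, 1, 5, 1, 0, 0, 2, 0, 1, 1, 3, 1, 0, 2, 3, 0, 1, 1, 1, 0, 3, 0, 0, 0, 0, 0, 1, 3, 1, 1, 1, 0, 2, 5, 2, 0, 7, 1, 1, 1, 14, 1, 0, 7, 1, 1, 1, 1, 8, 1, 0, 4, 1, 0, 6, 0, 1, 3, 4, 6, 4, 1, 3, 1, 1, 3, 0, 1, 1, 1, 0, 2, 0, 1, 2, 1, 1, 2, 0, 1, 7, 3, 1, 1, 0, 0, 1, 2, 2, 7, 0, 1, 7, 2, 1, 0, 2, 0, 2, 9, 1, 0, 1, 0, 1, 5, 0, 0, 0, 0, 0, 3, 3, 0, 0, 1, 3, 0, 1, 1, 1, 0, 3, 2, 1, 3, 1, 0] (.cons 1 0 0 0 0 (.cons 11 0 0 .nil) [3, 6, 1, 3, 2, 4, 0, 1, 4, 1, 18, 0, 3, 1, 3, 1, 1, 3, 5,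 4, 1, 5, 3, 1, 1, 10, 3, 0, 5, 4, 9, 2, 0, 2, 4, 0, 2, 5, 5, 0, 1, 2, 1, 5, 2, 2, 1, 1, 3, 3, 0, 0, 0, 2, 0, 3, 1, 4, 0, 0, 0, 1, 3, 2, 4, 1, 0, 0, 3, 3, 5, 1, 4, 1, 1, 1, 2, 0, 4, 4, 5, 3, 4, 5, 3, 7, 3, 1, 3, 0, 3, 0, 1, 0, 0, 1, 2, 0, 1, 1, 3, 4, 2, 1, 1, 2, 2, 1, 0, 0, 0, 3, 2, 2, 1, 0, 4, 0, 1, 4, 0, 1, 0, 2, 0, 0, 0, 1, 0, 9, 0, 2, 1, 0, 4, 1, 0, 0, 0, 2, 0, 0, 0, 1, 4, 1, 1, 5, 0, 0, 0, 0, 0, 0, 1, 0, 5, 1, 5, 2, 2, 5, 0, 3, 7, 0, 1, 1, 0, 0, 4, 1, 2, 0, 0, 0, 1, 0, 1, 0, 0, 0, 0, 1, 1, 3, 0, 0, 0, 1, 1, 0, 1, 1, 1, 1, 1, 8, 4, 6, 0, 0, 0, 0, 1, 2, 3, 1, 9, 1, 5, 1, 2, 0, 1, 1, 1, 7, 1, 3, 5, 0, 0, 1, 1, 0, 3, 0, 1, 3, 1, 5, 1,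 1, 1, 4, 1, 5, 1] .nil))))),
  (.cons 0 18 2 0 0 (.cons 5 60 0 .nil) [5, 52, 56, 0, 0, 32, 0, 1, 37, 4, 1, 14, 49, 5, 2, 34, 2] (.cons 0 20 0 0 0 (.cons 10 2 0 .nil) [] (.cons 0 12 0 0 0 (.cons 10 0 0 .nil) [15] (.cons 0 15 0 0 0 (.cons 11 0 0 .nil) [0, 12] (.cons 0 13 0 0 0 (.cons 11 1 0 .nil) [2, 6, 6] (.cons 0 9 0 0 0 (.cons 11 3 0 .nil) [11, 1, 2, 0] .nil)))))),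
  (.cons 0 22 0 0 0 (.cons 9 2 0 .nil) [110] (.cons 0 17 0 0 0 (.cons 9 0 0 .nil) [45, 71] (.cons 0 14 0 0 0 (.cons 9 1 0 .nil) [121] (.cons 0 24 1 0 0 (.cons 10 0 0 .nil) [1, 1, 1, 0, 41, 67, 1, 1, 1, 103, 4, 42, 2, 41, 9, 1, 3] (.cons 2 19 0 0 0 (.cons 0 42 0 .nil) [25, 3, 6, 1, 8, 9, 17, 6, 0, 12, 3, 24, 3, 3, 1, 4, 0, 3, 3, 1, 1, 5, 4, 0, 4, 0, 1, 1, 3, 3, 1, 6, 3, 1, 0, 1, 0, 4, 1, 3, 9, 1, 1, 2, 2, 4, 1, 4, 1, 1, 0, 14, 0, 1, 1, 0, 4, 1, 3, 5, 1, 4, 11, 0, 4, 3, 0, 4, 1, 0, 3, 1, 3, 0, 2, 2, 1, 1, 1, 0, 4, 1, 0, 2, 1, 1, 0, 5, 0, 6, 1, 3, 1, 0, 6, 1, 4, 7, 2, 0, 2, 0, 0, 2, 0, 1, 3, 0, 0, 0, 1, 0, 1, 1, 1, 0, 0, 0, 0, 1, 0, 1,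 1, 1, 12, 0, 1, 3, 0, 13, 2, 1, 5, 1, 4, 1, 3, 0, 0, 1, 2, 0, 5, 1, 2, 0, 0, 1, 0, 0, 3, 0, 3, 2, 1, 6, 0, 0, 2, 4, 2, 0, 0, 3, 1, 3, 3, 1, 0, 0, 0, 2, 2, 1, 0, 14, 0, 2, 1, 1, 2, 3, 9, 1, 7, 2, 0, 1, 2, 4, 17, 0, 0, 2, 5, 3, 4, 1, 11, 0, 0, 1, 3, 7, 1, 0, 0, 3, 0, 0, 2, 1, 0, 6, 0, 0, 1, 2, 0] (.cons 1 0 0 0 0 (.cons 11 0 0 .nil) [3, 3, 16, 4, 5, 1, 1, 0, 4, 2, 7, 5, 1, 2, 5, 4, 1, 0, 2, 1, 1, 0, 1, 0, 0, 1, 0, 11, 2, 7, 1, 0, 2, 0, 0, 2, 2, 4, 1, 1, 0, 1, 0, 0, 1, 0, 0, 0, 1, 3, 1, 0, 7, 1, 2, 0, 1, 5, 0, 0, 9, 0, 1, 1, 3, 4, 1, 0, 0, 0, 0, 10, 0, 1, 2, 4, 1, 3, 2, 2, 1, 1, 5, 4, 1, 2, 5, 0, 1, 1, 7, 1, 7, 3, 0, 0, 1, 2, 1, 0, 0, 3,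 3, 0, 1, 0, 3, 1, 2, 1, 0, 1, 1, 3, 1, 0, 0, 1, 4, 1, 1, 0, 1, 1, 0, 1, 3, 3, 0, 1, 3, 3, 0, 0, 8, 1, 0, 0, 3, 1, 1, 1, 0, 3, 1, 3, 2, 3, 1, 1, 0, 1, 0, 1, 3, 1, 1, 1, 4, 1, 0, 1, 3, 0, 3, 1, 3, 1, 7, 2, 0, 1, 1, 2, 1, 0, 1, 3, 1, 0, 4, 4, 1, 0, 1, 0, 0, 0, 2, 1, 3, 3, 1, 2, 7, 1, 0, 0, 0, 0, 0, 1, 1, 0, 1, 5, 3, 5, 0, 1, 1, 5, 1, 1, 0, 0, 0, 1, 3, 2, 2, 0, 1, 6, 1, 1, 1, 5, 0, 1, 5, 0, 1, 0, 2, 1, 1, 1, 15, 8, 0, 1, 2, 0, 0, 1, 9, 1, 2, 1, 1, 3, 0, 1, 3, 3, 3, 2, 0, 1, 1, 1, 4, 0, 1, 0, 0, 0, 7, 3] .nil)))))),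
  (.cons 0 34 0 0 0 (.cons 5 3 0 .nil) [5, 41] (.cons 0 26 0 0 0 (.cons 10 2 0 .nil) [] .nil)),
  (.cons 0 24 0 0 0 (.cons 9 1 0 .nil) [0] (.cons 0 22 0 0 0 (.cons 9 4 0 .nil) [76] (.cons 2 35 0 0 0 (.cons 0 43 0 .nil) [136, 4, 6, 2, 1, 3, 3, 1, 2, 9, 7, 2, 0, 3, 2, 2, 1, 0, 9, 0, 14, 24, 3, 10, 45, 1, 7, 2, 1, 1, 0, 14, 5, 1, 0, 5, 11, 0, 1, 1, 1, 1, 0, 2, 1, 31, 9, 2, 1, 1, 7, 2, 1, 16, 0, 1, 3, 3, 1, 3, 1, 1, 3, 3, 1, 1, 2, 1, 2, 1, 2, 1, 2, 1, 5, 0, 0, 0, 2, 1, 0, 6, 4, 7, 3, 0, 1, 4, 3, 3, 1, 6, 3, 0, 0, 15, 6, 1, 0, 1, 0, 1, 0, 0, 4, 15, 1, 5, 3, 0, 1, 1, 5, 0, 5, 3, 1, 0, 1, 1, 0, 2, 1, 1, 1, 2, 0, 17, 1, 3, 7, 11, 19, 5, 7, 23,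 0, 4, 5, 2, 2, 1, 1, 4, 12, 3, 1, 1, 4, 1, 0, 3, 1, 1, 0, 3] (.cons 1 0 0 0 0 (.cons 11 0 0 .nil) [2, 5, 0, 8, 1, 3, 0, 6, 1, 0, 2, 1, 5, 1, 0, 5, 0, 2, 0, 1, 5, 17, 3, 3, 3, 2, 0, 0, 2, 2, 4, 5, 3, 1, 0, 5, 0, 1, 0, 0, 1, 3, 2, 1, 3, 1, 0, 3, 3, 1, 2, 1, 0, 3, 4, 0, 1, 2, 1, 0, 0, 1, 1, 0, 1, 0, 1, 1, 5, 2, 1, 4, 1, 3, 4, 3, 1, 1, 0, 1, 0, 0, 3, 1, 0, 0, 0, 0, 0, 2, 0, 1, 0, 0, 0, 1, 0, 7, 1, 0, 1, 2, 1, 7, 0, 2, 1, 4, 1, 6, 0, 0, 0, 3, 7, 0, 4, 0, 0, 0, 2, 5, 1, 2, 0, 1, 1, 2, 0, 2, 1, 0, 0, 1, 0, 1, 1, 0, 1, 0, 5, 1, 1, 0, 1, 0, 4, 3, 1, 3, 1, 1, 0, 0, 0, 0, 2, 1, 0, 2, 2, 0, 0, 5, 2, 0, 0, 0, 0, 3, 9, 1, 0, 0, 1, 0, 3, 3, 1, 2, 0,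 1, 1, 1, 1, 1, 4, 1, 5, 0, 3, 3, 2, 1, 3, 4, 5, 3, 0, 0, 1, 0, 0, 1, 0, 0, 1, 0, 1, 3, 0, 3, 2, 3, 2, 0, 0, 3, 0, 1, 1, 6, 1, 0, 3, 1, 0, 0, 0, 1, 3, 0, 4, 2, 0, 0, 0, 2, 5, 3, 0, 1, 1, 8, 1, 1, 1, 0, 0, 1, 1, 2, 1, 3, 1, 1, 1, 2, 0, 1, 0, 3, 0, 3, 3, 3, 4, 1, 0, 0, 1, 0, 1, 1, 0, 0, 0, 0, 1, 0, 6, 0, 1, 0, 1, 3, 2, 1, 0, 1, 2, 0, 1, 4, 1, 0, 2, 1, 6, 6, 0, 1, 5, 0, 3, 3, 0, 1, 1, 0, 1, 1, 1] .nil)))),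
  (.cons 1 0 0 0 0 (.cons 10 0 0 .nil) [12, 13, 2, 2, 3, 4, 0, 1, 2, 9, 1, 1, 2, 5, 5, 2, 1, 3, 0, 0, 1, 7, 2, 5, 22, 1, 2, 3, 4, 0, 1, 1, 1, 3, 2, 1, 1, 0, 0, 0, 3, 7, 1, 1, 0, 0, 0, 4, 0, 1, 3, 8, 1, 1, 1, 1, 5, 9, 12, 0, 3, 1, 1, 2, 2, 1, 1, 0, 0, 2, 2, 13, 1, 1, 0, 7, 1, 1, 1, 1, 1, 2, 1, 1, 3, 12, 4, 8, 0, 0, 1, 0, 0, 1, 1, 1, 4, 2, 3, 3, 3, 1, 1, 5, 1, 1, 4, 1, 0, 1, 0, 12, 1, 1, 3, 0, 0, 0, 0, 1, 1, 3, 1, 4, 0, 2, 2, 0, 1, 0, 1, 1, 0, 1, 2, 1, 1, 0, 1, 1, 6, 2, 1, 1, 1, 3, 0, 3, 0, 0, 1, 3, 1, 0, 1, 1, 0, 0, 1, 1, 3, 2, 5, 1, 1, 0, 3, 3, 3, 0, 1, 0, 1, 0, 9, 3, 2, 0, 5, 0, 1, 2, 1, 0, 1, 2, 0, 1, 8, 3, 0, 3, 0, 1, 0, 1, 1, 2,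 1, 1, 0, 1, 1, 0, 1, 3, 1, 1, 3, 0, 0, 0, 4, 0, 1, 1, 3, 1, 1, 2, 1, 0, 9, 3, 0, 1, 1, 1, 0, 7, 1, 1, 0, 0, 0, 1, 0, 0, 1, 1, 0, 1, 0, 10, 7, 1, 0, 5, 0, 0, 0, 0, 2, 0, 1, 2, 1, 4, 0, 1, 2, 3, 0, 0, 0, 1, 1, 1, 2, 0, 3, 1, 1, 2, 3, 0, 3, 1, 1, 1, 1, 5, 3, 0, 0, 0, 3, 1, 2, 10, 5, 3, 0, 0, 9] .nil),
  (.cons 0 33 0 0 0 (.cons 10 0 0 .nil) [] (.cons 0 13 2 0 0 (.cons 5 0 0 .nil) [133, 71, 2, 43, 6, 70, 44, 0] (.cons 0 20 0 0 0 (.cons 11 0 0 .nil) [5, 126, 7] .nil))),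
  (.cons 0 28 0 0 0 (.cons 9 1 0 .nil) [130] (.cons 0 17 0 0 0 (.cons 9 11 0 .nil) [138] (.cons 0 13 0 0 0 (.cons 11 1 0 .nil) [7, 2] (.cons 2 15 0 0 0 (.cons 0 45 0 .nil) [3, 1, 20, 2, 0, 1, 1, 3, 2, 0, 1, 1, 0, 0, 2, 2, 0, 3, 5, 1, 17, 3, 1, 1, 3, 6, 2, 5, 3, 1, 1, 1, 0, 11, 0, 2, 1, 2, 1, 1, 1, 1, 0, 3, 0, 1, 1, 0, 3, 0, 0, 1, 7, 2, 1, 3, 1, 2, 1, 0, 0, 0, 0, 1, 3, 0, 5, 2, 1, 3, 1, 1, 2, 1, 6, 1, 0, 3, 0, 2, 1, 1, 1, 1, 0, 4, 1, 0, 11, 2, 3, 1, 0, 7, 1, 1, 11, 3, 0, 0, 1, 6, 0, 3, 4, 1, 3, 0, 1, 1, 4, 3, 0, 3, 1, 1, 6, 0, 6, 3, 1, 1, 1, 1, 1, 1, 1, 1, 0, 0, 1, 0, 8, 9, 5, 0, 1, 3, 0, 3, 3, 3, 3, 0, 5, 3, 2, 0, 0, 6, 1, 3, 0, 1, 1,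 0, 1, 1, 0, 1, 0, 0, 2, 0, 0, 6, 1, 1, 0, 1, 1, 3, 9, 2, 0, 0, 2, 5, 4, 1, 4, 0, 3, 1, 4, 0, 0, 7, 8, 1, 0, 2, 0, 1, 1, 1, 0, 2, 0, 0, 1, 3, 1, 2, 2, 6, 3, 0, 1, 1, 0, 1, 1, 3, 5, 0, 1, 2, 1, 3, 2, 1, 5, 1, 1, 3, 0, 1, 0, 1, 3, 4, 3, 3, 2, 2, 9, 0, 0, 2, 2, 3, 1, 0, 1, 1, 3, 1, 1, 0, 1, 2, 1, 0, 0, 0, 2, 0, 3, 0, 1, 3, 1, 1, 0, 0, 0, 1, 2, 1, 2, 0, 2, 1, 0, 1, 2, 1, 3, 3, 6, 0, 11, 1, 1, 0, 0, 0, 0, 5, 6, 1, 7, 1, 0, 1, 1, 0, 1, 0, 1, 0, 6, 1, 1, 1, 2, 2, 1, 0, 5, 1, 3, 6, 0, 1, 2, 1, 1, 5, 2, 1, 0, 2] (.cons 2 23 0 0 0 (.cons 0 44 0 .nil) [39, 15, 1, 0, 4, 5, 1, 23, 18, 2, 4, 2, 1, 0, 13, 2, 10, 1, 1, 2, 3, 0, 1, 2, 0, 1, 0, 3, 1, 8,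 0, 0, 3, 3, 0, 3, 0, 0, 2, 8, 0, 1, 13, 8, 16, 0, 0, 4, 0, 1, 5, 6, 1, 2, 1, 1, 1, 0, 0, 1, 3, 1, 19, 0, 1, 4, 4, 2, 26, 3, 0, 0, 0, 1, 0, 0, 5, 3, 1, 0, 3, 1, 0, 1, 2, 9, 1, 0, 1, 5, 14, 2, 1, 1, 1, 0, 1, 0, 1, 0, 7, 1, 0, 1, 0, 0, 1, 1, 1, 0, 0, 1, 2, 1, 0, 2, 0, 0, 0, 0, 1, 0, 1, 4, 0, 0, 3, 4, 0, 0, 1, 0, 3, 4, 5, 0, 3, 1, 5, 1, 1, 0, 1, 5, 4, 5, 4, 1, 1, 3, 4, 11, 0, 0, 7, 4, 7, 1, 0, 1, 0, 0, 4, 0, 1, 2, 3, 3, 1, 1, 5, 0, 0, 0, 0, 1, 1, 2, 5, 1, 3, 0, 5, 4, 0, 0, 0, 1, 4, 1, 3, 1, 3, 0, 2, 6, 1, 1, 1, 0, 1, 0, 5, 1, 1, 1, 10, 0, 0, 3, 3, 0, 3, 6, 0, 2, 0, 2, 17, 1, 1, 4, 10, 2, 3, 3, 0, 0, 2, 1, 1, 1, 0, 0, 0, 0, 0, 1, 0, 2, 2,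 1, 2, 2, 6, 3, 0, 1, 2, 1, 1, 1, 3, 1, 5, 3, 1, 1, 3, 0, 1, 6, 3, 0, 1, 0, 3, 3] .nil))))),
  (.cons 0 20 0 0 0 (.cons 10 0 0 .nil) [144] (.cons 0 22 0 0 0 (.cons 11 0 0 .nil) [1, 1, 3, 127, 5, 3, 1] (.cons 2 0 0 0 0 (.cons 0 46 0 .nil) [165, 1, 2, 0, 1, 0, 1, 1, 5, 1, 20, 1, 2, 0, 25, 0, 0, 3, 0, 0, 0, 34, 64, 1, 13, 5, 38, 15, 15, 7, 39, 0, 3, 4, 1, 1, 0, 3, 10, 1, 0, 1, 0, 7, 2, 11, 2, 1, 1, 1, 0, 3, 0, 7, 1, 1, 3, 1, 1, 1, 7, 0, 1, 1, 7, 1, 3, 2, 1, 6, 1, 1, 1, 2, 0, 4, 29, 8, 5, 19, 2, 1, 5, 1, 16, 0, 0, 0, 10, 4, 2, 0, 0, 1, 28, 0, 1, 2, 4, 1, 3, 9, 9, 3, 1, 1, 9, 72, 30, 0, 0, 1, 1, 0, 0, 5, 0, 2, 0, 3, 0, 0, 1, 0, 1, 1, 1, 1,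 2, 1, 3, 2, 1, 1, 1, 0, 1, 0, 4, 0, 1, 0, 0, 5, 3, 3, 0, 5, 7, 11, 4, 0, 4] (.cons 2 21 0 0 0 (.cons 0 47 0 .nil) [3, 1, 8, 2, 2, 0, 0, 0, 1, 0, 0, 2, 1, 0, 5, 5, 7, 4, 1, 1, 1, 0, 1, 1, 3, 1, 1, 0, 0, 0, 4, 1, 1, 0, 0, 0, 0, 1, 0, 2, 1, 3, 1, 16, 10, 2, 1, 0, 3, 2, 4, 1, 0, 0, 2, 1, 2, 1, 2, 0, 3, 3, 2, 1, 5, 0, 1, 1, 1, 2, 0, 0, 0, 1, 0, 1, 1, 1, 0, 0, 0, 3, 3, 0, 4, 0, 1, 0, 2, 0, 0, 1, 0, 0, 1, 0, 0, 1, 2, 3, 6, 1, 2, 3, 1, 2, 1, 1, 3, 1, 3, 1, 1, 2, 1, 1, 0, 1, 1, 12, 1, 0, 9, 9, 1, 1, 1, 1, 4, 0, 1, 1, 0, 3, 2, 3, 1, 1, 0, 0, 1, 3, 1, 2, 0, 2, 1, 0, 1, 0, 0, 2, 0, 1, 1, 0, 0, 1, 2, 5, 1, 0, 2, 1, 0, 1, 0, 1, 1, 0, 0, 3, 2, 0, 0,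 1, 1, 1, 3, 1, 2, 1, 0, 0, 0, 1, 3, 1, 0, 1, 1, 1, 1, 3, 1, 0, 2, 1, 0, 0, 0, 1, 1, 0, 0, 1, 1, 3, 1, 1, 0, 7, 1, 0, 0, 1, 5, 4, 1, 1, 1, 0, 1, 0, 1, 1, 1, 0, 0, 0, 0, 0, 0, 0, 5, 1, 3, 1, 1, 4, 2, 1, 1, 0, 0, 3, 1, 3, 1, 1, 1, 0, 1, 1, 2, 0, 1, 0, 0, 1, 0, 4, 0, 0, 0, 0, 2, 1, 4, 0, 1, 0, 2, 0, 1, 9, 0, 6, 3, 2, 1, 3, 0, 2, 6, 4, 0, 3, 0, 0, 1, 0, 1, 1, 0, 0, 0, 6, 1, 1, 0, 1, 1, 7, 1, 0, 0, 4, 0, 1, 0, 1, 0, 1, 2, 0, 1, 2, 1, 0, 4, 1, 5, 1, 4, 1, 3, 1, 0, 0, 1, 2, 1, 0, 3, 1, 1, 1, 0, 5, 1, 0, 1, 0, 1, 0, 0, 1, 2, 1, 1, 2, 0, 0, 0, 1, 0, 2, 0, 3, 0, 1, 2, 1, 0, 2, 2, 4, 3, 0, 1, 4, 1, 0, 5, 0, 7, 0, 1, 1, 0, 5, 2, 1, 0, 1, 0, 1] (.cons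 1 0 0 0 0 (.cons 11 1 0 .nil) [19, 1, 1, 1, 0, 1, 0, 3, 1, 5, 7, 18, 0, 3, 31, 3, 0, 0, 1, 1, 32, 4, 2, 1, 2, 2, 2, 4, 1, 2, 1, 1, 0, 0, 0, 0, 5, 5, 2, 2, 1, 0, 4, 1, 3, 4, 0, 2, 5, 1, 0, 3, 3, 0, 5, 1, 0, 4, 2, 1, 0, 0, 3, 3, 5, 1, 9, 2, 10, 4, 2, 6, 1, 0, 4, 2, 0, 0, 1, 2, 1, 2, 3, 5, 4, 2, 0, 0, 2, 5, 1, 2, 0, 0, 0, 2, 1, 9, 4, 0, 5, 1, 3, 0, 9, 1, 3, 0, 0, 0, 0, 0, 1, 6, 1, 1, 0, 2, 0, 2, 0, 0, 0, 2, 0, 0, 0, 2, 0, 1, 0, 1, 1, 4, 7, 1, 3, 0, 5, 0, 6, 1, 1, 0, 1, 1, 3, 1, 4, 1, 1, 2, 3, 2, 1, 0, 4, 0, 1, 0, 0, 1, 2, 8, 5, 0, 2, 2, 3, 1, 3, 1, 1, 5, 1, 1, 0, 6, 0, 2, 1, 3, 1, 1, 1, 5, 1, 0, 1, 1, 0, 1, 0, 0, 2, 0, 1, 1, 3, 3, 0, 0,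 1, 0, 0, 0, 1, 0, 0, 1, 3, 1, 1, 0, 2, 0, 0, 4, 1, 0, 0, 7, 0, 2, 1, 7, 0, 0, 0, 1, 3, 0, 1, 2, 1, 3, 1, 2, 1, 2, 0, 0, 2, 0, 3, 3, 0, 3, 0, 6, 1, 2, 3, 1, 10, 2, 1, 0, 1, 0, 1, 3, 1, 4, 1, 1, 0, 1, 2, 1, 3, 2, 0, 5, 1, 1, 0, 1, 1, 0, 9, 3, 4, 0, 2, 5, 2, 1, 0, 0, 2, 1, 0, 1, 0, 5, 1, 1, 1, 3, 1, 1, 2, 0, 2, 1, 4, 1, 12, 0, 3, 2, 1, 0, 1, 1, 0] .nil))))),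
  (.cons 0 38 0 0 0 (.cons 5 2 0 .nil) [11, 57] (.cons 2 25 0 0 0 (.cons 0 48 0 .nil) [14, 4, 8, 59, 35, 1, 0, 33, 0, 9, 11, 5, 3, 1, 0, 2, 0, 1, 2, 10, 0, 1, 2, 1, 2, 0, 3, 1, 1, 1, 6, 0, 1, 0, 1, 1, 1, 2, 6, 5, 16, 4, 3, 0, 2, 0, 1, 0, 1, 2, 1, 0, 1, 3, 5, 1, 2, 0, 3, 0, 0, 12, 1, 0, 0, 0, 6, 5, 1, 1, 1, 1, 3, 1, 9, 2, 5, 3, 0, 0, 3, 1, 1, 0, 0, 0, 4, 4, 0, 2, 1, 1, 1, 7, 21, 6, 8, 0, 2, 1, 0, 7, 0, 0, 9, 1, 4, 0, 0, 1, 6, 0, 0, 2, 1, 0, 0, 2, 1, 0, 1, 0, 1, 0, 0, 1, 1, 0, 7, 0, 1, 0, 0, 2, 0, 1, 5, 1, 1, 3, 0, 0, 1, 1, 2, 2, 1, 3, 1, 1, 1, 2, 0, 4, 0, 1, 9, 0, 0, 1, 0, 3, 8, 1, 2, 1, 5, 0, 5, 1, 1, 5, 2, 1, 1, 1, 0, 2, 0, 1, 0, 1,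 3, 3, 2, 1, 2, 0, 1, 0, 0, 3, 1, 1, 0, 4, 0, 0, 4, 4, 0, 5, 0, 3, 2, 0, 1, 0, 7, 0, 3, 3, 0, 3, 1, 0, 3, 0, 0, 1, 6, 0, 26, 0, 3, 0, 0, 0, 6, 6, 1, 11, 2, 11, 4, 17, 3, 3, 1, 0, 2, 1, 4, 0, 5, 5, 1, 1, 0, 0, 3, 0, 5, 7, 4, 1, 1, 0, 0, 2, 2, 1, 0, 8, 2, 2, 1, 1, 0, 11, 1, 0, 7, 2, 1, 1, 1, 4] .nil)),
  (.cons 0 9 1 0 0 (.cons 11 1 0 .nil) [18, 142] (.cons 0 17 0 0 0 (.cons 10 0 0 .nil) [8, 8, 138, 2] (.cons 0 20 0 0 0 (.cons 11 0 0 .nil) [1, 4, 2, 9, 138] (.cons 2 1 0 0 0 (.cons 0 49 1 .nil) [26, 2, 5, 1, 1, 3, 7, 1, 7, 19, 31, 1, 37, 14, 0, 0, 0, 0, 12, 3, 0, 1, 1, 2, 1, 3, 1, 0, 1, 9, 1, 0, 1, 0, 0, 0, 1, 1, 0, 2, 0, 0, 1, 1, 2, 1,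 1, 0, 0, 2, 0, 9, 0, 1, 17, 2, 0, 6, 1, 0, 4, 2, 0, 2, 0, 4, 2, 1, 1, 1, 5, 1, 2, 0, 14, 4, 1, 5, 2, 2, 2, 1, 1, 1, 5, 6, 0, 9, 6, 0, 1, 0, 2, 1, 3, 3, 1, 3, 0, 1, 1, 3, 11, 8, 8, 13, 1, 0, 0, 4, 1, 2, 3, 0, 10, 0, 0, 1, 0, 0, 1, 2, 0, 0, 1, 0, 4, 1, 0, 1, 0, 1, 1, 7, 1, 1, 2, 7, 4, 1, 0, 0, 0, 1, 2, 1, 0, 2, 1, 0, 0, 3, 1, 0, 0, 0, 0, 0, 1, 0, 2, 2, 1, 0, 2, 1, 0, 1, 0, 6, 0, 4, 6, 3, 4, 0, 1, 4, 5, 0, 3, 0, 1, 5, 0, 1, 2, 5, 1, 5, 1, 0, 0, 1, 3, 3, 0, 1, 0, 3, 1, 2, 4, 0, 3, 1, 0, 3, 3, 5, 0, 0, 1, 0, 2, 0, 0, 0, 1, 0, 1, 1, 1, 1, 0, 0, 0, 0, 0, 1, 0, 1, 0, 2, 1, 5, 1, 0, 1, 0, 0, 5, 0, 1, 1, 5, 1, 13, 3, 2, 2, 5, 2, 1, 2, 1, 4, 1,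 0, 0, 25, 3, 1, 2, 2, 17, 2, 0, 1, 3, 0, 1, 0, 2, 1, 3, 0, 6, 3, 0, 1, 1, 0, 1, 2, 6, 3, 1, 1, 0, 2, 1, 0, 0, 4, 3, 6, 1, 0, 1, 1, 3, 0, 1, 0, 3, 11, 0, 1, 1, 7, 1, 3] (.cons 1 0 0 0 0 (.cons 6 0 0 .nil) [32, 31, 26, 23, 1, 23, 12, 31, 1, 1, 4, 3, 3, 7, 10, 1, 10, 1, 7, 2, 1, 2, 2, 5, 2, 28, 5, 0, 2, 3, 3, 2, 1, 27, 1, 1, 1, 0, 5, 35, 1, 1, 5, 8, 22, 7, 2, 0, 1, 0, 3, 10, 0, 0, 1, 3, 0, 1, 14, 6, 14, 2, 2, 2, 1, 0, 0, 1, 1, 1, 0, 8, 1, 4, 0, 5, 13, 5, 1, 3, 2, 2, 1, 3, 3, 1, 1, 2, 1, 0, 3, 6, 1, 0, 1, 0, 0, 0, 0, 1, 1, 3, 0, 3, 3, 2, 0, 1, 1, 1, 5, 1, 1, 3, 2, 0, 1, 7, 6, 1, 0, 7, 1, 0, 4, 0, 1, 0, 1, 0, 0, 0, 3, 12, 1, 0, 4, 1, 0, 4,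 1, 9, 3, 12, 3, 2, 1, 2, 16, 1, 9, 1, 7, 2, 1, 2, 4, 10, 1, 1, 1, 5, 11, 0, 2, 10, 5, 1, 0, 4, 2, 2, 17, 3, 1, 1, 25, 1, 0, 5, 1, 15, 0, 1, 5, 2, 3, 0, 2, 0, 1, 0, 1, 0, 0, 0, 1, 3, 0, 3, 1, 0, 3, 1, 2, 1, 1, 1, 3, 1, 1, 1, 3, 0, 1, 0, 0, 4, 1, 0, 1, 1, 0, 1, 1, 0, 1, 3, 0, 0, 1, 3, 0, 3, 5, 0, 2, 0, 0, 2, 1] (.cons 1 0 0 0 0 (.cons 10 1 0 .nil) [6, 4, 8, 5, 1, 3, 1, 1, 2, 5, 1, 0, 3, 3, 4, 3, 0, 3, 2, 2, 2, 0, 15, 0, 2, 1, 0, 10, 1, 0, 1, 0, 3, 14, 1, 6, 7, 3, 0, 3, 0, 2, 1, 2, 2, 1, 2, 0, 0, 0, 1, 1, 2, 7, 1, 3, 0, 1, 0, 0, 4, 0, 0, 3, 0, 2, 0, 1, 1, 0, 1, 2, 0, 4, 0, 0, 1, 1, 0, 1, 1, 7, 2, 2, 5, 0, 1, 1, 0, 2, 0, 0, 3, 3, 10, 1,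 0, 0, 1, 3, 0, 2, 13, 0, 7, 0, 2, 1, 3, 0, 5, 0, 0, 3, 2, 0, 5, 3, 0, 1, 1, 4, 11, 1, 0, 1, 1, 0, 1, 3, 0, 2, 2, 7, 0, 1, 5, 2, 9, 0, 1, 1, 0, 10, 4, 1, 1, 0, 1, 2, 3, 4, 2, 5, 1, 0, 3, 0, 3, 0, 1, 2, 4, 1, 0, 1, 3, 1, 5, 0, 3, 3, 1, 1, 0, 0, 2, 1, 0, 3, 0, 1, 2, 0, 1, 2, 1, 5, 4, 2, 1, 5, 1, 0, 1, 0, 4, 0, 1, 1, 1, 4, 0, 4, 0, 3, 0, 3, 3, 4, 1, 0, 2, 0, 1, 0, 0, 0, 1, 0, 0, 0, 2, 1, 0, 0, 3, 1, 1, 0, 1, 0, 0, 0, 1, 3, 6, 1, 2, 5, 1, 1, 1, 0, 2, 3, 3, 2, 1, 1, 0, 0, 5, 1, 3, 1, 5, 2, 1, 3, 1, 0, 0, 2, 0, 0, 1, 1, 1, 0, 1, 3, 1, 1, 0, 0, 1, 0, 3, 1, 4, 1, 2, 0, 0, 0, 2, 9, 5, 1, 1, 0, 0, 3, 3, 3, 3, 0, 2, 1, 2, 2, 3, 1, 2, 1, 2, 0, 1,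 4, 0, 0, 1, 2, 3, 3, 0, 1, 1, 0, 0, 1, 2, 1, 1, 4, 1, 0, 0, 1, 1, 0, 0, 0, 1, 0, 2, 0, 1, 3, 0, 0, 0, 1, 3, 1, 2, 1, 1, 1, 1, 2, 3, 1, 3, 2, 0, 0, 3, 0, 0, 0, 0, 0, 5, 0, 0, 3, 2, 1, 1, 6, 1, 0, 2, 1, 1] .nil))))))]

theorem ok9 : run B sp W9 W10 G9 Y9 Y10 490 K9 D9 = true := by decide +kernel

end Vale.Agent.P236K.Cert.Pl.P96
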