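import Vale.Agent.P236K.P96.B
import Vale.Agent.P236K.P96.A11
import Vale.Agent.P236K.P96.A12

/-!
# P236K / P96 / R11 : the check of degree 11
-/

noncomputable section

namespace Vale.Agent.P236K.Cert.Pl.P96

/-- rows given by data -/
noncomputable def D11 : List DL := [.nil,
  .nil,
  .nil,
  .nil,
  .nil,
  .nil,
  .nil,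
  .nil,
  .nil,
  .nil,
  .nil,
  .nil,
  .nil,
  .nil,
  .nil,
  .nil,
  .nil,
  .nil,
  (.cons 2 0 0 0 0 (.cons 0 0 1 .nil) [] .nil),
  (.cons 1 0 0 0 0 (.cons 5 0 0 .nil) [] .nil),
  (.cons 2 0 0 0 0 (.cons 0 1 0 .nil) [] .nil),
  (.cons 1 0 0 0 0 (.cons 9 0 0 .nil) [0] .nil),
  (.cons 2 0 0 0 0 (.cons 0 2 1 .nil) [0] .nil),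
  (.cons 1 0 0 0 0 (.cons 9 0 0 .nil) [0] .nil),
  (.cons 2 1 0 0 0 (.cons 0 3 1 .nil) [] .nil),
  (.cons 1 0 0 0 0 (.cons 9 0 0 .nil) [0, 0] .nil),
  (.cons 2 0 0 0 0 (.cons 0 4 1 .nil) [5] .nil),
  (.cons 0 2 0 0 0 (.cons 9 0 0 .nil) [] (.cons 1 0 0 0 0 (.cons 10 0 0 .nil) [0, 0, 1] .nil)),
  (.cons 2 0 0 0 0 (.cons 0 5 0 .nil) [3, 0] .nil),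
  (.cons 0 3 0 0 0 (.cons 9 0 0 .nil) [1] (.cons 0 1 0 0 0 (.cons 10 0 0 .nil) [3] .nil)),
  (.cons 2 5 0 0 0 (.cons 0 6 0 .nil) [7, 3] (.cons 1 0 0 0 0 (.cons 5 0 0 .nil) [3, 2, 3] .nil)),
  (.cons 0 1 0 0 0 (.cons 10 0 0 .nil) [0] .nil),
  (.cons 2 6 0 0 0 (.cons 0 7 0 .nil) [] (.cons 1 0 0 0 0 (.cons 9 1 0 .nil) [4, 6, 1, 0] .nil)),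
  .nil,
  (.cons 2 0 0 0 0 (.cons 0 8 1 .nil) [0] (.cons 1 0 0 0 0 (.cons 9 1 0 .nil) [4, 1, 2, 3, 5] .nil)),
  (.cons 0 2 0 0 0 (.cons 10 0 0 .nil) [8] .nil),
  (.cons 0 7 0 0 0 (.cons 9 0 0 .nil) [8] (.cons 2 1 0 0 0 (.cons 0 9 1 .nil) [2, 10] (.cons 1 0 0 0 0 (.cons 9 1 0 .nil) [2, 1, 3, 1, 3, 0, 1, 0, 2, 1, 1] .nil))),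
  (.cons 0 3 0 0 0 (.cons 10 0 0 .nil) [0] .nil),
  (.cons 0 5 0 0 0 (.cons 9 0 0 .nil) [8] (.cons 0 7 0 0 0 (.cons 9 1 0 .nil) [] (.cons 1 0 0 0 0 (.cons 10 0 0 .nil) [0, 1, 0, 1, 4, 0, 1, 1, 1, 0, 1, 0, 2, 1, 1] .nil))),
  .nil,
  (.cons 0 6 0 0 0 (.cons 9 0 0 .nil) [9] (.cons 0 2 0 0 0 (.cons 10 0 0 .nil) [8] .nil)),
  (.cons 0 8 0 0 0 (.cons 5 0 0 .nil) [] .nil),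
  (.cons 0 2 0 0 0 (.cons 10 0 0 .nil) [1] .nil),
  (.cons 0 4 0 0 0 (.cons 10 0 0 .nil) [] .nil),
  .nil,
  (.cons 0 4 0 0 0 (.cons 10 0 0 .nil) [] .nil),
  (.cons 0 5 0 0 0 (.cons 10 1 0 .nil) [17] .nil),
  .nil,
  .nil,
  (.cons 0 8 0 0 0 (.cons 10 0 0 .nil) [] .nil),
  .nil,
  (.cons 0 7 0 0 0 (.cons 9 1 0 .nil) [2, 17] (.cons 2 10 0 0 0 (.cons 0 10 1 .nil) [7, 19, 0, 14, 9, 1, 18, 2] .nil)),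
  (.cons 0 9 0 0 0 (.cons 5 1 0 .nil) [] (.cons 0 7 0 0 0 (.cons 10 0 0 .nil) [] (.cons 1 0 0 0 0 (.cons 5 0 0 .nil) [4, 3, 1, 25, 0, 0, 9, 0, 1, 3, 1, 6, 2, 1, 1, 0, 4, 0, 1, 2, 3, 4] .nil))),
  (.cons 2 10 0 0 0 (.cons 0 11 0 .nil) [6, 25, 4, 0, 12, 3, 8, 8, 6, 7, 1, 5] .nil),
  (.cons 0 8 0 0 0 (.cons 10 0 0 .nil) [] (.cons 1 0 0 0 0 (.cons 9 0 0 .nil) [4, 1, 0, 3, 14, 5, 1, 4, 13, 3, 4, 3, 5, 0, 3, 4, 1, 0, 4, 19] .nil)),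
  (.cons 2 10 0 0 0 (.cons 0 12 1 .nil) [5, 0, 0, 21, 1, 3, 12, 0, 0, 16, 3, 7, 1, 1, 2, 3, 1, 1, 3, 5] .nil),
  (.cons 0 12 0 0 0 (.cons 9 0 0 .nil) [30] .nil),
  (.cons 2 11 0 0 0 (.cons 0 13 1 .nil) [4, 0, 5, 13, 4, 5, 9, 6, 10, 2, 0, 8, 2, 1, 0, 1, 3, 2, 9, 1, 1, 1, 1, 0, 5, 0, 5, 1] (.cons 1 0 0 0 0 (.cons 5 0 0 .nil) [23, 1, 3, 0, 2, 2, 0, 1, 0, 0, 2, 6, 0, 0, 1, 4, 5, 7, 8, 3, 1, 6, 1, 3, 1, 1, 1, 1, 0, 0, 1, 1] .nil)),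
  (.cons 0 12 0 0 0 (.cons 9 0 0 .nil) [28] (.cons 0 9 0 0 0 (.cons 9 2 0 .nil) [26] .nil)),
  (.cons 2 13 0 0 0 (.cons 0 14 1 .nil) [5, 32, 4, 3, 4, 2, 19, 1, 0, 9, 2, 0, 2, 0, 3, 6, 5, 1, 3, 0, 5, 5, 3, 7, 1, 3] (.cons 1 0 0 0 0 (.cons 9 0 0 .nil) [4, 1, 1, 8, 5, 3, 6, 3, 12, 0, 2, 0, 5, 0, 2, 1, 3, 2, 10, 0, 0, 1, 2, 1, 8, 3, 1, 1, 1, 0, 5, 0, 1, 0, 1, 3, 1, 3, 2, 1, 1] .nil)),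
  (.cons 0 12 0 0 0 (.cons 9 0 0 .nil) [] (.cons 0 9 0 0 0 (.cons 9 2 0 .nil) [] .nil)),
  (.cons 2 14 0 0 0 (.cons 0 15 0 .nil) [39, 1, 3, 1, 1, 4, 0, 1, 1, 0, 5, 12, 4, 1, 11, 1, 2, 5, 1, 1, 2, 0, 1, 1, 0, 5, 1, 1, 1, 1, 4, 1, 0, 0, 4, 4, 5, 1, 0, 0] (.cons 1 0 0 0 0 (.cons 9 1 0 .nil) [4, 1, 4, 0, 3, 2, 2, 6, 3, 3, 0, 2, 0, 10, 1, 5, 0, 0, 7, 0, 3, 0, 0, 11, 2, 3, 1, 0, 1, 1, 1, 1, 5, 4, 0, 1, 4, 2, 0, 5, 2, 2, 0, 0, 0, 1, 0, 1, 0, 0] .nil)),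
  (.cons 2 16 0 0 0 (.cons 0 16 1 .nil) [64, 59] .nil),
  (.cons 2 12 0 0 0 (.cons 0 17 0 .nil) [52, 47, 1, 3, 19, 2, 2, 0, 3, 1, 3, 1, 7, 3, 5, 5, 23, 2] (.cons 1 0 0 0 0 (.cons 5 0 0 .nil) [18, 30, 0, 12, 34, 0, 25, 16, 14, 9, 1, 2] (.cons 1 0 0 0 0 (.cons 9 1 0 .nil) [7, 1, 3, 3, 3, 2, 6, 1, 1, 7, 3, 0, 1, 1, 1, 0, 3, 3, 0, 0, 6, 1, 0, 3, 3, 1, 11, 3, 1, 4, 3, 1, 1, 3, 0, 2, 2, 3, 0, 3, 0, 0, 4, 3, 0, 3, 2, 1, 0, 0, 1, 7, 2, 3, 1, 1, 1, 1, 0] .nil))),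
  (.cons 2 16 0 0 0 (.cons 0 18 0 .nil) [51, 0, 10, 1, 0, 13, 16, 2, 18, 8, 5, 6, 0, 4, 8, 13, 4, 33] .nil),
  (.cons 0 15 0 0 0 (.cons 9 4 0 .nil) [36] (.cons 1 0 0 0 0 (.cons 9 0 0 .nil) [7, 1, 3, 4, 26, 9, 1, 0, 1, 11, 0, 1, 13, 4, 7, 3, 1, 9, 21, 0, 0, 6, 1, 5, 1, 1, 2, 0, 0, 0, 10, 4, 5, 5, 6, 0, 3, 5] (.cons 1 0 0 0 0 (.cons 9 2 0 .nil) [1, 4, 0, 5, 3, 0, 2, 0, 4, 1, 6, 8, 2, 0, 2, 0, 2, 0, 1, 1, 3, 1, 1, 1, 5, 2, 5, 0, 0, 5, 0, 5, 0, 3, 2, 9, 0, 0, 0, 1, 1, 5, 1, 0, 1, 0, 1, 0, 1, 1, 3, 1, 3, 4, 0, 7, 0, 1, 0, 6, 0, 7, 0, 0, 0, 0] .nil))),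
  (.cons 2 13 0 0 0 (.cons 0 19 0 .nil) [49, 0, 9, 1, 4, 0, 1, 1, 6, 16, 6, 0, 2, 0, 7, 6, 5, 0, 1, 1, 0, 3, 1, 2, 1, 3, 1, 1, 1, 1, 1, 1, 0, 1, 1, 1, 0, 1, 0, 0, 1, 5, 1, 0, 2, 3, 19, 5, 3, 1, 1] .nil),
  (.cons 0 15 0 0 0 (.cons 9 2 0 .nil) [37, 2, 3] (.cons 1 0 0 0 0 (.cons 9 4 0 .nil) [0, 6, 5, 0, 5, 2, 2, 3, 0, 13, 3, 1, 2, 4, 0, 1, 1, 0, 2, 0, 1, 4, 1, 5, 3, 1, 1, 2, 5, 0, 1, 0, 0, 2, 1, 1, 1, 1, 0, 2, 0, 1, 0, 0, 1, 1, 0, 2, 1, 1, 0, 1, 1, 1, 1, 1, 1, 1, 1, 1, 4, 0, 4, 1, 5, 5, 2, 1, 0, 7, 2, 1, 0, 1, 0, 0, 2, 0, 0, 1, 4] .nil)),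
  (.cons 2 10 0 0 0 (.cons 0 20 1 .nil) [4, 2, 0, 0, 5, 16, 16, 0, 4, 0, 0, 3, 5, 0, 6, 1, 0, 0, 0, 4, 1, 1, 2, 6, 1, 1, 1, 0, 0, 0, 3, 5, 8, 0, 1, 0, 1, 0, 4, 1, 1, 1, 0, 0, 2, 0, 1, 0, 0, 1, 8, 0, 0, 3, 1, 0, 0, 4, 3, 0, 0, 1, 0, 0, 0, 3, 2, 3, 1, 1, 0, 0, 1, 0, 0, 2, 1, 0, 0] .nil),
  (.cons 0 14 0 0 0 (.cons 9 2 0 .nil) [2, 41] (.cons 0 17 0 0 0 (.cons 9 0 0 .nil) [1, 45] (.cons 2 4 0 0 0 (.cons 0 21 1 .nil) [16, 2, 1, 21, 13, 1, 2, 1, 7, 0, 1, 0, 22, 1, 0, 12, 0, 0, 14, 13, 1, 5, 3, 3, 1, 0, 3, 0, 0, 3, 2, 0, 1, 1, 0, 3, 3, 4, 0, 0, 3, 3, 0, 0, 0, 0, 3, 1, 1, 11, 1, 1, 1, 0, 2, 1] (.cons 1 0 0 0 0 (.cons 10 3 0 .nil) [2, 11, 3, 2, 1, 12,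 3, 0, 1, 7, 0, 4, 1, 0, 1, 3, 0, 1, 0, 1, 1, 0, 2, 2, 1, 2, 2, 0, 0, 3, 1, 6, 0, 1, 3, 1, 3, 0, 0, 0, 2, 2, 3, 1, 0, 0, 1, 2, 0, 1, 0, 5, 0, 3, 0, 1, 0, 0, 0, 5, 1, 0, 0, 0, 1, 0, 0, 3, 0, 1, 1, 0, 1, 1, 5, 3, 1, 3, 5, 9, 5, 1, 0, 4, 3, 1, 3, 1] .nil)))),
  (.cons 0 18 0 0 0 (.cons 5 2 0 .nil) [49] (.cons 0 7 0 0 0 (.cons 10 1 0 .nil) [52] (.cons 2 0 0 0 0 (.cons 0 23 1 .nil) [6, 48, 11, 11, 0, 1, 1, 7, 2, 14, 11, 5, 0, 3, 1, 3, 2, 0, 11, 1, 1, 0, 4, 1, 5, 0, 1, 1, 9, 7, 1, 6, 3, 1, 1, 2, 0, 2, 0, 0, 1, 0, 5, 2, 0, 1, 2, 11, 7, 6, 1, 4, 1] (.cons 2 10 0 0 0 (.cons 0 22 0 .nil) [11, 22, 23, 1, 1, 1, 3, 2, 0, 1, 5, 0, 2, 1, 0, 0, 1, 2, 2, 7, 1,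 1, 1, 4, 3, 1, 0, 1, 1, 0, 1, 1, 3, 2, 0, 1, 1, 7, 2, 1, 6, 4, 1, 1, 1, 0, 1, 1, 0, 1, 0, 2, 1, 2, 10, 3, 0, 3, 1, 5, 1, 0, 0, 1, 2, 0, 0, 0, 0, 3, 0, 1, 0, 6, 5, 2, 0, 2, 3, 1] .nil)))),
  (.cons 0 11 0 0 0 (.cons 9 0 0 .nil) [61] (.cons 1 0 0 0 0 (.cons 10 2 0 .nil) [1, 3, 9, 0, 22, 0, 9, 0, 6, 0, 2, 0, 3, 1, 0, 1, 0, 0, 1, 0, 6, 1, 4, 1, 2, 6, 1, 2, 0, 1, 4, 0, 1, 1, 0, 1, 1, 2, 1, 1, 5, 0, 3, 1, 1, 3, 0, 1, 1, 0, 0, 1, 0, 1, 1, 1, 5, 4, 2, 1, 1, 2, 1, 1, 4, 0, 2, 5, 6, 3, 2, 1, 1, 0, 1, 3, 0, 2, 0, 3, 0, 0, 1, 1, 3, 0, 0, 0, 5, 0, 0, 0, 1, 0, 1, 0, 1, 0] .nil)),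
  (.cons 0 19 0 0 0 (.cons 5 0 0 .nil) [] (.cons 0 5 0 0 0 (.cons 10 2 0 .nil) [4] (.cons 0 7 2 0 0 (.cons 11 1 0 .nil) [31, 37, 36, 0, 0] (.cons 2 1 0 0 0 (.cons 0 25 1 .nil) [12, 0, 0, 51, 8, 0, 0, 1, 7, 2, 0, 0, 0, 20, 17, 4, 1, 4, 5, 7, 12, 8, 1, 1, 1, 1, 1, 1, 1, 4, 0, 1, 5, 2, 0, 1, 2, 2, 1, 4, 3, 0, 1, 1, 1, 1, 0, 2, 0, 1, 7, 1, 0, 13, 1, 7, 8, 2, 3, 2, 3] (.cons 2 11 0 0 0 (.cons 0 24 0 .nil) [3, 9, 3, 1, 0, 9, 9, 1, 0, 3, 2, 1, 11, 1, 1, 5, 3, 0, 3, 0, 3, 3, 1, 1, 1, 1, 5, 2, 1, 1, 0, 1, 1, 3, 0, 0, 1, 0, 2, 3, 1, 3, 1, 0, 3, 5, 1, 3, 4, 10, 0, 0, 3, 3, 2, 0, 1, 1, 1, 1, 3, 1, 0, 1, 0, 1, 2, 4, 0, 0, 1, 1, 3, 3, 3, 3, 0, 8, 1, 1, 0,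 1, 0, 2, 1, 4, 1, 4, 0, 1, 0, 0, 1, 0, 1, 1, 7, 0, 7, 1, 1, 0] .nil))))),
  (.cons 0 27 0 0 0 (.cons 10 2 0 .nil) [3, 7, 46, 5] .nil),
  (.cons 0 20 0 0 0 (.cons 9 1 0 .nil) [0, 22, 34, 4] (.cons 2 2 0 0 0 (.cons 0 27 1 .nil) [9, 4, 58, 2, 0, 2, 0, 1, 0, 0, 7, 5, 4, 0, 7, 10, 1, 0, 2, 3, 1, 4, 1, 5, 0, 0, 4, 6, 4, 11, 7, 2, 0, 0, 1, 3, 1, 2, 3, 3, 1, 1, 2, 1, 0, 0, 3, 1, 1, 0, 2, 5, 1, 1, 1, 4, 3, 3, 0, 3, 1, 3, 1, 1, 4, 1, 0, 1, 1, 3, 1, 1, 8, 1, 1, 1, 1, 5, 3, 1, 8, 5, 0, 1] (.cons 2 13 0 0 0 (.cons 0 26 1 .nil) [11, 0, 1, 33, 22, 3, 3, 1, 1, 3, 1, 1, 0, 0, 0, 2, 5, 0, 0, 0, 1, 0, 1, 2, 9, 5, 2, 0, 0, 6, 0, 4, 15, 5, 1, 0, 12, 0, 5, 2, 0, 0,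 1, 1, 2, 0, 0, 1, 4, 0, 1, 1, 0, 0, 0, 2, 1, 6, 2, 1, 1, 4, 0, 2, 3, 6, 2, 0, 2, 1, 2, 0, 1, 6, 10, 4, 6, 3, 6, 3, 0, 3, 1, 0, 7] (.cons 1 0 0 0 0 (.cons 5 0 0 .nil) [24, 11, 4, 10, 1, 2, 25, 0, 1, 0, 0, 1, 0, 5, 0, 0, 1, 5, 0, 1, 0, 2, 0, 1, 3, 3, 0, 0, 3, 1, 9, 10, 16, 2, 0, 2, 10, 0, 1, 1, 1, 1, 1, 1, 1, 1, 1, 1, 4, 1, 1, 1, 1, 2, 3, 3, 7, 6, 1, 0, 0, 1, 0, 3, 1, 0, 3, 1, 0, 5, 0, 5, 3, 1, 1, 3, 3, 2, 3, 0, 6, 3, 0, 2, 0, 1, 5, 0, 1, 0, 3, 1, 1, 1, 1, 2] (.cons 1 0 0 0 0 (.cons 11 0 0 .nil) [5, 7, 0, 7, 5, 7, 1, 7, 0, 4, 1, 2, 2, 10, 1, 0, 1, 0, 0, 0, 1, 5, 6, 5, 1, 1, 5, 6, 4, 1, 0, 0, 1, 1, 1, 1, 3, 1, 5, 1, 1, 2, 1, 0, 1, 0, 1, 0, 5, 0,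 1, 3, 0, 7, 5, 0, 0, 2, 0, 1, 0, 0, 5, 0, 2, 2, 0, 1, 0, 4, 1, 2, 2, 0, 1, 0, 1, 3, 9, 0, 9, 3, 1, 3, 1, 0, 1, 2, 3, 0, 5, 0, 3, 1, 0, 0, 1, 2, 1, 0, 1, 1, 2, 0, 1, 0, 0, 2, 2, 1, 0, 0, 3, 2] .nil))))),
  (.cons 0 16 0 0 0 (.cons 10 0 0 .nil) [66] (.cons 0 6 0 0 0 (.cons 10 1 0 .nil) [6] (.cons 0 19 0 0 0 (.cons 10 2 0 .nil) [2, 2, 5, 56] (.cons 2 20 0 0 0 (.cons 0 28 0 .nil) [77, 10, 0, 1, 0, 4, 0, 1, 1, 57, 30, 0, 19, 1, 1, 0, 0, 2, 6, 0, 3, 1, 1, 5, 0, 1, 0, 1, 0, 1, 2, 2, 1, 4, 4, 5, 2, 3, 5, 0, 1, 1, 1, 0, 1, 0, 1, 3, 1, 2, 1, 30, 1, 10, 9] .nil)))),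
  (.cons 0 17 0 0 0 (.cons 9 1 0 .nil) [1, 0, 56, 4] (.cons 0 20 1 0 0 (.cons 9 3 0 .nil) [1, 2, 62, 62, 1, 20, 0, 25] (.cons 2 3 0 0 0 (.cons 0 29 1 .nil) [18, 26, 29, 1, 3, 2, 2, 1, 1, 1, 2, 2, 0, 2, 2, 1, 2, 1, 1, 0, 2, 12, 20, 9, 19, 2, 5, 1, 3, 12, 1, 1, 9, 1, 8, 1, 7, 3, 0, 0, 0, 1, 2, 0, 0, 3, 11, 1, 1, 8, 2, 1, 2, 8, 2, 3, 1, 1, 1, 1, 0, 7, 11, 1, 4, 7, 2, 1, 0, 7, 5, 7, 1, 8] (.cons 1 0 0 0 0 (.cons 5 1 0 .nil) [12, 0, 1, 1, 2, 0, 8, 9, 9, 1, 1, 0, 17, 0, 1, 2, 3, 1, 3, 1, 3, 3, 3, 1, 0, 2, 1, 4, 0, 2, 3, 1, 3, 0, 0, 0, 1, 0, 3, 0, 1, 0, 3, 1, 1, 1, 2, 0, 2, 3, 15, 1, 2, 1, 1, 2, 3, 3, 3, 0, 1, 0, 1, 0, 4, 0, 5, 1, 5, 3, 1, 0, 0, 3,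 0, 0, 1, 0, 0, 0, 1, 3, 1, 0, 0, 1, 1, 1, 0, 0, 3, 3, 3, 1, 0, 0, 0, 1, 2, 5, 0, 2, 4, 0, 4, 6, 3, 1, 0, 8, 3, 2, 3, 2, 4, 2, 0, 2, 1, 1, 1, 2, 2, 1] (.cons 1 0 0 0 0 (.cons 11 1 0 .nil) [3, 2, 0, 1, 5, 1, 2, 3, 0, 1, 0, 5, 0, 1, 4, 1, 7, 1, 2, 6, 0, 6, 0, 0, 1, 1, 0, 1, 1, 5, 1, 1, 1, 1, 3, 2, 0, 0, 1, 1, 0, 4, 2, 0, 0, 0, 3, 0, 1, 4, 1, 0, 1, 1, 2, 3, 3, 0, 0, 0, 0, 1, 1, 3, 0, 3, 1, 0, 1, 2, 1, 1, 0, 1, 1, 0, 2, 1, 2, 1, 1, 1, 1, 1, 3, 0, 3, 3, 1, 0, 0, 0, 3, 0, 5, 3, 1, 2, 1, 1, 7, 3, 0, 0, 0, 1, 1, 0, 4, 1, 0, 0, 1, 1, 1, 1, 1, 1, 0, 1, 6, 3, 1, 1, 1, 0, 1, 0, 2, 2, 6, 0, 0, 0, 1, 0, 2, 3, 0, 1, 1, 2, 0, 0, 0, 0, 0, 0, 1, 1, 0, 0, 2] .nil))))),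
  (.cons 0 17 0 0 0 (.cons 10 0 0 .nil) [] (.cons 0 14 0 0 0 (.cons 10 3 0 .nil) [6] .nil)),
  (.cons 0 18 0 0 0 (.cons 9 3 0 .nil) [75] (.cons 0 8 0 0 0 (.cons 10 0 0 .nil) [] (.cons 2 4 0 0 0 (.cons 0 30 1 .nil) [0, 14, 6, 6, 0, 1, 0, 8, 15, 20, 2, 2, 6, 0, 0, 0, 1, 4, 5, 1, 0, 0, 3, 2, 17, 4, 0, 1, 0, 0, 3, 1, 0, 0, 12, 0, 1, 0, 1, 1, 3, 3, 2, 1, 1, 1, 1, 2, 1, 3, 8, 0, 1, 2, 2, 1, 1, 0, 0, 0, 1, 3, 1, 0, 1, 2, 2, 3, 1, 3, 1, 2, 0, 0, 0, 1, 4, 0, 1, 0, 1, 5, 0, 1, 7, 1, 0, 3, 3, 0, 1, 1, 3, 5, 0, 0, 0, 1, 1, 0, 0, 0, 3, 0, 1, 1, 10, 1, 0, 3, 2, 6, 3, 4, 1, 1, 0, 1, 0, 1, 1, 2, 1, 0, 1, 15] (.cons 1 0 0 0 0 (.cons 11 2 0 .nil) [4, 0, 1, 1,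 4, 2, 0, 0, 2, 2, 0, 1, 1, 0, 0, 1, 5, 1, 0, 3, 1, 1, 5, 0, 1, 2, 1, 1, 4, 0, 1, 3, 0, 3, 1, 0, 3, 3, 0, 1, 0, 1, 0, 1, 4, 0, 0, 1, 1, 1, 0, 0, 3, 4, 3, 0, 0, 1, 1, 0, 1, 2, 2, 1, 5, 4, 1, 0, 0, 1, 0, 0, 0, 0, 1, 0, 0, 4, 0, 0, 2, 0, 1, 2, 1, 3, 2, 2, 3, 1, 1, 3, 1, 0, 2, 1, 0, 0, 0, 1, 0, 1, 0, 0, 2, 1, 1, 0, 3, 0, 3, 7, 1, 0, 3, 1, 0, 0, 1, 3, 0, 2, 1, 0, 0, 3, 1, 0, 4, 0, 2, 1, 0, 0, 1, 0, 4, 0, 0, 3, 0, 3, 1, 5, 0, 1, 2, 1, 1, 1, 1, 0, 3, 1, 3, 0, 1, 1, 0, 2, 1, 5, 1, 0, 1, 1, 3, 1, 5, 2, 0] .nil)))),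
  (.cons 0 16 0 0 0 (.cons 10 0 0 .nil) [] .nil),
  (.cons 0 19 0 0 0 (.cons 9 1 0 .nil) [] (.cons 0 15 0 0 0 (.cons 9 0 0 .nil) [84] (.cons 2 9 0 0 0 (.cons 0 31 1 .nil) [0, 1, 1, 7, 0, 1, 5, 1, 1, 22, 17, 0, 0, 2, 0, 7, 3, 2, 1, 0, 2, 1, 2, 1, 1, 0, 6, 4, 3, 1, 0, 0, 1, 0, 0, 1, 1, 2, 1, 5, 3, 1, 3, 1, 0, 3, 0, 1, 0, 5, 10, 1, 0, 0, 0, 4, 1, 0, 9, 3, 3, 0, 0, 0, 1, 5, 1, 1, 4, 1, 1, 0, 1, 1, 1, 1, 3, 0, 4, 0, 1, 0, 8, 5, 1, 0, 6, 1, 1, 2, 2, 6, 3, 3, 1, 1, 3, 6, 1, 1, 1, 9, 1, 0, 0, 0, 2, 5, 1, 1, 7, 3, 4, 0, 3, 0, 0, 0, 0, 1, 0, 1, 3, 5, 0, 1, 7, 3, 1, 3, 0, 4, 6, 6, 0, 5, 1, 7, 0, 0, 1, 0, 1, 0] (.cons 1 0 0 0 0 (.cons 11 1 0 .nil) [5, 1,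 3, 0, 0, 0, 0, 0, 1, 2, 3, 2, 1, 8, 5, 1, 1, 1, 3, 0, 1, 0, 1, 3, 1, 0, 1, 0, 0, 0, 3, 0, 1, 1, 1, 0, 4, 2, 0, 1, 0, 1, 0, 0, 1, 0, 3, 1, 0, 3, 1, 0, 0, 0, 6, 1, 3, 1, 1, 3, 0, 2, 0, 1, 0, 0, 0, 3, 6, 0, 1, 1, 1, 3, 2, 4, 4, 1, 1, 3, 0, 0, 1, 1, 2, 5, 3, 1, 0, 1, 2, 0, 0, 1, 1, 1, 1, 0, 1, 4, 1, 0, 1, 1, 1, 3, 1, 1, 0, 0, 3, 10, 0, 0, 0, 0, 1, 0, 0, 1, 0, 0, 3, 0, 3, 0, 1, 0, 0, 2, 1, 1, 4, 1, 5, 1, 2, 0, 3, 0, 1, 5, 0, 0, 0, 5, 1, 1, 1, 0, 3, 2, 1, 6, 0, 1, 0, 1, 1, 0, 11, 1, 0, 1, 0, 0, 3, 4, 4, 0, 3, 1, 1, 0, 3, 1, 0, 3, 1, 0, 1, 1, 2] .nil)))),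
  (.cons 0 30 0 0 0 (.cons 5 1 0 .nil) [80] (.cons 0 15 0 0 0 (.cons 10 0 0 .nil) [] (.cons 0 16 0 0 0 (.cons 10 3 0 .nil) [0, 6, 77] (.cons 2 5 0 0 0 (.cons 0 33 1 .nil) [0, 1, 1, 4, 2, 0, 1, 0, 3, 0, 0, 1, 1, 7, 10, 2, 4, 0, 2, 0, 1, 1, 0, 16, 0, 4, 6, 0, 0, 0, 0, 0, 0, 2, 0, 0, 3, 3, 2, 4, 1, 9, 2, 3, 0, 1, 0, 1, 2, 0, 0, 1, 1, 1, 0, 3, 3, 4, 5, 3, 1, 0, 2, 1, 0, 9, 0, 1, 1, 0, 1, 2, 0, 0, 1, 4, 1, 2, 1, 2, 1, 2, 3, 2, 1, 0, 3, 1, 2, 1, 9, 6, 1, 0, 0, 0, 1, 1, 1, 5, 1, 1, 3, 4, 0, 1, 5, 1, 5, 4, 0, 2, 0, 3, 1, 1, 2, 0, 0, 1, 1, 0, 3, 2, 1, 2, 0, 1, 4, 5, 0, 2, 2, 2, 1, 3, 2, 1, 0, 0, 0, 0, 3, 1, 2, 0, 0, 1, 0, 5, 1, 1, 0, 7, 2, 1, 0, 2, 0,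 1, 2, 1, 0, 0, 2, 2, 3, 0] (.cons 2 28 0 0 0 (.cons 0 32 0 .nil) [95, 1, 1, 5, 1, 0, 1, 0, 4, 8, 1, 1, 5, 2, 3, 5, 0, 3, 12, 0, 4, 4, 25, 3, 0, 0, 0, 3, 3, 7, 0, 0, 0, 0, 2, 4, 0, 5, 23, 1, 2, 2, 1, 2, 0, 3, 0, 4, 5, 0, 1, 0, 0, 0, 2, 1, 0, 5, 1, 1, 0, 2, 8, 4, 2, 2, 0, 1, 0, 1, 7, 8, 3, 1, 0, 1, 1, 5, 0, 11, 1, 2, 1, 0, 1, 19, 0, 0, 21, 8, 4, 1, 0, 0, 3, 3, 1, 1, 1, 1, 0, 0] (.cons 1 0 0 0 0 (.cons 10 5 0 .nil) [4, 1, 1, 3, 4, 0, 3, 9, 0, 0, 1, 0, 13, 3, 9, 0, 3, 1, 0, 17, 0, 0, 4, 1, 11, 0, 0, 1, 1, 1, 2, 0, 0, 0, 3, 2, 3, 1, 3, 3, 0, 4, 0, 3, 0, 0, 1, 1, 0, 2, 0, 1, 1, 0, 3, 4, 4, 1, 1, 1, 6, 3, 6, 1, 1, 1, 1, 0, 1, 1, 1, 1, 1, 1, 1, 1, 4,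 1, 1, 1, 0, 0, 3, 1, 2, 5, 1, 0, 5, 2, 2, 0, 3, 3, 0, 2, 1, 0, 6, 3, 1, 1, 2, 0, 1, 3, 3, 0, 2, 4, 0, 3, 1, 0, 5, 2, 1, 1, 3, 2, 1, 1, 2, 5, 0, 0, 1, 4, 0, 0, 0, 1, 1, 5, 3, 0, 0, 0, 3, 0, 0, 1, 4, 2, 1, 0, 0, 2, 1, 1, 3, 1, 6, 1, 2, 2, 1, 1, 1, 3, 0, 0, 2, 0, 1, 2, 1, 3] .nil)))))),
  (.cons 0 18 0 0 0 (.cons 10 6 0 .nil) [91] (.cons 1 0 0 0 0 (.cons 11 1 0 .nil) [1, 1, 0, 1, 0, 0, 2, 3, 1, 3, 1, 1, 23, 0, 2, 3, 1, 1, 5, 3, 3, 1, 2, 5, 0, 3, 0, 3, 1, 0, 0, 0, 1, 0, 1, 1, 4, 0, 0, 1, 0, 2, 1, 1, 1, 3, 2, 3, 5, 3, 8, 0, 0, 0, 1, 0, 5, 0, 2, 1, 1, 1, 3, 0, 0, 4, 0, 1, 0, 3, 2, 1, 1, 0, 2, 5, 4, 3, 1, 1, 1, 1, 0, 1, 0, 2, 2, 5, 1, 1, 1, 1, 0, 4,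 1, 0, 1, 1, 1, 0, 0, 2, 0, 0, 0, 3, 0, 0, 2, 0, 2, 3, 0, 1, 0, 3, 2, 1, 1, 0, 5, 9, 2, 0, 1, 0, 1, 1, 5, 2, 1, 0, 0, 2, 0, 0, 0, 3, 0, 0, 1, 0, 3, 6, 2, 3, 0, 3, 1, 0, 0, 0, 1, 1, 1, 0, 3, 2, 0, 3, 5, 3, 1, 3, 2, 0, 5, 1, 3, 1, 1, 0, 5, 0, 1, 0, 5, 3, 2, 1, 1, 1, 0, 1, 3, 2, 0, 1, 2, 1] .nil)),
  (.cons 0 21 0 0 0 (.cons 5 0 0 .nil) [38] (.cons 0 17 0 0 0 (.cons 10 0 0 .nil) [] (.cons 2 6 0 0 0 (.cons 0 34 1 .nil) [14, 89, 0, 2, 4, 0, 1, 0, 0, 1, 1, 3, 1, 1, 0, 3, 3, 0, 3, 0, 0, 1, 4, 3, 1, 3, 3, 9, 3, 4, 1, 3, 1, 1, 0, 0, 12, 0, 2, 2, 5, 4, 4, 2, 0, 3, 6, 0, 0, 0, 3, 1, 0, 0, 0, 1, 8, 4, 3, 0, 1, 1, 3, 7, 1, 0, 5, 0, 0, 1, 0, 9, 0, 5, 0, 7,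 1, 0, 3, 5, 0, 0, 3, 0, 1, 1, 1, 1, 0, 1, 0, 0, 0, 0, 0, 2, 0, 2, 3, 0, 4, 0, 0, 2, 0, 3, 3, 2, 0, 1, 1, 0, 0, 3, 6, 1, 1, 3, 19, 0, 2, 0, 10, 4, 0, 0, 10, 6, 1, 1, 0, 3, 1, 4, 3, 0, 0, 4, 10, 1, 1] .nil))),
  (.cons 0 37 0 0 0 (.cons 11 1 0 .nil) [1, 0, 12, 86] .nil),
  (.cons 0 7 2 0 0 (.cons 9 5 0 .nil) [9, 31, 48, 1, 15, 29, 51, 3, 30, 37, 3, 1] (.cons 2 7 0 0 0 (.cons 0 36 1 .nil) [24, 12, 8, 1, 10, 9, 0, 6, 22, 1, 7, 1, 0, 0, 1, 3, 0, 3, 2, 4, 3, 2, 1, 1, 2, 1, 1, 1, 0, 3, 2, 2, 7, 8, 1, 0, 1, 5, 23, 0, 1, 1, 1, 4, 3, 3, 0, 0, 2, 5, 1, 0, 7, 0, 3, 0, 0, 1, 0, 0, 1, 1, 2, 1, 4, 8, 7, 5, 0, 2, 1, 1, 1, 1, 5, 1, 1, 3, 0, 4, 0, 0, 8, 0, 8,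 1, 1, 1, 3, 4, 4, 1, 6, 1, 3, 4, 2, 2, 0, 1, 1, 0, 0, 1, 5, 1, 0, 2, 0, 0, 5, 0, 6, 1, 2, 1, 0, 2, 1, 0, 2, 0, 1, 2, 1, 1, 1, 4, 1, 10, 1, 1, 4, 0, 10, 0, 0, 4, 1, 0, 2, 3, 0, 11, 1, 4, 5, 3, 0, 2, 3, 0, 1, 2, 1, 0, 1, 8, 9] (.cons 2 10 0 0 0 (.cons 0 35 0 .nil) [3, 15, 6, 4, 6, 8, 2, 3, 1, 3, 8, 2, 1, 1, 1, 1, 0, 20, 4, 0, 3, 0, 0, 5, 2, 0, 0, 5, 3, 2, 3, 1, 0, 3, 1, 0, 5, 1, 2, 1, 5, 9, 1, 3, 6, 1, 3, 1, 1, 15, 0, 1, 1, 1, 0, 0, 0, 0, 2, 0, 3, 6, 1, 4, 1, 4, 1, 5, 2, 0, 0, 1, 0, 1, 0, 1, 0, 1, 0, 0, 1, 5, 0, 0, 1, 1, 4, 1, 5, 3, 3, 0, 1, 1, 3, 5, 1, 1, 7, 6, 0, 2, 1, 0, 0, 2, 0, 1, 1, 0, 1, 0, 1, 1, 2, 0, 1, 0, 1, 1, 8, 3, 0, 0, 2, 6, 2, 0,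 6, 0, 1, 5, 3, 0, 5, 2, 0, 0, 1, 1, 2, 3, 3, 1, 0, 1, 0, 1, 1, 1, 1, 2, 5, 1, 1, 1, 3, 0, 1, 5, 2, 2, 1, 0, 1, 0, 10, 3, 1, 0, 1, 0, 0, 3, 0, 1, 0, 10, 4, 3, 1, 3, 0, 1, 5, 1, 1] (.cons 1 0 0 0 0 (.cons 5 0 0 .nil) [28, 12, 9, 1, 7, 2, 2, 1, 4, 1, 1, 3, 3, 30, 1, 0, 1, 1, 0, 0, 0, 5, 2, 1, 2, 3, 5, 1, 0, 0, 0, 0, 1, 1, 2, 3, 1, 1, 3, 0, 1, 0, 0, 0, 0, 0, 1, 1, 1, 2, 2, 7, 8, 2, 1, 3, 4, 3, 2, 1, 9, 15, 0, 0, 3, 1, 1, 0, 1, 0, 1, 0, 2, 0, 2, 0, 0, 0, 6, 5, 1, 0, 1, 1, 0, 0, 1, 1, 6, 0, 0, 5, 0, 3, 0, 0, 0, 4, 2, 3, 0, 1, 0, 0, 2, 0, 4, 1, 0, 1, 3, 3, 2, 0, 1, 0, 10, 2, 0, 0, 3, 3, 2, 3, 2, 1, 1, 5, 0, 0, 0, 5, 3, 2, 0, 4, 0, 0, 1, 1, 1, 1, 0,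 5, 1, 1, 1, 1, 3, 0, 5, 0, 1, 1, 0, 3, 5, 2, 0, 8, 0, 4, 2, 4, 0, 0, 0, 1, 1, 1, 0, 5, 0, 2, 3, 1, 0, 0, 0, 0, 3, 1, 0, 1, 2, 0, 0, 0, 0, 0] .nil)))),
  (.cons 0 21 0 0 0 (.cons 10 1 0 .nil) [6] (.cons 0 37 0 0 0 (.cons 11 1 0 .nil) [1, 1, 6, 98] .nil)),
  (.cons 0 27 0 0 0 (.cons 5 1 0 .nil) [] (.cons 0 22 0 0 0 (.cons 10 1 0 .nil) [14] (.cons 2 8 0 0 0 (.cons 0 37 1 (.cons 0 38 1 .nil)) [30, 4, 2, 27, 23, 22, 2, 4, 3, 0, 2, 1, 0, 0, 1, 1, 1, 1, 2, 2, 3, 0, 1, 3, 3, 1, 1, 0, 0, 0, 1, 6, 1, 3, 6, 2, 0, 1, 2, 0, 0, 1, 7, 1, 1, 3, 1, 2, 1, 5, 3, 0, 6, 6, 2, 1, 1, 6, 1, 4, 2, 0, 1, 2, 8, 0, 1, 0, 0, 1, 4, 0, 2, 5, 0, 0, 0, 0, 5, 0, 1, 5, 1, 1, 1,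 4, 7, 0, 1, 0, 4, 0, 0, 2, 3, 0, 1, 1, 6, 0, 0, 1, 0, 0, 1, 1, 1, 0, 0, 1, 0, 0, 1, 1, 3, 2, 3, 1, 0, 10, 3, 5, 2, 1, 1, 1, 3, 1, 1, 1, 0, 1, 1, 4, 0, 0, 2, 3, 0, 1, 3, 0, 7, 2, 3, 6, 0, 2, 0, 1, 1, 0, 3, 8, 2, 5, 7, 3, 10, 0, 2, 1, 5, 0, 1, 1, 5, 1, 0, 6, 0, 1, 1, 6, 0, 3, 0, 0, 2, 1, 0, 0, 1, 0, 3, 5, 9, 0] (.cons 2 11 0 0 0 (.cons 0 37 1 .nil) [3, 27, 5, 10, 0, 1, 0, 1, 1, 11, 17, 5, 3, 2, 15, 3, 0, 2, 2, 2, 1, 0, 3, 0, 7, 1, 3, 0, 0, 0, 3, 1, 0, 2, 2, 4, 22, 0, 1, 2, 0, 1, 7, 2, 0, 0, 1, 3, 3, 0, 2, 0, 3, 0, 5, 0, 0, 1, 1, 0, 1, 1, 1, 1, 3, 5, 5, 1, 1, 5, 1, 0, 4, 3, 1, 13, 7, 1, 5, 2, 1, 3, 2, 5, 0, 2, 0, 1, 1, 0, 1, 5, 1, 2, 2, 6, 4, 0,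 3, 2, 1, 0, 0, 1, 0, 9, 1, 0, 0, 0, 1, 1, 2, 0, 5, 0, 0, 1, 0, 5, 1, 0, 1, 0, 2, 2, 0, 4, 1, 1, 0, 1, 0, 0, 1, 3, 3, 0, 4, 0, 0, 3, 3, 0, 1, 1, 0, 0, 0, 1, 0, 3, 6, 1, 3, 0, 3, 10, 0, 0, 0, 0, 0, 1, 1, 7, 5, 2, 0, 1, 1, 0, 2, 3, 3, 1, 2, 1, 0, 3, 1, 1, 0, 5, 0, 0, 0, 6, 3, 1, 2, 0, 3, 3, 0, 2, 0, 6, 2] (.cons 1 0 0 0 0 (.cons 9 0 0 .nil) [24, 3, 0, 3, 2, 1, 2, 2, 1, 6, 12, 3, 2, 3, 0, 3, 2, 3, 1, 1, 1, 12, 0, 1, 1, 0, 10, 1, 0, 1, 1, 1, 1, 1, 3, 1, 0, 0, 1, 2, 0, 1, 0, 2, 0, 1, 3, 1, 4, 2, 1, 2, 1, 4, 3, 0, 2, 0, 1, 8, 7, 0, 1, 1, 0, 0, 3, 0, 2, 1, 7, 1, 0, 0, 1, 0, 1, 1, 10, 5, 1, 0, 1, 1, 0, 3, 0, 0, 3, 2, 13, 4, 2, 6, 2, 2, 2, 1, 0, 0, 0,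 0, 1, 4, 0, 2, 0, 6, 3, 13, 1, 3, 0, 0, 1, 6, 1, 0, 2, 0, 0, 2, 3, 1, 0, 2, 5, 0, 0, 0, 0, 2, 2, 1, 1, 0, 0, 1, 1, 1, 2, 1, 0, 0, 1, 1, 1, 0, 0, 4, 1, 1, 0, 3, 9, 1, 2, 0, 3, 2, 0, 1, 3, 1, 0, 1, 0, 1, 3, 3, 0, 0, 1, 2, 0, 1, 2, 0, 2, 0, 5, 1, 4, 0, 3, 0, 1, 0, 0, 3, 0, 1, 3, 1, 4, 0, 1, 4, 1, 0, 0, 0, 6, 2, 1, 2, 1, 1, 9, 1, 2, 1, 1, 1, 0, 1, 2, 2] (.cons 1 0 0 0 0 (.cons 10 4 0 .nil) [4, 0, 7, 7, 8, 0, 0, 1, 11, 1, 0, 1, 0, 0, 0, 8, 3, 0, 0, 5, 2, 8, 1, 1, 1, 13, 2, 4, 3, 0, 1, 1, 0, 2, 5, 3, 1, 3, 1, 0, 2, 1, 2, 0, 0, 1, 1, 0, 2, 1, 7, 3, 4, 2, 1, 1, 3, 0, 1, 7, 1, 1, 0, 0, 0, 0, 1, 1, 1, 4, 14, 3, 0, 1, 1, 1, 0, 2, 0, 2, 0, 5, 0, 0, 0, 0,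 0, 0, 6, 9, 1, 7, 2, 2, 1, 3, 1, 0, 1, 1, 4, 1, 0, 3, 1, 1, 1, 0, 7, 0, 2, 2, 0, 0, 0, 1, 0, 4, 3, 1, 1, 1, 2, 1, 0, 0, 1, 3, 0, 4, 4, 0, 2, 2, 3, 1, 3, 0, 0, 4, 3, 1, 1, 1, 1, 1, 1, 1, 0, 1, 0, 1, 4, 1, 1, 4, 5, 3, 0, 1, 0, 0, 1, 1, 0, 1, 3, 1, 1, 2, 0, 4, 4, 2, 2, 1, 4, 1, 3, 1, 0, 7, 1, 5, 1, 1, 5, 0, 3, 1, 1, 0, 0, 0, 1, 2, 1, 2, 2, 1, 0, 0, 1, 1, 1, 3, 1, 2, 5, 2, 1, 4, 0, 1, 0, 1, 1, 3, 4, 3, 1, 5] .nil)))))),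
  (.cons 0 19 0 0 0 (.cons 10 0 0 .nil) [] (.cons 0 16 0 0 0 (.cons 11 1 0 .nil) [2, 1, 2, 98, 7, 1] .nil)),
  (.cons 0 15 0 0 0 (.cons 10 0 0 .nil) [41] (.cons 0 25 0 0 0 (.cons 10 3 0 .nil) [0, 7, 32, 67, 8] (.cons 2 17 0 0 0 (.cons 0 39 0 .nil) [21, 3, 0, 0, 11, 22, 32, 4, 24, 1, 6, 2, 0, 1, 0, 3, 3, 1, 1, 1, 1, 1, 0, 10, 0, 1, 1, 3, 1, 0, 2, 3, 0, 5, 2, 24, 1, 1, 2, 7, 12, 1, 10, 2, 2, 3, 2, 1, 1, 22, 9, 1, 2, 2, 1, 0, 1, 3, 1, 12, 6, 0, 5, 6, 0, 0, 2, 0, 3, 3, 0, 0, 5, 1, 1, 1, 0, 0, 0, 8, 1, 1, 1, 1, 4, 6, 5, 1, 5, 4, 1, 0, 1, 0, 0, 2, 0, 0, 0, 0, 0, 0, 4, 0, 3, 0, 1, 2, 1, 3, 0, 5, 9, 0, 5, 0, 0, 0, 0, 1, 1, 1, 0, 3, 0, 1, 1, 1, 1, 0,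 1, 1, 1, 2, 1, 1, 0, 8, 2, 0, 0, 1, 3, 2, 2, 1, 21, 0, 2, 7, 2, 3, 1, 1, 0, 5, 0, 0, 0, 2, 0, 7, 1, 3, 6, 1, 0, 3, 0, 1, 5, 1, 15, 5, 3, 5, 1, 9, 1, 3] (.cons 1 0 0 0 0 (.cons 11 0 0 .nil) [2, 11, 5, 4, 4, 0, 0, 4, 22, 1, 3, 3, 8, 3, 1, 2, 1, 0, 1, 1, 0, 2, 12, 1, 0, 3, 1, 0, 3, 1, 3, 1, 0, 3, 0, 1, 4, 6, 1, 1, 0, 3, 1, 0, 1, 0, 1, 2, 0, 3, 1, 2, 0, 1, 4, 0, 4, 0, 11, 0, 1, 1, 0, 3, 1, 1, 0, 0, 0, 0, 5, 1, 3, 0, 1, 5, 4, 7, 3, 1, 2, 3, 0, 1, 5, 3, 0, 2, 1, 1, 1, 2, 0, 5, 0, 1, 1, 0, 1, 3, 0, 3, 1, 1, 0, 9, 0, 1, 0, 3, 3, 1, 3, 2, 1, 1, 1, 3, 3, 0, 2, 1, 1, 1, 6, 2, 5, 0, 0, 1, 0, 2, 0, 1, 1, 1, 5, 0, 0, 0, 0, 1, 0, 2, 3, 1, 2, 5, 1, 0, 1, 0,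 0, 4, 1, 2, 5, 0, 0, 1, 3, 1, 1, 1, 0, 0, 0, 2, 1, 1, 0, 3, 1, 3, 0, 1, 7, 1, 7, 2, 1, 2, 2, 1, 3, 5, 0, 1, 1, 3, 0, 1, 1, 0, 3, 3, 1, 1, 1, 1, 3, 1, 3, 0, 0, 0, 3, 2, 1, 0, 2, 1, 0, 0, 1, 2, 0, 3, 2, 1, 4, 1, 0, 7, 3, 2, 1, 3, 3, 1, 4, 0, 1, 2, 4, 0, 3, 0, 1, 1, 0, 2, 1, 0, 0, 2, 1, 4, 1, 1, 1] .nil)))),
  (.cons 0 21 0 0 0 (.cons 10 2 0 .nil) [11] (.cons 0 9 0 0 0 (.cons 11 2 0 .nil) [5, 3, 4, 2] .nil)),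
  (.cons 0 15 0 0 0 (.cons 10 1 0 .nil) [2, 103, 12] (.cons 0 18 0 0 0 (.cons 11 0 0 .nil) [14] (.cons 2 19 0 0 0 (.cons 0 40 0 .nil) [2, 1, 12, 1, 5, 5, 0, 0, 5, 3, 0, 4, 8, 0, 3, 1, 1, 0, 1, 0, 5, 0, 3, 1, 0, 1, 2, 6, 4, 6, 3, 3, 0, 1, 3, 0, 3, 1, 2, 1, 1, 8, 0, 2, 0, 0, 3, 1, 1, 0, 1, 0, 3, 0, 3, 1, 1, 2, 1, 1, 0, 1, 5, 0, 2, 0, 0, 1, 2, 1, 3, 1, 3, 1, 2, 5, 3, 3, 3, 0, 2, 11, 1, 3, 6, 3, 0, 1, 5, 0, 3, 9, 5, 1, 4, 3, 3, 0, 0, 0, 2, 2, 0, 2, 3, 2, 3, 1, 1, 0, 2, 1, 0, 0, 0, 3, 2, 0, 3, 0, 3, 0, 0, 2, 4, 0, 3, 6, 2, 1, 1, 0, 3, 1, 0, 1, 0, 0, 1, 3, 3, 1, 1, 2, 0, 2, 0, 3, 0, 1, 1, 0, 1, 3, 1, 2, 1, 3, 1, 2, 4, 3, 1, 0, 5, 6, 2, 0, 1, 0, 2,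 1, 7, 1, 2, 1, 1, 0, 0, 1, 0, 3, 2, 0, 1, 0, 1, 7, 1, 0, 0, 6, 0, 1, 1, 2, 0, 1, 3, 2, 2, 1, 6, 3, 0, 0, 0, 0, 1, 3, 7, 2, 3, 0, 1, 7, 0, 1, 3, 0, 0, 1, 4, 0, 2, 0, 3, 0, 7, 0, 1, 2, 10, 5, 0, 1, 0, 0, 1, 5, 3, 3, 0, 3, 0, 2, 0, 1, 3, 1, 1, 1, 1, 1, 1, 0, 1, 0, 1, 1, 2, 0, 5, 0, 4, 1, 0, 0, 0] .nil))),
  (.cons 0 38 0 0 0 (.cons 5 1 0 .nil) [5, 38] (.cons 0 22 0 0 0 (.cons 9 5 0 .nil) [46, 73, 0, 8] (.cons 0 23 0 0 0 (.cons 10 1 0 .nil) [] .nil))),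
  (.cons 0 27 0 0 0 (.cons 9 1 0 .nil) [134] (.cons 0 34 0 0 0 (.cons 10 3 0 .nil) [13] (.cons 1 0 0 0 0 (.cons 10 1 0 .nil) [0, 0, 1, 0, 0, 10, 3, 0, 1, 1, 2, 0, 0, 2, 1, 3, 13, 3, 3, 1, 13, 1, 1, 6, 0, 1, 1, 9, 1, 0, 2, 1, 2, 0, 4, 2, 2, 1, 5, 2, 3, 3, 0, 1, 5, 1, 0, 3, 0, 0, 2, 0, 1, 7, 4, 1, 1, 4, 1, 2, 0, 0, 5, 1, 4, 1, 3, 3, 3, 5, 1, 3, 1, 1, 0, 2, 2, 2, 1, 0, 2, 0, 0, 0, 1, 2, 0, 1, 3, 8, 5, 3, 0, 1, 3, 0, 1, 2, 4, 7, 0, 6, 3, 0, 3, 7, 2, 2, 4, 0, 0, 3, 0, 2, 1, 0, 0, 0, 3, 5, 1, 2, 1, 1, 0, 0, 0, 0, 0, 0, 3, 4, 5, 1, 1, 0, 0, 1, 0, 0, 2, 0, 5, 0, 1, 0, 2, 1, 1, 1, 6, 2, 3, 2, 0, 2, 1, 1, 0, 1, 5, 0, 1, 0, 1, 9, 0, 0, 0, 0, 1, 1, 2, 0,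 1, 1, 1, 0, 0, 1, 0, 1, 1, 2, 1, 0, 1, 2, 2, 0, 1, 0, 4, 0, 1, 0, 1, 0, 9, 0, 0, 1, 0, 1, 3, 1, 2, 3, 3, 1, 3, 4, 0, 0, 2, 2, 2, 0, 1, 1, 3, 1, 2, 1, 1, 3, 0, 0, 1, 0, 4, 0, 5, 5, 1, 1, 1, 3, 3, 1, 0, 2, 2, 3, 0, 1, 2, 1, 6, 0, 1, 1, 2, 3, 0, 1, 0, 3, 1, 2, 0, 0, 1, 1, 1, 1, 0, 2, 3, 0, 1, 0, 1, 0, 2, 1, 3, 4, 0, 1, 1, 0, 0, 0, 0, 0, 1, 0, 1, 3, 2, 0, 2, 1, 1, 0, 1, 3, 1, 3, 0, 4, 5, 1, 2, 0, 3] .nil))),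
  .nil,
  (.cons 0 27 0 0 0 (.cons 9 0 0 .nil) [] (.cons 0 21 0 0 0 (.cons 11 0 0 .nil) [7, 124, 6] .nil)),
  (.cons 0 15 2 0 0 (.cons 9 0 0 .nil) [152, 7, 34, 7, 61, 5, 73, 49, 5, 0] (.cons 0 30 0 0 0 (.cons 10 11 0 .nil) [149] (.cons 0 15 0 0 0 (.cons 11 0 0 .nil) [7, 0, 0] (.cons 2 18 0 0 0 (.cons 0 41 1 .nil) [2, 3, 16, 1, 1, 1, 4, 3, 1, 1, 1, 6, 2, 2, 0, 3, 3, 1, 0, 0, 15, 6, 2, 0, 5, 2, 2, 2, 2, 8, 4, 1, 3, 0, 1, 8, 0, 0, 1, 1, 1, 3, 3, 1, 1, 1, 1, 3, 1, 1, 2, 3, 1, 2, 1, 0, 1, 0, 7, 2, 1, 0, 2, 2, 3, 0, 0, 4, 3, 0, 4, 3, 1, 7, 0, 0, 0, 2, 1, 1, 2, 0, 1, 4, 0, 2, 0, 3, 1, 1, 2, 2, 3, 1, 16, 2, 1, 1, 0, 0, 3, 0, 0, 0, 0, 0, 2, 1, 1, 2, 7,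 1, 0, 0, 2, 3, 2, 0, 0, 2, 0, 1, 1, 0, 1, 0, 0, 0, 0, 0, 1, 3, 1, 0, 1, 1, 0, 0, 1, 0, 1, 2, 3, 1, 0, 3, 0, 1, 0, 2, 3, 1, 0, 2, 2, 0, 4, 2, 4, 0, 0, 1, 1, 3, 0, 5, 2, 1, 1, 4, 1, 1, 1, 3, 2, 0, 0, 3, 0, 0, 2, 1, 0, 3, 2, 0, 1, 2, 1, 0, 1, 1, 2, 2, 2, 0, 0, 0, 3, 2, 1, 6, 0, 0, 1, 0, 2, 6, 1, 1, 0, 0, 4, 1, 1, 1, 1, 2, 1, 3, 0, 4, 4, 0, 2, 3, 0, 0, 0, 1, 1, 2, 3, 1, 0, 0, 1, 3, 1, 0, 1, 0, 2, 2, 0, 0, 1, 3, 0, 1, 0, 2, 1, 1, 0, 0, 2, 0, 3, 0, 3, 0, 0, 0, 0, 0, 2, 1, 1, 5, 0, 1, 3, 0, 3, 1, 0, 6, 0, 4, 0, 0, 1, 0, 4, 0, 1, 0, 7, 0, 2, 5, 10, 0, 2, 0, 3, 1, 0, 0, 3, 3, 1, 7, 0, 0, 7, 1, 1, 2, 0, 1, 2, 1, 0, 0, 2, 2, 1, 0, 0, 2, 1, 1, 1, 2, 1, 1,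 2, 6, 1, 1, 0, 0, 3, 1, 1, 1, 0, 1, 2, 1, 3, 0, 1, 0, 1, 1, 3, 1] .nil))))]

theorem ok11 : run B sp W11 W12 G11 Y11 Y12 457 K11 D11 = true := by decide +kernel

end Vale.Agent.P236K.Cert.Pl.P96
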